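import Crest.Agent.N207.N.St2

/-!
# Row 207, block N (helper9): the leaves of `CMP` (FROZEN)
-/

set_option autoImplicit false

open scoped ContDiff Topology
open Metric Set Filter MeasureTheory
open Crest.GeometryTopology.CoordMetric
open Crest.Agent.N207.I Crest.Agent.N207.Lg Crest.Agent.N207.CB

noncomputable section

namespace Crest.Agent.N207.NS

/-- the coefficient `√b g^{ij} b^{pp'} b^{qq'}` -/
def cf (b g : MetricField 4) (i j p q p' q' : Fin 4) (y : E4) : ℝ :=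
  sq b y * (g y)⁻¹ i j * (b y)⁻¹ p p' * (b y)⁻¹ q q'

/-- leaf CO: derivative of the coefficient, Lipschitz dependence of the pairing on the metric -/
def CO : Prop := ∀ Λ : ℝ, ∃ C : ℝ, 0 < C ∧
  (∀ (U : Set E4) (b g : MetricField 4) (x : E4) (r e : ℝ), IsRiemannianOn b U → IsRiemannianOn g U →
    x ∈ U → 0 < r → (∀ H ∈ [b, g], ∀ p q, |H x p q| ≤ Λ ∧ |(H x)⁻¹ p q| ≤ Λ ∧
      r * ‖iteratedFDeriv ℝ 1 (fun y => H y p q) x‖ ≤ e) →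
    ∀ m i j p q p' q', r * |pderiv m (cf b g i j p q p' q') x| ≤ C * e) ∧
  ∀ (b b' : MetricField 4) (x : E4) (δ : ℝ), (b x).PosDef → (b' x).PosDef →
    (∀ H ∈ [b, b'], ∀ p q, |H x p q| ≤ Λ ∧ |(H x)⁻¹ p q| ≤ Λ) → (∀ p q, |b x p q - b' x p q| ≤ δ) →
    ∀ p q p' q', |sq b x * (b x)⁻¹ p p' * (b x)⁻¹ q q' - sq b' x * (b' x)⁻¹ p p' * (b' x)⁻¹ q q'| ≤ C * δ

variable {M : Type*} (T : TD M) (g : T.V → Fam T)

/-- within depth `c` of some core -/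
def Cor (L : T.V → ℝ) (c : ℝ) (s : T.S) : Set E4 := {x | ∃ v, InK T L v c s x}

/-- the `L²` mass near the cores -/
def Zc (L : T.V → ℝ) (c : ℝ) (k : Fam T) : ℝ :=
  ∑ s, ep T L s ^ 2 * ∫ x in T.gK L s ∩ Cor T L c s, e0 (k s) x / scl T s x ^ 2

/-- leaf CHI: the partition of unity -/
def CHI : Prop := ∃ C T1 : ℝ, 0 < C ∧ ∀ L, Lng T T1 L → T.Long L ∧ (gl1 T L).Ok ∧
  (gl1 T L).PoU T.χ (T.gK L) ∧ ∀ s, T.gK L s ⊆ K1 T L s ∧ K1 T L s ⊆ U1 T L s ∧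
    U1 T L s ⊆ W1 T L s ∧ W1 T L s ⊆ (T.glob L).U s ∧ IsClosed (T.gK L s) ∧ IsClosed (K1 T L s) ∧
    IsOpen (W1 T L s) ∧ (s ≠ Sum.inr T.root → IsCompact (K1 T L s)) ∧
    (∀ x ∈ W1 T L s, 1 ≤ scl T s x ∧ ∃ x0 ∈ T.gK L s, x ∈ ball x0 (rad T s x0) ∧
      scl T s x ≤ 2 * scl T s x0) ∧
    ∀ c, MeasurableSet (Cor T L c s) ∧ ∀ x ∈ U1 T L s, T.χ s ((T.glob L).c s x) ≤ 1 ∧
      scl T s x * ‖fderiv ℝ (fun y => T.χ s ((T.glob L).c s y)) x‖ ≤ C ∧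
      (2 ≤ c → Real.exp (-c) ≤ T.r / 8 → x ∉ Cor T L c s →
        fderiv ℝ (fun y => T.χ s ((T.glob L).c s y)) x = 0 ∧ ∃ w, s = Sum.inr w ∧
          T.wt (1 / 2) L w x ≤ 2 * Real.exp (-c / 2))

/-- leaf HAR: Hardy's inequality on the necks -/
def HAR : Prop := ∃ C T1 : ℝ, 0 < C ∧ ∀ c, 2 ≤ c → Real.exp (-c) ≤ T.r / 8 → ∀ L, Lng T T1 L →
  ∀ k : Fam T, (∀ s a b, ContDiffOn ℝ 1 (fun y => k s y a b) (U1 T L s)) →
    Dec (3 / 2) (k (Sum.inr T.root)) →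
    intL T L (fun s x => e0 (k s) x / scl T s x ^ 2) ≤
      C * (intL T L (fun s x => e1 (k s) x) + Zc T L c k)

/-- leaf LOCG: (LOC) on `glob L` -/
def LOCG : Prop := ∀ (κ : T.V → Type) [∀ v, Fintype (κ v)] [∀ v, DecidableEq (κ v)]
  (ψ : ∀ v, κ v → Fam T) (c η C : ℝ), 2 ≤ c → 0 ≤ η → Good T g κ ψ c η C →
  ∃ C' T1 : ℝ, 0 < C' ∧ ∀ L, Lng T T1 L → ∀ k : Fam T,
    (gl1 T L).Sec (fun s => matT (rt T L k s)) → (∀ s, ∀ x ∈ U1 T L s, (k s x).IsSymm) →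
    Dec (3 / 2) (k (Sum.inr T.root)) →
    Zc T L c k ≤ 2 * Real.exp (4 * c + 2) * η * En T L k +
      C' * ∑ j : Σ v, κ v, T.eps L j.1 ^ 2 * pair T g j.1 (ψ j.1 j.2) (loc T L j.1 k) ^ 2

/-- leaf VOL: weighted volume of the neighbourhoods of the cores; `loc ∘ toL` -/
def VOL : Prop := ∀ c : ℝ, ∃ C T1 : ℝ, 0 < C ∧ ∀ L, Lng T T1 L → ∀ v,
  (∀ s, MeasurableSet {x | InK T L v c s x} ∧
    IntegrableOn (fun _ => (1 : ℝ)) (T.gK L s ∩ {x | InK T L v c s x}) ∧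
    ep T L s ^ 2 * (sr T L v s * (volume (T.gK L s ∩ {x | InK T L v c s x})).toReal) ≤
      C * T.eps L v ^ 2 ∧
    ∀ x ∈ U1 T L s, InK T L v c s x → sr T L v s * scl T s x ^ 2 ≤ C ∧
      1 ≤ C * (sr T L v s * scl T s x ^ 2) ∧ ∀ v', InK T L v' c s x → v' = v) ∧
  ∀ X : Fam T, (∀ w, ∀ x ∈ (T.core v).U (Sum.inr w), 0 ≤ tau T v w c x → X (Sum.inr w) x = 0) →
    ∀ s, ∀ x ∈ (T.core v).U s, loc T L v (toL T L v X) s x = X s x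

end Crest.Agent.N207.NS

end
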