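import Crest.Agent.N207.N.Fam3
import Crest.Agent.N207.N.St3
import Crest.Agent.N207.Ga.Glue

/-!
# Row 207 (helper44): the leaf `FAMX`
-/

set_option autoImplicit false

open scoped ContDiff Topology
open Set Filter Metric MeasureTheory
open Crest.GeometryTopology.CoordMetric
open Crest.Agent.N207.I Crest.Agent.N207.CB Crest.Agent.N207.Lg Crest.Agent.N207.Hd

noncomputable section

namespace Crest.Agent.N207.N

variable {X : Type*} {α : Type} {A : Atl X α} {G w : α → MetricField 4} {χ : α → X → ℝ}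
  {K0 R : α → Set E4}

theorem locS_of_res (h1 : (Ga.res A R).Sec fun s => matT (w s))
    (h2 : ∀ s, ∀ x ∈ R s, (w s x).IsSymm) : LocS A R w :=
  ⟨fun s a b => (h1.sm s ![a, b]).of_le (by exact_mod_cast le_top), h2,
    fun s s' x F t hx hF => h1.compat s s' x F (Ga.tr_res t hx hF)⟩

/-- the saturation of a family of sets -/
def sat (A : Atl X α) (R : α → Set E4) (b : α) : Set E4 :=
  ⋃ a, {y ∈ A.U b | A.c b y ∈ A.c a '' R a}

theorem exists_sat (hA : A.Ok) (hR : ∀ s, IsOpen (R s)) (hRU : ∀ s, R s ⊆ A.U s)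
    (h1 : (Ga.res A R).Sec fun s => matT (w s)) (h2 : ∀ s, ∀ x ∈ R s, (w s x).IsSymm) :
    ∃ w', LocS A (sat A R) w' ∧ ∀ s, ∀ x ∈ R s, w' s x = w s x := by
  have hU : ∀ s, sat A R s ⊆ A.U s := fun s => iUnion_subset fun a x hx => hx.1
  have hs : ∀ s, R s ⊆ sat A R s := fun s x hx => mem_iUnion.2 ⟨s, hRU s hx, x, hx, rfl⟩
  have h2A : (Ga.res A (sat A R)).Ok :=
    Ga.res_ok hA (fun b => isOpen_iUnion fun a => Atl.isOpen_pre hA (hR a) (hRU a) b) hU
      fun b γ hγ x hx => by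
        obtain ⟨a, h3, h4⟩ := mem_iUnion.1 hx
        exact mem_iUnion.2 ⟨a, hA.inv b γ hγ x h3, by rwa [hA.c_deck hγ h3]⟩
  have h3 := Ga.sec_glT (U' := R) h2A hR h1 fun b y hy => by
    obtain ⟨a, h3, x, hx, e⟩ := mem_iUnion.1 hy
    obtain ⟨F, t, rfl⟩ := hA.loc b a y h3 x (hRU a hx) e.symm
    exact ⟨a, F, Ga.tr_res t hy (hs a hx), hx⟩
  refine ⟨fun s => symM (Ga.glT (Ga.res A (sat A R)) R (fun s => matT (w s)) s), locS_of_res
    (((h3.add (h3.prmT (Equiv.swap 0 1))).smul (1 / 2)).congr fun a x _ => by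
      rw [matT_symM]; rfl) fun a x _ => Matrix.IsSymm.ext fun i j => by simp [symM, add_comm],
    fun s x hx => ?_⟩
  ext i j
  have h4 := Ga.glT_self (U' := R) h2A hs h1.compat hx
  simp only [symM, Matrix.of_apply, h4, matT, Matrix.cons_val_zero, Matrix.cons_val_one,
    (h2 s x hx).apply i j]
  ring

theorem g2_congr {u u' : E4 → ℝ} {x : E4} (e : u =ᶠ[𝓝 x] u') : g2 u x = g2 u' x :=
  Finset.sum_congr rfl fun i _ => by rw [pd_congr i e]

variable [Fintype α]

/-- the family of constraints, tested on sections of a shrunk atlas -/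
theorem absFam' (hA : A.Ok) (hG : A.IsMet G) (hχ : A.PoU χ K0) (hR : ∀ s, IsOpen (R s))
    (hRU : ∀ s, R s ⊆ A.U s) {K K' : α → Set E4} (hK : ∀ s, IsCompact (K s))
    (hK' : ∀ s, IsCompact (K' s)) (h1 : ∀ s, K s ⊆ interior (K' s)) (h2 : ∀ s, K' s ⊆ R s)
    (ho : ∀ b, ∀ y ∈ A.U b, A.c b y ∈ ⋃ s, A.c s '' K' s → χ b (A.c b y) ≠ 0 → y ∈ R b)
    {η : ℝ} (hη : 0 < η) :
    ∃ (κ : Type) (_ : Fintype κ) (ψ : κ → α → MetricField 4) (C : ℝ), 0 ≤ C ∧
      (∀ j, CSec A (⋃ s, A.c s '' K' s) (ψ j)) ∧ (∀ j, ∃ c : ℝ, (c = 1 ∨ c = -1) ∧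
        ∀ s, ∀ x ∈ A.U s, TRg (G s x) (ψ j s x) = c • ψ j s x) ∧
      (∀ j, pr A χ G (ψ j) (ψ j) = 1) ∧ (∀ i j, i ≠ j → pr A χ G (ψ i) (ψ j) = 0) ∧
      ∀ w : α → MetricField 4, ((Ga.res A R).Sec fun s => matT (w s)) →
        (∀ s, ∀ x ∈ R s, (w s x).IsSymm) → ∀ s a b, ∫ x in K s, w s x a b ^ 2 ≤
        η * (∫ x in K' s, g2 (fun x => w s x a b) x) + C * ∑ j, pr A χ G (ψ j) w ^ 2 := by
  obtain ⟨κ, _, ψ, C, c0, c1, c2, c3, c4, c5⟩ := absFam (R := sat A R) hA hG hχ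
    (fun b => isOpen_iUnion fun a => Atl.isOpen_pre hA (hR a) (hRU a) b)
    (fun s => iUnion_subset fun a x hx => hx.1)
    (fun a b x hx y hy e => by
      obtain ⟨d, -, h4⟩ := mem_iUnion.1 hx
      exact mem_iUnion.2 ⟨d, hy, e ▸ h4⟩) hK hK' h1
    (fun s x hx => mem_iUnion.2 ⟨s, hRU s (h2 s hx), x, h2 s hx, rfl⟩) hη
  refine ⟨κ, inferInstance, ψ, C, c0, c1, c2, c3, c4, fun w hw hs s a b => ?_⟩
  obtain ⟨w', l, e⟩ := exists_sat hA hR hRU hw hs
  have e1 : ∫ x in K s, w' s x a b ^ 2 = ∫ x in K s, w s x a b ^ 2 :=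
    setIntegral_congr_fun (hK s).isClosed.measurableSet fun x hx => by
      simp only [e s x (h2 s (interior_subset (h1 s hx)))]
  have e2 : ∫ x in K' s, g2 (fun x => w' s x a b) x = ∫ x in K' s, g2 (fun x => w s x a b) x :=
    setIntegral_congr_fun (hK' s).isClosed.measurableSet fun x hx => g2_congr (by
      filter_upwards [(hR s).mem_nhds (h2 s hx)] with z hz using by rw [e s z hz])
  have e3 : ∀ j, pr A χ G (ψ j) w' = pr A χ G (ψ j) w := fun j =>
    Finset.sum_congr rfl fun d _ => setIntegral_congr_fun (hA.isOpen d).measurableSet fun y hy => by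
      by_cases k : A.c d y ∈ ⋃ s, A.c s '' K' s
      · by_cases k' : χ d (A.c d y) = 0
        · simp [Atl.den, k']
        · have : matT (w' d) y = matT (w d) y := by funext I; simp only [matT, e d y (ho d y hy k k')]
          simp only [ip, this]
      · have : matT (ψ j d) y = 0 := not_not.1 fun k' => k ((c1 j).vanT d y hy k')
        simp only [ip, this, ipA_zero_left]
  have := c5 w' l s a b
  rw [e1, e2] at this
  simpa only [e3] using this

end Crest.Agent.N207.N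

namespace Crest.Agent.N207.NS.Fx

variable {M : Type*} {T : TD M} {v w : T.V} {c : ℝ} {x : E4} {a : T.B}

theorem mem_cK1_inl : x ∈ cK1 T v c (Sum.inl a) ↔ T.vx a = v ∧ ‖x‖ ≤ 49 / 32 := by
  by_cases h : T.vx a = v <;> simp [cK1, h]

theorem mem_cK1_out : x ∈ cK1 T v c (Sum.inr v) ↔ 23 / 16 ≤ ‖x‖ ∧ ‖x‖ ≤ Real.exp c := by
  simp [cK1]

theorem mem_cK1_inn (h : w ≠ v) : x ∈ cK1 T v c (Sum.inr w) ↔
    T.kid v w ∧ Real.exp (-c) ≤ ‖x‖ ∧ ‖x‖ ≤ 49 / 64 * T.r := by
  by_cases hk : T.kid v w <;> simp [cK1, h, hk]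

theorem mem_cU1_inl : x ∈ cU1 T v c (Sum.inl a) ↔ T.vx a = v ∧ ‖x‖ < 25 / 16 := by
  by_cases h : T.vx a = v <;> simp [cU1, h]

theorem mem_cU1_out : x ∈ cU1 T v c (Sum.inr v) ↔ 45 / 32 < ‖x‖ ∧ ‖x‖ < Real.exp (c + 1) := by
  simp [cU1]

theorem mem_cU1_inn (h : w ≠ v) : x ∈ cU1 T v c (Sum.inr w) ↔
    T.kid v w ∧ Real.exp (-(c + 1)) < ‖x‖ ∧ ‖x‖ < 25 / 32 * T.r := by
  by_cases hk : T.kid v w <;> simp [cU1, h, hk, -neg_add_rev]

theorem cpt_ann (p q : ℝ) : IsCompact {x : E4 | p ≤ ‖x‖ ∧ ‖x‖ ≤ q} :=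
  (isCompact_closedBall (0 : E4) q).of_isClosed_subset
    ((isClosed_le continuous_const continuous_norm).inter
      (isClosed_le continuous_norm continuous_const)) fun _ hx => mem_closedBall_zero_iff.2 hx.2

theorem op_ann (p q : ℝ) : IsOpen {x : E4 | p < ‖x‖ ∧ ‖x‖ < q} :=
  (isOpen_lt continuous_const continuous_norm).inter (isOpen_lt continuous_norm continuous_const)

theorem cK1_cpt (s : T.S) : IsCompact (cK1 T v c s) := by
  cases s <;> simp only [cK1, Sum.elim_inl, Sum.elim_inr] <;> split_ifs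
  exacts [isCompact_closedBall _ _, isCompact_empty, cpt_ann _ _, cpt_ann _ _, isCompact_empty]

theorem cU1_open (s : T.S) : IsOpen (cU1 T v c s) := by
  cases s <;> simp only [cU1, Sum.elim_inl, Sum.elim_inr] <;> split_ifs
  exacts [isOpen_ball, isOpen_empty, op_ann _ _, op_ann _ _, isOpen_empty]

theorem cK0_cpt (s : T.S) : IsCompact (cK0 T v c s) := by
  cases s with
  | inl a =>
    refine IsCompact.inter_left (cK1_cpt _) ?_
    simp only [TD.cK, Sum.elim_inl]; split_ifs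
    exacts [isClosed_closedBall, isClosed_empty]
  | inr w =>
    by_cases hw : w = v
    · subst hw
      refine IsCompact.inter_left (cK1_cpt _) ?_
      simp only [TD.cK, Sum.elim_inr, if_true]
      exact isClosed_le continuous_const continuous_norm
    · have : cK0 T v c (Sum.inr w) = {x | ‖x‖ ≤ 3 / 4 * T.r} ∩ cK1 T v c (Sum.inr w) := by
        ext x
        simp only [cK0, mem_inter_iff, TD.mem_cK_inn hw, mem_cK1_inn hw, mem_ofPred_eq]
        exact ⟨fun h => ⟨h.1.2.2, h.2⟩,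
          fun h => ⟨⟨h.2.1, (Real.exp_pos _).trans_le h.2.2.1, h.1⟩, h.2⟩⟩
      rw [this]
      exact IsCompact.inter_left (cK1_cpt _) (isClosed_le continuous_norm continuous_const)

theorem cK1_mono {c' : ℝ} (hc : c ≤ c') (s : T.S) : cK1 T v c s ⊆ cK1 T v c' s := fun x hx => by
  cases s with
  | inl a => exact hx
  | inr w =>
    by_cases hw : w = v
    · subst hw
      rw [mem_cK1_out] at hx ⊢
      exact ⟨hx.1, hx.2.trans (Real.exp_le_exp.2 hc)⟩
    · rw [mem_cK1_inn hw] at hx ⊢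
      exact ⟨hx.1, (Real.exp_le_exp.2 (neg_le_neg hc)).trans hx.2.1, hx.2.2⟩

theorem cK1_cU1 (h : T.Ok) (s : T.S) : cK1 T v c s ⊆ cU1 T v c s := fun x hx => by
  have := h.r_pos
  cases s with
  | inl a => rw [mem_cK1_inl] at hx; exact mem_cU1_inl.2 ⟨hx.1, by linarith [hx.2]⟩
  | inr w =>
    by_cases hw : w = v
    · subst hw
      rw [mem_cK1_out] at hx
      exact mem_cU1_out.2 ⟨by linarith [hx.1], hx.2.trans_lt (Real.exp_lt_exp.2 (by linarith))⟩
    · rw [mem_cK1_inn hw] at hx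
      exact (mem_cU1_inn hw).2 ⟨hx.1, (Real.exp_lt_exp.2 (by linarith)).trans_le hx.2.1,
        by linarith [hx.2.2]⟩

theorem cU1_U (h : T.Ok) (s : T.S) : cU1 T v c s ⊆ (T.core v).U s := fun x hx => by
  have := h.r_pos
  cases s with
  | inl a => rw [mem_cU1_inl] at hx; exact TD.mem_core_inl.2 ⟨hx.1, by linarith [hx.2]⟩
  | inr w =>
    by_cases hw : w = v
    · subst hw
      exact TD.mem_core_out.2 (by linarith [(mem_cU1_out.1 hx).1])
    · rw [mem_cU1_inn hw] at hx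
      exact (TD.mem_core_inn hw).2 ⟨hx.1, (Real.exp_pos _).trans hx.2.1, by linarith [hx.2.2]⟩

theorem cK0_int (h : T.Ok) {c' : ℝ} (hc : c < c') (s : T.S) :
    cK0 T v c s ⊆ interior (cK1 T v c' s) := fun x hx => by
  have := h.r_pos
  rw [mem_interior_iff_mem_nhds]
  cases s with
  | inl a =>
    have h1 := TD.mem_cK_inl.1 hx.1
    filter_upwards [isOpen_ball.mem_nhds (mem_ball_zero_iff.2 (show ‖x‖ < 49 / 32 by
      linarith [h1.2]))] with z hz using mem_cK1_inl.2 ⟨h1.1, (mem_ball_zero_iff.1 hz).le⟩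
  | inr w =>
    by_cases hw : w = v
    · subst hw
      filter_upwards [(op_ann (23 / 16) (Real.exp c')).mem_nhds ⟨by linarith [TD.mem_cK_out.1 hx.1],
        (mem_cK1_out.1 hx.2).2.trans_lt (Real.exp_lt_exp.2 hc)⟩] with z hz using
        mem_cK1_out.2 ⟨hz.1.le, hz.2.le⟩
    · have h1 := (TD.mem_cK_inn hw).1 hx.1
      filter_upwards [(op_ann (Real.exp (-c')) (49 / 64 * T.r)).mem_nhds
        ⟨(Real.exp_lt_exp.2 (neg_lt_neg hc)).trans_le ((mem_cK1_inn hw).1 hx.2).2.1,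
          by linarith [h1.2.2]⟩] with z hz using (mem_cK1_inn hw).2 ⟨h1.1, hz.1.le, hz.2.le⟩

/-- the depth of a point does not depend on the chart -/
theorem depth_le (h : T.Ok) (h3 : 3 ≤ Real.exp c) (hr : Real.exp (-c) ≤ T.r / 3) {y : E4}
    (hy : y ∈ (T.core v).U (Sum.inr w))
    (hS : (T.core v).c (Sum.inr w) y ∈ ⋃ s, (T.core v).c s '' cK1 T v c s) :
    (w = v → ‖y‖ ≤ Real.exp c) ∧ (w ≠ v → Real.exp (-c) ≤ ‖y‖) := by
  obtain ⟨s, x, hx, e⟩ := mem_iUnion.1 hS
  have hxU := cU1_U h s (cK1_cU1 h s hx)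
  cases s with
  | inl a =>
    rcases (h.str_core v).rel hxU hy e with ⟨u, rfl, h1, h2, e'⟩ | h1
    · simp only [TD.sc, Sum.elim_inl, Sum.elim_inr, one_smul] at h1 h2 e'
      obtain ⟨rfl, h5⟩ := TD.mem_base_inl.1 h1
      have h4 := h.not_far h5 h2 e'
      refine ⟨fun hw => ?_, fun hw => ?_⟩
      · by_contra k
        exact h4 ⟨fun _ => h3.trans (not_le.1 k).le, fun k' => absurd hw k'⟩
      · by_contra k
        exact h4 ⟨fun k' => absurd k' hw, fun _ => (not_le.1 k).le.trans hr⟩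
    · cases h1.1
  | inr u =>
    obtain rfl : u = w := by
      by_contra k
      exact (h.str_core v).disj h k hxU hy e
    obtain ⟨γ, -, rfl⟩ := ((h.core_ok v).fib _ x hxU y hy).1 e
    rw [γ.norm_map]
    exact ⟨fun hw => by subst hw; exact (mem_cK1_out.1 hx).2, fun hw => ((mem_cK1_inn hw).1 hx).2.1⟩

theorem core_χ (h : T.Ok) {s : T.S} {y : E4} (hy : y ∈ (T.core v).U s)
    (h0 : T.χ s ((T.core v).c s y) ≠ 0) : y ∈ T.cK v s := by
  obtain ⟨x, hx, e⟩ := (h.core_pou v).supp s s y hy h0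
  obtain ⟨γ, -, rfl⟩ := ((h.core_ok v).fib s x ((h.core_pou v).sub s hx) y hy).1 e
  cases s with
  | inl a => rw [TD.mem_cK_inl] at hx ⊢; rwa [γ.norm_map]
  | inr w =>
    by_cases hw : w = v
    · subst hw; rw [TD.mem_cK_out] at hx ⊢; rwa [γ.norm_map]
    · rw [TD.mem_cK_inn hw] at hx ⊢; rwa [γ.norm_map]

theorem e0_nonneg' (k : MetricField 4) (x : E4) : 0 ≤ e0 k x :=
  Finset.sum_nonneg fun _ _ => Finset.sum_nonneg fun _ _ => sq_nonneg _

theorem e1_nonneg' (k : MetricField 4) (x : E4) : 0 ≤ e1 k x :=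
  Finset.sum_nonneg fun _ _ => Finset.sum_nonneg fun _ _ => g2_nonneg _ _

theorem int_sum2 {K : Set E4} {f : Fin 4 → Fin 4 → E4 → ℝ} (hf : ∀ a b, IntegrableOn (f a b) K) :
    ∫ x in K, ∑ a, ∑ b, f a b x = ∑ a, ∑ b, ∫ x in K, f a b x := by
  rw [integral_finsetSum _ fun a _ => integrable_finsetSum _ fun b _ => hf a b]
  exact Finset.sum_congr rfl fun a _ => integral_finsetSum _ fun b _ => hf a b

/-- **FAMX** -/
theorem famx' {g : T.V → Fam T} (h : T.Ok) (hg : ∀ v, (T.core v).IsMet (g v)) : FAMX T g := by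
  classical
  intro c η hc hr hη
  have hr0 := h.r_pos
  have h3 : 3 ≤ Real.exp (c + 1 / 2) := by linarith [Real.add_one_le_exp (c + 1 / 2)]
  have h4 : Real.exp (-(c + 1 / 2)) ≤ T.r / 3 :=
    (Real.exp_le_exp.2 (by linarith)).trans (hr.trans (by linarith))
  have hKK : ∀ v s, cK1 T v (c + 1 / 2) s ⊆ cK1 T v (c + 1) s := fun v s =>
    cK1_mono (by linarith) s
  choose κ hκ ψ C c0 c1 c2 c3 c4 c5 using fun v => N.absFam' (R := cU1 T v (c + 1))
    (K := cK0 T v c) (K' := cK1 T v (c + 1 / 2)) (h.core_ok v) (hg v) (h.core_pou v) cU1_open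
    (cU1_U h) cK0_cpt cK1_cpt (cK0_int h (by linarith)) (fun s => (hKK v s).trans (cK1_cU1 h s))
    (fun b y hy hS h0 => by
      have h1 := core_χ h hy h0
      cases b with
      | inl a => rw [TD.mem_cK_inl] at h1; exact mem_cU1_inl.2 ⟨h1.1, by linarith [h1.2]⟩
      | inr w =>
        have h2 := depth_le h h3 h4 hy hS
        by_cases hw : w = v
        · subst hw
          exact mem_cU1_out.2 ⟨by linarith [TD.mem_cK_out.1 h1],
            (h2.1 rfl).trans_lt (Real.exp_lt_exp.2 (by linarith))⟩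
        · rw [TD.mem_cK_inn hw] at h1
          exact (mem_cU1_inn hw).2 ⟨h1.1, (Real.exp_lt_exp.2 (by linarith)).trans_le (h2.2 hw),
            by linarith [h1.2.2]⟩) hη
  refine ⟨κ, hκ, fun v => Classical.decEq _, ψ, 16 * ∑ v, C v, ⟨fun v j => ⟨(c1 v j).sec,
    (c1 v j).symm⟩, fun v j w x hx ht => ?_⟩, c2, fun v => ⟨fun j l => if j = l then 1 else 0,
    fun i j => ?_⟩, fun v w hw hs s => ?_⟩
  · by_contra k
    have h2 := depth_le h h3 h4 hx ((c1 v j).van _ x hx k)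
    have h0 : 0 < ‖x‖ := norm_pos_iff.2 ((h.str_core v).ne w x hx)
    by_cases hw : w = v
    · have := (Real.log_le_iff_le_exp h0).2 (h2.1 hw)
      simp only [tau, if_pos hw] at ht; linarith
    · have := (Real.le_log_iff_exp_le h0).2 (h2.2 hw)
      simp only [tau, if_neg hw] at ht; linarith
  · simp only [ite_smul, one_smul, zero_smul, Finset.sum_ite_eq, Finset.mem_univ, if_true]
    split_ifs with e
    · subst e; exact c3 v i
    · exact c4 v i j e
  · have sm : ∀ a b, ContDiffOn ℝ 1 (fun x => w s x a b) (cU1 T v (c + 1) s) := fun a b =>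
      (hw.sm s ![a, b]).of_le (by exact_mod_cast le_top)
    have hU := cK1_cU1 (v := v) (c := c + 1) h s
    have i0 : ∀ a b, IntegrableOn (fun x => w s x a b ^ 2) (cK1 T v (c + 1) s) := fun a b =>
      (((sm a b).continuousOn.mono hU).pow 2).integrableOn_compact (cK1_cpt s)
    have i1 : ∀ a b, IntegrableOn (g2 fun x => w s x a b) (cK1 T v (c + 1) s) := fun a b =>
      ((contOn_g2 (cU1_open s) (sm a b)).mono hU).integrableOn_compact (cK1_cpt s)
    have j0 : IntegrableOn (e0 (w s)) (cK1 T v (c + 1) s) :=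
      integrable_finsetSum _ fun a _ => integrable_finsetSum _ fun b _ => i0 a b
    have j1 : IntegrableOn (e1 (w s)) (cK1 T v (c + 1) s) :=
      integrable_finsetSum _ fun a _ => integrable_finsetSum _ fun b _ => i1 a b
    have a1 : ∫ x in cK1 T v (c + 1 / 2) s, e1 (w s) x ≤
        ∫ x in cK1 T v (c + 1) s, (e1 (w s) x + e0 (w s) x) :=
      (setIntegral_mono_set j1 (Eventually.of_forall (e1_nonneg' _)) (hKK v s).eventuallyLE).trans
        (integral_mono j1 (j1.add j0) fun x => le_add_of_nonneg_right (e0_nonneg' _ x))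
    have p0 : 0 ≤ ∑ j, pair T g v (ψ v j) w ^ 2 := Finset.sum_nonneg fun _ _ => sq_nonneg _
    have a2 : C v ≤ ∑ v, C v := Finset.single_le_sum (fun v _ => c0 v) (Finset.mem_univ v)
    have a3 := Finset.sum_le_sum fun a (_ : a ∈ Finset.univ) =>
      Finset.sum_le_sum fun b (_ : b ∈ Finset.univ) => c5 v w hw hs s a b
    simp only [Finset.sum_add_distrib, ← Finset.mul_sum, Finset.sum_const, Finset.card_univ,
      Fintype.card_fin, nsmul_eq_mul, Nat.cast_ofNat] at a3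
    have hs0 : cK0 T v c s ⊆ cK1 T v (c + 1) s :=
      inter_subset_right.trans (cK1_mono (by linarith) s)
    rw [← int_sum2 fun a b => (i0 a b).mono_set hs0,
      ← int_sum2 fun a b => (i1 a b).mono_set (hKK v s)] at a3
    refine a3.trans (add_le_add (mul_le_mul_of_nonneg_left a1 hη.le) ?_)
    have a4 := mul_le_mul_of_nonneg_right a2 p0
    show C v * (4 * (4 * ∑ j, pair T g v (ψ v j) w ^ 2)) ≤ _
    linarith

end Crest.Agent.N207.NS.Fx

namespace Crest.Agent.N207.NS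

theorem famx {M : Type*} {T : TD M} {g : T.V → Fam T} (h : Std T g) : FAMX T g :=
  Fx.famx' h.ok h.lim.met

end Crest.Agent.N207.NS

end
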