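import Crest.Agent.N207.CB.Defs
import Crest.Agent.N207.Sk.Sta2

/-!
# Row 207, blocks K/M/N (helper9): FROZEN definitions and leaf statements

Families `H : Fam T` are in VERTEX units; `rt T L H` is the family in root units.
`gK L s ⊆ K1 L s ⊆ U1 L s ⊆ W1 L s ⊆ (glob L).U s`; `gl1 L` is `glob L` shrunk to `U1`.
-/

set_option autoImplicit false

open scoped ContDiff Topology
open Metric Set Filter MeasureTheory
open Crest.GeometryTopology.CoordMetric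
open Crest.Agent.N207.I Crest.Agent.N207.Lg Crest.Agent.N207.CB

noncomputable section

namespace Crest.Agent.N207.NS

variable {M : Type*} (T : TD M)

/-- closed sets carrying the energy -/
def K1 (L : T.V → ℝ) : T.S → Set E4 := Sum.elim (fun _ => closedBall 0 (49 / 32)) fun w =>
  {x | 23 / 16 ≤ ‖x‖ ∧ (w ≠ T.root → ‖x‖ ≤ 49 / 64 * T.r * Real.exp (L w))}

/-- shrunk domains -/
def U1 (L : T.V → ℝ) : T.S → Set E4 := Sum.elim (fun _ => ball 0 (25 / 16)) fun w =>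
  {x | 45 / 32 < ‖x‖ ∧ (w ≠ T.root → ‖x‖ < 25 / 32 * T.r * Real.exp (L w))}

/-- the union of the cells -/
def W1 (L : T.V → ℝ) : T.S → Set E4 := Sum.elim (fun _ => ball 0 (13 / 8)) fun w =>
  {x | 21 / 16 < ‖x‖ ∧ (w ≠ T.root → ‖x‖ < 27 / 32 * T.r * Real.exp (L w))}

/-- the shrunk atlas -/
def gl1 (L : T.V → ℝ) : Atl T.Car T.S := { T.glob L with U := U1 T L }

/-- the scale of the chart `s` -/
abbrev ep (L : T.V → ℝ) (s : T.S) : ℝ := T.eps L (T.un s)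

/-- root units -/
def rt (L : T.V → ℝ) (H : Fam T) : Fam T := fun s x => ep T L s ^ 2 • H s x

/-- metrics on the shrunk atlas -/
def Met1 (L : T.V → ℝ) (H : Fam T) : Prop := (gl1 T L).IsMet (rt T L H)

/-- integral of a density given in vertex units -/
def intL (L : T.V → ℝ) (f : T.S → E4 → ℝ) : ℝ :=
  ∑ s, ep T L s ^ 2 * ((Nat.card (T.grp s) : ℝ)⁻¹ *
    ∫ x in U1 T L s, T.χ s ((T.glob L).c s x) * f s x)

/-- integrability -/
def IntL (L : T.V → ℝ) (f : T.S → E4 → ℝ) : Prop :=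
  ∀ s, IntegrableOn (fun x => T.χ s ((T.glob L).c s x) * f s x) (U1 T L s)

/-- `|k|²` -/
def e0 (k : MetricField 4) (x : E4) : ℝ := ∑ a, ∑ b, k x a b ^ 2

/-- `|∂ k|²` -/
def e1 (k : MetricField 4) (x : E4) : ℝ := ∑ a, ∑ b, Hd.g2 (fun y => k y a b) x

/-- the energy -/
def En (L : T.V → ℝ) (k : Fam T) : ℝ :=
  ∑ s, ep T L s ^ 2 * ∫ x in K1 T L s, (e1 (k s) x + e0 (k s) x / scl T s x ^ 2)

/-- decay of order `p` at infinity -/
def Dec (p : ℝ) (k : MetricField 4) : Prop :=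
  ∃ C R : ℝ, ∀ x : E4, R ≤ ‖x‖ → ∀ a b, |k x a b| ≤ C * ‖x‖ ^ (-p) ∧
    ‖fderiv ℝ (fun y => k y a b) x‖ ≤ C * ‖x‖ ^ (-p - 1)

/-- decay of `H - 1` at the root end -/
def DecR (p : ℝ) (H : Fam T) : Prop := Dec p fun x => H (Sum.inr T.root) x - 1

/-- Ricci flat near the root end -/
def RicF (b : Fam T) : Prop :=
  ∃ R : ℝ, ∀ x : E4, R ≤ ‖x‖ → ∀ i j, ricci (b (Sum.inr T.root)) x i j = 0

/-- scale invariant `C^m` closeness on `U` -/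
def Cls (U : T.S → Set E4) (m : ℕ) (δ : ℝ) (H H' : Fam T) : Prop :=
  ∀ s, ∀ x ∈ U s, ∀ k ≤ m, ∀ a b,
    scl T s x ^ k * ‖iteratedFDeriv ℝ k (fun y => (H s y - H' s y) a b) x‖ ≤ δ

/-- admissible metrics near the reference metric -/
structure Adm (g : T.V → Fam T) (T0 : ℝ) (L : T.V → ℝ) (δ : ℝ) (H : Fam T) : Prop where
  met : Met1 T L H
  near : Cls T (U1 T L) 2 δ H (gbL T g T0 L)
  dec : DecR T (3 / 2) H

/-- the necks are long compared with `c` -/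
def Lng (c : ℝ) (L : T.V → ℝ) : Prop := ∀ w, w ≠ T.root → c ≤ L w

/-- the part of `glob L` within collar depth `c` of the core `v` -/
def InK (L : T.V → ℝ) (v : T.V) (c : ℝ) : T.S → E4 → Prop :=
  Sum.elim (fun a _ => T.vx a = v) fun w x => (w = v ∧ Real.log ‖x‖ ≤ c) ∨
    (T.kid v w ∧ -Real.log ‖Real.exp (-L w) • x‖ ≤ c)

/-- `(ε_s / ε_v)²` -/
def sr (L : T.V → ℝ) (v : T.V) (s : T.S) : ℝ := (ep T L s / T.eps L v) ^ 2

/-- the pairing of `Φ` (attached to the vertex `v`) and `k` for the metric `b`; size `ε_v²` -/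
def prL (L : T.V → ℝ) (b : Fam T) (v : T.V) (Φ k : Fam T) : ℝ :=
  intL T L fun s x => sr T L v s * (sq (b s) x * ip (b s) (matT (Φ s)) (matT (k s)) x)

/-- `Φ` is a continuous perturbation of `toL ψ` living within depth `c` -/
structure Prt (L : T.V → ℝ) (v : T.V) (c δ : ℝ) (ψ Φ : Fam T) : Prop where
  cont : ∀ s a b, ContinuousOn (fun x => Φ s x a b) (U1 T L s)
  near : ∀ s, ∀ x ∈ U1 T L s, ∀ a b, |Φ s x a b - toL T L v ψ s x a b| ≤ δ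
  supp : ∀ s, ∀ x ∈ U1 T L s, ¬ InK T L v c s x → Φ s x = 0

/-- pull-back of a matrix field -/
def pm (u : E4 → E4) (H : MetricField 4) : MetricField 4 := fun x =>
  Matrix.of fun a b => pullT u (matT H) x ![a, b]

/-- pull-back from `glob L'` to `gl1 L`, vertex units -/
def pb (L L' : T.V → ℝ) (u : T.S → E4 → E4) (H : Fam T) : Fam T := fun s x =>
  (ep T L' s / ep T L s) ^ 2 • pm (u s) (H s) x

/-- compatible families of maps `gl1 L → glob L'` near the identity -/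
structure NId (L L' : T.V → ℝ) (δ : ℝ) (u : T.S → E4 → E4) : Prop where
  sm : ∀ s, ContDiffOn ℝ ∞ (u s) (U1 T L s)
  maps : ∀ s, MapsTo (u s) (U1 T L s) (W1 T L' s)
  compat : ∀ s s', ∀ x ∈ U1 T L s, ∀ y ∈ U1 T L s', (T.glob L).c s x = (T.glob L).c s' y →
    (T.glob L').c s (u s x) = (T.glob L').c s' (u s' y)
  near : ∀ s, ∀ x ∈ U1 T L s, ∀ k ≤ 3,
    scl T s x ^ k * ‖iteratedFDeriv ℝ k (fun y => u s y - y) x‖ ≤ δ * scl T s x
  dec : ∃ C R : ℝ, ∀ x : E4, R ≤ ‖x‖ → ∀ k ≤ 3,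
    ‖iteratedFDeriv ℝ k (fun y => u (Sum.inr T.root) y - y) x‖ ≤ C * ‖x‖ ^ (-(3 / 2 : ℝ) - k)

/-- the sets of (LOC) on `core v`: `K1` up to collar depth `c` -/
def cK1 (v : T.V) (c : ℝ) : T.S → Set E4 :=
  Sum.elim (fun a => if T.vx a = v then closedBall 0 (49 / 32) else ∅) fun w =>
    if w = v then {x | 23 / 16 ≤ ‖x‖ ∧ ‖x‖ ≤ Real.exp c}
    else if T.kid v w then {x | Real.exp (-c) ≤ ‖x‖ ∧ ‖x‖ ≤ 49 / 64 * T.r} else ∅

/-- `cK` up to collar depth `c` -/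
def cK0 (v : T.V) (c : ℝ) : T.S → Set E4 := fun s => T.cK v s ∩ cK1 T v c s

/-- open neighbourhoods of `cK1 v c` -/
def cU1 (v : T.V) (c : ℝ) : T.S → Set E4 :=
  Sum.elim (fun a => if T.vx a = v then ball 0 (25 / 16) else ∅) fun w =>
    if w = v then {x | 45 / 32 < ‖x‖ ∧ ‖x‖ < Real.exp (c + 1)}
    else if T.kid v w then {x | Real.exp (-(c + 1)) < ‖x‖ ∧ ‖x‖ < 25 / 32 * T.r} else ∅

/-- a good family of constraints: controls depth `c` with constant `η`, lives within depth `c + 1` -/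
structure Good (g : T.V → Fam T) (κ : T.V → Type) [∀ v, Fintype (κ v)] [∀ v, DecidableEq (κ v)]
    (ψ : ∀ v, κ v → Fam T) (c η C : ℝ) : Prop where
  psi : Psi T κ ψ (c + 1)
  eig : ∀ v j, ∃ σ : ℝ, (σ = 1 ∨ σ = -1) ∧
    ∀ s, ∀ x ∈ (T.core v).U s, TRg (g v s x) (ψ v j s x) = σ • ψ v j s x
  dual : ∀ v, ∃ A : κ v → κ v → ℝ, ∀ i j,
    pair T g v (ψ v i) (∑ l, A j l • ψ v l) = if i = j then 1 else 0
  loc : ∀ v (w : Fam T),
    Atl.Sec { T.core v with U := cU1 T v (c + 1) } (fun s => matT (w s)) →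
    (∀ s, ∀ x ∈ cU1 T v (c + 1) s, (w s x).IsSymm) → ∀ s,
    ∫ x in cK0 T v c s, e0 (w s) x ≤
      η * (∫ x in cK1 T v (c + 1) s, (e1 (w s) x + e0 (w s) x)) + C * ∑ j, pair T g v (ψ v j) w ^ 2

section Props

variable (g : T.V → Fam T)

/-- the standing hypotheses -/
structure Std : Prop where
  ok : T.Ok
  conn : ∀ v, (T.base v).Conn
  lim : T.Lim g (1 / 2)

/-- leaf FAMX: good families exist -/
def FAMX : Prop := ∀ c η : ℝ, 2 ≤ c → Real.exp (-c) ≤ T.r / 8 → 0 < η →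
  ∃ (κ : T.V → Type) (_ : ∀ v, Fintype (κ v)) (_ : ∀ v, DecidableEq (κ v))
    (ψ : ∀ v, κ v → Fam T) (C : ℝ), Good T g κ ψ c η C

/-- leaf KL: the linear theory on the cores -/
def KL : Prop := ∀ σ : ℝ, 0 < σ → σ < 1 → ∃ c0 : ℝ, ∀ c, c0 ≤ c → ∃ η0 : ℝ, 0 < η0 ∧
  ∀ (κ : T.V → Type) [∀ v, Fintype (κ v)] [∀ v, DecidableEq (κ v)] (ψ : ∀ v, κ v → Fam T)
    (η C : ℝ), η ≤ η0 → Good T g κ ψ c η C → KLin T g κ ψ σ

/-- the comparison inequality for one family -/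
def Cmp (κ : T.V → Type) [∀ v, Fintype (κ v)] (ψ : ∀ v, κ v → Fam T) (c : ℝ) : Prop :=
  ∃ δ C T1 : ℝ, 0 < δ ∧ 0 < C ∧ ∀ T0, T1 ≤ T0 → ∀ L, Lng T (2 * T0 + T1) L →
    ∀ (b g1 g2 F : Fam T) (Ψ Φ : (Σ v, κ v) → Fam T) (μ : (Σ v, κ v) → ℝ),
      Adm T g T0 L δ b → Adm T g T0 L δ g1 → Adm T g T0 L δ g2 →
      (∀ j, Prt T L j.1 (c + 2) δ (ψ j.1 j.2) (Ψ j)) → (∀ j, Prt T L j.1 (c + 2) δ (ψ j.1 j.2) (Φ j)) →
      (∀ s, ∀ x ∈ U1 T L s, ∀ p q, redT (b s) (g1 s) x ![p, q] - redT (b s) (g2 s) x ![p, q] =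
        F s x p q + ∑ j, μ j * (sr T L j.1 s * Ψ j s x p q)) →
      IntL T L (fun s x => scl T s x ^ 2 * e0 (F s) x) →
      En T L (g1 - g2) + ∑ j, T.eps L j.1 ^ 2 * μ j ^ 2 ≤
        C * (intL T L (fun s x => scl T s x ^ 2 * e0 (F s) x) +
          ∑ j, (prL T L b j.1 (Φ j) (g1 - g2) / T.eps L j.1) ^ 2)

/-- leaf CMP -/
def CMP : Prop := ∃ c0 : ℝ, ∀ c, c0 ≤ c → ∃ η0 : ℝ, 0 < η0 ∧
  ∀ (κ : T.V → Type) [∀ v, Fintype (κ v)] [∀ v, DecidableEq (κ v)] (ψ : ∀ v, κ v → Fam T)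
    (η C : ℝ), η ≤ η0 → Good T g κ ψ c η C → Cmp T g κ ψ c

/-- the first variation density -/
def fv (b G k : MetricField 4) (x : E4) : ℝ :=
  tr2 (vG (sq G x) (iv G x) fun p q => k x p q) (a2 (redT b G x))

/-- leaf TAY: Taylor expansion of the gauge-fixed action -/
def TAY : Prop := ∃ δ C T1 : ℝ, 0 < δ ∧ 0 < C ∧ ∀ T0, T1 ≤ T0 → ∀ L, Lng T (2 * T0 + T1) L →
  ∀ b g1 g2 : Fam T, Adm T g T0 L δ b → RicF T b → Adm T g T0 L δ g1 → Adm T g T0 L δ g2 →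
    IntL T L (fun s => fgfF (b s) (g1 s)) → IntL T L (fun s => fv (b s) (g1 s) (g2 s - g1 s)) →
    IntL T L (fun s => fgfF (b s) (g2 s)) ∧
      |intL T L (fun s => fgfF (b s) (g2 s)) - intL T L (fun s => fgfF (b s) (g1 s)) -
        intL T L (fun s => fv (b s) (g1 s) (g2 s - g1 s))| ≤ C * En T L (g2 - g1)

/-- leaf ACT: the action of a metric that is flat near infinity, and independence of the
background -/
def ACT : Prop := ∀ L, T.Long L →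
  (∀ (b : Fam T) (G : T.S → MetricField 4), Met1 T L b → DecR T (5 / 2) b → RicF T b →
    (T.glob L).IsMet G →
    Sk.Flat T G → IntL T L (fun s => lagF (b s) (T.nrm L G s)) ∧
      intL T L (fun s => lagF (b s) (T.nrm L G s)) = Sk.SR T L G) ∧
  ∀ b b' H : Fam T, Met1 T L b → Met1 T L b' → Met1 T L H →
    (∃ R : ℝ, ∀ x : E4, R ≤ ‖x‖ → b (Sum.inr T.root) x = b' (Sum.inr T.root) x) →
    IntL T L (fun s x => lagF (b s) (H s) x - lagF (b' s) (H s) x) ∧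
      intL T L (fun s x => lagF (b s) (H s) x - lagF (b' s) (H s) x) = 0

/-- leaf PULL: pull-backs by maps near the identity -/
def PULL : Prop := ∃ δ0 C T1 : ℝ, 0 < δ0 ∧ 0 < C ∧ ∀ T0, T1 ≤ T0 → ∀ L L', Lng T (2 * T0 + T1) L →
  Lng T (2 * T0 + T1) L' → ∀ (δ : ℝ) (u : T.S → E4 → E4), δ ≤ δ0 → NId T L L' δ u →
    (∀ X : Fam T, (T.glob L').Sec (fun s => matT (rt T L' X s)) →
      (gl1 T L).Sec fun s => matT (rt T L (pb T L L' u X) s)) ∧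
    (∀ H : Fam T, (T.glob L').IsMet (rt T L' H) → Met1 T L (pb T L L' u H) ∧
      ∀ s, R202.Tens.Pull (pm (u s) (H s)) (H s) (u s) (U1 T L s) ((T.glob L').U s)) ∧
    (∀ (H H' : Fam T) (δ' : ℝ), (∀ s a b, ContDiffOn ℝ ∞ (fun y => (H s y - H' s y) a b) (W1 T L' s)) →
      Cls T (W1 T L') 2 δ' H H' →
      Cls T (U1 T L) 2 (C * δ') (fun s => pm (u s) (H s)) fun s => pm (u s) (H' s)) ∧
    (L' = L → Cls T (U1 T L) 2 (C * δ) (pb T L L' u (gbL T g T0 L')) (gbL T g T0 L)) ∧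
    (∀ H : Fam T, (T.glob L').IsMet (rt T L' H) → DecR T (3 / 2) H → DecR T (3 / 2) (pb T L L' u H)) ∧
    DecR T (5 / 2) (pb T L L' u (gbL T g T0 L')) ∧ RicF T (pb T L L' u (gbL T g T0 L'))

/-- leaf INT: invariance of integrals -/
def INT : Prop := ∃ δ0 T1 : ℝ, 0 < δ0 ∧ ∀ L L', Lng T T1 L → Lng T T1 L' →
  ∀ (u : T.S → E4 → E4), NId T L L' δ0 u → ∀ (H : T.S → MetricField 4) (f : T.S → E4 → ℝ),
    (T.glob L').IsMet H → (T.glob L').CompF f → (T.glob L').Intg T.χ H f →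
    (gl1 T L).Intg T.χ (fun s => pm (u s) (H s)) (fun s x => f s (u s x)) ∧
      (gl1 T L).int T.χ (fun s => pm (u s) (H s)) (fun s x => f s (u s x)) = (T.glob L').int T.χ H f

/-- leaf GB: the reference metric -/
def GB : Prop := ∃ T1 : ℝ, ∀ k : ℕ, ∃ C : ℝ, ∀ T0, T1 ≤ T0 →
  (∀ v, (T.core v).IsMet (gb T g T0 v)) ∧ ∀ L, Lng T (2 * T0 + T1) L →
    T.Long L ∧ (T.glob L).IsMet (rt T L (gbL T g T0 L)) ∧
    (∀ w, ∀ x ∈ (T.glob L).U (Sum.inr w), ∀ a b, ‖x‖ ^ k *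
      ‖iteratedFDeriv ℝ k (TD.dv (gbL T g T0 L (Sum.inr w)) a b) x‖ ≤ C * T.wt (1 / 2) L w x) ∧
    ∀ w x a b, x ∈ (T.glob L).U (Sum.inr w) → |TD.dv (gbL T g T0 L (Sum.inr w)) a b x| ≤ 1 / 50

/-- leaf DIL: the dilation that changes the length of the neck `w` by `t` -/
def DIL : Prop := ∃ T1 : ℝ, ∀ T0, T1 ≤ T0 → ∃ C : ℝ, 0 < C ∧ ∀ L, Lng T (2 * T0 + T1) L →
  ∀ w, w ≠ T.root → ∀ t : ℝ, |t| ≤ 1 → ∃ u : T.S → E4 → E4,
    NId T L (Function.update L w (L w + t)) (C * |t|) u ∧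
    (∀ s, s ≠ Sum.inr w → ∀ x, u s x = x) ∧
    (∀ x, ‖x‖ ≤ Real.exp (T0 + 1) → u (Sum.inr w) x = x) ∧
    (∀ x, Real.exp (T0 + 2) ≤ ‖x‖ → u (Sum.inr w) x = Real.exp t • x) ∧
    Cls T (U1 T L) 2 (C * |t|)
      (pb T L (Function.update L w (L w + t)) u (gbL T g T0 (Function.update L w (L w + t))))
      (gbL T g T0 L)

/-- leaf XC: the energy is controlled by its `χ`-weighted form, also locally near the cores -/
def XC : Prop := ∃ C T1 : ℝ, 0 < C ∧ ∀ L, Lng T T1 L → ∀ k : Fam T,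
  (gl1 T L).Sec (fun s => matT (rt T L k s)) → Dec (3 / 2) (k (Sum.inr T.root)) →
    (∀ s, IntegrableOn (fun x => e1 (k s) x + e0 (k s) x / scl T s x ^ 2) (K1 T L s)) ∧
    En T L k ≤ C * intL T L fun s x => e1 (k s) x + e0 (k s) x / scl T s x ^ 2

/-- leaf DIF: the difference of two reduced Ricci tensors (one point, plain partial derivatives) -/
def DIF : Prop := ∀ Λ : ℝ, ∃ C : ℝ, 0 < C ∧ ∀ (U : Set E4) (b g1 g2 : MetricField 4) (x : E4)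
  (r e : ℝ), IsRiemannianOn b U → IsRiemannianOn g1 U → IsRiemannianOn g2 U → x ∈ U → 0 < r →
  0 ≤ e → e ≤ Λ → (∀ H ∈ [b, g1, g2], ∀ p q, |H x p q| ≤ Λ ∧ |(H x)⁻¹ p q| ≤ Λ ∧
    r * ‖iteratedFDeriv ℝ 1 (fun y => H y p q) x‖ ≤ e ∧
    r ^ 2 * ‖iteratedFDeriv ℝ 2 (fun y => H y p q) x‖ ≤ e) →
  ∀ p q, |redT b g1 x ![p, q] - redT b g2 x ![p, q] + (1 / 2) * ∑ i, ∑ j, (g1 x)⁻¹ i j *
      pderiv i (pderiv j fun y => (g1 - g2) y p q) x| ≤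
    C * √e * (√(e1 (g1 - g2) x) / r + √(e0 (g1 - g2) x) / r ^ 2)

/-- leaf GAUGE -/
def GAUGE : Prop := ∀ (U : Ultrafilter ℕ) (L : ℕ → T.V → ℝ) (G : ℕ → T.S → MetricField 4),
  T.Seq g (1 / 2) U L G → (∀ᶠ i in (U : Filter ℕ), Sk.Flat T (G i)) → ∀ᶠ T0 : ℝ in atTop, ∀ᶠ i in (U : Filter ℕ),
    ∃ u : T.S → E4 → E4, NId T (L i) (L i) (Real.exp (-(2 / 5) * T0)) u ∧
      ∀ s, ∀ x ∈ U1 T (L i) s,
        gauT (pm (u s) (gbL T g T0 (L i) s)) (T.nrm (L i) (G i) s) x = 0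

end Props

/-- leaf OST (block O) -/
def OST : Prop := ∀ (Θ V : Type) [Fintype Θ] [Fintype V] [DecidableEq Θ] [DecidableEq V]
  (D : OD Θ V) (r l0 : ℝ), 0 < r → r < D.ρ →
  (∀ (θ : Θ → ℝ) (L : V → ℝ), ‖θ‖ ≤ r → (∀ w, l0 ≤ L w) →
    (D.f (fun j => θ j) fun w => L w).im = 0) →
  ∀ (U : Ultrafilter ℕ) (θ : ℕ → Θ → ℝ) (L : ℕ → V → ℝ), (∀ᶠ i in (U : Filter ℕ), ‖θ i‖ ≤ r / 2) →
    (∀ w, Tendsto (fun i => L i w) U atTop) →
    Tendsto (fun i => D.f (fun j => θ i j) fun w => L i w) U (𝓝 0) →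
    ∀ a η : ℝ, 0 < a → 0 < η → ∀ᶠ i in (U : Filter ℕ),
      ‖D.f (fun j => θ i j) fun w => L i w‖ ≤ η *
        (∑ j, ‖deriv (fun z => D.f (Function.update (fun j => θ i j) j z) fun w => L i w) (θ i j)‖ +
          ∑ w, Real.exp (a * L i w) *
            ‖deriv (fun z => D.f (fun j => θ i j) (Function.update (fun w => L i w) w z)) (L i w)‖)

end Crest.Agent.N207.NS

end
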