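import Crest.Agent.N207.N.Chi
import Crest.Agent.N207.M.Rad
import Crest.Agent.N207.I.Cal4
import Crest.Agent.N207.Lg.Nat

/-!
# Row 207, block N (helper42): the divergence theorem on `gl1 L` for fields decaying at infinity
-/

set_option autoImplicit false

open scoped ContDiff Topology
open Metric Set Filter MeasureTheory
open Crest.GeometryTopology.CoordMetric
open Crest.Agent.N207.I Crest.Agent.N207.Lg Crest.Agent.N207.CB

noncomputable section

namespace Crest.Agent.N207.NS.Ac

variable {M : Type*} {T : TD M} {L : T.V → ℝ} {G : T.S → MetricField 4}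

theorem intg_rpow {q : ℝ} (hq : 4 < q) (C : ℝ) :
    IntegrableOn (fun x : E4 => C * ‖x‖ ^ (-q)) {x | 1 ≤ ‖x‖} := by
  have hm : MeasurableSet {x : E4 | 1 ≤ ‖x‖} :=
    (isClosed_le continuous_const continuous_norm).measurableSet
  have h1 : Integrable fun x : E4 => (2 : ℝ) ^ q * (1 + ‖x‖) ^ (-q) :=
    (integrable_one_add_norm (by simpa using hq)).const_mul _
  refine Integrable.const_mul (h1.integrableOn.mono'
    (measurable_norm.pow_const _).aestronglyMeasurable ?_) C
  filter_upwards [ae_restrict_mem hm] with x hx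
  have hx : 1 ≤ ‖x‖ := hx
  rw [Real.norm_of_nonneg (by positivity)]
  have h2 : (2 * ‖x‖) ^ (-q) ≤ (1 + ‖x‖) ^ (-q) :=
    Real.rpow_le_rpow_of_nonpos (by positivity) (by linarith) (by linarith)
  rw [Real.mul_rpow (by norm_num) (by positivity), Real.rpow_neg (by norm_num)] at h2
  have h3 : (0 : ℝ) < 2 ^ q := by positivity
  rwa [inv_mul_le_iff₀ h3] at h2

theorem mem_root {x : E4} (hx : 2 ≤ ‖x‖) : x ∈ U1 T L (Sum.inr T.root) :=
  ⟨by linarith, fun h => absurd rfl h⟩

theorem den_zero (h : T.Ok) (hL : T.Long L) {s : T.S} {x : E4} (hx : x ∈ U1 T L s)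
    (hn : x ∉ K1 T L s) : (gl1 T L).den T.χ G s x = 0 := by
  have : T.χ s ((gl1 T L).c s x) = 0 := chi_zero h hL s (U1_U h s hx) fun e => hn (gK_K1 h s e)
  simp [Atl.den, this]

theorem den_le (h : T.Ok) (hL : T.Long L) {s : T.S} {x : E4} (hx : x ∈ U1 T L s) (a : ℝ) :
    |(gl1 T L).den T.χ G s x * a| ≤ |√(G s x).det * a| := by
  have h1 : T.χ s ((gl1 T L).c s x) ≤ 1 := chi_le h hL s s (U1_U h s hx)
  have h0 : 0 ≤ T.χ s ((gl1 T L).c s x) := TD.χ_nonneg _ _
  have h2 : (Nat.card ((gl1 T L).Γ s) : ℝ)⁻¹ ≤ 1 := Nat.cast_inv_le_one _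
  have h3 : 0 ≤ (Nat.card ((gl1 T L).Γ s) : ℝ)⁻¹ := by positivity
  rw [Atl.den, ← mul_assoc, mul_assoc, abs_mul, abs_of_nonneg (mul_nonneg h3 h0)]
  exact mul_le_of_le_one_left (abs_nonneg _) (mul_le_one₀ h2 h0 h1)

/-- continuous families with integrable decay at the root end are integrable -/
theorem intg_of_dec (h : T.Ok) (hL : T.Long L) (hG : (gl1 T L).IsMet G) {f : T.S → E4 → ℝ}
    (hf : (gl1 T L).Ct f) {q C R : ℝ} (hq : 4 < q) (hd : ∀ x : E4, R ≤ ‖x‖ →
      |√(G (Sum.inr T.root) x).det * f (Sum.inr T.root) x| ≤ C * ‖x‖ ^ (-q)) :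
    (gl1 T L).Intg T.χ G f := fun s => by
  have hc : ContinuousOn (fun x => (gl1 T L).den T.χ G s x * f s x) (U1 T L s) :=
    (Atl.sm_den hG (gl1_pou h hL) s).continuousOn.mul (hf s)
  by_cases hs : s = Sum.inr T.root
  · subst hs
    have hm : MeasurableSet {x : E4 | max R 2 ≤ ‖x‖} :=
      (isClosed_le continuous_const continuous_norm).measurableSet
    have hs : {x : E4 | max R 2 ≤ ‖x‖} ⊆ U1 T L (Sum.inr T.root) := fun x hx =>
      mem_root ((le_max_right _ _).trans hx)
    have h1 := (hc.mono (inter_subset_left.trans (K1_U1 h _))).integrableOn_compact (μ := volume)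
      ((isCompact_closedBall (0 : E4) (max R 2)).inter_left (K1_closed _))
    have h2 : IntegrableOn (fun x => (gl1 T L).den T.χ G (Sum.inr T.root) x * f (Sum.inr T.root) x)
        {x : E4 | max R 2 ≤ ‖x‖} := by
      refine Integrable.mono' ((intg_rpow hq C).mono_set fun x hx => ?_)
        ((hc.mono hs).aestronglyMeasurable hm) ?_
      · exact one_le_two.trans ((le_max_right R 2).trans (show max R 2 ≤ ‖x‖ from hx))
      · filter_upwards [ae_restrict_mem hm] with x hx
        exact (den_le h hL (hs hx) _).trans (hd x ((le_max_left _ _).trans hx))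
    refine (h1.union h2).of_forall_sdiff_eq_zero ((gl1_ok h hL).isOpen _).measurableSet fun x hx => ?_
    rw [den_zero h hL hx.1 fun e => hx.2 ?_, zero_mul]
    rcases le_total ‖x‖ (max R 2) with h3 | h3
    · exact Or.inl ⟨e, mem_closedBall_zero_iff.2 h3⟩
    · exact Or.inr h3
  · exact Atl.integrableOn_of_cpt (U1_open s) (K1_cpt hs) (K1_U1 h s) hc fun x hx hn => by
      rw [den_zero h hL hx hn, zero_mul]

/-- families that vanish far out on the root end have compact support -/
theorem cs_of_far (h : T.Ok) (hL : T.Long L) {k : ℕ} {Z : T.S → Tn 4 k}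
    (hZ : (gl1 T L).Compat Z) {R : ℝ} (h0 : ∀ x : E4, R < ‖x‖ → Z (Sum.inr T.root) x = 0) :
    ∃ S, (gl1 T L).CS S ∧ (gl1 T L).Van Z S := by
  have hp := gl1_pou h hL
  set D : T.S → Set E4 := fun s => K1 T L s ∩ {x | s = Sum.inr T.root → ‖x‖ ≤ R} with hD
  refine ⟨_, ⟨D, fun s => ⟨?_, inter_subset_left.trans (K1_U1 h s)⟩, Subset.rfl⟩,
    fun b y hy hne => ?_⟩
  · by_cases hs : s = Sum.inr T.root
    · have : D s = K1 T L s ∩ closedBall 0 R := by ext x; simp [hD, hs]
      rw [this]; exact (isCompact_closedBall _ _).inter_left (K1_closed s)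
    · have : D s = K1 T L s := by ext x; simp [hD, hs]
      rw [this]; exact K1_cpt hs
  · obtain ⟨s, -, hs⟩ := Finset.exists_ne_zero_of_sum_ne_zero ((hp.sum b y hy).trans_ne one_ne_zero)
    obtain ⟨x, hx, e⟩ := hp.supp s b y hy hs
    refine mem_iUnion.2 ⟨s, x, ⟨gK_K1 h s hx, ?_⟩, e⟩
    rintro rfl
    exact not_lt.1 fun hlt => hne (hZ.eq_zero (gl1_ok h hL) hy (hp.sub _ hx) e.symm (h0 x hlt))

/-- the cut-off at the root end -/
def cutR (T : TD M) (t : ℝ) : T.S → E4 → ℝ := fun s x =>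
  if s = Sum.inr T.root then bmp (t • x) else 1

theorem cutR_sm (t : ℝ) (s : T.S) : ContDiff ℝ ∞ (cutR T t s) := by
  unfold cutR
  split_ifs
  exacts [bmp_sm.comp (contDiff_const_smul t), contDiff_const]

theorem cutR_comp (h : T.Ok) {t : ℝ} (h0 : 0 ≤ t) (h1 : t ≤ 1 / 4) :
    (gl1 T L).CompF (cutR T t) := by
  have e : cutR T t = N207.M.radF T (fun _ => 1) fun w s => if w = T.root then
      Real.smoothTransition ((9 / 4 - (t * max s 0) ^ 2) / (5 / 4)) else 1 := by
    funext s x
    rcases s with a | w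
    · simp [cutR, N207.M.radF]
    · simp [cutR, N207.M.radF, bmp, norm_smul, abs_of_nonneg h0]
  have c : (T.glob L).CompF (cutR T t) := by
    rw [e]
    refine N207.M.radF_comp (fun w s hs => ?_) fun w hw s _ => if_neg hw
    split_ifs
    · have h2 : 0 ≤ max s 0 := le_max_right _ _
      have h3 : max s 0 ≤ 4 := max_le hs.le (by norm_num)
      have h4 : t * max s 0 ≤ 1 := by nlinarith
      exact Real.smoothTransition.one_of_one_le ((one_le_div (by norm_num)).2
        (by nlinarith [mul_nonneg h0 h2]))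
    · rfl
  exact Ga.res_compF (U1_U h) c

theorem bmp_fd : ∃ B : ℝ, 0 ≤ B ∧ ∀ (t : ℝ) (x : E4), 0 ≤ t →
    ‖x‖ * ‖fderiv ℝ (fun y : E4 => bmp (t • y)) x‖ ≤ B := by
  obtain ⟨B, B0, hB⟩ := fd_bd isOpen_univ bmp_sm.contDiffOn (isCompact_closedBall (0 : E4) 2)
    (subset_univ _)
  refine ⟨2 * B, by positivity, fun t x ht => ?_⟩
  have d : HasFDerivAt (fun y : E4 => bmp (t • y))
      ((fderiv ℝ bmp (t • x)).comp (t • ContinuousLinearMap.id ℝ E4)) x :=
    (bmp_sm.differentiable (by simp) _).hasFDerivAt.comp x ((hasFDerivAt_id x).const_smul t)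
  rw [d.fderiv, ContinuousLinearMap.comp_smul, ContinuousLinearMap.comp_id, norm_smul, ← mul_assoc,
    mul_comm ‖x‖, ← norm_smul]
  rcases le_or_gt ‖t • x‖ 2 with h | h
  · exact mul_le_mul h (hB _ (mem_closedBall_zero_iff.2 h)) (norm_nonneg _) zero_le_two
  · have : bmp =ᶠ[𝓝 (t • x)] fun _ => 0 := by
      filter_upwards [(isOpen_lt continuous_const continuous_norm).mem_nhds h] with y hy
      by_contra e
      linarith [bmp_ne e, show 2 < ‖y‖ from hy]
    rw [this.fderiv_eq, fderiv_fun_const]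
    simp only [Pi.zero_apply, norm_zero, mul_zero]
    positivity

theorem cutR_one {t : ℝ} (s : T.S) {x : E4} (hx : ‖t • x‖ < 1) : cutR T t s =ᶠ[𝓝 x] fun _ => 1 := by
  filter_upwards [(isOpen_lt (continuous_const_smul t).norm continuous_const).mem_nhds hx] with y hy
  unfold cutR
  split_ifs
  exacts [bmp_one (le_of_lt hy), rfl]

theorem abs_pd_le (f : E4 → ℝ) (x : E4) (i : Fin 4) : |pderiv i f x| ≤ ‖fderiv ℝ f x‖ := by
  simpa [pderiv] using (fderiv ℝ f x).le_opNorm (EuclideanSpace.single i 1)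

/-- **divergence theorem** for fields that decay at the root end -/
theorem int_div_dec (h : T.Ok) (hL : T.Long L) (hG : (gl1 T L).IsMet G) {W : T.S → Tn 4 1}
    (hW : (gl1 T L).Sec W) {p C R : ℝ} (hp : 3 < p) (hd : ∀ x : E4, R ≤ ‖x‖ → ∀ i,
      |√(G (Sum.inr T.root) x).det *
        ∑ j, (G (Sum.inr T.root) x)⁻¹ i j * W (Sum.inr T.root) x ![j]| ≤ C * ‖x‖ ^ (-p))
    (hi : (gl1 T L).Intg T.χ G fun s x => divT (G s) (W s) x ![]) :
    (gl1 T L).int T.χ G (fun s x => divT (G s) (W s) x ![]) = 0 := by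
  obtain ⟨B, B0, hB⟩ := bmp_fd
  have hA := gl1_ok h hL
  set ρ := max R 4 with hρ
  have ρ4 : 4 ≤ ρ := le_max_right _ _
  set t : ℕ → ℝ := fun n => (n + ρ)⁻¹ with ht
  have tp : ∀ n : ℕ, (0 : ℝ) < n + ρ := fun n => by positivity
  have t0 : ∀ n, 0 ≤ t n := fun n => (inv_pos.2 (tp n)).le
  have tn : ∀ (n : ℕ) (x : E4), ‖t n • x‖ = ‖x‖ / (n + ρ) := fun n x => by
    rw [norm_smul, Real.norm_of_nonneg (t0 n), ht, div_eq_inv_mul]
  set V : ℕ → T.S → Tn 4 1 := fun n s => smT (cutR T (t n) s) (W s) with hV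
  have sV : ∀ n, (gl1 T L).Sec (V n) := fun n =>
    hW.smT (cutR_comp h (t0 n) (by
      rw [one_div]; exact inv_anti₀ (by norm_num) (by linarith [n.cast_nonneg (α := ℝ)])))
      fun s => (cutR_sm _ s).contDiffOn
  have zV : ∀ n, (gl1 T L).int T.χ G (fun s x => divT (G s) (V n s) x ![]) = 0 := fun n => by
    obtain ⟨S, h1, h2⟩ := cs_of_far h hL (sV n).compat (R := 2 * (n + ρ)) fun x hx => by
      have : bmp (t n • x) = 0 := by
        by_contra e
        have := bmp_ne e
        rw [tn, div_le_iff₀ (tp n)] at this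
        linarith [tp n]
      funext I; simp [hV, smT, cutR, this]
    exact (Atl.int_div hA hG (gl1_pou h hL) (sV n) h1 h2).2
  have hm : MeasurableSet {x : E4 | 1 ≤ ‖x‖} :=
    (isClosed_le continuous_const continuous_norm).measurableSet
  refine tendsto_nhds_unique (f := fun n => (gl1 T L).int T.χ G fun s x => divT (G s) (V n s) x ![])
    (l := atTop) (tendsto_finsetSum _ fun s _ => ?_) (by simp only [zV]; exact tendsto_const_nhds)
  have hU := (hA.isOpen s).measurableSet
  refine tendsto_integral_of_dominated_convergence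
    (fun x => ‖(gl1 T L).den T.χ G s x * divT (G s) (W s) x ![]‖ +
      {x : E4 | 1 ≤ ‖x‖}.indicator (fun x => (4 * B * |C|) * ‖x‖ ^ (-(p + 1))) x)
    (fun n => ((Atl.sm_den hG (gl1_pou h hL) s).continuousOn.mul
      (((sV n).divT hA hG).ct_val s)).aestronglyMeasurable hU)
    ((hi s).norm.add (((integrable_indicator_iff hm).2 (intg_rpow (by linarith) _)).integrableOn))
    (fun n => ?_) ?_
  · filter_upwards [ae_restrict_mem hU] with x hx
    have i0 : 0 ≤ {x : E4 | 1 ≤ ‖x‖}.indicator (fun x => (4 * B * |C|) * ‖x‖ ^ (-(p + 1))) x :=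
      indicator_nonneg (fun y _ => by positivity) x
    have c1 : |cutR T (t n) s x| ≤ 1 := by
      unfold cutR
      split_ifs
      · rw [abs_of_nonneg (bmp_nonneg _)]; exact Real.smoothTransition.le_one _
      · simp
    rw [hV, divT_smT ((cutR_sm _ s).differentiable (by simp) x) (hW.dfT hA hx), mul_add,
      mul_left_comm, add_comm]
    refine (norm_add_le _ _).trans (add_le_add ?_ ((den_le h hL hx _).trans ?_))
    · rw [norm_mul]; exact mul_le_of_le_one_left (norm_nonneg _) c1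
    have e : √(G s x).det * ∑ a, ∑ b, (G s x)⁻¹ a b * (pderiv a (cutR T (t n) s) x *
        W s x (Fin.cons b ![])) = ∑ a, pderiv a (cutR T (t n) s) x *
          (√(G s x).det * ∑ j, (G s x)⁻¹ a j * W s x ![j]) := by
      simp only [Finset.mul_sum]
      exact Finset.sum_congr rfl fun a _ => Finset.sum_congr rfl fun b _ => by
        change _ * (_ * (_ * W s x ![b])) = _; ring
    rw [e]
    by_cases hs : s = Sum.inr T.root ∧ ρ ≤ ‖x‖
    · obtain ⟨rfl, hs⟩ := hs
      have x0 : 0 < ‖x‖ := by linarith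
      rw [indicator_of_mem (show x ∈ {x : E4 | 1 ≤ ‖x‖} from show 1 ≤ ‖x‖ by linarith)]
      refine (Finset.abs_sum_le_sum_abs _ _).trans ((Finset.sum_le_card_nsmul _ _
        (B * |C| * ‖x‖ ^ (-(p + 1))) fun a _ => ?_).trans (le_of_eq (by simp; ring)))
      have e2 : cutR T (t n) (Sum.inr T.root) = fun y => bmp (t n • y) := by funext y; simp [cutR]
      have h1 : |pderiv a (cutR T (t n) (Sum.inr T.root)) x| ≤ B / ‖x‖ := by
        rw [le_div_iff₀' x0, e2]
        exact (mul_le_mul_of_nonneg_left (abs_pd_le _ _ _) x0.le).trans (hB _ x (t0 n))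
      have h2 := (hd x ((le_max_left _ _).trans hs) a).trans
        (mul_le_mul_of_nonneg_right (le_abs_self C) (by positivity))
      rw [abs_mul, neg_add, Real.rpow_add x0, Real.rpow_neg_one]
      exact (mul_le_mul h1 h2 (abs_nonneg _) (by positivity)).trans_eq (by ring)
    · have e2 : cutR T (t n) s =ᶠ[𝓝 x] fun _ => 1 := by
        by_cases h1 : s = Sum.inr T.root
        · refine cutR_one s ?_
          rw [tn, div_lt_one (tp n)]
          linarith [not_le.1 fun h2 => hs ⟨h1, h2⟩, n.cast_nonneg (α := ℝ)]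
        · exact Eventually.of_forall fun y => if_neg h1
      simp only [pd_congr _ e2, pd_const, zero_mul, Finset.sum_const_zero, abs_zero, i0]
  · refine Eventually.of_forall fun x => tendsto_const_nhds.congr' ?_
    filter_upwards [tendsto_natCast_atTop_atTop.eventually_gt_atTop ‖x‖] with n hn
    have e : V n s =ᶠ[𝓝 x] W s := by
      refine (cutR_one (T := T) (t := t n) s ?_).mono fun y hy => ?_
      · rw [tn, div_lt_one (tp n)]; linarith
      · funext I; simp only [hV, smT, hy, one_mul]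
    rw [(divT_congr EventuallyEq.rfl e).eq_of_nhds]

end Crest.Agent.N207.NS.Ac

end
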