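import Crest.Agent.N207.N.Act1

/-!
# Row 207, block N (helper42): the leaf `ACT`
-/

set_option autoImplicit false

open scoped ContDiff Topology
open Metric Set Filter MeasureTheory Asymptotics
open Crest.GeometryTopology.CoordMetric Crest.GeometryTopology.MetricFamily
open Crest.Agent.N207.I Crest.Agent.N207.Lg Crest.Agent.N207.CB

noncomputable section

namespace Crest.Agent.N207.NS

namespace Ac

variable {M : Type*} {T : TD M} {L : T.V → ℝ}

theorem lagF_smul {c d : ℝ} (hc : c ≠ 0) (hd : d ≠ 0) (b H : MetricField 4) (x : E4) :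
    lagF (fun y => d • b y) (fun y => c • H y) x = c * lagF b H x := by
  have e1 : sq (fun y => c • H y) x = c ^ 2 * sq H x := N207.M.sqrt_det_smul _
  have e2 : iv (fun y => c • H y) x = c⁻¹ • iv H x := by
    funext a b; simp only [iv, N207.M.inv_smul_mat hc]; rfl
  have e3 : TG (fun y => d • b y) (fun y => c • H y) x = c • TG b H x := by
    rw [← TG_smul]; simp only [TG, N207.M.cov_smul_met hd]; rfl
  have e4 : ricci (fun y => d • b y) x = ricci b x := by
    funext i j; simp only [ricci, N207.M.chr_smul_met hd]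
  simp only [lagF, e1, e2, e3, e4, lag, ell, smul_tr2, chr_smul, smul_chr, smul_smul,
    mul_inv_cancel₀ hc, one_smul]
  field_simp

/-- densities in vertex units and scalars on the atlas -/
theorem conv (h : T.Ok) (hL : T.Long L) {G : T.S → MetricField 4} {f f' : T.S → E4 → ℝ}
    (e : ∀ s, ∀ x ∈ U1 T L s, √(G s x).det * f' s x = ep T L s ^ 2 * f s x) :
    ((gl1 T L).Intg T.χ G f' ↔ IntL T L f) ∧ intL T L f = (gl1 T L).int T.χ G f' := by
  have hA := gl1_ok h hL
  have k : ∀ s, ∀ x ∈ U1 T L s, (gl1 T L).den T.χ G s x * f' s x =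
      (ep T L s ^ 2 * (Nat.card (T.grp s) : ℝ)⁻¹) * (T.χ s ((T.glob L).c s x) * f s x) := by
    intro s x hx
    rw [Atl.den, mul_assoc, mul_assoc, e s x hx]
    change (Nat.card (T.grp s) : ℝ)⁻¹ * (T.χ s ((T.glob L).c s x) * _) = _
    ring
  refine ⟨forall_congr' fun s => ?_, Finset.sum_congr rfl fun s _ => ?_⟩
  · have c : IsUnit (ep T L s ^ 2 * (Nat.card (T.grp s) : ℝ)⁻¹) :=
      (mul_pos (pow_pos (TD.eps_pos L _) 2) (inv_pos.2 (Atl.card_pos hA s))).ne'.isUnit
    exact (integrableOn_congr_fun (k s) (hA.isOpen s).measurableSet).trans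
      (integrable_const_mul_iff c _)
  · rw [setIntegral_congr_fun (hA.isOpen s).measurableSet (k s), integral_const_mul, mul_assoc]
    rfl

theorem sec_omE {X : Type*} {α : Type} {A : Atl X α} (h : A.Ok) {B G : α → MetricField 4}
    (hB : A.IsMet B) (hG : A.IsMet G) : A.Sec fun s => omE (B s) (G s) := by
  refine ⟨fun s => smT_omE (hB.riem s) (hG.riem s), fun a b x F t => ?_⟩
  obtain ⟨V, h1, h2, h3, -⟩ := t.exists_nbhd h
  exact rel_omE (hG.pull h h1 h3) (hB.pull h h1 h3) x h2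

theorem omE_congr {B B' : MetricField 4} (G : MetricField 4) {x : E4} (e : B =ᶠ[𝓝 x] B') :
    omE B G x = omE B' G x := by
  have h1 := (gauT_congr e (EventuallyEq.rfl (f := G))).eq_of_nhds
  have h2 := (cov_congr e (EventuallyEq.rfl (f := matT G))).eq_of_nhds
  funext I
  simp only [omE, Pi.sub_apply, Pi.smul_apply, h1, vTT, trT, prmT, h2]

theorem ev_far {Y : Type*} {f f' : E4 → Y} {R : ℝ} (h : ∀ x : E4, R ≤ ‖x‖ → f x = f' x) {x : E4}
    (hx : R < ‖x‖) : f =ᶠ[𝓝 x] f' := by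
  filter_upwards [(isOpen_lt continuous_const continuous_norm).mem_nhds hx] with y hy
    using h y (le_of_lt hy)

theorem lagF_rt (b H : Fam T) (s : T.S) (x : E4) :
    √(rt T L H s x).det * lagS (rt T L b s) (rt T L H s) x = ep T L s ^ 2 * lagF (b s) (H s) x :=
  lagF_smul (N207.M.eps2_ne L _) (N207.M.eps2_ne L _) (b s) (H s) x

theorem act2 (h : T.Ok) (hL : T.Long L) {b b' H : Fam T} (hb : Met1 T L b) (hb' : Met1 T L b')
    (hH : Met1 T L H)
    (hR : ∃ R : ℝ, ∀ x : E4, R ≤ ‖x‖ → b (Sum.inr T.root) x = b' (Sum.inr T.root) x) :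
    IntL T L (fun s x => lagF (b s) (H s) x - lagF (b' s) (H s) x) ∧
      intL T L (fun s x => lagF (b s) (H s) x - lagF (b' s) (H s) x) = 0 := by
  obtain ⟨R, hR⟩ := hR
  have hA := gl1_ok h hL
  have s1 := sec_omE hA hb hH
  have s2 := sec_omE hA hb' hH
  have hW := s2.sub s1
  obtain ⟨S, h1, h2⟩ := cs_of_far h hL hW.compat (R := R) fun x hx => by
    refine sub_eq_zero.2 (omE_congr _ (ev_far (fun y hy => ?_) hx))
    simp only [rt, hR y hy]
  have d := Atl.int_div hA hH (gl1_pou h hL) hW h1 h2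
  have c := conv h hL (G := rt T L H) (f := fun s x => lagF (b s) (H s) x - lagF (b' s) (H s) x)
    (f' := fun s x => divT (rt T L H s) (((fun s => omE (rt T L b' s) (rt T L H s)) -
      fun s => omE (rt T L b s) (rt T L H s)) s) x ![]) fun s x hx => by
      have e1 := eh_div (Atl.IsMet.riem hb s) (Atl.IsMet.riem hH s) hx
      have e2 := eh_div (Atl.IsMet.riem hb' s) (Atl.IsMet.riem hH s) hx
      rw [Pi.sub_apply, divT_sub (s2.dfT hA hx) (s1.dfT hA hx), Pi.sub_apply, mul_sub (_ ^ 2),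
        ← lagF_rt, ← lagF_rt, ← mul_sub]
      congr 1
      linarith
  exact ⟨c.1.1 d.1, c.2.trans d.2⟩

/-- decay of the Lagrangian and of the flux of the flat metric -/
theorem far_bd {b : MetricField 4} (hb : Dec (5 / 2) fun x => b x - 1) :
    ∃ C R : ℝ, ∀ x : E4, R ≤ ‖x‖ →
      |lag (sq (fun _ => 1) x) (iv (fun _ => 1) x) (TG b (fun _ => 1) x) 0| ≤ C * ‖x‖ ^ (-7 : ℝ) ∧
      ∀ c, |fluxF b (fun _ => 1) c x| ≤ C * ‖x‖ ^ (-(7 / 2) : ℝ) := by
  obtain ⟨C, R, hb⟩ := hb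
  set l : Filter E4 := comap norm atTop with hl
  have hP : Cl fun f : E4 → ℝ => f =O[l] fun _ => (1 : ℝ) :=
    ⟨fun c => isBigO_const_one ℝ c l, IsBigO.add, fun h1 h2 => by simpa using h1.mul h2⟩
  have ev : ∀ R : ℝ, ∀ᶠ x in l, R ≤ ‖x‖ := fun R => tendsto_comap.eventually_ge_atTop R
  have t1 : Tendsto b l (𝓝 1) := by
    refine tendsto_pi_nhds.2 fun a => tendsto_pi_nhds.2 fun c =>
      tendsto_iff_norm_sub_tendsto_zero.2 (squeeze_zero' (Eventually.of_forall fun _ => norm_nonneg _)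
        ((ev R).mono fun x hx => (hb x hx a c).1) ?_)
    simpa only [mul_zero, Function.comp] using (((tendsto_rpow_neg_atTop (y := 5 / 2) (by norm_num)).comp
      (tendsto_comap (f := fun x : E4 => ‖x‖))).const_mul C)
  have t2 : Tendsto (fun x => (b x)⁻¹) l (𝓝 (1 : Matrix (Fin 4) (Fin 4) ℝ)⁻¹) :=
    (continuousAt_matrix_inv (1 : Matrix (Fin 4) (Fin 4) ℝ) (by
      rw [Matrix.det_one]; exact NormedRing.inverse_continuousAt (1 : ℝˣ))).tendsto.comp t1
  have pH : P2 (fun f : E4 → ℝ => f =O[l] fun _ => (1 : ℝ)) (iv b) := fun a c =>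
    (tendsto_pi_nhds.1 (tendsto_pi_nhds.1 t2 a) c).isBigO_one ℝ
  set N : E4 → M3 (Fin 4) ℝ := fun x => ‖x‖ ^ (7 / 2 : ℝ) • jet b x with hN
  have pN : P3 (fun f : E4 → ℝ => f =O[l] fun _ => (1 : ℝ)) N := fun c a e => by
    refine IsBigO.of_bound C ?_
    filter_upwards [ev R, ev 1] with x hx h1
    have x0 : 0 < ‖x‖ := by linarith
    have h2 := (hb x hx a e).2
    simp only [Matrix.sub_apply, fderiv_sub_const] at h2
    have h3 := mul_le_mul_of_nonneg_left ((abs_pd_le _ x c).trans h2)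
      (Real.rpow_nonneg x0.le (7 / 2))
    rw [mul_left_comm, ← Real.rpow_add x0] at h3
    norm_num at h3
    simpa [hN, jet, abs_mul, abs_of_nonneg (Real.rpow_nonneg x0.le _)] using h3
  set T0 : E4 → M3 (Fin 4) ℝ := fun x =>
    bar (fun a c => (1 : Matrix (Fin 4) (Fin 4) ℝ) a c) 0 (chr (iv b x) (N x)) with hT0
  have pT : P3 (fun f : E4 → ℝ => f =O[l] fun _ => (1 : ℝ)) T0 :=
    hP.bar (fun _ _ => hP.const _) (fun _ _ _ => hP.const _) (hP.chr pH pN)
  have ps : (sq (fun _ => 1) : E4 → ℝ) =O[l] fun _ => (1 : ℝ) := hP.const √(Matrix.det 1)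
  have pI : P2 (fun f : E4 → ℝ => f =O[l] fun _ => (1 : ℝ)) (iv fun _ => 1) := fun a c =>
    hP.const ((1 : Matrix (Fin 4) (Fin 4) ℝ)⁻¹ a c)
  obtain ⟨C1, h1⟩ := (hP.lag (ρ := fun _ => 0) ps pI pT fun _ _ => hP.const 0).bound
  choose C2 h2 using fun c => (hP.flux ps pI pT c).bound
  obtain ⟨R', hR'⟩ := eventually_atTop.1
    (eventually_comap.1 (h1.and ((eventually_all.2 h2).and (ev 1))))
  refine ⟨|C1| + ∑ c, |C2 c|, R', fun x hx => ?_⟩
  obtain ⟨a1, a2, a3⟩ := hR' _ hx x rfl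
  have x0 : 0 < ‖x‖ := by linarith
  have s0 : 0 ≤ ∑ c, |C2 c| := Finset.sum_nonneg fun _ _ => abs_nonneg _
  have tp : 0 < ‖x‖ ^ (-(7 / 2) : ℝ) := Real.rpow_pos_of_pos x0 _
  have e : TG b (fun _ => 1) x = ‖x‖ ^ (-(7 / 2) : ℝ) • T0 x := by
    have e1 : jet b x = ‖x‖ ^ (-(7 / 2) : ℝ) • N x := by
      rw [hN, smul_smul, ← Real.rpow_add x0]; norm_num
    rw [TG_eq, jet_const, chr_eq, e1, chr_smul, hT0, ← bar_hom, smul_zero]
  simp only [norm_one, mul_one, Real.norm_eq_abs] at a1 a2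
  refine ⟨?_, fun c => ?_⟩
  · have e2 : (‖x‖ ^ (-(7 / 2) : ℝ)) ^ 2 = ‖x‖ ^ (-7 : ℝ) := by
      rw [pow_two, ← Real.rpow_add x0]; norm_num
    rw [e, ← smul_zero (A := M2 (Fin 4) ℝ) ((‖x‖ ^ (-(7 / 2) : ℝ)) ^ 2), lag_hom, abs_mul, e2,
      abs_of_pos (Real.rpow_pos_of_pos x0 _), mul_comm]
    exact mul_le_mul_of_nonneg_right (by linarith [le_abs_self C1]) (Real.rpow_nonneg x0.le _)
  · have e2 : fluxF b (fun _ => 1) c x = ‖x‖ ^ (-(7 / 2) : ℝ) *
        flux (sq (fun _ => 1) x) (iv (fun _ => 1) x) (T0 x) c := by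
      simp only [fluxF, e, flux, chr_smul, fl, Pi.smul_apply, smul_eq_mul,
        mul_left_comm _ (‖x‖ ^ (-(7 / 2) : ℝ)), ← Finset.mul_sum, ← mul_sub]
    rw [e2, abs_mul, abs_of_pos tp, mul_comm]
    refine mul_le_mul_of_nonneg_right ((a2 c).trans ((le_abs_self _).trans ?_)) tp.le
    linarith [Finset.single_le_sum (f := fun c => |C2 c|) (fun _ _ => abs_nonneg _)
      (Finset.mem_univ c), abs_nonneg C1]

theorem act1 (h : T.Ok) (hL : T.Long L) {b : Fam T} {G : T.S → MetricField 4} (hb : Met1 T L b)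
    (hd : DecR T (5 / 2) b) (hr : RicF T b) (hG : (T.glob L).IsMet G) (hF : Sk.Flat T G) :
    IntL T L (fun s => lagF (b s) (T.nrm L G s)) ∧
      intL T L (fun s => lagF (b s) (T.nrm L G s)) = Sk.SR T L G := by
  have hA := gl1_ok h hL
  have G1 : (gl1 T L).IsMet G :=
    ⟨fun s => riemOn_mono (hG.riem s) (U1_open s) (U1_U h s), Ga.res_compat (U1_U h) hG.compat⟩
  obtain ⟨R1, hF⟩ := hF
  obtain ⟨R2, hr⟩ := hr
  obtain ⟨C, R3, hd⟩ := far_bd hd
  have eG : rt T L (T.nrm L G) = G := by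
    funext s x; exact smul_inv_smul₀ (N207.M.eps2_ne L _) _
  have eb : rt T L b (Sum.inr T.root) = b (Sum.inr T.root) := by
    funext x
    have : ep T L (Sum.inr T.root) = 1 := h.eps_root L
    simp only [rt, this, one_pow, one_smul]
  have far : ∀ x : E4, R1 + 1 ≤ ‖x‖ → G (Sum.inr T.root) =ᶠ[𝓝 x] fun _ => 1 := fun x hx =>
    ev_far hF (by linarith)
  have iS : (gl1 T L).Intg T.χ G fun s => scalarCurv (G s) :=
    intg_of_dec h hL G1 (fun s => (sm_scal (G1.riem s)).continuousOn) (q := 5) (C := 0)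
      (R := R1 + 1) (by norm_num) fun x hx => by
        simp [scalarCurv, ricci_congr (far x hx), ricci_const]
  have iL : (gl1 T L).Intg T.χ G fun s => lagS (rt T L b s) (G s) :=
    intg_of_dec h hL G1 (fun s => (sm_lagS (Atl.IsMet.riem hb s) (G1.riem s)).continuousOn)
      (q := 7) (C := C) (R := max (R1 + 1) (max R2 R3)) (by norm_num) fun x hx => by
        simp only [max_le_iff] at hx
        have e : ricci (b (Sum.inr T.root)) x = 0 := funext fun i => funext fun j => hr x hx.2.1 i j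
        change |lagF _ _ x| ≤ _
        rw [eb, (lagF_congr EventuallyEq.rfl (far x hx.1)).eq_of_nhds, lagF, e]
        exact (hd x hx.2.2).1
  have sW := sec_omE hA hb G1
  have eD : ∀ s, ∀ x ∈ (gl1 T L).U s, divT (G s) (omE (rt T L b s) (G s)) x ![] =
      scalarCurv (G s) x - lagS (rt T L b s) (G s) x := fun s x hx => by
    rw [eh_div (Atl.IsMet.riem hb s) (G1.riem s) hx]; ring
  have z := int_div_dec h hL G1 sW (p := 7 / 2) (C := C) (R := max (R1 + 1) (max 2 R3))
    (by norm_num) (fun x hx i => by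
      simp only [max_le_iff] at hx
      have f1 := far x hx.1
      rw [← fluxF_eq _ (g_sy_ev (G1.riem _) (mem_root hx.2.1)), eb, fluxF,
        (sq_congr f1).eq_of_nhds, (iv_congr f1).eq_of_nhds,
        (TG_congr EventuallyEq.rfl f1).eq_of_nhds]
      exact (hd x hx.2.2).2 i) ((iS.sub iL).congr hA eD)
  rw [Atl.int_congr hA eD, Atl.int_sub iS iL, sub_eq_zero] at z
  have c := conv h hL (G := G) (f := fun s => lagF (b s) (T.nrm L G s))
    (f' := fun s => lagS (rt T L b s) (G s)) fun s x _ => by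
      have := lagF_rt (L := L) b (T.nrm L G) s x
      rwa [eG] at this
  refine ⟨c.1.1 iL, c.2.trans (z.symm.trans (Finset.sum_congr rfl fun s _ => ?_))⟩
  refine (setIntegral_eq_of_subset_of_forall_sdiff_eq_zero
    ((h.glob_ok hL).isOpen s).measurableSet (U1_U h s) fun x hx => ?_).symm
  have := chi_zero h hL s hx.1 fun e => hx.2 (K1_U1 h s (gK_K1 h s e))
  change (T.glob L).den T.χ G s x * _ = 0
  simp [Atl.den, this]

end Ac

theorem act {M : Type*} {T : TD M} (h : T.Ok) : ACT T := fun _ hL =>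
  ⟨fun _ _ hb hd hr hG hF => Ac.act1 h hL hb hd hr hG hF,
    fun _ _ _ hb hb' hH hR => Ac.act2 h hL hb hb' hH hR⟩

end Crest.Agent.N207.NS

end
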