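import Crest.Agent.N207.N.St3
import Crest.Agent.N207.Ga.Glue

/-!
# Row 207, block N (helper98): the leaves `CHI` and `VOL`
-/

set_option autoImplicit false

open scoped ContDiff Topology
open Metric Set Filter MeasureTheory
open Crest.GeometryTopology.CoordMetric
open Crest.Agent.N207.I Crest.Agent.N207.Lg Crest.Agent.N207.CB

noncomputable section

namespace Crest.Agent.N207.NS

variable {M : Type*} {T : TD M} {L : T.V → ℝ}

theorem mem_K1_inl {a : T.B} {x : E4} : x ∈ K1 T L (Sum.inl a) ↔ ‖x‖ ≤ 49 / 32 :=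
  mem_closedBall_zero_iff

theorem mem_U1_inl {a : T.B} {x : E4} : x ∈ U1 T L (Sum.inl a) ↔ ‖x‖ < 25 / 16 := mem_ball_zero_iff

theorem mem_W1_inl {a : T.B} {x : E4} : x ∈ W1 T L (Sum.inl a) ↔ ‖x‖ < 13 / 8 := mem_ball_zero_iff

theorem isOpen_imp (a b : ℝ) (P : Prop) : IsOpen {x : E4 | a < ‖x‖ ∧ (P → ‖x‖ < b)} := by
  by_cases h : P
  · simp only [h, forall_const]
    exact (isOpen_lt continuous_const continuous_norm).inter (isOpen_lt continuous_norm continuous_const)
  · simp only [h, false_imp_iff, and_true]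
    exact isOpen_lt continuous_const continuous_norm

theorem isClosed_imp (a b : ℝ) (P : Prop) : IsClosed {x : E4 | a ≤ ‖x‖ ∧ (P → ‖x‖ ≤ b)} := by
  by_cases h : P
  · simp only [h, forall_const]
    exact (isClosed_le continuous_const continuous_norm).inter
      (isClosed_le continuous_norm continuous_const)
  · simp only [h, false_imp_iff, and_true]
    exact isClosed_le continuous_const continuous_norm

theorem U1_open (s : T.S) : IsOpen (U1 T L s) := by
  cases s
  exacts [isOpen_ball, isOpen_imp _ _ _]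

theorem W1_open (s : T.S) : IsOpen (W1 T L s) := by
  cases s
  exacts [isOpen_ball, isOpen_imp _ _ _]

theorem gK_closed (s : T.S) : IsClosed (T.gK L s) := by
  cases s
  exacts [isClosed_closedBall, isClosed_imp _ _ _]

theorem K1_closed (s : T.S) : IsClosed (K1 T L s) := by
  cases s
  exacts [isClosed_closedBall, isClosed_imp _ _ _]

theorem K1_cpt {s : T.S} (hs : s ≠ Sum.inr T.root) : IsCompact (K1 T L s) := by
  cases s with
  | inl a => exact isCompact_closedBall _ _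
  | inr w =>
    exact (isCompact_closedBall (0 : E4) _).of_isClosed_subset (K1_closed _) fun x hx =>
      mem_closedBall_zero_iff.2 (hx.2 fun e => hs (congrArg _ e))

theorem gK_K1 (h : T.Ok) (s : T.S) : T.gK L s ⊆ K1 T L s := fun x hx => by
  cases s with
  | inl a => rw [TD.mem_gK_inl] at hx; rw [mem_K1_inl]; linarith
  | inr w =>
    have := mul_pos h.r_pos (Real.exp_pos (L w))
    exact ⟨by linarith [hx.1], fun hw => by linarith [hx.2 hw]⟩

theorem K1_U1 (h : T.Ok) (s : T.S) : K1 T L s ⊆ U1 T L s := fun x hx => by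
  cases s with
  | inl a => rw [mem_K1_inl] at hx; rw [mem_U1_inl]; linarith
  | inr w =>
    have := mul_pos h.r_pos (Real.exp_pos (L w))
    exact ⟨by linarith [hx.1], fun hw => by linarith [hx.2 hw]⟩

theorem U1_W1 (h : T.Ok) (s : T.S) : U1 T L s ⊆ W1 T L s := fun x hx => by
  cases s with
  | inl a => rw [mem_U1_inl] at hx; rw [mem_W1_inl]; linarith
  | inr w =>
    have := mul_pos h.r_pos (Real.exp_pos (L w))
    exact ⟨by linarith [hx.1], fun hw => by linarith [hx.2 hw]⟩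

theorem W1_gU (s : T.S) : W1 T L s ⊆ Ga.gU T L 1 s := fun x hx => by
  cases s with
  | inl a => rw [mem_W1_inl] at hx; rw [Ga.mem_gU_inl]; linarith
  | inr w => exact ⟨by linarith [hx.1], fun hw => by linarith [hx.2 hw]⟩

theorem W1_U (h : T.Ok) (s : T.S) : W1 T L s ⊆ (T.glob L).U s :=
  (W1_gU s).trans (Ga.gU_sub h le_rfl s)

theorem U1_U (h : T.Ok) (s : T.S) : U1 T L s ⊆ (T.glob L).U s := (U1_W1 h s).trans (W1_U h s)

theorem gl1_ok (h : T.Ok) (hL : T.Long L) : (gl1 T L).Ok :=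
  Ga.res_ok (h.glob_ok hL) U1_open (U1_U h) fun s γ _ x hx => by
    cases s with
    | inl a => rw [mem_U1_inl] at hx ⊢; rwa [γ.norm_map]
    | inr w => exact ⟨γ.norm_map x ▸ hx.1, γ.norm_map x ▸ hx.2⟩

theorem gl1_pou (h : T.Ok) (hL : T.Long L) : (gl1 T L).PoU T.χ (T.gK L) :=
  Ga.res_pou (h.glob_pou hL) (U1_U h) fun s => (gK_K1 h s).trans (K1_U1 h s)

theorem one_le_scl (s : T.S) {x : E4} (hx : x ∈ (T.glob L).U s) : 1 ≤ scl T s x := by
  cases s
  exacts [le_rfl, hx.1.le]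

theorem lng_exp (h : T.Ok) {c : ℝ} (hL : Lng T (c / T.r) L) {w : T.V} (hw : w ≠ T.root) :
    c ≤ T.r * Real.exp (L w) := by
  have h1 := (div_le_iff₀' h.r_pos).1 (hL w hw)
  nlinarith [Real.add_one_le_exp (L w), h.r_pos]

theorem chi_le (h : T.Ok) (hL : T.Long L) (s s' : T.S) {x : E4} (hx : x ∈ (T.glob L).U s) :
    T.χ s' ((T.glob L).c s x) ≤ 1 :=
  (h.glob_pou hL).sum s x hx ▸ Finset.single_le_sum (f := fun a => T.χ a ((T.glob L).c s x))
    (fun _ _ => TD.χ_nonneg _ _) (Finset.mem_univ s')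

theorem chi_zero (h : T.Ok) (hL : T.Long L) (s : T.S) {x : E4} (hx : x ∈ (T.glob L).U s)
    (hx' : x ∉ T.gK L s) : T.χ s ((T.glob L).c s x) = 0 := by
  by_contra h0
  obtain ⟨y, hy, e⟩ := (h.glob_pou hL).supp s s x hx h0
  obtain ⟨γ, -, rfl⟩ := ((h.glob_ok hL).fib s y ((h.glob_pou hL).sub s hy) x hx).1 e
  refine hx' ?_
  cases s with
  | inl a => rw [TD.mem_gK_inl] at hy ⊢; rwa [γ.norm_map]
  | inr w => exact ⟨γ.norm_map y ▸ hy.1, γ.norm_map y ▸ hy.2⟩

theorem chi_mid (h : T.Ok) (hL : T.Long L) {w : T.V} {x : E4} (h1 : 3 < ‖x‖)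
    (h2 : w ≠ T.root → ‖x‖ < T.r / 3 * Real.exp (L w)) :
    fderiv ℝ (fun y => T.χ (Sum.inr w) ((T.glob L).c (Sum.inr w) y)) x = 0 := by
  have : (fun y => T.χ (Sum.inr w) ((T.glob L).c (Sum.inr w) y)) =ᶠ[𝓝 x] fun _ => 1 := by
    filter_upwards [(isOpen_imp _ _ _).mem_nhds (show x ∈ {x : E4 | 3 < ‖x‖ ∧ _} from ⟨h1, h2⟩)]
      with y hy
    rw [h.glob_χ_mid hL hy.1.le fun hw => (hy.2 hw).le, if_pos rfl]
  rw [this.fderiv_eq, fderiv_fun_const]; rfl

theorem fd_bd {f : E4 → ℝ} {U K : Set E4} (hU : IsOpen U) (hf : ContDiffOn ℝ ∞ f U)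
    (hK : IsCompact K) (hKU : K ⊆ U) : ∃ B, 0 ≤ B ∧ ∀ x ∈ K, ‖fderiv ℝ f x‖ ≤ B := by
  obtain ⟨B, hB⟩ := hK.exists_bound_of_continuousOn
    ((hf.continuousOn_fderiv_of_isOpen hU (by simp)).mono hKU)
  exact ⟨|B|, abs_nonneg _, fun x hx => (hB x hx).trans (le_abs_self _)⟩

theorem chi_fd (h : T.Ok) (s : T.S) : ∃ C, ∀ L, T.Long L → ∀ x ∈ U1 T L s,
    scl T s x * ‖fderiv ℝ (fun y => T.χ s ((T.glob L).c s y)) x‖ ≤ C := by
  have hr := h.r_pos
  cases s with
  | inl a =>
    obtain ⟨B, -, hB⟩ := fd_bd ((h.core_ok (T.vx a)).isOpen _) ((h.core_pou _).sm (Sum.inl a) _)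
      (isCompact_closedBall 0 (25 / 16)) fun x hx => TD.mem_core_inl.2
        ⟨rfl, by linarith [mem_closedBall_zero_iff.1 hx]⟩
    exact ⟨B, fun L _ x hx => (one_mul _).trans_le (hB x (ball_subset_closedBall hx))⟩
  | inr w =>
    obtain ⟨B, hB0, hB⟩ := fd_bd ((h.core_ok w).isOpen _) ((h.core_pou _).sm (Sum.inr w) _)
      (Hd.isCompact_An (45 / 32) 3) fun x hx => TD.mem_core_out.2 (by linarith [hx.1])
    obtain ⟨B', hB0', hB'⟩ : ∃ B, 0 ≤ B ∧ (w ≠ T.root → ∀ x ∈ Hd.An (T.r / 3) (25 / 32 * T.r),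
        DifferentiableAt ℝ (fun y => T.χ (Sum.inr w) ((T.core (T.par w)).c (Sum.inr w) y)) x ∧
        ‖fderiv ℝ (fun y => T.χ (Sum.inr w) ((T.core (T.par w)).c (Sum.inr w) y)) x‖ ≤ B) := by
      by_cases hw : w = T.root
      · exact ⟨0, le_rfl, fun h' => absurd hw h'⟩
      · have h1 : Hd.An (T.r / 3) (25 / 32 * T.r) ⊆ (T.core (T.par w)).U (Sum.inr w) := fun x hx =>
          (TD.mem_core_inn (h.par_ne hw)).2 ⟨⟨hw, rfl⟩, by linarith [hx.1], by linarith [hx.2]⟩
        have h2 := (h.core_pou (T.par w)).sm (Sum.inr w) (Sum.inr w)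
        have h3 := (h.core_ok (T.par w)).isOpen (Sum.inr w)
        obtain ⟨B, a1, a2⟩ := fd_bd h3 h2 (Hd.isCompact_An _ _) h1
        exact ⟨B, a1, fun _ x hx =>
          ⟨(h2.contDiffAt (h3.mem_nhds (h1 hx))).differentiableAt (by simp), a2 x hx⟩⟩
    refine ⟨3 * B + B', fun L hL x hx => ?_⟩
    change ‖x‖ * _ ≤ _
    by_cases h1 : ‖x‖ ≤ 3
    · have e : (fun y => T.χ (Sum.inr w) ((T.glob L).c (Sum.inr w) y)) =ᶠ[𝓝 x]
          fun y => T.χ (Sum.inr w) ((T.core w).c (Sum.inr w) y) := by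
        filter_upwards [continuous_norm.continuousAt.eventually
          (gt_mem_nhds (show ‖x‖ < 4 by linarith))] with y hy
        rw [TD.glob_eq_out fun hw => by linarith [hL w hw]]
      rw [e.fderiv_eq]
      linarith [mul_le_mul h1 (hB x ⟨hx.1.le, h1⟩) (norm_nonneg _) (by norm_num)]
    by_cases h2 : w ≠ T.root → ‖x‖ < T.r / 3 * Real.exp (L w)
    · rw [chi_mid h hL (not_le.1 h1) h2, norm_zero, mul_zero]; positivity
    · push Not at h2
      obtain ⟨hw, h2⟩ := h2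
      have e : (fun y => T.χ (Sum.inr w) ((T.glob L).c (Sum.inr w) y)) =ᶠ[𝓝 x] fun y =>
          T.χ (Sum.inr w) ((T.core (T.par w)).c (Sum.inr w) (Real.exp (-L w) • y)) := by
        filter_upwards [continuous_norm.continuousAt.eventually
          (lt_mem_nhds (show 4 < ‖x‖ by linarith [hL w hw]))] with y hy
        rw [h.χ_glob_inn hL hw hy.le]
      have h3 := TD.nrm_exp_lt.2 (hx.2 hw)
      obtain ⟨a1, a2⟩ := hB' hw (Real.exp (-L w) • x) ⟨not_lt.1 fun h4 =>
        absurd (TD.nrm_exp_lt.1 h4) (not_lt.2 h2), h3.le⟩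
      have h4 : fderiv ℝ (fun y => T.χ (Sum.inr w) ((T.core (T.par w)).c (Sum.inr w)
          (Real.exp (-L w) • y))) x = _ :=
        (a1.hasFDerivAt.comp x ((hasFDerivAt_id x).const_smul (Real.exp (-L w)))).fderiv
      rw [e.fderiv_eq, h4]
      have h5 := (ContinuousLinearMap.opNorm_comp_le _ _).trans (mul_le_mul a2
        ((norm_smul_le (Real.exp (-L w)) (ContinuousLinearMap.id ℝ E4)).trans
          (mul_le_of_le_one_right (norm_nonneg _) ContinuousLinearMap.norm_id_le))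
        (norm_nonneg _) hB0')
      have h6 := mul_le_mul_of_nonneg_left h5 (norm_nonneg x)
      rw [norm_smul] at h3
      nlinarith [h.r_lt]

theorem meas_InK (v : T.V) (c : ℝ) (s : T.S) : MeasurableSet {x | InK T L v c s x} := by
  cases s with
  | inl a => exact MeasurableSet.const _
  | inr w =>
    have h1 : Measurable fun x : E4 => Real.log ‖x‖ := by fun_prop
    have h2 : Measurable fun x : E4 => -Real.log ‖Real.exp (-L w) • x‖ := by fun_prop
    exact ((MeasurableSet.const _).inter (measurableSet_le h1 measurable_const)).union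
      ((MeasurableSet.const _).inter (measurableSet_le h2 measurable_const))

theorem meas_Cor (c : ℝ) (s : T.S) : MeasurableSet (Cor T L c s) := by
  rw [Cor, ofPred_exists]
  exact MeasurableSet.iUnion fun v => meas_InK v c s

theorem not_Cor {c : ℝ} {s : T.S} {x : E4} (hx : x ∈ (T.glob L).U s) (hc : x ∉ Cor T L c s) :
    ∃ w, s = Sum.inr w ∧ Real.exp c < ‖x‖ ∧ (w ≠ T.root → ‖Real.exp (-L w) • x‖ < Real.exp (-c)) := by
  cases s with
  | inl a => exact absurd ⟨T.vx a, rfl⟩ hc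
  | inr w =>
    have h0 : 0 < ‖x‖ := by linarith [hx.1]
    refine ⟨w, rfl, (Real.lt_log_iff_exp_lt h0).1 (not_le.1 fun h => hc ⟨w, Or.inl ⟨rfl, h⟩⟩),
      fun hw => (Real.log_lt_iff_lt_exp (by rw [TD.nrm_exp]; positivity)).1 (not_le.1 fun h =>
        hc ⟨T.par w, Or.inr ⟨⟨hw, rfl⟩, by linarith⟩⟩)⟩

theorem six_lt_exp {c : ℝ} (hc : 2 ≤ c) : 6 < Real.exp c := by
  have h1 := Real.exp_one_gt_d9
  have h2 : Real.exp 1 * Real.exp 1 ≤ Real.exp c := by
    rw [← Real.exp_add]; exact Real.exp_le_exp.2 (by linarith)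
  nlinarith

/-- **leaf CHI** -/
theorem chi' (h : T.Ok) : CHI T := by
  choose C hC using chi_fd h
  obtain ⟨B, hB⟩ := (finite_range C).bddAbove
  refine ⟨|B| + 1, 16 / T.r, by positivity, fun L hL => ?_⟩
  have hL' : T.Long L := fun w hw => lng_exp h hL hw
  refine ⟨hL', gl1_ok h hL', gl1_pou h hL', fun s => ⟨gK_K1 h s, K1_U1 h s, U1_W1 h s, W1_U h s,
    gK_closed s, K1_closed s, W1_open s, K1_cpt, fun x hx => ⟨one_le_scl s (W1_U h s hx), ?_⟩,
    fun c => ⟨meas_Cor c s, fun x hx => ⟨chi_le h hL' s s (U1_U h s hx), by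
      linarith [hC s L hL' x hx, hB ⟨s, rfl⟩, le_abs_self B], fun h1 h2 h3 => ?_⟩⟩⟩⟩
  · obtain ⟨x0, h0, h1⟩ := Ga.gU_cell hL' one_pos (by norm_num) s (W1_gU s hx)
    rw [one_mul] at h1
    refine ⟨x0, h0, h1, ?_⟩
    cases s with
    | inl a => simp [scl]
    | inr w =>
      have h2 := norm_sub_norm_le x x0
      rw [mem_ball, dist_eq_norm] at h1
      simp only [scl, rad, Sum.elim_inr] at h1 ⊢
      linarith [norm_nonneg x0]
  · obtain ⟨w, rfl, a1, a2⟩ := not_Cor (U1_U h s hx) h3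
    refine ⟨chi_mid h hL' (by linarith [six_lt_exp h1]) fun hw =>
      TD.nrm_exp_lt.1 (by linarith [a2 hw, h.r_pos]), w, rfl, ?_⟩
    have e : Real.exp (-c / 2) = Real.exp c ^ (-(1 / 2) : ℝ) := by
      rw [← Real.exp_mul]; congr 1; ring
    have e' : Real.exp (-c / 2) = Real.exp (-c) ^ (1 / 2 : ℝ) := by
      rw [← Real.exp_mul]; congr 1; ring
    have b1 := Real.rpow_le_rpow_of_nonpos (Real.exp_pos c) a1.le (show (-(1 / 2) : ℝ) ≤ 0 by norm_num)
    unfold TD.wt
    split_ifs with hw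
    · linarith [Real.exp_pos (-c / 2)]
    · have b2 := a2 hw
      rw [norm_smul, Real.norm_of_nonneg (Real.exp_pos _).le] at b2
      linarith [Real.rpow_le_rpow (by positivity) b2.le (show (0 : ℝ) ≤ 1 / 2 by norm_num)]

theorem chi {g : T.V → Fam T} (h : Std T g) : CHI T := chi' h.ok

theorem vol_sub {S : Set E4} {R : ℝ} (hR : 0 ≤ R) (h : ∀ x ∈ S, ‖x‖ ≤ R) :
    IntegrableOn (fun _ => (1 : ℝ)) S ∧
      (volume S).toReal ≤ R ^ 4 * (volume (closedBall (0 : E4) 1)).toReal := by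
  have h1 : volume S ≤ volume (closedBall (0 : E4) R) :=
    measure_mono fun x hx => mem_closedBall_zero_iff.2 (h x hx)
  refine ⟨integrableOn_const (h1.trans_lt measure_closedBall_lt_top).ne,
    (ENNReal.toReal_mono measure_closedBall_lt_top.ne h1).trans_eq ?_⟩
  rw [Measure.addHaar_closedBall' _ _ hR, ENNReal.toReal_mul, ENNReal.toReal_ofReal (by positivity)]
  simp

/-- **leaf VOL** -/
theorem vol' (h : T.Ok) : VOL T := fun c => by
  obtain ⟨b, hb⟩ : ∃ b, b = (volume (closedBall (0 : E4) 1)).toReal := ⟨_, rfl⟩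
  have b0 : 0 ≤ b := hb ▸ ENNReal.toReal_nonneg
  have p1 := Real.exp_pos c
  have p2 : 0 < Real.exp c ^ 2 := by positivity
  have p4 : 0 < Real.exp c ^ 4 := by positivity
  obtain ⟨C, c1, c2, c3, c4⟩ : ∃ C : ℝ, 1 ≤ C ∧ Real.exp c ^ 2 ≤ C ∧ 6 * b ≤ C ∧
      Real.exp c ^ 4 * b ≤ C := ⟨(b + 1) * (6 + Real.exp c ^ 2 + Real.exp c ^ 4), by nlinarith,
        by nlinarith, by nlinarith, by nlinarith⟩
  refine ⟨C, 2 * c + 1, by linarith, fun L hL v => ⟨fun s => ⟨meas_InK v c s, ?_⟩,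
    fun X _ s x hx => ?_⟩⟩
  · have pe := TD.eps_pos L v
    have one : T.un s = v → ep T L s = T.eps L v ∧ sr T L v s = 1 := fun e => by
      simp only [sr, ep, e, div_self pe.ne', one_pow, and_self]
    have fin : ∀ R : ℝ, 0 ≤ R → (∀ x ∈ T.gK L s, InK T L v c s x → ‖x‖ ≤ R) →
        ep T L s ^ 2 * (sr T L v s * (R ^ 4 * b)) ≤ C * T.eps L v ^ 2 →
        IntegrableOn (fun _ => (1 : ℝ)) (T.gK L s ∩ {x | InK T L v c s x}) ∧
        ep T L s ^ 2 * (sr T L v s * (volume (T.gK L s ∩ {x | InK T L v c s x})).toReal) ≤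
          C * T.eps L v ^ 2 := fun R h1 h2 h3 => by
      obtain ⟨a1, a2⟩ := vol_sub (S := T.gK L s ∩ {x | InK T L v c s x}) h1 fun x hx => h2 x hx.1 hx.2
      refine ⟨a1, le_trans ?_ h3⟩
      rw [hb]
      exact mul_le_mul_of_nonneg_left (mul_le_mul_of_nonneg_left a2 (sq_nonneg _)) (sq_nonneg _)
    have emp : (∀ x, ¬ InK T L v c s x) → _ := fun h0 =>
      fin 0 le_rfl (fun x _ hx => absurd hx (h0 x)) (by simp; positivity)
    rw [← and_assoc]
    cases s with
    | inl a =>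
      by_cases ha : T.vx a = v
      · obtain ⟨e1, e2⟩ := one ha
        refine ⟨fin (3 / 2) (by norm_num) (fun x hx _ => TD.mem_gK_inl.1 hx) (by
          rw [e1, e2]; nlinarith [sq_nonneg (T.eps L v)]), fun x _ _ => ?_⟩
        rw [e2]
        exact ⟨by simpa [scl] using c1, by simpa [scl] using c1, fun v' hv' => hv'.symm.trans ha⟩
      · exact ⟨emp fun _ => ha, fun x _ hx => absurd hx ha⟩
    | inr w =>
      have uq : ∀ x ∈ U1 T L (Sum.inr w), w ≠ T.root → Real.log ‖x‖ ≤ c →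
          ¬ -Real.log ‖Real.exp (-L w) • x‖ ≤ c := fun x hx hw h1 h2 => by
        rw [TD.nrm_exp, Real.log_div (by linarith [hx.1]) (Real.exp_pos _).ne', Real.log_exp] at h2
        linarith [hL w hw]
      have uq' : ∀ x ∈ U1 T L (Sum.inr w), InK T L v c (Sum.inr w) x →
          ∀ v', InK T L v' c (Sum.inr w) x → v' = v := by
        rintro x hx (⟨rfl, h1⟩ | ⟨h1, h2⟩) v' (⟨h3, h4⟩ | ⟨h3, h4⟩)
        exacts [h3.symm, absurd h4 (uq x hx h3.1 h1), absurd h2 (uq x hx h1.1 h4),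
          h3.2.symm.trans h1.2]
      by_cases hw : w = v
      · obtain ⟨e1, e2⟩ := one hw
        have k : ∀ x : E4, 1 < ‖x‖ → InK T L v c (Sum.inr w) x → ‖x‖ ≤ Real.exp c := by
          rintro x h1 (h2 | h2)
          exacts [(Real.log_le_iff_le_exp (by linarith)).1 h2.2, absurd hw (h.kid_ne h2.1)]
        refine ⟨fin _ p1.le (fun x hx => k x (by linarith [hx.1])) (by
          rw [e1, e2]; nlinarith [sq_nonneg (T.eps L v)]), fun x hx hk => ?_⟩
        have h1 : 1 < ‖x‖ := by linarith [hx.1]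
        have h2 := pow_le_pow_left₀ (norm_nonneg _) (k x h1 hk) 2
        rw [e2, one_mul]
        exact ⟨h2.trans c2, one_le_mul_of_one_le_of_one_le c1 (one_le_pow₀ h1.le), uq' x hx hk⟩
      by_cases hk : T.kid v w
      · have e1 : ep T L (Sum.inr w) = T.eps L v * Real.exp (-L w) := hk.2 ▸ h.eps_kid L hk.1
        have e2 : sr T L v (Sum.inr w) = Real.exp (-L w) ^ 2 := by
          rw [sr, e1, mul_div_cancel_left₀ _ pe.ne']
        have q := Real.exp_pos (L w)
        refine ⟨fin (Real.exp (L w)) q.le (fun x hx _ => by nlinarith [hx.2 hk.1, h.r_lt]) ?_,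
          fun x hx hk' => ?_⟩
        · have e3 : (T.eps L v * Real.exp (-L w)) ^ 2 * (Real.exp (-L w) ^ 2 *
              (Real.exp (L w) ^ 4 * b)) = b * T.eps L v ^ 2 := by rw [Real.exp_neg]; field_simp
          rw [e1, e2, e3]
          exact mul_le_mul_of_nonneg_right (by linarith) (sq_nonneg _)
        · have e3 : sr T L v (Sum.inr w) * scl T (Sum.inr w) x ^ 2 = ‖Real.exp (-L w) • x‖ ^ 2 := by
            rw [e2, norm_smul, Real.norm_of_nonneg (Real.exp_pos _).le, mul_pow]; rfl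
          have h1 := TD.nrm_exp_lt.2 (hx.2 hk.1)
          have h2 : 0 < ‖Real.exp (-L w) • x‖ := by
            rw [TD.nrm_exp]; exact div_pos (by linarith [hx.1]) q
          have h3 : Real.exp (-c) ≤ ‖Real.exp (-L w) • x‖ := (Real.le_log_iff_exp_le h2).1 (by
            linarith [(hk'.resolve_left fun h4 => hw h4.1).2])
          have h4 : 1 ≤ Real.exp c * ‖Real.exp (-L w) • x‖ := by
            rwa [Real.exp_neg, inv_le_iff_one_le_mul₀' p1] at h3
          rw [e3]
          refine ⟨(pow_le_one₀ h2.le (by linarith [h.r_lt, h.r_pos])).trans c1, ?_, uq' x hx hk'⟩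
          have h5 := one_le_pow₀ (n := 2) h4
          rw [mul_pow] at h5
          exact h5.trans (mul_le_mul_of_nonneg_right c2 (sq_nonneg _))
      · have h0 : ∀ x, ¬ InK T L v c (Sum.inr w) x := fun x hx => hx.elim (fun h1 => hw h1.1)
          fun h1 => hk h1.1
        exact ⟨emp h0, fun x _ hx => absurd hx (h0 x)⟩
  · cases s with
    | inl a => simp [loc, toL, (TD.mem_core_inl.1 hx).1]
    | inr w =>
      by_cases hw : w = v
      · simp [loc, toL, hw]
      · have h1 := (TD.mem_core_inn hw).1 hx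
        have e : Real.exp (-L w) • Real.exp (L w) • x = x := by
          rw [smul_smul, ← Real.exp_add, neg_add_cancel, Real.exp_zero, one_smul]
        simp only [loc, toL, Sum.elim_inr, if_neg hw, e, if_pos (And.intro h1.1 h1.2.2)]

theorem vol {g : T.V → Fam T} (h : Std T g) : VOL T := vol' h.ok

end Crest.Agent.N207.NS

end
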