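import Crest.Agent.N207.N.St3
import Crest.Agent.N207.I.Car3
import Crest.Agent.N207.I.Cal1
import Crest.Agent.N207.Lg.Nat

/-!
# Row 207, block N (helper26): shared kit for `grt`, `grl`, `thb`, `cmpg`
-/

set_option autoImplicit false

open scoped ContDiff Topology
open Metric Set Filter MeasureTheory
open Crest.GeometryTopology.CoordMetric
open Crest.Agent.N207.I Crest.Agent.N207.I.TD Crest.Agent.N207.Lg Crest.Agent.N207.CB

noncomputable section

namespace Crest.Agent.N207.NS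

variable {M : Type*} {T : TD M} {L : T.V → ℝ}

/-- the content of `CHI` at one `L` -/
structure Ch (T : TD M) (L : T.V → ℝ) : Prop where
  ok : T.Ok
  long : T.Long L
  ok1 : (gl1 T L).Ok
  pou1 : (gl1 T L).PoU T.χ (T.gK L)
  gK_K1 : ∀ s, T.gK L s ⊆ K1 T L s
  K1_U1 : ∀ s, K1 T L s ⊆ U1 T L s
  U1_W1 : ∀ s, U1 T L s ⊆ W1 T L s
  W1_U : ∀ s, W1 T L s ⊆ (T.glob L).U s
  cl_gK : ∀ s, IsClosed (T.gK L s)
  cl_K1 : ∀ s, IsClosed (K1 T L s)
  op_W1 : ∀ s, IsOpen (W1 T L s)
  cpt : ∀ s, s ≠ Sum.inr T.root → IsCompact (K1 T L s)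
  cell : ∀ s, ∀ x ∈ W1 T L s, 1 ≤ scl T s x ∧ ∃ x0 ∈ T.gK L s, x ∈ ball x0 (rad T s x0) ∧
    scl T s x ≤ 2 * scl T s x0

theorem CHI.ch (hC : CHI T) (h : T.Ok) : ∃ T1 : ℝ, ∀ L, Lng T T1 L → Ch T L := by
  obtain ⟨C, T1, -, hC⟩ := hC
  refine ⟨T1, fun L hL => ?_⟩
  obtain ⟨h1, h2, h3, h4⟩ := hC L hL
  exact ⟨h, h1, h2, h3, fun s => (h4 s).1, fun s => (h4 s).2.1, fun s => (h4 s).2.2.1,
    fun s => (h4 s).2.2.2.1, fun s => (h4 s).2.2.2.2.1, fun s => (h4 s).2.2.2.2.2.1,
    fun s => (h4 s).2.2.2.2.2.2.1, fun s => (h4 s).2.2.2.2.2.2.2.1,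
    fun s => (h4 s).2.2.2.2.2.2.2.2.1⟩

theorem Lng.mono {c c' : ℝ} (h : Lng T c L) (hc : c' ≤ c) : Lng T c' L :=
  fun w hw => hc.trans (h w hw)

theorem InK.mono {v : T.V} {c c' : ℝ} {s : T.S} {x : E4} (h : InK T L v c s x) (hc : c ≤ c') :
    InK T L v c' s x := by
  rcases s with a | w
  · exact h
  · exact Or.imp (fun h => ⟨h.1, h.2.trans hc⟩) (fun h => ⟨h.1, h.2.trans hc⟩) h

theorem ep_pos (L : T.V → ℝ) (s : T.S) : 0 < ep T L s := eps_pos L _

theorem sr_pos (L : T.V → ℝ) (v : T.V) (s : T.S) : 0 < sr T L v s :=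
  pow_pos (div_pos (ep_pos L s) (eps_pos L v)) 2

theorem riem_of_smul {c : ℝ} (hc : 0 < c) {H : MetricField 4} {U : Set E4}
    (h : IsRiemannianOn (fun x => c • H x) U) : IsRiemannianOn H U := by
  have e : H = fun x => c⁻¹ • c • H x := by funext x; rw [inv_smul_smul₀ hc.ne']
  rw [e]
  exact ⟨h.isOpen, fun i j => contDiffOn_const.mul (h.contDiffOn i j),
    fun x hx => (h.posDef x hx).smul (inv_pos.2 hc)⟩

theorem riem_of_rt {H : Fam T} (h : (T.glob L).IsMet (rt T L H)) (s : T.S) :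
    IsRiemannianOn (H s) ((T.glob L).U s) := riem_of_smul (pow_pos (ep_pos L s) 2) (h.riem s)

theorem Met1.riem {H : Fam T} (h : Met1 T L H) (s : T.S) : IsRiemannianOn (H s) (U1 T L s) :=
  riem_of_smul (pow_pos (ep_pos L s) 2) (Atl.IsMet.riem h s)

theorem Met1.sec {H : Fam T} (h : Met1 T L H) : (gl1 T L).Sec fun s => matT (rt T L H s) :=
  ⟨fun s => SmT.met (Atl.IsMet.riem h s), h.compat⟩

theorem Met1.sec_sub {H H' : Fam T} (h : Met1 T L H) (h' : Met1 T L H') :
    (gl1 T L).Sec fun s => matT (rt T L (H - H') s) :=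
  (h.sec.sub h'.sec).congr fun s x _ => by
    funext I; simp [matT, rt, mul_sub]

/-- smooth entries from a section in root units -/
theorem sm_of_rt {k : Fam T} {s : T.S} {U : Set E4} (h : SmT (matT (rt T L k s)) U) (a b : Fin 4) :
    ContDiffOn ℝ ∞ (fun x => k s x a b) U :=
  (contDiffOn_const.mul (h ![a, b]) : ContDiffOn ℝ ∞ (fun x => (ep T L s ^ 2)⁻¹ * _) U).congr
    fun x _ => by
      have := (ep_pos L s).ne'
      simp only [matT, rt, Matrix.smul_apply, smul_eq_mul, Matrix.cons_val_zero,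
        Matrix.cons_val_one]
      field_simp

namespace Ch

variable (c : Ch T L)
include c

theorem U1_U (s : T.S) : U1 T L s ⊆ (T.glob L).U s := (c.U1_W1 s).trans (c.W1_U s)

theorem gK_U1 (s : T.S) : T.gK L s ⊆ U1 T L s := (c.gK_K1 s).trans (c.K1_U1 s)

theorem op1 (s : T.S) : IsOpen (U1 T L s) := c.ok1.isOpen s

theorem eps_le_one (v : T.V) : T.eps L v ≤ 1 := by
  refine c.ok.ind (P := fun v => T.eps L v ≤ 1) (c.ok.eps_root L).le (fun w hw ih => ?_) v
  have h1 := c.long w hw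
  have h2 := Real.exp_pos (L w)
  have h3 : 1 ≤ Real.exp (L w) := by nlinarith [c.ok.r_lt, c.ok.r_pos]
  rw [c.ok.eps_kid L hw, Real.exp_neg]
  exact mul_le_one₀ ih (by positivity) (inv_le_one_of_one_le₀ h3)

theorem χ_supp {s : T.S} {y : E4} (hy : y ∈ (T.glob L).U s)
    (h0 : T.χ s ((T.glob L).c s y) ≠ 0) : y ∈ T.gK L s := by
  have hp := c.ok.glob_pou c.long
  obtain ⟨x, hx, e⟩ := hp.supp s s y hy h0
  obtain ⟨γ, -, rfl⟩ := ((c.ok.glob_ok c.long).fib s x (hp.sub s hx) y hy).1 e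
  rcases s with a | w
  · rw [mem_gK_inl, γ.norm_map]; exact mem_gK_inl.1 hx
  · rw [mem_gK_inr, γ.norm_map]; exact mem_gK_inr.1 hx

theorem χ_nonneg (s : T.S) (p : T.Car) : 0 ≤ T.χ s p := c.pou1.nonneg s p

theorem χ_le_one {s : T.S} {x : E4} (hx : x ∈ U1 T L s) : T.χ s ((T.glob L).c s x) ≤ 1 :=
  (Finset.single_le_sum (fun a _ => c.χ_nonneg a _) (Finset.mem_univ s)).trans_eq
    (c.pou1.sum s x hx)

theorem χ_sm (s : T.S) : ContDiffOn ℝ ∞ (fun x => T.χ s ((T.glob L).c s x)) (U1 T L s) :=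
  c.pou1.sm s s

theorem compat1 {k : ℕ} {Z : T.S → Tn 4 k} (h : (T.glob L).Compat Z) : (gl1 T L).Compat Z :=
  fun a b x F t => h a b x F ⟨c.U1_U a t.mem, c.U1_U b t.mem', t.sm, t.eq⟩

theorem sec1 {k : ℕ} {Z : T.S → Tn 4 k} (h : (T.glob L).Sec Z) : (gl1 T L).Sec Z :=
  ⟨fun a => (h.sm a).mono (c.U1_U a), c.compat1 h.compat⟩

theorem met1 {H : Fam T} (h : (T.glob L).IsMet (rt T L H)) : Met1 T L H :=
  ⟨fun s => riemOn_mono (h.riem s) (c.op1 s) (c.U1_U s), c.compat1 h.compat⟩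

theorem int_U (s : T.S) (f : E4 → ℝ) : ∫ x in (T.glob L).U s, T.χ s ((T.glob L).c s x) * f x =
    ∫ x in U1 T L s, T.χ s ((T.glob L).c s x) * f x :=
  setIntegral_eq_of_subset_of_forall_sdiff_eq_zero
    ((c.ok.glob_ok c.long).isOpen s).measurableSet (c.U1_U s) fun x hx => by
      by_contra h
      exact hx.2 (c.gK_U1 s (c.χ_supp hx.1 (left_ne_zero_of_mul h)))

theorem actL_eq (H G : Fam T) : actL T L H G = intL T L fun s => fgfF (H s) (G s) :=
  Finset.sum_congr rfl fun s _ => by rw [c.int_U]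

/-- continuous densities living near a core are integrable -/
theorem intL_of_supp {f : T.S → E4 → ℝ} {v : T.V} {d : ℝ}
    (hf : ∀ s, ContinuousOn (f s) (U1 T L s))
    (hz : ∀ s, ∀ x ∈ U1 T L s, ¬ InK T L v d s x → f s x = 0) : IntL T L f := fun s => by
  obtain ⟨K, hK, h1, h2⟩ : ∃ K, IsCompact K ∧ K ⊆ U1 T L s ∧
      ∀ x ∈ K1 T L s, InK T L v d s x → x ∈ K := by
    by_cases hs : s = Sum.inr T.root
    · refine ⟨closedBall 0 (Real.exp d) ∩ K1 T L s,
        (isCompact_closedBall _ _).inter_right (c.cl_K1 s), inter_subset_right.trans (c.K1_U1 s),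
        fun x hx hi => ⟨?_, hx⟩⟩
      subst hs
      have h0 : 0 < ‖x‖ := lt_of_lt_of_le (by norm_num) hx.1
      rcases hi with hi | hi
      · exact mem_closedBall_zero_iff.2 ((Real.log_le_iff_le_exp h0).1 hi.2)
      · exact absurd rfl hi.1.1
    · exact ⟨_, c.cpt s hs, c.K1_U1 s, fun _ h _ => h⟩
  refine ((((c.χ_sm s).continuousOn.mul (hf s)).mono h1).integrableOn_compact
    hK).of_forall_sdiff_eq_zero (c.op1 s).measurableSet fun x hx => ?_
  by_contra h
  exact hx.2 (h2 x (c.gK_K1 s (c.χ_supp (c.U1_U s hx.1) (left_ne_zero_of_mul h)))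
    (by_contra fun hi => right_ne_zero_of_mul h (hz s x hx.1 hi)))

theorem IntL_congr {f f' : T.S → E4 → ℝ} (h : IntL T L f)
    (e : ∀ s, ∀ x ∈ U1 T L s, f' s x = f s x) : IntL T L f' := fun s =>
  (h s).congr_fun (fun x hx => by simp only [e s x hx]) (c.op1 s).measurableSet

theorem intL_congr {f f' : T.S → E4 → ℝ} (e : ∀ s, ∀ x ∈ U1 T L s, f s x = f' s x) :
    intL T L f = intL T L f' :=
  Finset.sum_congr rfl fun s _ => by
    congr 2
    exact setIntegral_congr_fun (c.op1 s).measurableSet fun x hx => by simp only [e s x hx]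

theorem intL_mono {f f' : T.S → E4 → ℝ} (h : IntL T L f) (h' : IntL T L f')
    (e : ∀ s, ∀ x ∈ U1 T L s, f s x ≤ f' s x) : intL T L f ≤ intL T L f' :=
  Finset.sum_le_sum fun s _ => by
    have := setIntegral_mono_on (h s) (h' s) (c.op1 s).measurableSet fun x hx =>
      mul_le_mul_of_nonneg_left (e s x hx) (c.χ_nonneg s _)
    gcongr

theorem intL_nonneg {f : T.S → E4 → ℝ} (e : ∀ s, ∀ x ∈ U1 T L s, 0 ≤ f s x) : 0 ≤ intL T L f :=
  Finset.sum_nonneg fun s _ => by
    have := setIntegral_nonneg (μ := volume) (c.op1 s).measurableSet fun x hx =>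
      mul_nonneg (c.χ_nonneg s ((T.glob L).c s x)) (e s x hx)
    positivity

/-- a continuous density dominated by an integrable one -/
theorem IntL_of_le {f f' : T.S → E4 → ℝ} (h : IntL T L f')
    (hf : ∀ s, ContinuousOn (f s) (U1 T L s)) (e : ∀ s, ∀ x ∈ U1 T L s, |f s x| ≤ f' s x) :
    IntL T L f := fun s =>
  Integrable.mono' (h s) (((c.χ_sm s).continuousOn.mul (hf s)).aestronglyMeasurable
    (c.op1 s).measurableSet) ((ae_restrict_iff' (c.op1 s).measurableSet).2
      (Eventually.of_forall fun x hx => by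
        rw [Real.norm_eq_abs, abs_mul, abs_of_nonneg (c.χ_nonneg s _)]
        exact mul_le_mul_of_nonneg_left (e s x hx) (c.χ_nonneg s _)))

/-- `intL` of a nonnegative density is at most the integral over `K1` -/
theorem intL_le_K1 {f : T.S → E4 → ℝ} (hf : ∀ s, ContinuousOn (f s) (U1 T L s))
    (h0 : ∀ s, ∀ x ∈ U1 T L s, 0 ≤ f s x) (hi : ∀ s, IntegrableOn (f s) (K1 T L s)) :
    IntL T L f ∧ intL T L f ≤ ∑ s, ep T L s ^ 2 * ∫ x in K1 T L s, f s x := by
  have hm := fun s => (c.cl_K1 s).measurableSet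
  have hz : ∀ s, ∀ x ∈ U1 T L s \ K1 T L s, T.χ s ((T.glob L).c s x) * f s x = 0 :=
    fun s x hx => by
      by_contra h
      exact hx.2 (c.gK_K1 s (c.χ_supp (c.U1_U s hx.1) (left_ne_zero_of_mul h)))
  have hb : ∀ s, ∀ x ∈ K1 T L s, T.χ s ((T.glob L).c s x) * f s x ≤ f s x := fun s x hx =>
    mul_le_of_le_one_left (h0 s x (c.K1_U1 s hx)) (c.χ_le_one (c.K1_U1 s hx))
  have h1 : ∀ s, IntegrableOn (fun x => T.χ s ((T.glob L).c s x) * f s x) (K1 T L s) := fun s =>
    Integrable.mono' (hi s) ((((c.χ_sm s).continuousOn.mul (hf s)).mono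
      (c.K1_U1 s)).aestronglyMeasurable (hm s)) ((ae_restrict_iff' (hm s)).2
        (Eventually.of_forall fun x hx => by
          rw [Real.norm_of_nonneg (mul_nonneg (c.χ_nonneg s _) (h0 s x (c.K1_U1 s hx)))]
          exact hb s x hx))
  refine ⟨fun s => (h1 s).of_forall_sdiff_eq_zero (c.op1 s).measurableSet (hz s),
    Finset.sum_le_sum fun s _ => mul_le_mul_of_nonneg_left ?_ (sq_nonneg _)⟩
  rw [setIntegral_eq_of_subset_of_forall_sdiff_eq_zero (c.op1 s).measurableSet (c.K1_U1 s) (hz s)]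
  refine (mul_le_of_le_one_left (setIntegral_nonneg (hm s) fun x hx =>
    mul_nonneg (c.χ_nonneg s _) (h0 s x (c.K1_U1 s hx))) (Nat.cast_inv_le_one _)).trans ?_
  exact setIntegral_mono_on (h1 s) (hi s) (hm s) (hb s)

end Ch

section lin

variable {f f' : T.S → E4 → ℝ}

theorem IntL.add (h : IntL T L f) (h' : IntL T L f') : IntL T L fun s x => f s x + f' s x :=
  fun s => by simp only [mul_add]; exact Integrable.add (h s) (h' s)

theorem IntL.sub (h : IntL T L f) (h' : IntL T L f') : IntL T L fun s x => f s x - f' s x :=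
  fun s => by simp only [mul_sub]; exact Integrable.sub (h s) (h' s)

theorem IntL.smul (h : IntL T L f) (a : ℝ) : IntL T L fun s x => a * f s x :=
  fun s => by simp only [mul_left_comm _ a]; exact Integrable.const_mul (h s) a

theorem IntL.sum {ι : Type*} (t : Finset ι) {F : ι → T.S → E4 → ℝ} (h : ∀ i ∈ t, IntL T L (F i)) :
    IntL T L fun s x => ∑ i ∈ t, F i s x :=
  fun s => by simp only [Finset.mul_sum]; exact integrable_finsetSum t fun i hi => h i hi s

theorem intL_add (h : IntL T L f) (h' : IntL T L f') :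
    intL T L (fun s x => f s x + f' s x) = intL T L f + intL T L f' := by
  simp only [intL, mul_add, ← Finset.sum_add_distrib]
  exact Finset.sum_congr rfl fun s _ => by rw [integral_add (h s) (h' s)]; ring

theorem intL_sub (h : IntL T L f) (h' : IntL T L f') :
    intL T L (fun s x => f s x - f' s x) = intL T L f - intL T L f' := by
  simp only [intL, mul_sub, ← Finset.sum_sub_distrib]
  exact Finset.sum_congr rfl fun s _ => by rw [integral_sub (h s) (h' s)]; ring

theorem intL_smul (a : ℝ) (f : T.S → E4 → ℝ) :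
    intL T L (fun s x => a * f s x) = a * intL T L f := by
  simp only [intL, Finset.mul_sum, mul_left_comm _ a, integral_const_mul]

theorem intL_sum {ι : Type*} (t : Finset ι) {F : ι → T.S → E4 → ℝ} (h : ∀ i ∈ t, IntL T L (F i)) :
    intL T L (fun s x => ∑ i ∈ t, F i s x) = ∑ i ∈ t, intL T L (F i) := by
  simp only [intL, Finset.mul_sum]
  rw [Finset.sum_comm]
  exact Finset.sum_congr rfl fun s _ => by
    rw [integral_finsetSum t fun i hi => h i hi s, Finset.mul_sum, Finset.mul_sum]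

end lin

end Crest.Agent.N207.NS

end
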