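import Crest.Agent.N207.N.Tay3
import Crest.Agent.N207.N.Gr0

/-!
# Row 207, block N (helper32): the leaf `TAY`
-/

set_option autoImplicit false

open scoped ContDiff Topology
open Metric Set Filter MeasureTheory
open Crest.GeometryTopology.CoordMetric
open Crest.Agent.N207.I Crest.Agent.N207.Lg Crest.Agent.N207.CB

noncomputable section

namespace Crest.Agent.N207.NS

namespace Ty

theorem sec_omF {X : Type*} {α : Type} {A : Atl X α} {b G K : α → MetricField 4} (hA : A.Ok)
    (hb : A.IsMet b) (hG : A.IsMet G) (hK : A.Sec fun s => matT (K s)) :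
    A.Sec fun s => omF (b s) (G s) (K s) :=
  ⟨fun a => smT_omF (hb.riem a) (hG.riem a) (hK.sm a), fun _ _ x _ t =>
    let ⟨_, h1, h2, p⟩ := hG.loc hA t
    rel_omF p (hb.pull hA p.isOpen h2) (hK.compat.rel h2) x h1⟩

variable {M : Type*} {T : TD M} {L : T.V → ℝ} {f : T.S → E4 → ℝ}

theorem mem_root {x : E4} (hx : 2 ≤ ‖x‖) : x ∈ U1 T L (Sum.inr T.root) :=
  ⟨by linarith, fun h => absurd rfl h⟩

/-- continuous densities that decay faster than `|x|⁻⁴` are integrable on `K1` -/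
theorem intK (c : Ch T L) (hf : ∀ s, ContinuousOn (f s) (U1 T L s)) {p : ℝ} (hp : 4 < p)
    (hd : Bd fun x => ‖x‖ ^ p * f (Sum.inr T.root) x) (s : T.S) : IntegrableOn (f s) (K1 T L s) := by
  by_cases hs : s = Sum.inr T.root
  · subst hs
    obtain ⟨C, R, h⟩ := hd.dec
    have m : MeasurableSet {x : E4 | max R 2 ≤ ‖x‖} :=
      (isClosed_le continuous_const continuous_norm).measurableSet
    have i1 : IntegrableOn (f (Sum.inr T.root)) (closedBall 0 (max R 2) ∩ K1 T L (Sum.inr T.root)) :=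
      ((hf _).mono (inter_subset_right.trans (c.K1_U1 _))).integrableOn_compact
        ((isCompact_closedBall _ _).inter_right (c.cl_K1 _))
    have i2 : IntegrableOn (f (Sum.inr T.root)) {x : E4 | max R 2 ≤ ‖x‖} :=
      Integrable.mono' (((int_far hp).mono_set (t := {x : E4 | 1 ≤ ‖x‖}) (s := {x | max R 2 ≤ ‖x‖})
        fun x (hx : max R 2 ≤ ‖x‖) => le_trans one_le_two (le_of_max_le_right hx)).const_mul C)
        (((hf _).mono fun x hx => mem_root (le_of_max_le_right hx)).aestronglyMeasurable m)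
        ((ae_restrict_iff' m).2 (Eventually.of_forall fun x hx => h x (le_of_max_le_left hx)))
    refine (i1.union i2).mono_set fun x hx => ?_
    exact (le_total ‖x‖ (max R 2)).imp (fun h => ⟨mem_closedBall_zero_iff.2 h, hx⟩) id
  · exact ((hf s).mono (c.K1_U1 s)).integrableOn_compact (c.cpt s hs)

/-- and for the partition of unity -/
theorem IntL_of_dec (c : Ch T L) (hf : ∀ s, ContinuousOn (f s) (U1 T L s)) {p : ℝ} (hp : 4 < p)
    (hd : Bd fun x => ‖x‖ ^ p * f (Sum.inr T.root) x) : IntL T L f :=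
  c.IntL_of_le (c.intL_le_K1 (f := fun s x => |f s x|) (fun s => (hf s).abs)
    (fun _ _ _ => abs_nonneg _) fun s => (intK c hf hp hd s).abs).1 hf fun _ _ _ => le_rfl

theorem abs_intL_le (c : Ch T L) {f' : T.S → E4 → ℝ} (h : IntL T L f) (h' : IntL T L f')
    (e : ∀ s, ∀ x ∈ U1 T L s, |f s x| ≤ f' s x) : |intL T L f| ≤ intL T L f' := by
  refine abs_le.2 ⟨?_, c.intL_mono h h' fun s x hx => (abs_le.1 (e s x hx)).2⟩
  rw [← neg_one_mul, ← intL_smul]
  exact c.intL_mono (h'.smul _) h fun s x hx => by linarith [(abs_le.1 (e s x hx)).1]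

theorem uni4 {F : Fin 4 → E4 → ℝ} {p : ℝ} (h : ∀ i, Bd fun x => ‖x‖ ^ p * F i x) :
    ∃ C R : ℝ, ∀ x : E4, R ≤ ‖x‖ → ∀ i, |F i x| ≤ C * ‖x‖ ^ (-p) := by
  choose C R h using fun i => (h i).dec
  have k : ∀ (u : Fin 4 → ℝ) i, u i ≤ ∑ j, |u j| := fun u i => (le_abs_self _).trans
    (Finset.single_le_sum (f := fun j => |u j|) (fun _ _ => abs_nonneg _) (Finset.mem_univ i))
  exact ⟨_, _, fun x hx i => (h i x ((k R i).trans hx)).trans
    (mul_le_mul_of_nonneg_right (k C i) (by positivity))⟩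

/-- the divergence term of the first variation integrates to zero -/
theorem intL_DV (c : Ch T L) {b G k : Fam T} (hb : Met1 T L b) (hG : Met1 T L G)
    (hk : (gl1 T L).Sec fun s => matT (rt T L k s)) (hs : ∀ s, ∀ x ∈ U1 T L s, Sy2 (k s x))
    (hi : IntL T L fun s => DV (b s) (G s) (k s)) {p : ℝ} (hp : 3 < p)
    (hd : ∀ i, Bd fun x => ‖x‖ ^ p *
      WV (b (Sum.inr T.root)) (G (Sum.inr T.root)) (k (Sum.inr T.root)) i x) :
    intL T L (fun s => DV (b s) (G s) (k s)) = 0 := by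
  have a0 : ∀ s, ep T L s ^ 2 ≠ 0 := fun s => pow_ne_zero _ (ep_pos L s).ne'
  have sy : ∀ s, ∀ x ∈ U1 T L s, Sy2 (rt T L k s x) := fun s x hx i j => by
    simp only [rt, Matrix.smul_apply, hs s x hx i j]
  have e : ∀ s, ∀ x ∈ U1 T L s, (gl1 T L).den T.χ (rt T L G) s x *
      divT (rt T L G s) (omF (rt T L b s) (rt T L G s) (rt T L k s)) x ![] =
      ep T L s ^ 2 * (Nat.card (T.grp s) : ℝ)⁻¹ *
        (T.χ s ((T.glob L).c s x) * DV (b s) (G s) (k s) x) := fun s x hx => by
    have h1 := DV_eq (Atl.IsMet.riem hb s) (Atl.IsMet.riem hG s) (hk.sm s) (sy s) hx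
    have h2 : DV (rt T L b s) (rt T L G s) (rt T L k s) x = _ := DV_smul (a0 s) (b s) (G s) (k s) x
    rw [Atl.den, mul_assoc, mul_assoc, ← h1, h2]
    change (Nat.card (T.grp s) : ℝ)⁻¹ * (T.χ s ((T.glob L).c s x) * _) = _
    ring
  obtain ⟨C, R, h⟩ := uni4 hd
  have := div_root c.ok1 c.pou1 hG (sec_omF c.ok1 hb hG hk) (fun s =>
    ((hi s).const_mul (ep T L s ^ 2 * (Nat.card (T.grp s) : ℝ)⁻¹)).congr
      ((ae_restrict_iff' (c.op1 s).measurableSet).2
        (Eventually.of_forall fun x hx => (e s x hx).symm))) hp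
    (C := ep T L (Sum.inr T.root) ^ 2 * C) (R := max R 2) fun x hx i => by
      have m := mem_root (T := T) (L := L) (le_of_max_le_right hx)
      rw [← WV_eq (Atl.IsMet.riem hG _) m (sy _ x m) i]
      have : WV (rt T L b (Sum.inr T.root)) (rt T L G (Sum.inr T.root))
        (rt T L k (Sum.inr T.root)) i = _ := WV_smul (a0 _) _ _ _ i
      rw [this, abs_mul, abs_of_nonneg (sq_nonneg _), mul_assoc]
      exact mul_le_mul_of_nonneg_left (h x (le_of_max_le_left hx) i) (sq_nonneg _)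
  refine Eq.trans (Finset.sum_congr rfl fun s _ => ?_) this
  rw [← mul_assoc, ← integral_const_mul]
  exact setIntegral_congr_fun (c.op1 s).measurableSet fun x hx => (e s x hx).symm

theorem en_cont {U : Set E4} (hU : IsOpen U) {K : MetricField 4} (hK : SmT (matT K) U)
    {r : E4 → ℝ} (hr : ContinuousOn r U) (h0 : ∀ x ∈ U, r x ≠ 0) :
    ContinuousOn (fun x => e1 K x + e0 K x / r x ^ 2) U := by
  have k : ∀ a b, ContDiffOn ℝ ∞ (fun y => K y a b) U := fun a b => hK ![a, b]
  refine ContinuousOn.add ?_ (ContinuousOn.div ?_ (hr.pow 2) fun x hx => pow_ne_zero _ (h0 x hx))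
  · exact continuousOn_finset_sum _ fun a _ => continuousOn_finset_sum _ fun b _ =>
      continuousOn_finset_sum _ fun i _ => (sm_pd hU (k a b) i).continuousOn.pow 2
  · exact continuousOn_finset_sum _ fun a _ => continuousOn_finset_sum _ fun b _ =>
      (k a b).continuousOn.pow 2

theorem scl_cont (s : T.S) : Continuous (scl T s) := by
  rcases s with a | w
  exacts [continuous_const, continuous_norm]

end Ty

open Ty

variable {M : Type*} {T : TD M} {g : T.V → Fam T}

/-- **leaf TAY** -/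
theorem tay (h : Std T g) (hC : CHI T) (hE : ELL T g) (hG : GB T g) : TAY T g := by
  obtain ⟨δ, Λ, TE, δ0, Λ1, hE⟩ := hE
  obtain ⟨TG, hG⟩ := hG
  obtain ⟨CG, hG⟩ := hG 0
  obtain ⟨TC, hC⟩ := hC.ch h.ok
  obtain ⟨C, C0, hT⟩ := tay_fun (Λ + 1) (by linarith)
  refine ⟨min δ 1, C + 1, max (max TE TG) (max TC 0), lt_min δ0 one_pos, by linarith,
    fun T0 hT0 L hL b g1 g2 hb hR h1 h2 i1 iv1 => ?_⟩
  simp only [max_le_iff] at hT0
  have c : Ch T L := hC L (hL.mono (by
    have := le_max_left TC 0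
    have := le_max_right (max TE TG) (max TC 0)
    linarith [hT0.2.2]))
  have hE := hE T0 hT0.1.1 L (hL.mono (by gcongr; exact le_max_of_le_left (le_max_left _ _)))
  have hG := riem_of_rt ((hG T0 hT0.1.2).2 L
    (hL.mono (by gcongr; exact le_max_of_le_left (le_max_right _ _)))).2.1
  have r1 : ∀ s, ∀ x ∈ U1 T L s, 1 ≤ scl T s x := fun s x hx => (c.cell s x (c.U1_W1 s hx)).1
  have n0 : ∀ {H}, Adm T g T0 L (min δ 1) H → ∀ s, ∀ x ∈ U1 T L s, ∀ p q,
      |H s x p q - gbL T g T0 L s x p q| ≤ δ := fun hH s x hx p q => by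
    have := hH.near s x hx 0 (Nat.zero_le _) p q
    rw [pow_zero, one_mul, norm_iteratedFDeriv_zero] at this
    exact this.trans (min_le_left _ _)
  have el := fun {H} (hH : Adm T g T0 L (min δ 1) H) s x (hx : x ∈ U1 T L s) =>
    hE H s x (c.U1_W1 s hx) ((hH.met.riem s).posDef x hx) (n0 hH s x hx)
  have jb : ∀ {H}, Adm T g T0 L (min δ 1) H → ∀ s, ∀ x ∈ U1 T L s,
      JB (Λ + 1) (scl T s x) (H s) x := fun {H} hH s x hx => by
    have c1 := fun a b => ((hH.met.riem s).contDiffOn a b).contDiffAt ((c.op1 s).mem_nhds hx)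
    have c2 := fun a b => ((hG s).contDiffOn a b).contDiffAt ((hG s).isOpen.mem_nhds (c.U1_U s hx))
    refine jb_of (by linarith) (by linarith [r1 s x hx]) c1
      (fun a b => ((el hH s x hx).1 a b).2.trans (by linarith)) fun k hk a b => ?_
    have a1 := (hH.near s x hx k hk a b).trans (min_le_right _ _)
    have a2 := (el hH s x hx).2.2.2.2 k (by omega) a b
    simp only [Matrix.sub_apply] at a1
    rw [fun_iteratedFDeriv_sub_apply ((c1 a b).of_le (by exact_mod_cast le_top))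
      ((c2 a b).of_le (by exact_mod_cast le_top))] at a1
    have := mul_le_mul_of_nonneg_left (norm_le_insert' (iteratedFDeriv ℝ k (fun y => H s y a b) x)
      (iteratedFDeriv ℝ k (fun y => gbL T g T0 L s y a b) x))
      (pow_nonneg (zero_le_one.trans (r1 s x hx)) k)
    linarith
  have fa : ∀ {H}, Adm T g T0 L (min δ 1) H → Far (H (Sum.inr T.root)) := fun hH =>
    far_of (Λ := Λ) (R := 2) (fun x hx => ⟨(el hH _ x (mem_root hx)).1,
      (el hH _ x (mem_root hx)).2.2.1⟩) hH.dec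
  have rb := hb.met.riem
  have r1' := h1.met.riem
  have r2 := h2.met.riem
  obtain ⟨R, hR⟩ := hR
  have i2 : IntL T L fun s => fgfF (b s) (g2 s) := IntL_of_dec c
    (fun s => (sm_fgfF (rb s) (r2 s)).continuousOn) (by norm_num) ((fa hb).fgf (fa h2) hR)
  have ce : ∀ s, ContinuousOn (fun x => e1 ((g2 - g1) s) x + e0 ((g2 - g1) s) x / scl T s x ^ 2)
      (U1 T L s) := fun s => en_cont (c.op1 s) (sm_sub (r1' s) (r2 s)) (scl_cont s).continuousOn
    fun x hx => by linarith [r1 s x hx]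
  obtain ⟨iE, hEn⟩ := c.intL_le_K1 ce
    (fun s x _ => add_nonneg (e1_nonneg _ _) (div_nonneg (e0_nonneg _ _) (sq_nonneg _)))
    (intK c ce (by norm_num) ((fa h1).en (fa h2) (R := 2)
      (fun x hx => d_g (r1' _) (mem_root hx)) fun x hx => d_g (r2 _) (mem_root hx)))
  have pt : ∀ s, ∀ x ∈ U1 T L s, |fgfF (b s) (g2 s) x - fgfF (b s) (g1 s) x -
      fv (b s) (g1 s) (g2 s - g1 s) x - DV (b s) (g1 s) (g2 s - g1 s) x| ≤
      C * (e1 ((g2 - g1) s) x + e0 ((g2 - g1) s) x / scl T s x ^ 2) := fun s x hx => by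
    refine hT _ _ _ _ x _ (rb s) (r1' s) (r2 s) hx (by linarith [r1 s x hx]) (fun t ht => ?_)
      (jb hb s x hx) (jb h1 s x hx) (jb h2 s x hx)
    have := hE (fun _ _ => g1 s x + t • (g2 s x - g1 s x)) s x (c.U1_W1 s hx)
      (pd_cvx ((r1' s).posDef x hx) ((r2 s).posDef x hx) ht) fun p q => by
        have a1 := abs_le.1 (n0 h1 s x hx p q)
        have a2 := abs_le.1 (n0 h2 s x hx p q)
        simp only [Matrix.add_apply, Matrix.smul_apply, Matrix.sub_apply, smul_eq_mul]
        rw [abs_le]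
        constructor <;> nlinarith [ht.1, ht.2]
    exact ⟨fun p q => (this.1 p q).1.trans (by linarith),
      (inv_anti₀ (by linarith) (by linarith)).trans this.2.1⟩
  have cd := fun s => DV_cont (rb s) (r1' s) (sm_sub (r1' s) (r2 s)) fun z hz => sy_sub (r1' s) (r2 s) hz
  have iR : IntL T L fun s x => fgfF (b s) (g2 s) x - fgfF (b s) (g1 s) x -
      fv (b s) (g1 s) (g2 s - g1 s) x - DV (b s) (g1 s) (g2 s - g1 s) x :=
    c.IntL_of_le (iE.smul C) (fun s => (((sm_fgfF (rb s) (r2 s)).continuousOn.sub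
      (sm_fgfF (rb s) (r1' s)).continuousOn).sub
      (fv_cont (rb s) (r1' s) (sm_sub (r1' s) (r2 s)))).sub (cd s)) pt
  have i3 := (i2.sub i1).sub iv1
  have iD : IntL T L fun s => DV (b s) (g1 s) (g2 s - g1 s) :=
    c.IntL_congr (i3.sub iR) fun s x _ => by ring
  have z := intL_DV c (k := g2 - g1) hb.met h1.met (h2.met.sec_sub h1.met)
    (fun s x hx => sy_sub (r1' s) (r2 s) hx) iD (by norm_num) ((fa hb).wv (fa h1) (fa h2))
  have fin := abs_intL_le c iR (iE.smul C) pt
  rw [intL_sub i3 iD, intL_sub (i2.sub i1) iv1, intL_sub i2 i1, intL_smul] at fin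
  refine ⟨i2, ?_⟩
  have E0 := (c.intL_nonneg
    (fun s x _ => add_nonneg (e1_nonneg ((g2 - g1) s) x)
      (div_nonneg (e0_nonneg ((g2 - g1) s) x) (sq_nonneg (scl T s x))))).trans hEn
  have z' : intL T L (fun s x => DV (b s) (g1 s) (g2 s - g1 s) x) = 0 := z
  rw [z', sub_zero] at fin
  refine fin.trans ((mul_le_mul_of_nonneg_left hEn C0).trans ?_)
  exact mul_le_mul_of_nonneg_right (by linarith) E0

end Crest.Agent.N207.NS

end
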