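import Crest.Agent.N207.N.Muh1
import Crest.Agent.N207.N.Tay4

/-!
# Row 207, block N (helper32): the multipliers in `CMP`
-/

set_option autoImplicit false

open scoped ContDiff Topology
open Metric Set Filter MeasureTheory
open Crest.GeometryTopology.CoordMetric
open Crest.Agent.N207.I Crest.Agent.N207.Lg Crest.Agent.N207.CB Crest.Agent.N207.NS.Cp

noncomputable section

namespace Crest.Agent.N207.NS

namespace Mu

theorem sqrt_e0_le {Z : MetricField 4} {x : E4} {B : ℝ} (h : ∀ p q, |Z x p q| ≤ B) :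
    √(e0 Z x) ≤ 8 * B := by
  have B0 := (abs_nonneg _).trans (h 0 0)
  refine Real.sqrt_le_iff.2 ⟨by positivity, le_trans (Finset.sum_le_card_nsmul _ _ (4 • B ^ 2)
    fun p _ => (Finset.sum_le_card_nsmul _ _ (B ^ 2) fun q _ => sq_le_sq' (abs_le.1 (h p q)).1
      (abs_le.1 (h p q)).2).trans_eq (by simp)) ?_⟩
  simp; nlinarith [sq_nonneg B]

theorem sqrt_e1_le {Z : MetricField 4} {x : E4} {B r : ℝ} (hr : 0 < r)
    (h : ∀ i p q, r * |pderiv i (fun y => Z y p q) x| ≤ B) : r * √(e1 Z x) ≤ 8 * B := by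
  have h' := fun i p q => abs_le.1 ((le_div_iff₀' hr).2 (h i p q))
  have B0 : 0 ≤ B := le_trans (by positivity) (h 0 0 0)
  rw [← le_div_iff₀' hr, mul_div_assoc]
  refine Real.sqrt_le_iff.2 ⟨by positivity, le_trans (Finset.sum_le_card_nsmul _ _
    (4 • 4 • (B / r) ^ 2) fun p _ => (Finset.sum_le_card_nsmul _ _ (4 • (B / r) ^ 2) fun q _ =>
      (Finset.sum_le_card_nsmul _ _ ((B / r) ^ 2) fun i _ => sq_le_sq' (h' i p q).1
        (h' i p q).2).trans_eq (by simp)).trans_eq (by simp)) ?_⟩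
  simp; nlinarith

variable {M : Type*} {T : TD M} {L : T.V → ℝ}

/-- testing the equation with a field living near the core `v` -/
theorem test_bd (c : Ch T L) {b0 b g1 g2 F Z : Fam T} {v : T.V} {d C Cv u : ℝ} (hu : 0 < u)
    (hCv : 0 ≤ Cv) (r0 : Met1 T L b0) (r1 : Met1 T L g1) (r2 : Met1 T L g2)
    (hZ : ∀ s p q, ContDiffOn ℝ ∞ (fun y => Z s y p q) (U1 T L s))
    (hz : ∀ s, ∀ x ∈ U1 T L s, ¬ InK T L v d s x → Z s x = 0)
    (hv : ∀ s, MeasurableSet {x | InK T L v d s x} ∧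
      IntegrableOn (fun _ => (1 : ℝ)) (T.gK L s ∩ {x | InK T L v d s x}) ∧
      ep T L s ^ 2 * (sr T L v s * (volume (T.gK L s ∩ {x | InK T L v d s x})).toReal) ≤
        Cv * T.eps L v ^ 2 ∧
      ∀ x ∈ U1 T L s, InK T L v d s x → 1 ≤ Cv * (sr T L v s * scl T s x ^ 2))
    (hb : ∀ s, ∀ x ∈ U1 T L s, |T.χ s ((T.glob L).c s x) *
        prl (b0 s) (Z s) x (DD (b s) (g1 s) (g2 s) x - F s x) +
      1 / 2 * GG (fun y => T.χ s ((T.glob L).c s y)) (b0 s) (g1 s) (g1 s - g2 s) (Z s) x| ≤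
      C * (√(e1 (g1 s - g2 s) x) / scl T s x + √(e0 (g1 s - g2 s) x) / scl T s x ^ 2 +
        T.χ s ((T.glob L).c s x) * √(e0 (F s) x)))
    (hi : IntL T L fun s x => prl (b0 s) (Z s) x (DD (b s) (g1 s) (g2 s) x - F s x))
    (hE : ∀ s, IntegrableOn (en T (g1 - g2) s) (K1 T L s))
    (hF : IntL T L fun s x => scl T s x ^ 2 * e0 (F s) x) :
    |intL T L fun s x => prl (b0 s) (Z s) x (DD (b s) (g1 s) (g2 s) x - F s x)| ≤
      u * (intL T L (fun s x => scl T s x ^ 2 * e0 (F s) x) + En T L (g1 - g2)) +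
        Fintype.card T.S * (3 * C ^ 2 * Cv * Cv * T.eps L v ^ 2) / u := by
  have key : ∀ s, |∫ x in U1 T L s, T.χ s ((T.glob L).c s x) *
      prl (b0 s) (Z s) x (DD (b s) (g1 s) (g2 s) x - F s x)| ≤
      u * (∫ x in K1 T L s, en T (g1 - g2) s x) +
        u * (∫ x in U1 T L s, T.χ s ((T.glob L).c s x) * (scl T s x ^ 2 * e0 (F s) x)) +
        3 * C ^ 2 * Cv * sr T L v s / u * (volume (T.gK L s ∩ {x | InK T L v d s x})).toReal := by
    intro s
    have o := c.op1 s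
    have χ0 : ∀ x ∈ U1 T L s, x ∉ T.gK L s → T.χ s ((T.glob L).c s x) = 0 := fun x hx k =>
      by_contra fun e => k (c.χ_supp (c.U1_U s hx) e)
    have ev : ∀ x ∈ U1 T L s, x ∉ T.gK L s ∩ {x | InK T L v d s x} →
        (fun y => T.χ s ((T.glob L).c s y)) =ᶠ[𝓝 x] (fun _ => 0) ∨ Z s =ᶠ[𝓝 x] fun _ => 0 :=
      fun x hx k => (not_and_or.1 k).imp (fun k => by
        filter_upwards [o.mem_nhds hx, (c.cl_gK s).isOpen_compl.mem_nhds k] with y a b using χ0 y a b)
        fun k => by filter_upwards [o.mem_nhds hx, ev_not hx k] with y a b using hz s y a b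
    have hk := r1.sm_sub r2 s
    have cc := fun a => (c.χ_sm s).mul (sm_c6 (r0.riem s) (r1.riem s) a)
    have iG := intOn c (GG_cont (r0.riem s) (r1.riem s) (c.χ_sm s) hk (hZ s))
      fun x hx k => GG_zero (ev x hx k)
    have zG := chart_id (k := (g1 - g2) s) (t := Z s) o (c.cl_gK s) (c.gK_U1 s)
      (fun a => (cc a).of_le (by exact_mod_cast le_top))
      (fun a x hx k => by rw [χ0 x hx k, zero_mul])
      (fun p q => (hk p q).of_le (WithTop.coe_le_coe.2 (le_top (a := (2 : ℕ∞)))))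
      (fun p q => (hZ s p q).of_le (by exact_mod_cast le_top))
      (h := fun x => ∑ a, |T.χ s ((T.glob L).c s x) * c6 (b0 s) (g1 s) a x * s6 ((g1 - g2) s) a x *
        t6 (Z s) a x|)
      (intOn c (v := v) (d := d) (continuousOn_finset_sum _ fun a _ => (((cc a).mul
        (sm_pd o (hk _ _) _)).mul (hZ s _ _)).continuousOn.abs) fun x hx k =>
          Finset.sum_eq_zero fun a _ => by
            rcases ev x hx k with e | e <;> simp [t6, e.self_of_nhds])
      (fun a x _ => (Finset.single_le_sum (f := fun a => |T.χ s ((T.glob L).c s x) *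
        c6 (b0 s) (g1 s) a x * s6 ((g1 - g2) s) a x * t6 (Z s) a x|) (fun _ _ => abs_nonneg _)
        (Finset.mem_univ a)).trans (le_mul_of_one_le_left (by positivity) (by simp)))
      iG fun x _ => GG_eq ..
    have e := integral_add (hi s) (iG.const_mul (1 / 2))
    rw [integral_const_mul, zG, mul_zero, add_zero] at e
    rw [← e, ← integral_const_mul, ← integral_const_mul]
    have s0 := (sr_pos L v s).le
    refine int_bd o.measurableSet (c.cl_K1 s).measurableSet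
      ((c.cl_gK s).measurableSet.inter (hv s).1) ((hE s).const_mul u) ((hF s).const_mul u) (hv s).2.1
      (fun x => mul_nonneg hu.le (add_nonneg (e1_nn _ _) (div_nonneg (e0_nn _ _) (sq_nonneg _))))
      (fun x _ => mul_nonneg hu.le (mul_nonneg (c.χ_nonneg s _)
        (mul_nonneg (sq_nonneg _) (e0_nn _ _)))) (by positivity)
      (inter_subset_left.trans (c.gK_K1 s)) (fun x hx hS => (hb s x hx).trans ?_) fun x hx k => ?_
    · have r : 0 < scl T s x := one_pos.trans_le (c.cell s x (c.U1_W1 s hx)).1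
      have a1 := amgm hu C √(e1 (g1 s - g2 s) x) (scl T s x)⁻¹
      have a2 := amgm hu C (√(e0 (g1 s - g2 s) x) / scl T s x) (scl T s x)⁻¹
      have a3 := mul_le_mul_of_nonneg_left (amgm hu C (scl T s x * √(e0 (F s) x)) (scl T s x)⁻¹)
        (c.χ_nonneg s ((T.glob L).c s x))
      have a4 : C ^ 2 * (scl T s x)⁻¹ ^ 2 / u ≤ C ^ 2 * Cv * sr T L v s / u := by
        rw [mul_assoc]
        gcongr
        rw [inv_pow, inv_le_iff_one_le_mul₀ (by positivity), mul_assoc]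
        exact (hv s).2.2.2 x hx hS.2
      have a5 := mul_le_of_le_one_left (show 0 ≤ C ^ 2 * (scl T s x)⁻¹ ^ 2 / u by positivity)
        (c.χ_le_one hx)
      rw [Real.sq_sqrt (e1_nn _ _), ← div_eq_mul_inv] at a1
      rw [div_pow, Real.sq_sqrt (e0_nn _ _), ← div_eq_mul_inv, div_div, ← _root_.sq] at a2
      rw [mul_pow, Real.sq_sqrt (e0_nn _ _), mul_right_comm (scl T s x), mul_inv_cancel₀ r.ne',
        one_mul] at a3
      simp only [en, Pi.sub_apply]
      rw [show 3 * C ^ 2 * Cv * sr T L v s / u = 3 * (C ^ 2 * Cv * sr T L v s / u) by ring]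
      linarith
    · rw [GG_zero (ev x hx k), mul_zero, add_zero]
      rcases ev x hx k with e | e <;> simp [prl_eq, e.self_of_nhds]
  rw [En_eq, intL, intL, ← Finset.sum_add_distrib, Finset.mul_sum, mul_div_assoc, ← nsmul_eq_mul,
    ← Finset.card_univ, ← Finset.sum_const, ← Finset.sum_add_distrib]
  refine (Finset.abs_sum_le_sum_abs _ _).trans (Finset.sum_le_sum fun s _ => ?_)
  obtain ⟨γ0, γ1⟩ := Cg.card_inv_le (T := T) s
  have s0 := (sr_pos L v s).le
  have a0 : 0 ≤ ∫ x in K1 T L s, en T (g1 - g2) s x :=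
    integral_nonneg fun x => add_nonneg (e1_nn _ _) (div_nonneg (e0_nn _ _) (sq_nonneg _))
  have a1 := mul_le_mul_of_nonneg_left (hv s).2.2.1 (show 0 ≤ 3 * C ^ 2 * Cv / u by positivity)
  have a2 := mul_le_mul_of_nonneg_left (mul_le_mul_of_nonneg_left (key s) γ0) (sq_nonneg (ep T L s))
  have a3 := mul_le_of_le_one_left (show 0 ≤ ep T L s ^ 2 * (u * ∫ x in K1 T L s, en T (g1 - g2) s x)
    by positivity) γ1
  have a4 := mul_le_of_le_one_left (show 0 ≤ 3 * C ^ 2 * Cv / u * (ep T L s ^ 2 * (sr T L v s *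
    (volume (T.gK L s ∩ {x | InK T L v d s x})).toReal)) by positivity) γ1
  rw [abs_mul, abs_mul, abs_of_nonneg (sq_nonneg _), abs_of_nonneg γ0]
  refine a2.trans ?_
  rw [show 3 * C ^ 2 * Cv * Cv * T.eps L v ^ 2 / u = 3 * C ^ 2 * Cv / u * (Cv * T.eps L v ^ 2) by ring,
    show 3 * C ^ 2 * Cv * sr T L v s / u = 3 * C ^ 2 * Cv / u * sr T L v s by ring]
  linarith

theorem prL_eq (b Φ k : Fam T) (v : T.V) :
    prL T L b v Φ k = intL T L fun s x => sr T L v s * prl (b s) (k s) x (Φ s x) := rfl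

theorem loc_sum {ι : Type} [Fintype ι] (v : T.V) (a : ι → ℝ) (Y : ι → Fam T) (s : T.S) (x : E4) :
    loc T L v (∑ l, a l • Y l) s x = ∑ l, a l • loc T L v (Y l) s x := by
  rcases s with s | w
  · simp [loc]
  · by_cases e : w = v <;> simp [loc, e]

end Mu

open Mu

variable {M : Type*} {T : TD M} {g : T.V → Fam T}

/-- **the multipliers are bounded by the energy** -/
theorem muh (h : Std T g) (hC : CHI T) (hV : VOL T) (hD : DIF) (hE : ELL T g) (hG : GB T g) (hO : CO)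
    {κ : T.V → Type} [∀ v, Fintype (κ v)] [∀ v, DecidableEq (κ v)] {ψ : ∀ v, κ v → Fam T}
    {c η C0 : ℝ} (hg : Good T g κ ψ c η C0) (ht : Tol T g κ ψ c) :
    ∃ δ C T1 : ℝ, 0 < δ ∧ 0 < C ∧ ∀ T0, T1 ≤ T0 → ∀ L, Lng T (2 * T0 + T1) L →
      ∀ (b g1 g2 F : Fam T) (Ψ : (Σ v, κ v) → Fam T) (μ : (Σ v, κ v) → ℝ),
        Adm T g T0 L δ b → Adm T g T0 L δ g1 → Adm T g T0 L δ g2 →
        (∀ j, Prt T L j.1 (c + 2) δ (ψ j.1 j.2) (Ψ j)) →
        (∀ s, ∀ x ∈ U1 T L s, ∀ p q, redT (b s) (g1 s) x ![p, q] - redT (b s) (g2 s) x ![p, q] =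
          F s x p q + ∑ j, μ j * (sr T L j.1 s * Ψ j s x p q)) →
        IntL T L (fun s x => scl T s x ^ 2 * e0 (F s) x) →
        ∑ j, T.eps L j.1 ^ 2 * μ j ^ 2 ≤
          C * (intL T L (fun s x => scl T s x ^ 2 * e0 (F s) x) + En T L (g1 - g2)) := by
  obtain ⟨δ, Λ, TE, δ0, hE⟩ := adm_pack hE hG
  obtain ⟨TC, hCh⟩ := hC.ch h.ok
  obtain ⟨X, TX, X0, hX⟩ := hC
  obtain ⟨Cv, TV, Cv0, hV2⟩ := hV (c + 2)
  obtain ⟨Cw, TW, -, hV1⟩ := hV (c + 1)
  obtain ⟨P, TP, P0, ht⟩ := ht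
  obtain ⟨K0, K00, hK⟩ := pt_bd hO hD Λ X X0.le
  choose A hA using hg.dual
  set a : ℝ := ∑ j : Σ v, κ v, ∑ l, |A j.1 j.2 l| with ha
  have a0 : 0 ≤ a := by positivity
  have aj : ∀ v j, ∑ l, |A v j l| ≤ a := fun v j => Finset.single_le_sum
    (f := fun j : Σ v, κ v => ∑ l, |A j.1 j.2 l|) (fun _ _ => by positivity) (Finset.mem_univ ⟨v, j⟩)
  set N : ℝ := Nat.cast (Fintype.card (Σ v, κ v)) with hN
  set K1 : ℝ := (Fintype.card T.S : ℝ) * (3 * (K0 * (8 * (a * P))) ^ 2 * Cv * Cv)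
  set K2 : ℝ := (Fintype.card T.S : ℝ) * (256 * |Λ| ^ 3 * Cv * (a * P))
  have N0 : 0 ≤ N := by positivity
  have K10 : 0 ≤ K1 := by positivity
  have K20 : 0 ≤ K2 := by positivity
  set t1 := |TE| + |TC| + |TX| + |TV| + |TW| + |TP|
  have tt : TE ≤ t1 ∧ TC ≤ t1 ∧ TX ≤ t1 ∧ TV ≤ t1 ∧ TW ≤ t1 ∧ TP ≤ t1 ∧ 0 ≤ t1 := by
    have := le_abs_self TE; have := le_abs_self TC; have := le_abs_self TX; have := le_abs_self TV
    have := le_abs_self TW; have := le_abs_self TP; have := abs_nonneg TE; have := abs_nonneg TC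
    have := abs_nonneg TX; have := abs_nonneg TV; have := abs_nonneg TW; have := abs_nonneg TP
    refine ⟨?_, ?_, ?_, ?_, ?_, ?_, ?_⟩ <;> linarith
  obtain ⟨u1, u2, u3, u4, u5, u6, u7⟩ := tt
  refine ⟨min δ (2 * (N * K2 + 1))⁻¹, N * (16 * N ^ 2 * K1) + 1, t1, lt_min δ0 (by positivity),
    by positivity, fun T0 hT0 L hL b g1 g2 F Ψ μ hb h1 h2 hΨ eq iF => ?_⟩
  set δ' := min δ (2 * (N * K2 + 1))⁻¹
  have δ1 : 0 ≤ δ' := le_min δ0.le (by positivity)
  have δ2 : N * K2 * δ' ≤ 1 / 2 := by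
    have : δ' * (2 * (N * K2 + 1)) ≤ 1 := (le_inv_mul_iff₀' (by positivity)).1
      (by rw [mul_one]; exact min_le_right _ _)
    linarith
  have ch : Ch T L := hCh L (hL.mono (by linarith))
  obtain ⟨hM, hJ⟩ := hE T0 (by linarith) L (hL.mono (by linarith)) ch
  have hX := fun s => ((hX L (hL.mono (by linarith))).2.2.2 s).2.2.2.2.2.2.2.2.2 0
  have hV2 := fun v => (hV2 L (hL.mono (by linarith)) v).1
  have hV1 := fun v => (hV1 L (hL.mono (by linarith)) v).2
  have ht := ht T0 (by linarith) L (hL.mono (by linarith))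
  have b0 := gb_adm ch hM δ0.le
  have j0 := hJ _ b0
  have jb := hJ _ (hb.mono (min_le_left _ _))
  have j1 := hJ _ (h1.mono (min_le_left _ _))
  have j2 := hJ _ (h2.mono (min_le_left _ _))
  have r1 : ∀ s, ∀ x ∈ U1 T L s, 0 < scl T s x := fun s x hx =>
    one_pos.trans_le (ch.cell s x (ch.U1_W1 s hx)).1
  have fa : ∀ {H}, Adm T g T0 L δ' H → Ty.Far (H (Sum.inr T.root)) := fun hH =>
    Ty.far_of (Λ := Λ) (R := 2) (fun x hx =>
      have := (hJ _ (hH.mono (min_le_left _ _)) _ x (Ty.mem_root hx)).1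
      ⟨this.bd, this.hi⟩) hH.dec
  have iE := Ty.intK ch (ch.en_cont (h1.met.sm_sub h2.met)) (by norm_num) ((fa h2).en (fa h1) (R := 2)
    (fun x hx => d_g (h2.met.riem _) (Ty.mem_root hx)) fun x hx => d_g (h1.met.riem _) (Ty.mem_root hx))
  set S := intL T L (fun s x => scl T s x ^ 2 * e0 (F s) x) + En T L (g1 - g2)
  have S0 : 0 ≤ S := add_nonneg (ch.intL_nonneg fun s x _ => mul_nonneg (sq_nonneg _) (e0_nn _ _))
    (Finset.sum_nonneg fun s _ => mul_nonneg (sq_nonneg _) (integral_nonneg fun x =>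
      add_nonneg (e1_nn _ _) (div_nonneg (e0_nn _ _) (sq_nonneg _))))
  have ysm := fun v l s p q => (sm_of_rt ((ht v l).1.sm s) p q).mono (ch.U1_U s)
  have yz : ∀ v l s, ∀ x ∈ U1 T L s, ¬ InK T L v (c + 2) s x → toL T L v (ψ v l) s x = 0 :=
    fun v l s x hx k => (ht v l).2.2.1 s x (ch.U1_U s hx) fun e => k (e.mono (by linarith))
  have one : ∀ v j u, 0 < u → T.eps L v ^ 2 * |μ ⟨v, j⟩| ≤ u * S + K1 * T.eps L v ^ 2 / u +
      K2 * δ' * T.eps L v ^ 2 * ∑ l, |μ ⟨v, l⟩| := fun v j u hu => by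
    set Z : Fam T := ∑ l, A v j l • toL T L v (ψ v l) with hZ
    have ze : ∀ s p q, (fun y => Z s y p q) = fun y => ∑ l, A v j l * toL T L v (ψ v l) s y p q :=
      fun s p q => by funext y; simp [hZ, Matrix.sum_apply]
    have zsm : ∀ s p q, ContDiffOn ℝ ∞ (fun y => Z s y p q) (U1 T L s) := fun s p q => by
      rw [ze]; exact ContDiffOn.sum fun l _ => contDiffOn_const.mul (ysm v l s p q)
    have zc := fun s p q => (zsm s p q).continuousOn
    have zz : ∀ s, ∀ x ∈ U1 T L s, ¬ InK T L v (c + 2) s x → Z s x = 0 := fun s x hx k => by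
      simp [hZ, yz v _ s x hx k]
    have sb : ∀ f : κ v → ℝ, (∀ l, |f l| ≤ P) → |∑ l, A v j l * f l| ≤ a * P := fun f hf =>
      (Finset.abs_sum_le_sum_abs _ _).trans ((Finset.sum_le_sum fun l _ => (abs_mul _ _).trans_le
        (mul_le_mul_of_nonneg_left (hf l) (abs_nonneg _))).trans (by
          rw [← Finset.sum_mul]; exact mul_le_mul_of_nonneg_right (aj v j) P0.le))
    have z0 : ∀ s, ∀ x ∈ U1 T L s, ∀ p q, |Z s x p q| ≤ a * P := fun s x hx p q => by
      rw [congrFun (ze s p q) x]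
      exact sb _ fun l => by simpa using (ht v l).2.2.2.1.val (ch.U1_W1 s hx) p q
    have z1 : ∀ s, ∀ x ∈ U1 T L s, ∀ i p q,
        scl T s x * |pderiv i (fun y => Z s y p q) x| ≤ a * P := fun s x hx i p q => by
      rw [ze, pd_sum i _ fun l _ => (dAt (ysm v l s p q) (ch.op1 s) hx).const_mul _,
        ← abs_of_pos (r1 s x hx), ← abs_mul, Finset.mul_sum]
      simp only [pd_cmul, mul_left_comm (scl T s x)]
      refine sb _ fun l => ?_
      have := (ht v l).2.2.2.1 s x (ch.U1_W1 s hx) 1 le_rfl p q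
      simp only [Pi.zero_apply, sub_zero, pow_one, norm_iteratedFDeriv_one] at this
      rw [abs_mul, abs_of_pos (r1 s x hx)]
      exact (mul_le_mul_of_nonneg_left (abs_pd _ _ _) (r1 s x hx).le).trans this
    have iΨ : ∀ j' : Σ v, κ v, IntL T L fun s x => sr T L j'.1 s *
        prl (gbL T g T0 L s) (Z s) x (Ψ j' s x) := fun j' =>
      ch.prL_int b0.met (hΨ j').cont (hΨ j').supp zc
    have e1 : ∀ s, ∀ x ∈ U1 T L s, prl (gbL T g T0 L s) (Z s) x (Mu.DD (b s) (g1 s) (g2 s) x - F s x) =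
        ∑ j', μ j' * (sr T L j'.1 s * prl (gbL T g T0 L s) (Z s) x (Ψ j' s x)) := fun s x hx => by
      rw [show Mu.DD (b s) (g1 s) (g2 s) x - F s x = ∑ j', μ j' • sr T L j'.1 s • Ψ j' s x by
        ext p q; simp [Mu.DD, eq s x hx p q, Matrix.sum_apply]]
      simp only [map_sum, map_smul, smul_eq_mul]
    have tb := test_bd ch hu Cv0.le b0.met h1.met h2.met zsm zz (fun s => ⟨(hV2 v s).1,
      (hV2 v s).2.1, (hV2 v s).2.2.1, fun x hx k => ((hV2 v s).2.2.2 x hx k).2.1⟩)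
      (fun s x hx => hK _ _ _ _ _ (Z s) (F s) _ x _ (8 * (a * P)) (b0.met.riem s) (hb.met.riem s)
        (h1.met.riem s) (h2.met.riem s) hx (r1 s x hx) (dAt (ch.χ_sm s) (ch.op1 s) hx) (j0 s x hx)
        (jb s x hx) (j1 s x hx) (j2 s x hx) (sqrt_e0_le (z0 s x hx))
        (sqrt_e1_le (r1 s x hx) (z1 s x hx)) (ch.χ_nonneg _ _) (ch.χ_le_one hx) ((hX s).2 x hx).2.1)
      (ch.IntL_congr (IntL.sum _ fun j' _ => (iΨ j').smul (μ j')) e1) iE iF
    rw [ch.intL_congr e1, intL_sum _ fun j' _ => (iΨ j').smul (μ j'), Fintype.sum_sigma,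
      Finset.sum_eq_single v (fun v' _ hv => Finset.sum_eq_zero fun l _ => by
        rw [ch.intL_congr (f' := fun _ _ => 0) fun s x hx => ?_]
        · simp [intL]
        · by_cases k : InK T L v (c + 2) s x
          · rw [(hΨ ⟨v', l⟩).supp s x hx fun k' => hv (((hV2 v s).2.2.2 x hx k).2.2 v' k')]
            simp
          · simp [prl_eq, zz s x hx k]) (by simp)] at tb
    simp only [intL_smul, ← prL_eq] at tb
    have dual : ∀ l, prL T L (gbL T g T0 L) v (toL T L v (ψ v l)) Z =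
        T.eps L v ^ 2 * if l = j then 1 else 0 := fun l => by
      rw [(ht v l).2.2.2.2.2.1 Z zc, ← hA v l j]
      congr 1
      refine Atl.int_congr (h.ok.core_ok v) fun s x hx => ?_
      have : loc T L v Z s x = (∑ l, A v j l • ψ v l) s x := by
        rw [hZ, loc_sum]
        simp [fun l => hV1 v (ψ v l) (hg.psi.supp v l) s x hx]
      simp only [ip]
      congr 1
      funext I
      simp only [matT, this]
    have df : ∀ l, |prL T L (gbL T g T0 L) v (Ψ ⟨v, l⟩) Z -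
        prL T L (gbL T g T0 L) v (toL T L v (ψ v l)) Z| ≤ K2 * δ' * T.eps L v ^ 2 := fun l => by
      have i1 : IntL T L fun s x => sr T L v s * prl (gbL T g T0 L s) (Z s) x (Ψ ⟨v, l⟩ s x) :=
        iΨ ⟨v, l⟩
      have i2 : IntL T L fun s x => sr T L v s *
          prl (gbL T g T0 L s) (Z s) x (toL T L v (ψ v l) s x) :=
        ch.prL_int b0.met (fun s p q => (ysm v l s p q).continuousOn) (yz v l) zc
      rw [prL_eq, prL_eq, ← intL_sub i1 i2]
      simp only [← mul_sub, ← map_sub]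
      refine (Cg.prL_bd (Φ := Ψ ⟨v, l⟩ - toL T L v (ψ v l)) (Λ := |Λ|) h.ok ch.long ch.op1 ch.U1_U
        (fun s x hx => ⟨ch.χ_nonneg _ _, ch.χ_le_one hx⟩) (abs_nonneg _) δ1 (by positivity)
        (fun s => ⟨(hV2 v s).1, (hV2 v s).2.1, (hV2 v s).2.2.1⟩)
        (fun s x hx => ⟨(j0 s x hx).1.hi.trans (le_abs_self _), fun p q =>
          ((j0 s x hx).1.bd p q).2.trans (le_abs_self _)⟩) (hΨ ⟨v, l⟩).near
        (fun s x hx k => by simp [(hΨ ⟨v, l⟩).supp s x hx k, yz v l s x hx k])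
        fun s x hx _ => z0 s x hx).trans_eq (by ring)
    have e2 : T.eps L v ^ 2 * μ ⟨v, j⟩ = ∑ l, μ ⟨v, l⟩ * prL T L (gbL T g T0 L) v (Ψ ⟨v, l⟩) Z -
        ∑ l, μ ⟨v, l⟩ * (prL T L (gbL T g T0 L) v (Ψ ⟨v, l⟩) Z -
          prL T L (gbL T g T0 L) v (toL T L v (ψ v l)) Z) := by
      simp [← Finset.sum_sub_distrib, ← mul_sub, dual, mul_comm]
    rw [show T.eps L v ^ 2 * |μ ⟨v, j⟩| = |T.eps L v ^ 2 * μ ⟨v, j⟩| by
      rw [abs_mul, abs_of_nonneg (sq_nonneg (T.eps L v))], e2]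
    refine (abs_sub _ _).trans (add_le_add (tb.trans_eq (by ring)) ?_)
    rw [Finset.mul_sum]
    exact (Finset.abs_sum_le_sum_abs _ _).trans (Finset.sum_le_sum fun l _ => by
      rw [abs_mul, mul_comm]; exact mul_le_mul_of_nonneg_right (df l) (abs_nonneg _))
  have two : ∀ v, T.eps L v ^ 2 * (∑ l, |μ ⟨v, l⟩|) ^ 2 ≤ 16 * N ^ 2 * K1 * S := fun v => by
    have e0 : 0 < T.eps L v ^ 2 := pow_pos (TD.eps_pos L v) 2
    have m0 : 0 ≤ ∑ l, |μ ⟨v, l⟩| := by positivity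
    have n : (Fintype.card (κ v) : ℝ) ≤ N :=
      Nat.cast_le.2 (Fintype.card_le_of_injective (Sigma.mk v) sigma_mk_injective)
    have := sq_le_of_forall (x := T.eps L v ^ 2 * ∑ l, |μ ⟨v, l⟩|) (A := 2 * N * S)
      (B := 2 * N * (K1 * T.eps L v ^ 2)) (by positivity) (by positivity) fun u hu => by
        have q := Finset.sum_le_card_nsmul Finset.univ _ _ fun j _ => one v j u hu
        rw [← Finset.mul_sum, nsmul_eq_mul, Finset.card_univ] at q
        have q2 := q.trans (mul_le_mul_of_nonneg_right n (by positivity))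
        have q3 := mul_le_mul_of_nonneg_right δ2 (mul_nonneg e0.le m0)
        rw [abs_of_nonneg (by positivity), mul_div_assoc (2 * N)]
        linarith
    refine le_of_mul_le_mul_left ?_ e0
    linarith
  refine (Finset.sum_le_card_nsmul _ _ (16 * N ^ 2 * K1 * S) fun j _ => le_trans ?_ (two j.1)).trans ?_
  · rw [← sq_abs (μ j)]
    gcongr
    exact Finset.single_le_sum (f := fun l => |μ ⟨j.1, l⟩|) (fun _ _ => abs_nonneg _)
      (Finset.mem_univ j.2)
  · rw [nsmul_eq_mul, Finset.card_univ]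
    linarith

end Crest.Agent.N207.NS

end
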