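import Crest.Agent.N207.N.Cmp4
import Crest.Agent.N207.N.Muh2

/-!
# Row 207, block N (helper4): leaf `CMP`
-/

set_option autoImplicit false

open Crest.Agent.N207.I Crest.Agent.N207.CB

namespace Crest.Agent.N207.NS

theorem cmp {M : Type*} {T : TD M} {g : T.V → Fam T} (h : Std T g) : CMP T g :=
  Cp.cmp_muh h fun _ _ _ _ _ _ _ _ _ _ hg ht =>
    muh h (chi h) (vol h) dif (ell h) (gb' h) co hg ht

end Crest.Agent.N207.NS
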