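import Crest.Agent.N207.K.Hd1

/-!
# Row 207, block N (helper9): integration by parts in one chart
-/

set_option autoImplicit false
set_option linter.unusedSectionVars false

open scoped ContDiff Topology
open Set Filter Metric MeasureTheory
open Crest.GeometryTopology.CoordMetric

noncomputable section

namespace Crest.Agent.N207.N

open Crest.Agent.N207.Hd

variable {κ : Type*} [Fintype κ] {U K : Set E4}

theorem cd_pderiv {m : ℕ} (hU : IsOpen U) {f : E4 → ℝ} (hf : ContDiffOn ℝ (m + 1 : ℕ) f U)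
    (i : Fin 4) : ContDiffOn ℝ m (pderiv i f) U :=
  (hf.fderiv_of_isOpen hU (by norm_cast)).clm_apply contDiffOn_const

theorem dAt (hU : IsOpen U) {f : E4 → ℝ} (hf : ContDiffOn ℝ 1 f U) {x : E4} (hx : x ∈ U) :
    DifferentiableAt ℝ f x :=
  (hf.contDiffAt (hU.mem_nhds hx)).differentiableAt one_ne_zero

theorem pd_mul {f g : E4 → ℝ} {x : E4} (hf : DifferentiableAt ℝ f x) (hg : DifferentiableAt ℝ g x)
    (i : Fin 4) : pderiv i (fun y => f y * g y) x = pderiv i f x * g x + f x * pderiv i g x := by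
  unfold pderiv
  rw [fderiv_fun_mul hf hg]
  simp only [add_apply, smul_apply, smul_eq_mul]
  ring

/-- one term -/
theorem ibp_one (hU : IsOpen U) (hK : IsCompact K) (hKU : K ⊆ U) {c s t : E4 → ℝ}
    (hc : ContDiffOn ℝ 1 c U) (hs : ContDiffOn ℝ 2 s U) (ht : ContDiffOn ℝ 1 t U)
    (hz : ∀ x ∈ U, x ∉ K → c x * t x = 0) (i k : Fin 4) :
    ∫ x in K, (c x * pderiv i (pderiv k s) x * t x +
      (c x * pderiv k s x * pderiv i t x + pderiv i c x * pderiv k s x * t x)) = 0 := by
  have h1 : ContDiffOn ℝ 1 (pderiv k s) U := cd_pderiv (m := 1) hU hs k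
  rw [← int_pderiv hU hK hKU (f := fun y => c y * pderiv k s y * t y) ((hc.mul h1).mul ht)
    (fun x hx hxK => by
      have := hz x hx hxK
      calc c x * pderiv k s x * t x = c x * t x * pderiv k s x := by ring
        _ = 0 := by rw [this, zero_mul]) i]
  refine setIntegral_congr_fun hK.measurableSet fun x hx => ?_
  have hx' := hKU hx
  rw [pd_mul (f := fun y => c y * pderiv k s y) ((dAt hU hc hx').mul (dAt hU h1 hx')) (dAt hU ht hx'),
    pd_mul (dAt hU hc hx') (dAt hU h1 hx')]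
  ring

/-- integration by parts for a system -/
theorem ibp_chart (hU : IsOpen U) (hK : IsCompact K) (hKU : K ⊆ U)
    {c : Fin 4 → Fin 4 → κ → κ → E4 → ℝ} (hc : ∀ i k I J, ContDiffOn ℝ 1 (c i k I J) U)
    {s t : κ → E4 → ℝ} (hs : ∀ I, ContDiffOn ℝ 2 (s I) U) (ht : ∀ I, ContDiffOn ℝ 1 (t I) U)
    (hz : ∀ x ∈ U, x ∉ K → ∀ i k I J, c i k I J x * t J x = 0) :
    ∫ x in K, ∑ i, ∑ k, ∑ I, ∑ J, (c i k I J x * pderiv i (pderiv k (s I)) x * t J x +
      (c i k I J x * pderiv k (s I) x * pderiv i (t J) x +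
        pderiv i (c i k I J) x * pderiv k (s I) x * t J x)) = 0 := by
  have hi : ∀ i k I J, IntegrableOn (fun x => c i k I J x * pderiv i (pderiv k (s I)) x * t J x +
      (c i k I J x * pderiv k (s I) x * pderiv i (t J) x +
        pderiv i (c i k I J) x * pderiv k (s I) x * t J x)) K := fun i k I J => by
    have h1 : ContDiffOn ℝ 1 (pderiv k (s I)) U := cd_pderiv (m := 1) hU (hs I) k
    have a1 := (hc i k I J).continuousOn
    have a2 := contOn_pderiv hU h1 i
    have a3 := (ht J).continuousOn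
    have a4 := h1.continuousOn
    have a5 := contOn_pderiv hU (ht J) i
    have a6 := contOn_pderiv hU (hc i k I J) i
    exact ((((a1.mul a2).mul a3).add (((a1.mul a4).mul a5).add ((a6.mul a4).mul a3))).mono
      hKU).integrableOn_compact hK
  rw [integral_finsetSum _ fun i _ => integrable_finsetSum _ fun k _ =>
    integrable_finsetSum _ fun I _ => integrable_finsetSum _ fun J _ => hi i k I J]
  refine Finset.sum_eq_zero fun i _ => ?_
  rw [integral_finsetSum _ fun k _ =>
    integrable_finsetSum _ fun I _ => integrable_finsetSum _ fun J _ => hi i k I J]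
  refine Finset.sum_eq_zero fun k _ => ?_
  rw [integral_finsetSum _ fun I _ => integrable_finsetSum _ fun J _ => hi i k I J]
  refine Finset.sum_eq_zero fun I _ => ?_
  rw [integral_finsetSum _ fun J _ => hi i k I J]
  exact Finset.sum_eq_zero fun J _ =>
    ibp_one hU hK hKU (hc i k I J) (hs I) (ht J) (fun x hx h => hz x hx h i k I J) i k

/-- the conjugation identity: for `c` symmetric under `(i, I) ↔ (k, J)`,
`c ∂s ∂(φ² s) = c ∂(φ s) ∂(φ s) - c ∂φ ∂φ s s` -/
theorem conj_id {c : Fin 4 → Fin 4 → κ → κ → ℝ} (hc : ∀ i k I J, c i k I J = c k i J I)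
    {s : κ → E4 → ℝ} {φ : E4 → ℝ} {x : E4} (hs : ∀ I, DifferentiableAt ℝ (s I) x)
    (hφ : DifferentiableAt ℝ φ x) :
    ∑ i, ∑ k, ∑ I, ∑ J, c i k I J * pderiv k (s I) x * pderiv i (fun y => φ y ^ 2 * s J y) x =
      ∑ i, ∑ k, ∑ I, ∑ J, c i k I J * pderiv k (fun y => φ y * s I y) x *
        pderiv i (fun y => φ y * s J y) x -
      ∑ i, ∑ k, ∑ I, ∑ J, c i k I J * (pderiv k φ x * s I x) * (pderiv i φ x * s J x) := by
  have e1 : ∀ i J, pderiv i (fun y => φ y ^ 2 * s J y) x =
      2 * φ x * pderiv i φ x * s J x + φ x ^ 2 * pderiv i (s J) x := fun i J => by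
    have : (fun y => φ y ^ 2 * s J y) = fun y => φ y * (φ y * s J y) := by funext y; ring
    rw [this, pd_mul (g := fun y => φ y * s J y) hφ (hφ.mul (hs J)), pd_mul hφ (hs J)]
    ring
  simp only [e1, pd_mul hφ (hs _)]
  have sw : ∑ i, ∑ k, ∑ I, ∑ J, c i k I J * (φ x * (pderiv k φ x * s I x * pderiv i (s J) x)) =
      ∑ i, ∑ k, ∑ I, ∑ J, c i k I J * (φ x * (pderiv i φ x * s J x * pderiv k (s I) x)) := by
    rw [Finset.sum_comm]
    refine Finset.sum_congr rfl fun i _ => Finset.sum_congr rfl fun k _ => ?_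
    rw [Finset.sum_comm]
    refine Finset.sum_congr rfl fun I _ => Finset.sum_congr rfl fun J _ => ?_
    rw [hc]
  rw [eq_sub_iff_add_eq, ← sub_eq_zero]
  have e2 : ∀ f g h : Fin 4 → Fin 4 → κ → κ → ℝ,
      (∑ i, ∑ k, ∑ I, ∑ J, f i k I J) + (∑ i, ∑ k, ∑ I, ∑ J, g i k I J) -
        (∑ i, ∑ k, ∑ I, ∑ J, h i k I J) = ∑ i, ∑ k, ∑ I, ∑ J, (f i k I J + g i k I J - h i k I J) :=
    fun f g h => by simp only [Finset.sum_add_distrib, Finset.sum_sub_distrib]
  rw [e2, ← sub_eq_zero.2 sw.symm]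
  simp only [← Finset.sum_sub_distrib]
  refine Finset.sum_congr rfl fun i _ => Finset.sum_congr rfl fun k _ =>
    Finset.sum_congr rfl fun I _ => Finset.sum_congr rfl fun J _ => ?_
  ring

end Crest.Agent.N207.N

end
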