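import Crest.Agent.N207.N.Gr1

/-!
# Row 207, block N (helper26): shared kit, part 3: `PsT`, `prL`, the first variation
-/

set_option autoImplicit false

open scoped ContDiff Topology
open Metric Set Filter MeasureTheory
open Crest.GeometryTopology.CoordMetric
open Crest.Agent.N207.I Crest.Agent.N207.I.TD Crest.Agent.N207.Lg Crest.Agent.N207.CB

noncomputable section

namespace Crest.Agent.N207.NS

section pt

variable {A B b G ψ : MetricField 4} {U : Set E4} {x : E4}

theorem cm_mul (hA : ∀ p q, ContinuousOn (fun x => A x p q) U)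
    (hB : ∀ p q, ContinuousOn (fun x => B x p q) U) (p q : Fin 4) :
    ContinuousOn (fun x => (A x * B x) p q) U := by
  simp only [Matrix.mul_apply]
  exact continuousOn_finsetSum _ fun i _ => (hA _ _).mul (hB _ _)

theorem cont_PsT (hb : IsRiemannianOn b U) (hG : IsRiemannianOn G U)
    (hψ : ∀ p q, ContinuousOn (fun x => ψ x p q) U) (p q : Fin 4) :
    ContinuousOn (fun x => PsT b G ψ x p q) U := by
  have h1 := fun p q => (hG.contDiffOn p q).continuousOn
  have h2 := fun p q => (sm_inv hb p q).continuousOn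
  have hX : ∀ p q, ContinuousOn (fun y => ((sq b y / sq G y) •
      (G y * (b y)⁻¹ * ψ y * (b y)⁻¹ * G y)) p q) U := fun p q =>
    ((sm_sqrt_det hb).continuousOn.div (sm_sqrt_det hG).continuousOn fun y hy =>
      (Real.sqrt_pos.2 (hG.posDef y hy).det_pos).ne').mul
      (cm_mul (cm_mul (cm_mul (cm_mul h1 h2) hψ) h2) h1 p q)
  exact (hX p q).sub ((continuousOn_const.mul (continuousOn_finsetSum _ fun a _ =>
    continuousOn_finsetSum _ fun c _ => (sm_inv hG a c).continuousOn.mul (hX a c))).mul (h1 p q))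

theorem PsT_zero (h : ψ x = 0) : PsT b G ψ x = 0 := by simp [PsT, TRg, tr2, h]

theorem ip_mat (hb : (b x).PosDef) : ip b (matT A) (matT B) x =
    tr2 (up (iv b x) fun p q => A x p q) fun p q => B x p q :=
  ipA_two' (sy_inv fun i j => by simpa using hb.isHermitian.apply j i) _ _

theorem cont_ip (hb : IsRiemannianOn b U) (hA : ∀ p q, ContinuousOn (fun x => A x p q) U)
    (hB : ∀ p q, ContinuousOn (fun x => B x p q) U) : ContinuousOn (ip b (matT A) (matT B)) U := by
  unfold ip ipA matT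
  exact continuousOn_finsetSum _ fun _ _ => continuousOn_finsetSum _ fun _ _ =>
    (continuousOn_finsetProd _ fun _ _ => (sm_inv hb _ _).continuousOn).mul ((hA _ _).mul (hB _ _))

theorem ip_zero (h : A x = 0) : ip b (matT A) (matT B) x = 0 := by simp [ip, ipA, matT, h]

theorem ip_sub (C : MetricField 4) : ip b (matT A) (matT (B - C)) x =
    ip b (matT A) (matT B) x - ip b (matT A) (matT C) x := ipA_sub_right _ _ _

end pt

variable {M : Type*} {T : TD M} {L : T.V → ℝ} {g : T.V → Fam T} {T0 δ : ℝ}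

section pr

variable {b Φ k k' : Fam T} {v : T.V} {d : ℝ}

theorem Ch.prL_int (c : Ch T L) (hb : Met1 T L b)
    (hΦ : ∀ s p q, ContinuousOn (fun x => Φ s x p q) (U1 T L s))
    (hz : ∀ s, ∀ x ∈ U1 T L s, ¬ InK T L v d s x → Φ s x = 0)
    (hk : ∀ s p q, ContinuousOn (fun x => k s x p q) (U1 T L s)) :
    IntL T L fun s x => sr T L v s * (sq (b s) x * ip (b s) (matT (Φ s)) (matT (k s)) x) :=
  c.intL_of_supp (v := v) (d := d) (fun s => continuousOn_const.mul ((sm_sqrt_det (hb.riem s)).continuousOn.mul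
    (cont_ip (hb.riem s) (hΦ s) (hk s)))) fun s x hx hi => by simp [ip_zero (hz s x hx hi)]

theorem Ch.prL_sub (c : Ch T L) (hb : Met1 T L b)
    (hΦ : ∀ s p q, ContinuousOn (fun x => Φ s x p q) (U1 T L s))
    (hz : ∀ s, ∀ x ∈ U1 T L s, ¬ InK T L v d s x → Φ s x = 0)
    (hk : ∀ s p q, ContinuousOn (fun x => k s x p q) (U1 T L s))
    (hk' : ∀ s p q, ContinuousOn (fun x => k' s x p q) (U1 T L s)) :
    prL T L b v Φ (k - k') = prL T L b v Φ k - prL T L b v Φ k' := by
  rw [prL, prL, prL, ← intL_sub (c.prL_int hb hΦ hz hk) (c.prL_int hb hΦ hz hk')]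
  simp only [Pi.sub_apply, ip_sub, mul_sub]

theorem prL_swap (k k' : Fam T) : prL T L b v Φ (k - k') = -prL T L b v Φ (k' - k) := by
  rw [prL, prL, ← neg_one_mul, ← intL_smul]
  congr 1
  funext s x
  simp only [Pi.sub_apply, ip_sub]
  ring

theorem prt_self {ψ : Fam T} (hδ : 0 ≤ δ)
    (hc : ∀ s p q, ContinuousOn (fun x => toL T L v ψ s x p q) (U1 T L s))
    (hz : ∀ s, ∀ x ∈ U1 T L s, ¬ InK T L v d s x → toL T L v ψ s x = 0) :
    Prt T L v d δ ψ (toL T L v ψ) := ⟨hc, fun _ _ _ _ _ => by simpa using hδ, hz⟩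

/-- `σ PsT b H ψ` is a perturbation of `ψ` -/
theorem prt_ps {ψ H : Fam T} {σ : ℝ} (hM : MUL) (hb : Met1 T L b) (hH : Met1 T L H)
    (hc : ∀ s p q, ContinuousOn (fun x => toL T L v ψ s x p q) (U1 T L s))
    (hz : ∀ s, ∀ x ∈ U1 T L s, ¬ InK T L v d s x → toL T L v ψ s x = 0) (hσ : σ = 1 ∨ σ = -1)
    (he : ∀ s, ∀ x ∈ U1 T L s, TRg (b s x) (toL T L v ψ s x) = σ • toL T L v ψ s x)
    (hn : ∀ s, ∀ x ∈ U1 T L s, ∀ p q, |PsT (b s) (H s) (toL T L v ψ s) x p q -
      PsT (b s) (b s) (toL T L v ψ s) x p q| ≤ δ) :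
    Prt T L v d δ ψ fun s x => σ • PsT (b s) (H s) (toL T L v ψ s) x := by
  refine ⟨fun s p q => continuousOn_const.mul (cont_PsT (hb.riem s) (hH.riem s) (hc s) p q),
    fun s x hx p q => ?_, fun s x hx hi => by rw [PsT_zero (hz s x hx hi), smul_zero]⟩
  have h1 := hn s x hx p q
  rw [hM.2.1 _ _ _ ((hb.riem s).posDef x hx), he s x hx] at h1
  rcases hσ with rfl | rfl
  · simpa using h1
  · rw [← abs_neg] at h1
    convert h1 using 2
    simp only [Matrix.smul_apply, smul_eq_mul]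
    ring

end pr

variable {κ : T.V → Type} [∀ v, Fintype (κ v)] {ψ : ∀ v, κ v → Fam T}
  {θ μ : (Σ v, κ v) → ℝ} {G k : Fam T} {d : ℝ}

/-- the first variation at a Lyapunov-Schmidt solution -/
theorem int_fv (c : Ch T L) (hb : Met1 T L (gbL T g T0 L)) (h : LS T g T0 κ ψ δ L θ μ G)
    (hc : ∀ v j s p q, ContinuousOn (fun x => toL T L v (ψ v j) s x p q) (U1 T L s))
    (hz : ∀ v j s, ∀ x ∈ U1 T L s, ¬ InK T L v d s x → toL T L v (ψ v j) s x = 0)
    (hk : ∀ s p q, ContinuousOn (fun x => k s x p q) (U1 T L s))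
    (hs : ∀ s, ∀ x ∈ U1 T L s, ∀ p q, k s x p q = k s x q p) :
    IntL T L (fun s => fv (gbL T g T0 L s) (G s) (k s)) ∧
      intL T L (fun s => fv (gbL T g T0 L s) (G s) (k s)) =
        ∑ j, μ j * prL T L (gbL T g T0 L) j.1 (toL T L j.1 (ψ j.1 j.2)) k := by
  have e : ∀ s, ∀ x ∈ U1 T L s, fv (gbL T g T0 L s) (G s) (k s) x = ∑ j : Σ v, κ v, μ j *
      (sr T L j.1 s * (sq (gbL T g T0 L s) x * ip (gbL T g T0 L s)
        (matT (toL T L j.1 (ψ j.1 j.2) s)) (matT (k s)) x)) := fun s x hx => by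
    simp only [ip_mat ((hb.riem s).posDef x hx)]
    exact h.el s x (c.U1_U s hx) _ (hs s x hx)
  have hi := fun j : Σ v, κ v => (c.prL_int hb (hc j.1 j.2) (hz j.1 j.2) hk).smul (μ j)
  refine ⟨c.IntL_congr (IntL.sum _ fun j _ => hi j) e, ?_⟩
  rw [c.intL_congr e, intL_sum _ fun j _ => hi j]
  simp only [intL_smul, prL]

theorem abs_sum_mu_le (L : T.V → ℝ) (μ a : (Σ v, κ v) → ℝ) :
    |∑ j, μ j * a j| ≤ √(mu2 T κ L μ) * √(∑ j, (a j / T.eps L j.1) ^ 2) := by
  have h := Finset.sum_mul_sq_le_sq_mul_sq Finset.univ (fun j => T.eps L j.1 * μ j)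
    fun j => a j / T.eps L j.1
  have e : ∑ j, μ j * a j = ∑ j, T.eps L j.1 * μ j * (a j / T.eps L j.1) :=
    Finset.sum_congr rfl fun j _ => by have := (eps_pos L j.1).ne'; field_simp
  rw [e, ← Real.sqrt_mul (by unfold mu2; positivity)]
  refine Real.abs_le_sqrt (h.trans_eq ?_)
  simp only [mu2, mul_pow]

theorem Met1.symm {H : Fam T} (h : Met1 T L H) {s : T.S} {x : E4} (hx : x ∈ U1 T L s) (p q : Fin 4) :
    H s x p q = H s x q p := by simpa using ((h.riem s).posDef x hx).isHermitian.apply q p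

theorem Met1.sm_sub {H H' : Fam T} (h : Met1 T L H) (h' : Met1 T L H') (s : T.S) (p q : Fin 4) :
    ContDiffOn ℝ ∞ (fun x => (H - H') s x p q) (U1 T L s) :=
  ((h.riem s).contDiffOn p q).sub ((h'.riem s).contDiffOn p q)

end Crest.Agent.N207.NS

end
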