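import Crest.Agent.N207.N.CmpP
import Crest.Agent.N207.N.Gr2

/-!
# Row 207, block N (helper4): `CMP`, the energy inequality
-/

set_option autoImplicit false

open scoped ContDiff Topology
open Metric Set Filter MeasureTheory
open Crest.GeometryTopology.CoordMetric
open Crest.Agent.N207.I Crest.Agent.N207.Lg Crest.Agent.N207.CB Crest.Agent.N207.Hd

noncomputable section

namespace Crest.Agent.N207.NS.Cp

section chart

variable {U K : Set E4} {b g k t : MetricField 4}

theorem err_le (hU : IsOpen U) (hK : IsClosed K) (hKU : K ⊆ U) {f h : E4 → ℝ}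
    (hf : ContinuousOn f U) (hz : ∀ x ∈ U, x ∉ K → f x = 0) (hh : IntegrableOn h K)
    (hb : ∀ x ∈ K, |f x| ≤ h x) : IntegrableOn f U ∧ -∫ x in U, f x ≤ ∫ x in K, h x := by
  have z : ∀ x ∈ U \ K, f x = 0 := fun x hx => hz x hx.1 hx.2
  have i : IntegrableOn f K := Integrable.mono' hh ((hf.mono hKU).aestronglyMeasurable
    hK.measurableSet) ((ae_restrict_iff' hK.measurableSet).2 (Eventually.of_forall hb))
  refine ⟨i.of_forall_sdiff_eq_zero hU.measurableSet z, ?_⟩
  rw [setIntegral_eq_of_subset_of_forall_sdiff_eq_zero hU.measurableSet hKU z, ← integral_neg]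
  exact setIntegral_mono_on i.neg hh hK.measurableSet fun x hx => (neg_le_abs _).trans (hb x hx)

theorem cont_prl (hb : IsRiemannianOn b U) {X : MetricField 4}
    (hX : ∀ p q, ContinuousOn (fun x => X x p q) U) (ht : ∀ p q, ContinuousOn (fun x => t x p q) U) :
    ContinuousOn (fun x => prl b t x (X x)) U :=
  (sm_sqrt_det hb).continuousOn.mul (cont_ip hb hX ht)

theorem cont_Bq (hb : IsRiemannianOn b U) (hg : IsRiemannianOn g U)
    (hk : ∀ p q, ContDiffOn ℝ ∞ (fun y => k y p q) U) : ContinuousOn (Bq b g k k) U :=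
  continuousOn_finsetSum _ fun a _ => ((sm_c6 hb hg a).continuousOn.mul
    (sm_pd hb.isOpen (hk _ _) _).continuousOn).mul (sm_pd hb.isOpen (hk _ _) _).continuousOn

theorem cont_Dq (hU : IsOpen U) {c : I6 → E4 → ℝ} (hc : ∀ a, ContDiffOn ℝ ∞ (c a) U)
    (hk : ∀ p q, ContDiffOn ℝ ∞ (fun y => k y p q) U) : ContinuousOn (Dq c k k) U :=
  continuousOn_finsetSum _ fun a _ => ((sm_pd hU (hc a) _).continuousOn.mul
    (sm_pd hU (hk _ _) _).continuousOn).mul (hk _ _).continuousOn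

theorem cont_Lq (hg : IsRiemannianOn g U) (hk : ∀ p q, ContDiffOn ℝ ∞ (fun y => k y p q) U)
    (p q : Fin 4) : ContinuousOn (fun x => Lq g k x p q) U := by
  simp only [Lq, Matrix.of_apply]
  exact continuousOn_finsetSum _ fun _ _ => continuousOn_finsetSum _ fun _ _ =>
    (sm_inv hg _ _).continuousOn.mul (sm_pd hg.isOpen (sm_pd hg.isOpen (hk _ _) _) _).continuousOn

/-- the numerical form of the error bound -/
theorem err_num {A B D χ Λ C w a z r u : ℝ} (hχ0 : 0 ≤ χ) (hχ : χ ≤ 1) (hΛ : 1 ≤ Λ) (hC : 0 ≤ C)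
    (hw : 0 ≤ w) (ha : 0 ≤ a) (hz : 0 ≤ z) (hr : 0 < r)
    (hA : |A| ≤ 256 * (Λ ^ 3 * (C * w * (√a / r + √z / r ^ 2)) * √z))
    (hD : |D| ≤ 4096 * (C * w / r * √a * √z)) (hB : B = C * (1024 * Λ ^ 3 + 4096)) (hu : 0 < u) :
    |2 * (χ * A) + D| ≤ B * w * (a + z / r ^ 2) ∧
      (w = 1 → |2 * (χ * A) + D| ≤ u * (a + z / r ^ 2) + B ^ 2 / u * (z / r ^ 2)) := by
  have z0 : 0 ≤ z / r ^ 2 := by positivity
  have e1 : √z / r = √(z / r ^ 2) := by rw [Real.sqrt_div hz, Real.sqrt_sq hr.le]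
  have l1 : √a ≤ √(a + z / r ^ 2) := Real.sqrt_le_sqrt (by linarith)
  have l2 : √(z / r ^ 2) ≤ √(a + z / r ^ 2) := Real.sqrt_le_sqrt (by linarith)
  have k : |2 * (χ * A) + D| ≤ B * w * (√(a + z / r ^ 2) * √(z / r ^ 2)) := by
    have a1 : |2 * (χ * A)| ≤ 2 * |A| := by
      rw [abs_mul, abs_mul, abs_two, abs_of_nonneg hχ0]
      exact mul_le_mul_of_nonneg_left (mul_le_of_le_one_left (abs_nonneg _) hχ) two_pos.le
    have a2 : 256 * (Λ ^ 3 * (C * w * (√a / r + √z / r ^ 2)) * √z) =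
        256 * (Λ ^ 3 * C * w) * ((√a + √z / r) * (√z / r)) := by field_simp
    have a3 : 4096 * (C * w / r * √a * √z) = 4096 * (C * w) * (√a * (√z / r)) := by field_simp
    rw [a2, e1] at hA
    rw [a3, e1] at hD
    have a4 : 256 * (Λ ^ 3 * C * w) * ((√a + √(z / r ^ 2)) * √(z / r ^ 2)) ≤
        256 * (Λ ^ 3 * C * w) * ((√(a + z / r ^ 2) + √(a + z / r ^ 2)) * √(z / r ^ 2)) := by
      gcongr
    have a5 : 4096 * (C * w) * (√a * √(z / r ^ 2)) ≤
        4096 * (C * w) * (√(a + z / r ^ 2) * √(z / r ^ 2)) := by gcongr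
    have := abs_add_le (2 * (χ * A)) D
    rw [hB]; linarith
  have B0 : 0 ≤ B := by rw [hB]; positivity
  refine ⟨k.trans (mul_le_mul_of_nonneg_left ?_ (by positivity)), fun e => k.trans ?_⟩
  · exact (mul_le_mul_of_nonneg_left l2 (Real.sqrt_nonneg _)).trans_eq
      (Real.mul_self_sqrt (by positivity))
  · rw [e, mul_one]
    refine (amgm hu B _ _).trans_eq ?_
    rw [Real.sq_sqrt (by positivity), Real.sq_sqrt z0]; ring

end chart

variable {M : Type*} {T : TD M} {L : T.V → ℝ}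

theorem scl_le (s : T.S) (x : E4) : scl T s x ≤ 1 + ‖x‖ := by
  rcases s with a | w
  · exact le_add_of_nonneg_right (norm_nonneg x)
  · exact le_add_of_nonneg_left zero_le_one

/-- **the energy inequality** -/
theorem energy (c : Ch T L) {b g1 g2 F : Fam T} {Λ C d d' θ u : ℝ} {ι : Type} [Fintype ι]
    {v : ι → T.V} {Ψ : ι → Fam T} {μ : ι → ℝ} (hb : Met1 T L b) (h1 : Met1 T L g1)
    (h2 : Met1 T L g2) (P : Pw T L Λ C d θ b g1 g2) (hΛ : 1 ≤ Λ) (hC : 0 ≤ C) (hθ : 0 ≤ θ)
    (hu : 0 < u) (hm : ∀ s, MeasurableSet (Cor T L d s))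
    (hΨ : ∀ j s p q, ContinuousOn (fun x => Ψ j s x p q) (U1 T L s))
    (hz : ∀ j s, ∀ x ∈ U1 T L s, ¬ InK T L (v j) d' s x → Ψ j s x = 0)
    (eq : ∀ s, ∀ x ∈ U1 T L s, ∀ p q, redT (b s) (g1 s) x ![p, q] - redT (b s) (g2 s) x ![p, q] =
      F s x p q + ∑ j, μ j * (sr T L (v j) s * Ψ j s x p q))
    (hF : IntL T L fun s x => scl T s x ^ 2 * e0 (F s) x)
    (hen : ∀ s, IntegrableOn (en T (g1 - g2) s) (K1 T L s)) :
    Λ⁻¹ ^ 4 * intL T L (fun s x => e1 ((g1 - g2) s) x) ≤
      2 * ∑ j, μ j * prL T L b (v j) (Ψ j) (g1 - g2) +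
      (2 * u + C * (1024 * Λ ^ 3 + 4096) * θ) * En T L (g1 - g2) +
      (C * (1024 * Λ ^ 3 + 4096)) ^ 2 / u * Zc T L d (g1 - g2) +
      (512 * Λ ^ 3) ^ 2 / u * intL T L fun s x => scl T s x ^ 2 * e0 (F s) x := by
  classical
  obtain ⟨B, hB⟩ : ∃ B, B = C * (1024 * Λ ^ 3 + 4096) := ⟨_, rfl⟩
  have B0 : 0 ≤ B := by rw [hB]; positivity
  rw [← hB]
  have ks := h1.sm_sub h2
  have P1 := P.dif
  obtain ⟨k, hk⟩ : ∃ k, k = g1 - g2 := ⟨_, rfl⟩
  simp only [show ∀ s, g1 s - g2 s = k s from fun s => by rw [hk]; rfl] at P1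
  rw [← hk] at ks hen ⊢
  have kc := fun s p q => (ks s p q).continuousOn
  have sp : ∀ s, ∀ x ∈ U1 T L s, 0 < scl T s x := fun s x hx =>
    one_pos.trans_le (c.cell s x (c.U1_W1 s hx)).1
  have zn : ∀ s x, 0 ≤ e0 (k s) x / scl T s x ^ 2 := fun s x => div_nonneg (e0_nn _ _) (sq_nonneg _)
  have en0 : ∀ s x, 0 ≤ en T k s x := fun s x => add_nonneg (e1_nn _ _) (zn s x)
  have e1le : ∀ s x, e1 (k s) x ≤ en T k s x := fun s x => le_add_of_nonneg_right (zn s x)
  have zle : ∀ s x, e0 (k s) x / scl T s x ^ 2 ≤ en T k s x := fun s x =>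
    le_add_of_nonneg_left (e1_nn _ _)
  have zc : ∀ s, ContinuousOn (fun x => e0 (k s) x / scl T s x ^ 2) (U1 T L s) := fun s =>
    (e0_cont (kc s)).div ((scl_cont s).pow 2).continuousOn fun x hx => (pow_pos (sp s x hx) 2).ne'
  obtain ⟨ien, len⟩ := c.intL_le_K1 (c.en_cont ks) (fun s x _ => en0 s x) hen
  rw [← En_eq] at len
  have dc : ∀ s p q, ContinuousOn (fun x => redT (b s) (g1 s) x ![p, q] -
      redT (b s) (g2 s) x ![p, q]) (U1 T L s) := fun s p q =>
    ((smT_redT (hb.riem s) (h1.riem s) _).sub (smT_redT (hb.riem s) (h2.riem s) _)).continuousOn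
  have Fc : ∀ s p q, ContinuousOn (fun x => F s x p q) (U1 T L s) := fun s p q =>
    ((dc s p q).sub (continuousOn_finsetSum Finset.univ fun j _ => continuousOn_const.mul
      (continuousOn_const.mul (hΨ j s p q)))).congr fun x hx => eq_sub_of_add_eq (eq s x hx p q).symm
  have i1 : IntL T L fun s x => e1 (k s) x := c.IntL_of_le ien (fun s =>
    ((c.en_cont ks s).sub (zc s)).congr fun x _ => (add_sub_cancel_right _ _).symm)
    fun s x _ => by rw [abs_of_nonneg (e1_nn _ _)]; exact e1le s x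
  have iB : IntL T L fun s => Bq (b s) (g1 s) (k s) (k s) :=
    c.IntL_of_le (ien.smul (4096 * Λ ^ 4)) (fun s => cont_Bq (hb.riem s) (h1.riem s) (ks s))
      fun s x hx => ((P.mb s x hx).Bq (P.mg s x hx)).trans (by
        rw [mul_assoc (Λ ^ 4), Real.mul_self_sqrt (e1_nn _ _), ← mul_assoc]
        exact mul_le_mul_of_nonneg_left (e1le s x) (by positivity))
  have bF : ∀ s, ∀ x ∈ U1 T L s, |2 * prl (b s) (k s) x (F s x)| ≤
      u * en T k s x + (512 * Λ ^ 3) ^ 2 / u * (scl T s x ^ 2 * e0 (F s) x) := fun s x hx => by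
    have a1 := (P.mb s x hx).prl (t := k s) fun p q => Cp.abs_le_e0 (t := F s) (x := x) p q
    have a2 := amgm hu (512 * Λ ^ 3) (√(e0 (k s) x) / scl T s x) (scl T s x * √(e0 (F s) x))
    have a3 := mul_le_mul_of_nonneg_left (zle s x) hu.le
    have := (sp s x hx).ne'
    rw [div_pow, mul_pow (scl T s x), Real.sq_sqrt (e0_nn _ _), Real.sq_sqrt (e0_nn _ _),
      show √(e0 (k s) x) / scl T s x * (scl T s x * √(e0 (F s) x)) =
        √(e0 (F s) x) * √(e0 (k s) x) by field_simp, mul_div_right_comm] at a2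
    rw [abs_mul, abs_two]; linarith
  have iG := (ien.smul u).add (hF.smul ((512 * Λ ^ 3) ^ 2 / u))
  have iF : IntL T L fun s x => 2 * prl (b s) (k s) x (F s x) := c.IntL_of_le iG
    (fun s => continuousOn_const.mul (cont_prl (hb.riem s) (Fc s) (kc s))) bF
  have iΨ : ∀ j, IntL T L fun s x => μ j * (sr T L (v j) s * prl (b s) (k s) x (Ψ j s x)) :=
    fun j => (c.prL_int hb (hΨ j) (hz j) kc).smul (μ j)
  have iS := (IntL.sum Finset.univ fun j _ => iΨ j).smul 2
  have iY := (iB.sub iF).sub iS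
  have key : ∀ s, ∫ x in U1 T L s, T.χ s ((T.glob L).c s x) * (Bq (b s) (g1 s) (k s) (k s) x -
      2 * prl (b s) (k s) x (F s x) - 2 * ∑ j, μ j * (sr T L (v j) s * prl (b s) (k s) x (Ψ j s x))) ≤
      (u + B * θ) * (∫ x in K1 T L s, en T k s x) +
        B ^ 2 / u * ∫ x in T.gK L s ∩ Cor T L d s, e0 (k s) x / scl T s x ^ 2 := fun s => by
    have hU := c.op1 s
    have z0 : ∀ x ∈ U1 T L s, x ∉ T.gK L s → T.χ s ((T.glob L).c s x) = 0 := fun x hx hx' =>
      by_contra fun h => hx' (c.χ_supp (c.U1_U s hx) h)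
    obtain ⟨cc, hcc⟩ : ∃ cc : I6 → E4 → ℝ,
      cc = fun a y => T.χ s ((T.glob L).c s y) * c6 (b s) (g1 s) a y := ⟨_, rfl⟩
    have cs : ∀ a, ContDiffOn ℝ ∞ (cc a) (U1 T L s) := fun a =>
      hcc ▸ (c.χ_sm s).mul (sm_c6 (hb.riem s) (h1.riem s) a)
    have cz : ∀ a, ∀ x ∈ U1 T L s, x ∉ T.gK L s → cc a x = 0 := fun a x hx hx' => by
      simp only [hcc, z0 x hx hx', zero_mul]
    let R : MetricField 4 := fun x => Matrix.of fun p q => redT (b s) (g1 s) x ![p, q] -
      redT (b s) (g2 s) x ![p, q] + 1 / 2 * Lq (g1 s) (k s) x p q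
    have ie := (hen s).mono_set (c.gK_K1 s)
    have iz : IntegrableOn ((Cor T L d s).indicator fun x => e0 (k s) x / scl T s x ^ 2) (T.gK L s) :=
      (Integrable.mono' ie (((zc s).mono (c.gK_U1 s)).aestronglyMeasurable (c.cl_gK s).measurableSet)
        (Eventually.of_forall fun x => by
          rw [Real.norm_of_nonneg (zn s x)]; exact zle s x)).indicator (hm s)
    obtain ⟨iE, hE⟩ := err_le hU (c.cl_gK s) (c.gK_U1 s) (f := fun x => 2 * (T.χ s ((T.glob L).c s x) *
        prl (b s) (k s) x (R x)) + Dq cc (k s) (k s) x)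
      ((continuousOn_const.mul ((c.χ_sm s).continuousOn.mul (cont_prl (hb.riem s) (X := R)
        (fun p q => (dc s p q).add (continuousOn_const.mul (cont_Lq (h1.riem s) (ks s) p q)))
        (kc s)))).add (cont_Dq hU cs (ks s)))
      (fun x hx hx' => by simp [z0 x hx hx', Dq, pd_zero hU (c.cl_gK s) (cz _) hx hx'])
      ((ie.const_mul (u + B * θ)).add (iz.const_mul (B ^ 2 / u))) fun x hx' => by
        have hx := c.gK_U1 s hx'
        have w0 : 0 ≤ wθ T L d θ s x := by unfold wθ; split_ifs; exacts [zero_le_one, hθ]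
        obtain ⟨a1, a2⟩ := err_num (c.χ_nonneg s _) (c.χ_le_one hx) hΛ hC w0 (e1_nn (k s) x)
          (e0_nn (k s) x) (sp s x hx) ((P.mb s x hx).prl (t := k s) (X := R x) (P1 s x hx))
          (Dq_le (c := cc) (k := k s) (t := k s) fun a i => (le_div_iff₀' (sp s x hx)).2
            (hcc ▸ P.co s x hx a i)) hB hu
        have a3 := mul_nonneg (mul_nonneg B0 hθ) (en0 s x)
        have a4 := mul_nonneg hu.le (en0 s x)
        simp only [Pi.add_apply]
        by_cases h : x ∈ Cor T L d s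
        · rw [indicator_of_mem h]
          have := a2 (if_pos h)
          unfold en at a3 ⊢; linarith
        · rw [indicator_of_notMem h]
          rw [show wθ T L d θ s x = θ from if_neg h] at a1
          unfold en at a4 ⊢; linarith
    have id := chart_id hU (c.cl_gK s) (c.gK_U1 s) (fun a => (cs a).of_le (by simp)) cz
      (fun p q => (ks s p q).of_le (by norm_cast)) (fun p q => (ks s p q).of_le (by simp))
      ((ien.smul (Λ ^ 4)) s) (fun a x hx => ?_) ((iY s).add iE) fun x hx => ?_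
    · simp only [Pi.add_apply] at id hE
      rw [integral_add (iY s) iE] at id
      rw [integral_add (ie.const_mul _) (iz.const_mul _), integral_const_mul, integral_const_mul,
        setIntegral_indicator (hm s)] at hE
      have a1 := mul_le_mul_of_nonneg_left (setIntegral_mono_set (hen s)
        (Eventually.of_forall (en0 s)) (c.gK_K1 s).eventuallyLE) (show 0 ≤ u + B * θ by positivity)
      linarith
    · have χ0 := c.χ_nonneg s ((T.glob L).c s x)
      have a1 : √(e1 (k s) x) * √(e0 (k s) x) ≤ (1 + ‖x‖) * en T k s x := by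
        refine le_trans ?_ (mul_le_mul_of_nonneg_right (scl_le s x) (en0 s x))
        have a2 := Real.sqrt_le_sqrt (zle s x)
        rw [Real.sqrt_div (e0_nn _ _), Real.sqrt_sq (sp s x hx).le, div_le_iff₀' (sp s x hx)] at a2
        refine (mul_le_mul (Real.sqrt_le_sqrt (e1le s x)) a2 (Real.sqrt_nonneg _)
          (Real.sqrt_nonneg _)).trans_eq ?_
        rw [mul_left_comm, Real.mul_self_sqrt (en0 s x)]
      rw [hcc, abs_mul, abs_mul, abs_mul, abs_of_nonneg χ0, mul_left_comm (1 + ‖x‖),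
        mul_left_comm (1 + ‖x‖), mul_assoc, mul_assoc]
      refine mul_le_mul_of_nonneg_left (mul_le_mul ((P.mb s x hx).c6 (P.mg s x hx) a)
        (le_trans ?_ a1) (by positivity) (by positivity)) χ0
      exact mul_le_mul (abs_le_e1 _ _ _) (Cp.abs_le_e0 _ _) (abs_nonneg _) (Real.sqrt_nonneg _)
    · have e : R x = F s x + ∑ j, μ j • sr T L (v j) s • Ψ j s x + (1 / 2 : ℝ) • Lq (g1 s) (k s) x := by
        ext p q
        simp only [R, Matrix.of_apply, eq s x hx p q, Matrix.add_apply, Matrix.sum_apply,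
          Matrix.smul_apply, smul_eq_mul]
      simp only [Pi.add_apply, e, map_add, map_sum, map_smul, smul_eq_mul, prl_Lq, hcc, mul_assoc,
        ← Finset.mul_sum, Bq]
      ring
  have hY : intL T L (fun s x => Bq (b s) (g1 s) (k s) (k s) x - 2 * prl (b s) (k s) x (F s x) -
      2 * ∑ j, μ j * (sr T L (v j) s * prl (b s) (k s) x (Ψ j s x))) ≤
      (u + B * θ) * En T L k + B ^ 2 / u * Zc T L d k := by
    rw [En_eq, Zc, Finset.mul_sum, Finset.mul_sum, ← Finset.sum_add_distrib]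
    refine Finset.sum_le_sum fun s _ => ?_
    rw [mul_left_comm (u + B * θ), mul_left_comm (B ^ 2 / u), ← mul_add]
    refine mul_le_mul_of_nonneg_left ((mul_le_mul_of_nonneg_left (key s) (by positivity)).trans
      (mul_le_of_le_one_left ?_ (Nat.cast_inv_le_one _))) (sq_nonneg _)
    have a1 : 0 ≤ ∫ x in K1 T L s, en T k s x := integral_nonneg (en0 s)
    have a2 : 0 ≤ ∫ x in T.gK L s ∩ Cor T L d s, e0 (k s) x / scl T s x ^ 2 := integral_nonneg (zn s)
    positivity
  rw [intL_sub (iB.sub iF) iS, intL_sub iB iF, intL_smul 2 (fun s x => ∑ _, _), intL_sum _ fun j _ => iΨ j] at hY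
  have a1 := c.intL_mono (i1.smul (Λ⁻¹ ^ 4)) iB fun s x hx => (P.mb s x hx).Bq_ge (P.mg s x hx)
  have a2 := c.intL_mono iF iG fun s x hx => (le_abs_self _).trans (bF s x hx)
  rw [intL_add (ien.smul u) (hF.smul _), intL_smul u, intL_smul (_ / u)] at a2
  rw [intL_smul] at a1
  have a3 := mul_le_mul_of_nonneg_left len hu.le
  simp only [intL_smul (μ _)] at hY
  change _ ≤ 2 * ∑ j, μ j * intL T L (fun s x => sr T L (v j) s * prl (b s) (k s) x (Ψ j s x)) + _ + _ + _
  linarith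

end Crest.Agent.N207.NS.Cp

end
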