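import Crest.Agent.N207.N.Cmp2

/-!
# Row 207, block N (helper4): `CMP`, the absorption argument
-/

set_option autoImplicit false

open scoped ContDiff Topology
open Metric Set Filter MeasureTheory
open Crest.GeometryTopology.CoordMetric
open Crest.Agent.N207.I Crest.Agent.N207.Lg Crest.Agent.N207.CB

noncomputable section

namespace Crest.Agent.N207.NS.Cp

theorem small {X : ℝ} (hX : 0 ≤ X) : ∃ t : ℝ, 0 < t ∧ t ≤ 1 ∧ t * X ≤ 1 / 8 :=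
  ⟨1 / (8 * X + 1), by positivity, (div_le_one (by positivity)).2 (by linarith), by
    rw [div_mul_eq_mul_div, div_le_iff₀ (by positivity)]; linarith⟩

theorem sq_tri {a b A : ℝ} (h : (a - b) ^ 2 ≤ A) : a ^ 2 ≤ 2 * b ^ 2 + 2 * A ∧ b ^ 2 ≤ 2 * a ^ 2 + 2 * A :=
  ⟨by nlinarith [sq_nonneg (a - 2 * b)], by nlinarith [sq_nonneg (b - 2 * a)]⟩

/-- the numerical absorption -/
theorem absorb {N E Z0 Z FF PP Mu S Q W CX CH l B D u θ u1 KM e C' y a1 a3 : ℝ}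
    (N0 : 0 ≤ N) (F0 : 0 ≤ FF) (P0 : 0 ≤ PP) (hX : 0 < CX) (hH : 0 < CH) (hl : 0 < l)
    (hu : 0 < u) (hu1 : 0 < u1) (hK : 0 < KM) (hC : 0 < C')
    (e1 : a1 = CX * (1 + CH) * l) (e3 : a3 = a1 * (B ^ 2 / u) + CX * CH)
    (h1 : N ≤ CX * (E + Z0)) (h2 : Z0 ≤ CH * (E + Z))
    (h3 : l⁻¹ * E ≤ 2 * S + (2 * u + B * θ) * N + B ^ 2 / u * Z + D ^ 2 / u * FF)
    (h4 : 2 * S ≤ u1 * Mu + Q / u1) (h5 : Mu ≤ KM * (FF + N)) (h6 : Q ≤ 4 * PP + 6 * (y * N))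
    (h7 : Z ≤ e * N + C' * W) (h8 : W ≤ 2 * PP + 2 * (y * N))
    (s1 : u * (2 * a1) ≤ 1 / 8) (s2 : θ * (a1 * B) ≤ 1 / 8) (s3 : a3 * e ≤ 1 / 8)
    (s4 : u1 * (a1 * KM) ≤ 1 / 8) (s5 : y * (6 * a1 / u1 + 2 * a3 * C') ≤ 1 / 8) :
    N + Mu ≤ ((1 + KM) * (3 * (a1 * (u1 * KM + D ^ 2 / u) + (4 * a1 / u1 + 2 * a3 * C'))) + KM) *
      (FF + PP) := by
  have a0 : 0 < a1 := by rw [e1]; positivity
  have a30 : 0 < a3 := by rw [e3]; positivity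
  have k1 : N ≤ a1 * (l⁻¹ * E) + CX * CH * Z := by
    have := mul_le_mul_of_nonneg_left h2 hX.le
    rw [e1, mul_assoc _ l, mul_inv_cancel_left₀ hl.ne']; linarith
  have k2 := mul_le_mul_of_nonneg_left h3 a0.le
  have k3 := mul_le_mul_of_nonneg_left h4 a0.le
  have k4 := mul_le_mul_of_nonneg_left h5 (mul_pos a0 hu1).le
  have k5 := mul_le_mul_of_nonneg_left h6 (div_pos a0 hu1).le
  have k6 := mul_le_mul_of_nonneg_left h7 a30.le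
  have k7 := mul_le_mul_of_nonneg_left h8 (mul_pos a30 hC).le
  have t1 := mul_le_mul_of_nonneg_right s1 N0
  have t2 := mul_le_mul_of_nonneg_right s2 N0
  have t3 := mul_le_mul_of_nonneg_right s3 N0
  have t4 := mul_le_mul_of_nonneg_right s4 N0
  have t5 := mul_le_mul_of_nonneg_right s5 N0
  have k8 : a3 * Z = a1 * (B ^ 2 / u) * Z + CX * CH * Z := by rw [e3]; ring
  obtain ⟨α, hα⟩ : ∃ α, α = a1 * (u1 * KM + D ^ 2 / u) := ⟨_, rfl⟩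
  obtain ⟨β, hβ⟩ : ∃ β, β = 4 * a1 / u1 + 2 * a3 * C' := ⟨_, rfl⟩
  have α0 : 0 ≤ α := by rw [hα]; positivity
  have β0 : 0 ≤ β := by rw [hβ]; positivity
  have k9 : 3 / 8 * N ≤ α * FF + β * PP := by
    simp only [hα, hβ, div_eq_mul_inv] at *
    linarith
  rw [← hα, ← hβ]
  have m1 := mul_nonneg α0 P0
  have m2 := mul_nonneg β0 F0
  have m3 := mul_nonneg α0 F0
  have m4 := mul_nonneg β0 P0
  have m5 : N ≤ 3 * (α + β) * (FF + PP) := by linarith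
  have m6 := mul_le_mul_of_nonneg_left m5 (show 0 ≤ 1 + KM by positivity)
  have m7 := mul_nonneg hK.le P0
  linarith

variable {M : Type*} (T : TD M) (g : T.V → Fam T)

section Props

variable (κ : T.V → Type) [∀ v, Fintype (κ v)] (ψ : ∀ v, κ v → Fam T) (c : ℝ)

/-- the multipliers are controlled by the source and the energy -/
def MUH : Prop := ∃ δ C T1 : ℝ, 0 < δ ∧ 0 < C ∧ ∀ T0, T1 ≤ T0 → ∀ L, Lng T (2 * T0 + T1) L →
  ∀ (b g1 g2 F : Fam T) (Ψ : (Σ v, κ v) → Fam T) (μ : (Σ v, κ v) → ℝ),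
    Adm T g T0 L δ b → Adm T g T0 L δ g1 → Adm T g T0 L δ g2 →
    (∀ j, Prt T L j.1 (c + 2) δ (ψ j.1 j.2) (Ψ j)) →
    (∀ s, ∀ x ∈ U1 T L s, ∀ p q, redT (b s) (g1 s) x ![p, q] - redT (b s) (g2 s) x ![p, q] =
      F s x p q + ∑ j, μ j * (sr T L j.1 s * Ψ j s x p q)) →
    IntL T L (fun s x => scl T s x ^ 2 * e0 (F s) x) →
    ∑ j, T.eps L j.1 ^ 2 * μ j ^ 2 ≤
      C * (intL T L (fun s x => scl T s x ^ 2 * e0 (F s) x) + En T L (g1 - g2))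

/-- the pairing with a perturbation of `ψ` -/
def PRD : Prop := ∃ K δ0 T1 : ℝ, 0 < K ∧ 0 < δ0 ∧ ∀ T0, T1 ≤ T0 → ∀ L, Lng T (2 * T0 + T1) L →
  ∀ δ, 0 ≤ δ → δ ≤ δ0 → ∀ (b k Φ : Fam T) (v : T.V) (j : κ v), Adm T g T0 L δ b →
    Prt T L v (c + 2) δ (ψ v j) Φ → (∀ s p q, ContDiffOn ℝ 1 (fun y => k s y p q) (U1 T L s)) →
    (∀ s, IntegrableOn (en T k s) (K1 T L s)) →
    (prL T L b v Φ k / T.eps L v - T.eps L v * pair T g v (ψ v j) (loc T L v k)) ^ 2 ≤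
      K * δ ^ 2 * En T L k

end Props

variable {T g}

theorem good_mono {κ : T.V → Type} [∀ v, Fintype (κ v)] [∀ v, DecidableEq (κ v)]
    {ψ : ∀ v, κ v → Fam T} {c η η' C : ℝ} (h : Good T g κ ψ c η C) (e : η ≤ η') :
    Good T g κ ψ c η' C :=
  ⟨h.psi, h.eig, h.dual, fun v w a b s => (h.loc v w a b s).trans (add_le_add_left
    (mul_le_mul_of_nonneg_right e (integral_nonneg fun x => add_nonneg (e1_nn _ x) (e0_nn _ x))) _)⟩

theorem prt_mono {L : T.V → ℝ} {v : T.V} {c δ δ' : ℝ} {ψ Φ : Fam T} (h : Prt T L v c δ ψ Φ)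
    (e : δ ≤ δ') : Prt T L v c δ' ψ Φ := ⟨h.cont, fun s x hx a b => (h.near s x hx a b).trans e, h.supp⟩

theorem cmp_of (h : Std T g) (hJ : JETS T g) (hCh : CHI T) (hH : HAR T) (hL : LOCG T g) (hX : XC T)
    (hM : ∀ (κ : T.V → Type) [∀ v, Fintype (κ v)] [∀ v, DecidableEq (κ v)] (ψ : ∀ v, κ v → Fam T)
      (c η C : ℝ), 2 ≤ c → Real.exp (-c) ≤ T.r / 8 → 0 < η → Good T g κ ψ c η C →
      MUH T g κ ψ c ∧ PRD T g κ ψ c) : CMP T g := by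
  obtain ⟨Λ, C, hΛ, hC, hJ⟩ := hJ
  obtain ⟨TC, hch⟩ := hCh.ch h.ok
  obtain ⟨Cχ, TC', -, hCh⟩ := hCh
  obtain ⟨CH, TH, CH0, hH⟩ := hH
  obtain ⟨CX, TX, CX0, hX⟩ := hX
  obtain ⟨a1, e1'⟩ : ∃ a1, a1 = CX * (1 + CH) * Λ ^ 4 := ⟨_, rfl⟩
  obtain ⟨B, eB⟩ : ∃ B, B = C * (1024 * Λ ^ 3 + 4096) := ⟨_, rfl⟩
  have a0 : 0 < a1 := by rw [e1']; positivity
  have B0 : 0 < B := by rw [eB]; positivity
  obtain ⟨u, u0, -, s1⟩ := small (X := 2 * a1) (by positivity)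
  obtain ⟨θ, θ0, θ1, s2⟩ := small (X := a1 * B) (by positivity)
  obtain ⟨a3, e3⟩ : ∃ a3, a3 = a1 * (B ^ 2 / u) + CX * CH := ⟨_, rfl⟩
  have a30 : 0 < a3 := by rw [e3]; positivity
  obtain ⟨c0, δJ, TJ, δJ0, hJ⟩ := hJ θ θ0 θ1
  refine ⟨max c0 (max 2 (-Real.log (T.r / 8))), fun c hc => ?_⟩
  simp only [max_le_iff] at hc
  have hr : Real.exp (-c) ≤ T.r / 8 :=
    (Real.le_log_iff_exp_le (by have := h.ok.r_pos; positivity)).1 (by linarith [hc.2.2])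
  obtain ⟨η, η0, -, s3⟩ := small (X := a3 * (2 * Real.exp (4 * c + 2))) (by positivity)
  refine ⟨η, η0, fun κ _ _ ψ η' C0 hη hg => ?_⟩
  have hg' := good_mono hg hη
  obtain ⟨⟨δM, KM, TM, δM0, KM0, hM⟩, K, δP, TP, K0, δP0, hP⟩ := hM κ ψ c η C0 hc.2.1 hr η0 hg'
  obtain ⟨C', TL, C'0, hL⟩ := hL κ ψ c η C0 hc.2.1 η0.le hg'
  obtain ⟨u1, u10, -, s4⟩ := small (X := a1 * KM) (by positivity)
  obtain ⟨δs, δs0, δs1, s5⟩ := small
    (X := Fintype.card (Σ v, κ v) * K * (6 * a1 / u1 + 2 * a3 * C')) (by positivity)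
  obtain ⟨δ, δ0, d1, d2, d3, d4⟩ : ∃ δ, 0 < δ ∧ δ ≤ δJ ∧ δ ≤ δM ∧ δ ≤ δP ∧ δ ≤ δs :=
    ⟨min (min δJ δM) (min δP δs), by positivity, by simp, by simp, by simp, by simp⟩
  obtain ⟨T1, t0, t1, t2, t3, t4, t5, t6, t7, t8⟩ : ∃ T1, 0 ≤ T1 ∧ TC ≤ T1 ∧ TC' ≤ T1 ∧ TH ≤ T1 ∧
      TX ≤ T1 ∧ TJ ≤ T1 ∧ TM ≤ T1 ∧ TP ≤ T1 ∧ TL ≤ T1 :=
    ⟨max (max (max 0 TC) (max TC' TH)) (max (max (max TX TJ) (max TM TP)) TL), by simp, by simp,
      by simp, by simp, by simp, by simp, by simp, by simp, by simp⟩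
  refine ⟨δ, (1 + KM) * (3 * (a1 * (u1 * KM + (512 * Λ ^ 3) ^ 2 / u) + (4 * a1 / u1 + 2 * a3 * C'))) +
    KM, T1, δ0, by positivity, fun T0 hT L hL' b g1 g2 F Ψ Φ μ hb h1 h2 hΨ hΦ eq hF => ?_⟩
  have l0 : ∀ {t}, t ≤ T1 → Lng T t L := fun e => hL'.mono (by linarith)
  have l1 : ∀ {t}, t ≤ T1 → Lng T (2 * T0 + t) L := fun e => hL'.mono (by linarith)
  have ch := hch L (l0 t1)
  have sec := h1.met.sec_sub h2.met
  have dec := dec_sub h1.met h2.met h1.dec h2.dec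
  have ks := h1.met.sm_sub h2.met
  have k1 := fun s p q => (ks s p q).of_le (show (1 : WithTop ℕ∞) ≤ ∞ by simp)
  obtain ⟨hen, x1⟩ := hX L (l0 t4) _ sec dec
  have x2 := hH c hc.2.1 hr L (l0 t3) _ k1 dec
  have x3 := energy ch hb.met h1.met h2.met (hJ c hc.1 T0 (t5.trans hT) L (l1 t5) b g1 g2
    (hb.mono d1) (h1.mono d1) (h2.mono d1)) hΛ hC.le θ0.le u0
    (fun s => (((hCh L (l0 t2)).2.2.2 s).2.2.2.2.2.2.2.2.2 c).1) (fun j => (hΨ j).cont)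
    (fun j => (hΨ j).supp) eq hF hen
  have x5 := hM T0 (t6.trans hT) L (l1 t6) b g1 g2 F Ψ μ (hb.mono d2) (h1.mono d2) (h2.mono d2)
    (fun j => prt_mono (hΨ j) d2) eq hF
  have x7 := hL L (l0 t8) _ sec (fun s x hx => Matrix.IsSymm.ext fun p q => by
    simp only [Pi.sub_apply, Matrix.sub_apply, h1.met.symm hx p q, h2.met.symm hx p q]) dec
  have p1 := fun j : Σ v, κ v => sq_tri (hP T0 (t7.trans hT) L (l1 t7) δ δ0.le d3 b _ _ j.1 j.2 hb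
    (hΨ j) k1 hen)
  have p2 := fun j : Σ v, κ v => sq_tri (hP T0 (t7.trans hT) L (l1 t7) δ δ0.le d3 b _ _ j.1 j.2 hb
    (hΦ j) k1 hen)
  have zn : ∀ s x, 0 ≤ e0 ((g1 - g2) s) x / scl T s x ^ 2 := fun s x =>
    div_nonneg (e0_nn _ _) (sq_nonneg _)
  have ien := (ch.intL_le_K1 (ch.en_cont ks) (fun s x _ => add_nonneg (e1_nn _ _) (zn s x)) hen).1
  have zc : ∀ s, ContinuousOn (fun x => e0 ((g1 - g2) s) x / scl T s x ^ 2) (U1 T L s) := fun s =>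
    (e0_cont fun p q => (ks s p q).continuousOn).div ((scl_cont s).pow 2).continuousOn fun x hx =>
      (pow_pos (one_pos.trans_le (ch.cell s x (ch.U1_W1 s hx)).1) 2).ne'
  have iz := ch.IntL_of_le ien zc fun s x _ => by
    rw [abs_of_nonneg (zn s x)]; exact le_add_of_nonneg_left (e1_nn _ _)
  rw [intL_add (ch.IntL_congr (ien.sub iz) fun s x _ => (add_sub_cancel_right _ _).symm) iz] at x1
  rw [← eB, inv_pow] at x3
  have N0 : 0 ≤ En T L (g1 - g2) := Finset.sum_nonneg fun s _ => mul_nonneg (sq_nonneg _)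
    (integral_nonneg fun x => add_nonneg (e1_nn _ _) (zn s x))
  have sm : ∀ (f f' : (Σ v, κ v) → ℝ) (a y : ℝ), (∀ j, f j ≤ a * f' j + y) →
      ∑ j, f j ≤ a * ∑ j, f' j + Fintype.card (Σ v, κ v) * y := fun f f' a y e =>
    (Finset.sum_le_sum fun j _ => e j).trans_eq (by
      rw [Finset.sum_add_distrib, Finset.mul_sum, Finset.sum_const, Finset.card_univ, nsmul_eq_mul])
  refine absorb (y := Fintype.card (Σ v, κ v) * K * δ ^ 2) (e := 2 * Real.exp (4 * c + 2) * η)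
    (Q := ∑ j, (prL T L b j.1 (Ψ j) (g1 - g2) / T.eps L j.1) ^ 2) N0
    (ch.intL_nonneg fun s x _ => mul_nonneg (sq_nonneg _) (e0_nn _ _)) (by positivity) CX0 CH0
    (by positivity) u0 u10 KM0 C'0 e1' e3 x1 x2 x3 ?_ x5 ?_ x7 ?_ s1 s2 (by linarith) s4 ?_
  · simp only [Finset.mul_sum, Finset.sum_div, ← Finset.sum_add_distrib]
    refine Finset.sum_le_sum fun j _ => ?_
    have := (TD.eps_pos L j.1).ne'
    rw [← sub_nonneg, show u1 * (T.eps L j.1 ^ 2 * μ j ^ 2) + (prL T L b j.1 (Ψ j) (g1 - g2) /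
      T.eps L j.1) ^ 2 / u1 - 2 * (μ j * prL T L b j.1 (Ψ j) (g1 - g2)) = (u1 * T.eps L j.1 * μ j -
        prL T L b j.1 (Ψ j) (g1 - g2) / T.eps L j.1) ^ 2 / u1 by field_simp; ring]
    positivity
  · refine (sm _ _ 4 (6 * (K * δ ^ 2 * En T L (g1 - g2))) fun j => ?_).trans_eq (by ring)
    linarith [(p1 j).1, (p2 j).2]
  · refine (sm _ _ 2 (2 * (K * δ ^ 2 * En T L (g1 - g2))) fun j => ?_).trans_eq (by ring)
    rw [← mul_pow]; exact (p2 j).2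
  · have : δ ^ 2 ≤ δs := by nlinarith
    have := mul_le_mul_of_nonneg_right this (show 0 ≤ Fintype.card (Σ v, κ v) * K *
      (6 * a1 / u1 + 2 * a3 * C') by positivity)
    linarith

end Crest.Agent.N207.NS.Cp

end
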