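import Crest.Agent.N207.N.CmpP
import Crest.Agent.N207.N.Gr2

/-!
# Row 207, block N (helper88): `CMP`, perturbation of the pairing with the constraints
-/

set_option autoImplicit false

open scoped ContDiff Topology
open Metric Set Filter MeasureTheory
open Crest.GeometryTopology.CoordMetric
open Crest.Agent.N207.I Crest.Agent.N207.I.TD Crest.Agent.N207.Lg Crest.Agent.N207.CB

noncomputable section

namespace Crest.Agent.N207.NS.Cp

variable {M : Type*} {T : TD M} {L : T.V → ℝ} {v : T.V} {d C : ℝ}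

/-- the content of `VOL` used here -/
def Vl (T : TD M) (L : T.V → ℝ) (v : T.V) (d C : ℝ) : Prop :=
  ∀ s, MeasurableSet {x | InK T L v d s x} ∧
    IntegrableOn (fun _ => (1 : ℝ)) (T.gK L s ∩ {x | InK T L v d s x}) ∧
    ep T L s ^ 2 * (sr T L v s * (volume (T.gK L s ∩ {x | InK T L v d s x})).toReal) ≤
      C * T.eps L v ^ 2 ∧
    ∀ x ∈ U1 T L s, InK T L v d s x → sr T L v s * scl T s x ^ 2 ≤ C

theorem VOL.vl (h : VOL T) (d : ℝ) :
    ∃ C T1 : ℝ, 0 < C ∧ ∀ L, Lng T T1 L → ∀ v, Vl T L v d C := by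
  obtain ⟨C, T1, hC, h⟩ := h d
  exact ⟨C, T1, hC, fun L hL v s => ⟨((h L hL v).1 s).1, ((h L hL v).1 s).2.1,
    ((h L hL v).1 s).2.2.1, fun x hx k => (((h L hL v).1 s).2.2.2 x hx k).1⟩⟩

/-- the weighted indicator of depth `d` -/
def ind (T : TD M) (L : T.V → ℝ) (v : T.V) (d : ℝ) (s : T.S) : E4 → ℝ :=
  {x | InK T L v d s x}.indicator fun _ => sr T L v s

theorem ind_nn (s : T.S) (x : E4) : 0 ≤ ind T L v d s x :=
  indicator_nonneg (fun _ _ => (sr_pos L v s).le) x

theorem ind_int (c : Ch T L) (h : Vl T L v d C) :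
    IntL T L (ind T L v d) ∧ intL T L (ind T L v d) ≤ Fintype.card T.S * (C * T.eps L v ^ 2) := by
  have m := fun s => (c.cl_gK s).measurableSet.inter (h s).1
  have i : ∀ s, Integrable ((T.gK L s ∩ {x | InK T L v d s x}).indicator fun _ => sr T L v s) :=
    fun s => (integrable_indicator_iff (m s)).2
      (((h s).2.1.const_mul _).congr (Eventually.of_forall fun _ => mul_one _))
  have b : ∀ s, ∀ x ∈ U1 T L s, T.χ s ((T.glob L).c s x) * ind T L v d s x ≤
      (T.gK L s ∩ {x | InK T L v d s x}).indicator (fun _ => sr T L v s) x := fun s x hx => by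
    by_cases e : T.χ s ((T.glob L).c s x) = 0
    · rw [e, zero_mul]; exact indicator_nonneg (fun _ _ => (sr_pos L v s).le) x
    · refine (mul_le_of_le_one_left (ind_nn s x) (c.χ_le_one hx)).trans_eq ?_
      rw [← indicator_indicator, indicator_of_mem (c.χ_supp (c.U1_U s hx) e)]; rfl
  have I : IntL T L (ind T L v d) := fun s =>
    Integrable.mono' (i s).integrableOn ((((c.χ_sm s).continuousOn).aestronglyMeasurable
      (c.op1 s).measurableSet).mul (aestronglyMeasurable_const.indicator (h s).1))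
      ((ae_restrict_iff' (c.op1 s).measurableSet).2 (Eventually.of_forall fun x hx => by
        rw [Real.norm_of_nonneg (mul_nonneg (c.χ_nonneg s _) (ind_nn s x))]
        exact b s x hx))
  refine ⟨I, (Finset.sum_le_sum fun s _ => ?_).trans_eq
    (by rw [Finset.sum_const, Finset.card_univ, nsmul_eq_mul])⟩
  refine le_trans (mul_le_mul_of_nonneg_left ?_ (sq_nonneg _)) (h s).2.2.1
  refine (mul_le_of_le_one_left (setIntegral_nonneg (c.op1 s).measurableSet fun x _ =>
    mul_nonneg (c.χ_nonneg s _) (ind_nn s x)) (Nat.cast_inv_le_one _)).trans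
    ((setIntegral_mono_on (I s) (i s).integrableOn (c.op1 s).measurableSet (b s)).trans
      ((setIntegral_le_integral (i s) (Eventually.of_forall fun x =>
        indicator_nonneg (fun _ _ => (sr_pos L v s).le) x)).trans_eq ?_))
  rw [integral_indicator (m s), setIntegral_const, smul_eq_mul, mul_comm]; rfl

theorem en_cont1 (c : Ch T L) {k : Fam T}
    (h : ∀ s a b, ContDiffOn ℝ 1 (fun x => k s x a b) (U1 T L s)) (s : T.S) :
    ContinuousOn (en T k s) (U1 T L s) :=
  (continuousOn_finsetSum _ fun a _ => continuousOn_finsetSum _ fun b _ =>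
    continuousOn_finsetSum _ fun i _ => (Hd.contOn_pderiv (c.op1 s) (h s a b) i).pow 2).add
    ((e0_cont fun a b => (h s a b).continuousOn).div ((scl_cont s).pow 2).continuousOn
      fun x hx => (pow_pos (one_pos.trans_le (c.cell s x (c.U1_W1 s hx)).1) 2).ne')

theorem en_nn (k : Fam T) (s : T.S) (x : E4) : 0 ≤ en T k s x :=
  add_nonneg (e1_nn _ x) (div_nonneg (e0_nn _ x) (sq_nonneg _))

theorem En_nn (c : Ch T L) (k : Fam T) : 0 ≤ En T L k :=
  Finset.sum_nonneg fun s _ => mul_nonneg (sq_nonneg _)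
    (setIntegral_nonneg (c.cl_K1 s).measurableSet fun x _ => en_nn k s x)

theorem abs_intL_le (c : Ch T L) {D F : T.S → E4 → ℝ} (hD : IntL T L D) (hF : IntL T L F)
    (h : ∀ s, ∀ x ∈ U1 T L s, |D s x| ≤ F s x) : |intL T L D| ≤ intL T L F := by
  have h1 := c.intL_mono hD hF fun s x hx => (le_abs_self _).trans (h s x hx)
  have h2 := c.intL_mono (hD.smul (-1)) hF fun s x hx => by
    rw [neg_one_mul]; exact (neg_le_abs _).trans (h s x hx)
  rw [intL_smul] at h2
  exact abs_le.2 ⟨by linarith, h1⟩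

/-- Cauchy-Schwarz against a bounded field living within depth `d` -/
theorem loc_cs (c : Ch T L) (h : Vl T L v d C) (hC : 0 ≤ C) {k : Fam T}
    (hk : ∀ s a b, ContDiffOn ℝ 1 (fun x => k s x a b) (U1 T L s))
    (hi : ∀ s, IntegrableOn (en T k s) (K1 T L s)) {D : T.S → E4 → ℝ} {A : ℝ} (hD : IntL T L D)
    (h1 : ∀ s, ∀ x ∈ U1 T L s, |D s x| ≤ sr T L v s * (A * √(e0 (k s) x)))
    (h0 : ∀ s, ∀ x ∈ U1 T L s, ¬ InK T L v d s x → D s x = 0) :
    intL T L D ^ 2 ≤ 4 * (En T L k * (A ^ 2 * C * (Fintype.card T.S * (C * T.eps L v ^ 2)))) := by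
  obtain ⟨i1, b1⟩ := c.intL_le_K1 (en_cont1 c hk) (fun s x _ => en_nn k s x) hi
  obtain ⟨i2, b2⟩ := ind_int c h
  refine sq_le_of_forall (En_nn c k) (by positivity) fun u hu => ?_
  refine (abs_intL_le c hD ((i1.smul u).add (i2.smul (A ^ 2 * C / u))) fun s x hx => ?_).trans ?_
  · by_cases e : InK T L v d s x
    · have p : 0 < scl T s x := one_pos.trans_le (c.cell s x (c.U1_W1 s hx)).1
      have q := amgm hu A (√(e0 (k s) x) / scl T s x) (sr T L v s * scl T s x)
      rw [div_pow, Real.sq_sqrt (e0_nn _ x)] at q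
      rw [show ind T L v d s x = sr T L v s from indicator_of_mem e _]
      refine (h1 s x hx).trans ((le_of_eq_of_le (by field_simp) q).trans (add_le_add
        (mul_le_mul_of_nonneg_left (le_add_of_nonneg_left (e1_nn _ x)) hu.le) ?_))
      rw [div_mul_eq_mul_div, mul_assoc]
      refine div_le_div_of_nonneg_right (mul_le_mul_of_nonneg_left ?_ (sq_nonneg _)) hu.le
      have := mul_le_mul_of_nonneg_right ((h s).2.2.2 x hx e) (sr_pos L v s).le
      linarith [show (sr T L v s * scl T s x) ^ 2 = sr T L v s * scl T s x ^ 2 * sr T L v s by ring]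
    · rw [h0 s x hx e, abs_zero]
      have := en_nn k s x
      have := ind_nn (L := L) (v := v) (d := d) s x
      positivity
  · rw [intL_add (i1.smul u) (i2.smul _), intL_smul, intL_smul, mul_div_right_comm (A ^ 2 * C)]
    exact add_le_add (mul_le_mul_of_nonneg_left b1 hu.le)
      (mul_le_mul_of_nonneg_left b2 (by positivity))

variable {g : T.V → Fam T} {κ : T.V → Type} {ψ : ∀ v, κ v → Fam T} {c : ℝ}

/-- **perturbation of the pairing** -/
theorem prd (h : Std T g) (hCo : CO) (hCh : CHI T) (hV : VOL T) (hE : ELL T g) (hG : GB T g)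
    (ht : Tol T g κ ψ c) : ∃ K d0 T1 : ℝ, 0 < K ∧ 0 < d0 ∧ ∀ T0, T1 ≤ T0 →
      ∀ L, Lng T (2 * T0 + T1) L → ∀ d, 0 ≤ d → d ≤ d0 → ∀ (b k Φ : Fam T) (v : T.V) (j : κ v),
        Adm T g T0 L d b → Prt T L v (c + 2) d (ψ v j) Φ →
        (∀ s p q, ContDiffOn ℝ 1 (fun y => k s y p q) (U1 T L s)) →
        (∀ s, IntegrableOn (en T k s) (K1 T L s)) →
        (prL T L b v Φ k / T.eps L v - T.eps L v * pair T g v (ψ v j) (loc T L v k)) ^ 2 ≤
          K * d ^ 2 * En T L k := by
  obtain ⟨t1, hCh⟩ := hCh.ch h.ok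
  obtain ⟨C, t2, hC, hV⟩ := VOL.vl hV (c + 2)
  obtain ⟨δ, Λ, t3, hδ, hΛ, hE⟩ := hE
  obtain ⟨t4, hG⟩ := hG
  obtain ⟨_, hG⟩ := hG 0
  obtain ⟨P, t5, hP, ht⟩ := ht
  obtain ⟨C', hC', -, hCo⟩ := hCo Λ
  obtain ⟨T1, a0, a1, a2, a3, a4, a5⟩ : ∃ T1 : ℝ, 0 ≤ T1 ∧ t1 ≤ T1 ∧ t2 ≤ T1 ∧ t3 ≤ T1 ∧ t4 ≤ T1 ∧
      t5 ≤ T1 := ⟨max 0 (max t1 (max t2 (max t3 (max t4 t5)))), by simp, by simp, by simp, by simp,
    by simp, by simp⟩
  refine ⟨4 * ((256 * (Λ ^ 3 + C' * P)) ^ 2 * C * (Fintype.card T.S * C)) + 1, δ, T1,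
    by positivity, hδ, fun T0 hT L hL d hd hd' b k Φ v j hb hΦ hk hi => ?_⟩
  have ch := hCh L (hL.mono (by linarith))
  have hg := ch.met1 ((hG T0 (by linarith)).2 L (hL.mono (by linarith))).2.1
  obtain ⟨s1, -, s3, s4, -, s6, -⟩ := ht T0 (by linarith) L (hL.mono (by linarith)) v j
  have mb : ∀ {H : Fam T}, Met1 T L H → ∀ s, ∀ x ∈ U1 T L s,
      (∀ p q, |H s x p q - gbL T g T0 L s x p q| ≤ δ) → Mb Λ (H s) x := fun {H} m s x hx e => by
    have := hE T0 (by linarith) L (hL.mono (by linarith)) H s x (ch.U1_W1 s hx)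
      ((m.riem s).posDef x hx) e
    exact ⟨hΛ, (m.riem s).posDef x hx, this.1, this.2.1, this.2.2.1, this.2.2.2.1⟩
  have kc := fun s p q => (hk s p q).continuousOn
  have c1 : ∀ s p q, ContinuousOn (fun x => toL T L v (ψ v j) s x p q) (U1 T L s) :=
    fun s p q => (sm_of_rt (s1.sm s) p q).continuousOn.mono (ch.U1_U s)
  have z1 : ∀ s, ∀ x ∈ U1 T L s, ¬ InK T L v (c + 2) s x → toL T L v (ψ v j) s x = 0 :=
    fun s x hx e => s3 s x (ch.U1_U s hx) fun e' => e (e'.mono (by linarith))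
  have i1 := ch.prL_int hb.met hΦ.cont hΦ.supp kc
  have i2 := ch.prL_int hg c1 z1 kc
  have key := loc_cs ch (hV L (hL.mono (by linarith)) v) hC.le hk hi (i1.sub i2)
    (A := 256 * (Λ ^ 3 + C' * P) * d) (fun s x hx => ?_) fun s x hx e => by
      simp [ip_zero (hΦ.supp s x hx e), ip_zero (z1 s x hx e)]
  · rw [intL_sub i1 i2] at key
    change (prL T L b v Φ k - prL T L _ v _ k) ^ 2 ≤ _ at key
    have p := eps_pos L v
    rw [s6 k kc] at key
    rw [show prL T L b v Φ k / T.eps L v - T.eps L v * pair T g v (ψ v j) (loc T L v k) =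
      (prL T L b v Φ k - T.eps L v ^ 2 * pair T g v (ψ v j) (loc T L v k)) / T.eps L v by
        field_simp, div_pow, div_le_iff₀ (by positivity)]
    have := mul_nonneg (mul_nonneg (sq_nonneg d) (En_nn ch k)) (sq_nonneg (T.eps L v))
    exact key.trans ((le_add_of_nonneg_right this).trans_eq (by ring))
  · have m1 := mb hb.met s x hx fun p q => (hb.near.val hx p q).trans hd'
    have m2 := mb hg s x hx fun p q => by simpa using hδ.le
    rw [← mul_sub, abs_mul, abs_of_pos (sr_pos L v s)]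
    refine mul_le_mul_of_nonneg_left ((prl_sub (b := b s) (b' := gbL T g T0 L s) (t := k s) (x := x)
      (X := Φ s x) (Y := toL T L v (ψ v j) s x) (B := Λ ^ 3 * d + C' * d * P)
      fun p p' q q' => ?_).trans_eq (by ring)) (sr_pos L v s).le
    have e1 := hCo (b s) (gbL T g T0 L s) x d m1.pos m2.pos (fun H hH => by
      simp only [List.mem_cons, List.not_mem_nil, or_false] at hH
      rcases hH with rfl | rfl
      exacts [m1.bd, m2.bd]) (hb.near.val hx) p q p' q'
    have e2 : |toL T L v (ψ v j) s x p q| ≤ P := by simpa using s4.val (ch.U1_W1 s hx) p q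
    rw [show ∀ a a' X Y : ℝ, a * X - a' * Y = a * (X - Y) + (a - a') * Y from fun _ _ _ _ => by ring]
    refine (abs_add_le _ _).trans (add_le_add ?_ ?_) <;> rw [abs_mul]
    · exact mul_le_mul (m1.co _ _ _ _) (hΦ.near s x hx p q) (abs_nonneg _) (by positivity)
    · exact mul_le_mul e1 e2 (abs_nonneg _) (by positivity)

end Crest.Agent.N207.NS.Cp

end
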