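import Crest.Agent.N207.N.Gr0
import Crest.Agent.N207.Lg.Pop

/-!
# Row 207, block N (helper26): shared kit, part 2: `Core`, `Cls`, `LS`, `gbL`, `PsT`, `prL`
-/

set_option autoImplicit false

open scoped ContDiff Topology
open Metric Set Filter MeasureTheory
open Crest.GeometryTopology.CoordMetric
open Crest.Agent.N207.I Crest.Agent.N207.I.TD Crest.Agent.N207.Lg Crest.Agent.N207.CB

noncomputable section

namespace Crest.Agent.N207.NS

variable {M : Type*}

/-- the energy density -/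
def en (T : TD M) (k : Fam T) (s : T.S) (x : E4) : ℝ := e1 (k s) x + e0 (k s) x / scl T s x ^ 2

/-- the defect of the constraints -/
def DD (T : TD M) (g : T.V → Fam T) (κ : T.V → Type) [∀ v, Fintype (κ v)] (ψ : ∀ v, κ v → Fam T)
    (T0 : ℝ) (L : T.V → ℝ) (k : Fam T) : ℝ :=
  ∑ j : Σ v, κ v, (prL T L (gbL T g T0 L) j.1 (toL T L j.1 (ψ j.1 j.2)) k / T.eps L j.1) ^ 2

/-- comparison of an approximate solution `H` with the family -/
def Core (T : TD M) (g : T.V → Fam T) (κ : T.V → Type) [∀ v, Fintype (κ v)]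
    (ψ : ∀ v, κ v → Fam T) : Prop :=
  ∃ δ C T1 : ℝ, 0 < δ ∧ 0 < C ∧ ∀ T0, T1 ≤ T0 → ∀ L, Lng T (2 * T0 + T1) L →
    ∀ (θ μ μ' : (Σ v, κ v) → ℝ) (G H E : Fam T) (e : ℝ), LS T g T0 κ ψ δ L θ μ G →
      Adm T g T0 L δ H →
      (∀ s, ∀ x ∈ U1 T L s, ∀ p q, redT (gbL T g T0 L s) (H s) x ![p, q] = E s x p q -
        ∑ j, μ' j * (sr T L j.1 s * PsT (gbL T g T0 L s) (H s) (toL T L j.1 (ψ j.1 j.2) s) x p q)) →
      IntL T L (fun s x => scl T s x ^ 2 * e0 (E s) x) →
      intL T L (fun s x => scl T s x ^ 2 * e0 (E s) x) ≤ e →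
      IntL T L (en T (G - H)) ∧ intL T L (en T (G - H)) ≤ C * (e + DD T g κ ψ T0 L (G - H)) ∧
        IntL T L (fun s => fgfF (gbL T g T0 L s) (H s)) ∧
        |intL T L (fun s => fgfF (gbL T g T0 L s) (H s)) - actL T L (gbL T g T0 L) G| ≤
          C * (√(mu2 T κ L μ) * √(DD T g κ ψ T0 L (G - H)) + e + DD T g κ ψ T0 L (G - H))

variable {T : TD M} {L : T.V → ℝ} {g : T.V → Fam T} {T0 δ δ' : ℝ}

section cls

variable {U U' : T.S → Set E4} {m m' : ℕ} {H H' H'' : Fam T}

theorem scl_nn (s : T.S) (x : E4) : 0 ≤ scl T s x := by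
  rcases s with a | w
  · exact zero_le_one
  · exact norm_nonneg x

theorem Cls.mono (h : Cls T U m δ H H') (hδ : δ ≤ δ') : Cls T U m δ' H H' :=
  fun s x hx k hk a b => (h s x hx k hk a b).trans hδ

theorem Cls.anti (h : Cls T U m δ H H') (hU : ∀ s, U' s ⊆ U s) (hm : m' ≤ m) :
    Cls T U' m' δ H H' := fun s x hx k hk a b => h s x (hU s hx) k (hk.trans hm) a b

theorem Cls.val (h : Cls T U m δ H H') {s : T.S} {x : E4} (hx : x ∈ U s) (a b : Fin 4) :
    |H s x a b - H' s x a b| ≤ δ := by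
  simpa [norm_iteratedFDeriv_zero] using h s x hx 0 (Nat.zero_le _) a b

theorem Cls.self (hδ : 0 ≤ δ) : Cls T U m δ H H := fun s x _ k _ a b => by
  simpa using hδ

theorem Cls.symm (h : Cls T U m δ H H') : Cls T U m δ H' H := fun s x hx k hk a b => by
  have e : (fun y => (H' s y - H s y) a b) = -fun y => (H s y - H' s y) a b := by
    funext y; simp
  rw [e, iteratedFDeriv_neg_apply, norm_neg]
  exact h s x hx k hk a b

theorem Cls.add (h : Cls T U m δ H H') (h' : Cls T U m δ' H' H'') (hU : ∀ s, IsOpen (U s))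
    (h1 : ∀ s a b, ContDiffOn ℝ ∞ (fun y => (H s y - H' s y) a b) (U s))
    (h2 : ∀ s a b, ContDiffOn ℝ ∞ (fun y => (H' s y - H'' s y) a b) (U s)) :
    Cls T U m (δ + δ') H H'' := fun s x hx k hk a b => by
  have e : (fun y => (H s y - H'' s y) a b) =
      (fun y => (H s y - H' s y) a b) + fun y => (H' s y - H'' s y) a b := by
    funext y; simp
  have hk' : (k : WithTop ℕ∞) ≤ ∞ := by exact_mod_cast le_top
  rw [e, iteratedFDeriv_add_apply (((h1 s a b).contDiffAt ((hU s).mem_nhds hx)).of_le hk')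
    (((h2 s a b).contDiffAt ((hU s).mem_nhds hx)).of_le hk')]
  refine (mul_le_mul_of_nonneg_left (norm_add_le _ _) (pow_nonneg (scl_nn s x) k)).trans ?_
  rw [mul_add]
  exact add_le_add (h s x hx k hk a b) (h' s x hx k hk a b)

theorem Adm.mono (h : Adm T g T0 L δ H) (hδ : δ ≤ δ') : Adm T g T0 L δ' H :=
  ⟨h.met, h.near.mono hδ, h.dec⟩

theorem Dec.sub {p R0 : ℝ} {k k' : MetricField 4} (h : Dec p k) (h' : Dec p k')
    (hd : ∀ x : E4, R0 ≤ ‖x‖ → ∀ a b, DifferentiableAt ℝ (fun y => k y a b) x ∧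
      DifferentiableAt ℝ (fun y => k' y a b) x) : Dec p (k - k') := by
  obtain ⟨C, R, h⟩ := h
  obtain ⟨C', R', h'⟩ := h'
  refine ⟨C + C', max R0 (max R R'), fun x hx a b => ?_⟩
  simp only [max_le_iff] at hx
  have h1 := h x hx.2.1 a b
  have h2 := h' x hx.2.2 a b
  have h3 := hd x hx.1 a b
  simp only [Pi.sub_apply, Matrix.sub_apply, add_mul]
  rw [fderiv_fun_sub h3.1 h3.2]
  exact ⟨(abs_sub _ _).trans (add_le_add h1.1 h2.1), (norm_sub_le _ _).trans (add_le_add h1.2 h2.2)⟩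

theorem dec_sub {p : ℝ} (h : Met1 T L H) (h' : Met1 T L H') (d : DecR T p H) (d' : DecR T p H') :
    Dec p ((H - H') (Sum.inr T.root)) := by
  have h1 := Dec.sub (R0 := 2) d d' fun x hx a b => by
    have hx' : x ∈ U1 T L (Sum.inr T.root) := ⟨by linarith, fun h => absurd rfl h⟩
    exact ⟨(dAt ((h.riem _).contDiffOn a b) (h.riem _).isOpen hx').sub_const _,
      (dAt ((h'.riem _).contDiffOn a b) (h.riem _).isOpen hx').sub_const _⟩
  convert h1 using 1
  funext x; simp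

theorem en_symm (H H' : Fam T) : en T (H' - H) = en T (H - H') := by
  funext s x
  have e : ∀ a b, (fun y => (H' - H) s y a b) = fun y => -(H - H') s y a b := fun a b => by
    funext y; simp
  simp only [en, e1, e0, Hd.g2, e, pd_neg, neg_sq]
  congr 2
  exact Finset.sum_congr rfl fun a _ => Finset.sum_congr rfl fun b _ => by
    rw [congrFun (e a b) x, neg_sq]

theorem En_eq (k : Fam T) : En T L k = ∑ s, ep T L s ^ 2 * ∫ x in K1 T L s, en T k s x := rfl

theorem En_symm (H H' : Fam T) : En T L (H' - H) = En T L (H - H') := by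
  simp only [En_eq, en_symm H H']

theorem e0_nn (k : MetricField 4) (x : E4) : 0 ≤ e0 k x := by unfold e0; positivity

theorem e1_nn (k : MetricField 4) (x : E4) : 0 ≤ e1 k x := by unfold e1 Hd.g2; positivity

theorem abs_le_e0 (k : MetricField 4) (x : E4) (p q : Fin 4) : |k x p q| ≤ √(e0 k x) :=
  Real.abs_le_sqrt ((Finset.single_le_sum (f := fun b => k x p b ^ 2) (fun _ _ => sq_nonneg _)
    (Finset.mem_univ q)).trans (Finset.single_le_sum (f := fun a => ∑ b, k x a b ^ 2)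
      (fun _ _ => by positivity) (Finset.mem_univ p)))

theorem e0_cont {k : MetricField 4} {V : Set E4} (h : ∀ a b, ContinuousOn (fun x => k x a b) V) :
    ContinuousOn (e0 k) V :=
  continuousOn_finsetSum _ fun a _ => continuousOn_finsetSum _ fun b _ => (h a b).pow 2

theorem scl_cont (s : T.S) : Continuous (scl T s) := by
  rcases s with a | w
  · exact continuous_const
  · exact continuous_norm

theorem Ch.en_cont (c : Ch T L) {k : Fam T}
    (h : ∀ s a b, ContDiffOn ℝ ∞ (fun x => k s x a b) (U1 T L s)) (s : T.S) :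
    ContinuousOn (en T k s) (U1 T L s) :=
  (continuousOn_finsetSum _ fun a _ => continuousOn_finsetSum _ fun b _ =>
    continuousOn_finsetSum _ fun i _ => (sm_pd (c.op1 s) (h s a b) i).continuousOn.pow 2).add
    ((e0_cont fun a b => (h s a b).continuousOn).div ((scl_cont s).pow 2).continuousOn
      fun x hx => (pow_pos (one_pos.trans_le (c.cell s x (c.U1_W1 s hx)).1) 2).ne')

end cls

/-! ### the reference metric -/

theorem gb_root {x : E4} (hx : Real.exp (T0 + 1) ≤ ‖x‖) : gbL T g T0 L (Sum.inr T.root) x = 1 := by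
  have h1 : T0 + 1 ≤ Real.log ‖x‖ := (Real.le_log_iff_exp_le ((Real.exp_pos _).trans_le hx)).2 hx
  have h2 : stp 0 (1 / 10) (tau T T.root T.root T0 x) = 1 :=
    Real.smoothTransition.one_of_one_le (by
      simp only [tau, if_true]
      rw [le_div_iff₀ (by norm_num)]; linarith)
  simp [gbL, gb, -one_div, h2]

theorem gb_root_ev {x : E4} (hx : Real.exp (T0 + 1) + 1 ≤ ‖x‖) :
    gbL T g T0 L (Sum.inr T.root) =ᶠ[𝓝 x] fun _ => 1 := by
  filter_upwards [(isOpen_lt continuous_const continuous_norm).mem_nhds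
    (show Real.exp (T0 + 1) < ‖x‖ by linarith)] with y hy using gb_root (le_of_lt hy)

theorem gb_dec (p : ℝ) : DecR T p (gbL T g T0 L) := by
  refine ⟨0, Real.exp (T0 + 1) + 1, fun x hx a b => ?_⟩
  have h : (fun y => (gbL T g T0 L (Sum.inr T.root) y - 1) a b) =ᶠ[𝓝 x] fun _ => 0 := by
    filter_upwards [gb_root_ev (T := T) (g := g) (L := L) hx] with y hy
    simp [hy]
  rw [h.fderiv_eq]
  simp [h.eq_of_nhds]

theorem gb_ricF : RicF T (gbL T g T0 L) :=
  ⟨Real.exp (T0 + 1) + 1, fun x hx i j => by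
    rw [ricci_congr (gb_root_ev hx)]
    simp [ricci, christoffel, pd_const]⟩

theorem gb_adm (c : Ch T L) (h : (T.glob L).IsMet (rt T L (gbL T g T0 L))) (hδ : 0 ≤ δ) :
    Adm T g T0 L δ (gbL T g T0 L) := ⟨c.met1 h, Cls.self hδ, gb_dec _⟩

/-! ### the Lyapunov-Schmidt solutions -/

section ls

variable {κ : T.V → Type} [∀ v, Fintype (κ v)] {ψ : ∀ v, κ v → Fam T}
  {θ μ : (Σ v, κ v) → ℝ} {G : Fam T}

theorem ls_met (h : LS T g T0 κ ψ δ L θ μ G) : (T.glob L).IsMet (rt T L G) := h.met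

theorem ls_mono (h : LS T g T0 κ ψ δ L θ μ G) (hδ : δ ≤ δ') : LS T g T0 κ ψ δ' L θ μ G :=
  ⟨h.met, h.el, h.con, fun s x hx y hy k hk a b => (h.small s x hx y hy k hk a b).trans hδ,
    h.mu.trans hδ, fun x hx k hk a b => (h.dec x hx k hk a b).trans
      (mul_le_mul_of_nonneg_right hδ (by positivity)), h.int⟩

theorem ls_cls (c : Ch T L) (h : LS T g T0 κ ψ δ L θ μ G) :
    Cls T (W1 T L) 2 (4 * δ) G (gbL T g T0 L) := fun s x hx k hk a b => by
  obtain ⟨-, x0, h0, h1, h2⟩ := c.cell s x hx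
  have h3 := h.small s x0 h0 x h1 k hk a b
  have h4 : scl T s x ^ k ≤ 4 * scl T s x0 ^ k :=
    (pow_le_pow_left₀ (scl_nn s x) h2 k).trans (by
      rw [mul_pow]
      exact mul_le_mul_of_nonneg_right ((pow_le_pow_right₀ one_le_two hk).trans_eq (by norm_num))
        (pow_nonneg (scl_nn s x0) k))
  exact (mul_le_mul_of_nonneg_right h4 (norm_nonneg _)).trans (by rw [mul_assoc]; linarith)

theorem ls_dec (h : LS T g T0 κ ψ δ L θ μ G) : DecR T (3 / 2) G := by
  refine ⟨δ * Real.exp (T0 + 4) ^ (3 / 2 : ℝ), Real.exp (T0 + 4), fun x hx a b => ?_⟩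
  have h0 : 0 < ‖x‖ := (Real.exp_pos _).trans_le hx
  have e : δ * (Real.exp (T0 + 4) / ‖x‖) ^ (3 / 2 : ℝ) =
      δ * Real.exp (T0 + 4) ^ (3 / 2 : ℝ) * ‖x‖ ^ (-(3 / 2) : ℝ) := by
    rw [Real.div_rpow (Real.exp_pos _).le h0.le, Real.rpow_neg h0.le, div_eq_mul_inv, mul_assoc]
  have h1 := h.dec x hx 0 (by norm_num) a b
  have h2 := h.dec x hx 1 (by norm_num) a b
  rw [e] at h1 h2
  refine ⟨by simpa [norm_iteratedFDeriv_zero, TD.dv] using h1, ?_⟩
  rw [norm_iteratedFDeriv_one, pow_one, ← le_div_iff₀' h0] at h2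
  rw [Real.rpow_sub_one h0.ne', ← mul_div_assoc]
  exact h2

theorem ls_adm (c : Ch T L) (h : LS T g T0 κ ψ δ L θ μ G) : Adm T g T0 L (4 * δ) G :=
  ⟨c.met1 h.met, (ls_cls c h).anti c.U1_W1 le_rfl, ls_dec h⟩

theorem ls_int (c : Ch T L) (h : LS T g T0 κ ψ δ L θ μ G) :
    IntL T L fun s => fgfF (gbL T g T0 L s) (G s) := fun s => (h.int s).mono_set (c.U1_U s)

theorem redT_symm {b G : MetricField 4} {U : Set E4} {x : E4} (hG : IsRiemannianOn G U)
    (hx : x ∈ U) (p q : Fin 4) : redT b G x ![p, q] = redT b G x ![q, p] :=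
  (C2.of_riem hG hx).redT_sy b p q

/-- the strong form of the Euler-Lagrange equation -/
theorem ls_red (hM : MUL) (hb : (T.glob L).IsMet (rt T L (gbL T g T0 L)))
    (hs : ∀ v j s, ∀ x ∈ (T.glob L).U s, (toL T L v (ψ v j) s x).IsSymm)
    (h : LS T g T0 κ ψ δ L θ μ G) (s : T.S) {x : E4} (hx : x ∈ (T.glob L).U s) (p q : Fin 4) :
    redT (gbL T g T0 L s) (G s) x ![p, q] = -∑ j, μ j *
      (sr T L j.1 s * PsT (gbL T g T0 L s) (G s) (toL T L j.1 (ψ j.1 j.2) s) x p q) := by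
  have hG := riem_of_rt (ls_met h) s
  have := (hM.1 (gbL T g T0 L s) (G s) x (Σ v, κ v) (fun j => μ j * sr T L j.1 s)
    (fun j => toL T L j.1 (ψ j.1 j.2) s) (a2 (redT (gbL T g T0 L s) (G s) x))
    ((riem_of_rt hb s).posDef x hx) (hG.posDef x hx) (fun j => hs _ _ s x hx)
    (redT_symm hG hx)).1 (fun k hk => by simpa only [mul_assoc, sr] using h.el s x hx k hk) p q
  simpa only [mul_assoc, a2] using this

end ls

end Crest.Agent.N207.NS

end
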