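import Crest.Agent.N207.N.CmpP
import Crest.Agent.N207.N.Gr1

/-!
# Row 207, block N (helper26): `CMP`, the pointwise package
-/

set_option autoImplicit false

open scoped ContDiff Topology
open Metric Set Filter
open Crest.GeometryTopology.CoordMetric
open Crest.Agent.N207.I Crest.Agent.N207.Lg Crest.Agent.N207.CB

noncomputable section

namespace Crest.Agent.N207.NS.Cp

theorem jet_tri {f u : E4 → ℝ} {x : E4} (hf : ContDiffAt ℝ ∞ f x) (hu : ContDiffAt ℝ ∞ u x) (k : ℕ) :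
    ‖iteratedFDeriv ℝ k f x‖ ≤
      ‖iteratedFDeriv ℝ k (fun y => f y - u y) x‖ + ‖iteratedFDeriv ℝ k u x‖ := by
  have hk : (k : WithTop ℕ∞) ≤ ∞ := by exact_mod_cast le_top
  have e : iteratedFDeriv ℝ k (fun y => f y - u y) x = _ :=
    iteratedFDeriv_sub_apply (hf.of_le hk) (hu.of_le hk)
  rw [e]
  exact norm_le_norm_sub_add _ _

theorem jet_dv {G : MetricField 4} {x : E4} {p q : Fin 4} (hG : ContDiffAt ℝ ∞ (fun y => G y p q) x)
    {k : ℕ} (h : k ≠ 0) :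
    iteratedFDeriv ℝ k (TD.dv G p q) x = iteratedFDeriv ℝ k (fun y => G y p q) x := by
  have hk : (k : WithTop ℕ∞) ≤ ∞ := by exact_mod_cast le_top
  have e : iteratedFDeriv ℝ k (TD.dv G p q) x = _ := iteratedFDeriv_sub_apply (hG.of_le hk)
    (contDiffAt_const (c := (1 : Matrix (Fin 4) (Fin 4) ℝ) p q))
  rw [e, iteratedFDeriv_const_of_ne h]
  simp

variable {M : Type*} {T : TD M} {g : T.V → Fam T}

theorem jets (h : Std T g) (hCO : CO) (hCh : CHI T) (hD : DIF) (hE : ELL T g) (hG : GB T g) :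
    JETS T g := by
  obtain ⟨δe, Λ, Te, hδe, hΛ, hell⟩ := hE
  obtain ⟨Cd, hCd, hdif⟩ := hD (Λ + 1)
  obtain ⟨Cc, hCc, hco, -⟩ := hCO Λ
  obtain ⟨T1, hch⟩ := hCh.ch h.ok
  obtain ⟨Cx, Tx, hCx, hchi⟩ := hCh
  obtain ⟨Tg, hgb⟩ := hG
  obtain ⟨C1, hg1⟩ := hgb 1
  obtain ⟨C2, hg2⟩ := hgb 2
  obtain ⟨Tm, hTm⟩ := (Set.toFinite ({0, Te, T1, Tx, Tg} : Set ℝ)).bddAbove
  simp only [mem_upperBounds, mem_insert_iff, mem_singleton_iff, forall_eq_or_imp,
    forall_eq] at hTm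
  obtain ⟨t0, te, t1, tx, tg⟩ := hTm
  have hΛ4 : 0 < Λ ^ 4 := by positivity
  refine ⟨Λ, Cd * (Λ + 1) + (Cx * Λ ^ 4 + Cc * (Λ + 1)), hΛ, by positivity, fun θ hθ hθ1 => ?_⟩
  have l1 : Tendsto (fun c : ℝ => Real.exp (-c)) atTop (𝓝 0) := Real.tendsto_exp_neg_atTop_nhds_zero
  have l2 : Tendsto (fun c : ℝ => (|C1| + |C2|) * (2 * Real.exp (-c / 2))) atTop (𝓝 0) := by
    have := ((l1.comp (tendsto_id.atTop_div_const two_pos)).const_mul 2).const_mul (|C1| + |C2|)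
    simpa [Function.comp_def, neg_div] using this
  obtain ⟨c0, hc0⟩ := eventually_atTop.1 ((eventually_ge_atTop 2).and
    ((l1.eventually_le_const (show 0 < T.r / 8 by have := h.ok.r_pos; positivity)).and
      (l2.eventually_le_const (show 0 < θ ^ 2 / 2 by positivity))))
  have hθ2 : θ ^ 2 ≤ θ := by nlinarith
  refine ⟨c0, min δe (θ ^ 2 / 2), Tm, by positivity,
    fun c hc T0 hT0 L hL b g1 g2 hb h1 h2 => ?_⟩
  obtain ⟨c1, c2, c3⟩ := hc0 c hc
  have m1 : ∀ {t}, t ≤ Tm → Lng T (2 * T0 + t) L := fun ht => hL.mono (by linarith)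
  have ch := hch L (hL.mono (by linarith))
  have chi := fun s => ((hchi L (hL.mono (by linarith))).2.2.2 s).2.2.2.2.2.2.2.2.2 c |>.2
  have gm := riem_of_rt ((hg1 T0 (tg.trans hT0)).2 L (m1 tg)).2.1
  have el := fun (H : Fam T) (hH : Adm T g T0 L (min δe (θ ^ 2 / 2)) H) s x (hx : x ∈ U1 T L s) =>
    hell T0 (te.trans hT0) L (m1 te) H s x (ch.U1_W1 s hx) ((hH.met.riem s).posDef x hx)
      ((hH.near.mono (min_le_left _ _)).val hx)
  have mb : ∀ H : Fam T, Adm T g T0 L (min δe (θ ^ 2 / 2)) H → ∀ s, ∀ x ∈ U1 T L s,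
      Mb Λ (H s) x := fun H hH s x hx =>
    have e := el H hH s x hx
    ⟨hΛ, (hH.met.riem s).posDef x hx, e.1, e.2.1, e.2.2.1, e.2.2.2.1⟩
  have s0 : ∀ s, ∀ x ∈ U1 T L s, 0 < scl T s x := fun s x hx =>
    one_pos.trans_le (ch.cell s x (ch.U1_W1 s hx)).1
  -- the size `e` of the jets
  have key : ∀ s, ∀ x ∈ U1 T L s, ∃ e : ℝ, 0 ≤ e ∧ e ≤ Λ + 1 ∧ √e ≤ (Λ + 1) * wθ T L c θ s x ∧
      e ≤ (Λ + 1) * wθ T L c θ s x ∧
      scl T s x * ‖fderiv ℝ (fun y => T.χ s ((T.glob L).c s y)) x‖ ≤ Cx * wθ T L c θ s x ∧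
      ∀ H : Fam T, Adm T g T0 L (min δe (θ ^ 2 / 2)) H → ∀ k, k ≠ 0 → k ≤ 2 → ∀ p q,
        scl T s x ^ k * ‖iteratedFDeriv ℝ k (fun y => H s y p q) x‖ ≤ e := fun s x hx => by
    have ga := fun p q => ((gm s).contDiffOn p q).contDiffAt ((gm s).isOpen.mem_nhds (ch.U1_U s hx))
    have tri : ∀ H : Fam T, Adm T g T0 L (min δe (θ ^ 2 / 2)) H → ∀ k, k ≤ 2 → ∀ p q,
        scl T s x ^ k * ‖iteratedFDeriv ℝ k (fun y => H s y p q) x‖ ≤ θ ^ 2 / 2 +
          scl T s x ^ k * ‖iteratedFDeriv ℝ k (fun y => gbL T g T0 L s y p q) x‖ :=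
      fun H hH k hk p q => by
        refine (mul_le_mul_of_nonneg_left (jet_tri (((hH.met.riem s).contDiffOn p q).contDiffAt
          ((ch.op1 s).mem_nhds hx)) (ga p q) k) (pow_nonneg (s0 s x hx).le k)).trans ?_
        rw [mul_add]
        exact add_le_add ((hH.near s x hx k hk p q).trans (min_le_right _ _)) le_rfl
    by_cases hi : x ∈ Cor T L c s
    · simp only [wθ, if_pos hi, mul_one]
      refine ⟨Λ + 1, by positivity, le_rfl, Real.sqrt_le_iff.2 ⟨by positivity, by nlinarith⟩,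
        le_rfl, (chi s x hx).2.1, fun H hH k _ hk p q => (tri H hH k hk p q).trans ?_⟩
      have := (el H hH s x hx).2.2.2.2 k (by omega) p q
      nlinarith
    · simp only [wθ, if_neg hi]
      obtain ⟨z, w, rfl, hw⟩ := (chi s x hx).2.2 c1 c2 hi
      refine ⟨θ ^ 2, by positivity, by nlinarith, by rw [Real.sqrt_sq hθ.le]; nlinarith,
        by nlinarith, by rw [z, norm_zero, mul_zero]; positivity,
        fun H hH k hk0 hk p q => (tri H hH k hk p q).trans ?_⟩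
      have w0 : 0 ≤ T.wt (1 / 2) L w x := by unfold TD.wt; split_ifs <;> positivity
      have a1 := ((hg1 T0 (tg.trans hT0)).2 L (m1 tg)).2.2.1 w x (ch.U1_U _ hx) p q
      have a2 := ((hg2 T0 (tg.trans hT0)).2 L (m1 tg)).2.2.1 w x (ch.U1_U _ hx) p q
      rw [jet_dv (ga p q) (by norm_num)] at a1 a2
      have b1 := mul_le_mul (show C1 ≤ |C1| + |C2| by linarith [le_abs_self C1, abs_nonneg C2])
        hw w0 (by positivity)
      have b2 := mul_le_mul (show C2 ≤ |C1| + |C2| by linarith [le_abs_self C2, abs_nonneg C1])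
        hw w0 (by positivity)
      have : k = 1 ∨ k = 2 := by omega
      rcases this with rfl | rfl
      · exact (add_le_add le_rfl (a1.trans (b1.trans c3))).trans_eq (by ring)
      · exact (add_le_add le_rfl (a2.trans (b2.trans c3))).trans_eq (by ring)
  have w0 : ∀ s x, 0 ≤ wθ T L c θ s x := fun s x => by unfold wθ; split_ifs <;> positivity
  refine ⟨mb b hb, mb g1 h1, fun s x hx p q => ?_, fun s x hx a i => ?_⟩
  · obtain ⟨e, e0, e1, e2, -, -, e5⟩ := key s x hx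
    have j : ∀ H : Fam T, Adm T g T0 L (min δe (θ ^ 2 / 2)) H → ∀ p q, |H s x p q| ≤ Λ + 1 ∧
        |(H s x)⁻¹ p q| ≤ Λ + 1 ∧ scl T s x * ‖iteratedFDeriv ℝ 1 (fun y => H s y p q) x‖ ≤ e ∧
        scl T s x ^ 2 * ‖iteratedFDeriv ℝ 2 (fun y => H s y p q) x‖ ≤ e := fun H hH p q =>
      ⟨((mb H hH s x hx).bd p q).1.trans (by linarith), ((mb H hH s x hx).bd p q).2.trans
        (by linarith), by simpa using e5 H hH 1 one_ne_zero one_le_two p q,
        e5 H hH 2 two_ne_zero le_rfl p q⟩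
    refine (hdif _ (b s) (g1 s) (g2 s) x _ e (hb.met.riem s) (h1.met.riem s) (h2.met.riem s) hx
      (s0 s x hx) e0 e1 (by
        simp only [List.mem_cons, List.not_mem_nil, or_false, forall_eq_or_imp, forall_eq]
        exact ⟨j b hb, j g1 h1, j g2 h2⟩) p q).trans (mul_le_mul_of_nonneg_right ?_ ?_)
    · have := w0 s x
      nlinarith [mul_le_mul_of_nonneg_left e2 hCd.le, mul_nonneg (mul_pos hCx hΛ4).le this,
        mul_nonneg (mul_pos hCc (show 0 < Λ + 1 by positivity)).le this]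
    · have := s0 s x hx; positivity
  · obtain ⟨e, e0, -, -, e3, e4, e5⟩ := key s x hx
    have j : ∀ H : Fam T, Adm T g T0 L (min δe (θ ^ 2 / 2)) H → ∀ p q, |H s x p q| ≤ Λ ∧
        |(H s x)⁻¹ p q| ≤ Λ ∧ scl T s x * ‖iteratedFDeriv ℝ 1 (fun y => H s y p q) x‖ ≤ e :=
      fun H hH p q => ⟨((mb H hH s x hx).bd p q).1, ((mb H hH s x hx).bd p q).2,
        by simpa using e5 H hH 1 one_ne_zero one_le_two p q⟩
    have k1 : scl T s x * |pderiv i (c6 (b s) (g1 s) a) x| ≤ Cc * e :=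
      hco _ (b s) (g1 s) x _ e (hb.met.riem s) (h1.met.riem s) hx (s0 s x hx) (by
        simp only [List.mem_cons, List.not_mem_nil, or_false, forall_eq_or_imp, forall_eq]
        exact ⟨j b hb, j g1 h1⟩) _ _ _ _ _ _ _
    have k2 := (mb b hb s x hx).c6 (mb g1 h1 s x hx) a
    have k3 := (mul_le_mul_of_nonneg_left (abs_pd _ x i) (s0 s x hx).le).trans e4
    have k4 := ch.χ_le_one hx
    have k5 := ch.χ_nonneg s ((T.glob L).c s x)
    rw [N.pd_mul (dAt (ch.χ_sm s) (ch.op1 s) hx)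
      (dAt (sm_c6 (hb.met.riem s) (h1.met.riem s) a) (ch.op1 s) hx)]
    refine (mul_le_mul_of_nonneg_left (abs_add_le _ _) (s0 s x hx).le).trans ?_
    rw [mul_add, abs_mul, abs_mul, abs_of_nonneg k5, ← mul_assoc, mul_left_comm]
    have := w0 s x
    have k6 := mul_le_mul k3 k2 (abs_nonneg _) (by positivity)
    have k7 := mul_le_mul k4 (k1.trans (mul_le_mul_of_nonneg_left e3 hCc.le))
      (mul_nonneg (s0 s x hx).le (abs_nonneg _)) zero_le_one
    nlinarith [mul_nonneg (mul_pos hCd (show 0 < Λ + 1 by positivity)).le this]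

end Crest.Agent.N207.NS.Cp

end
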