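import Crest.Agent.N207.N.St
import Crest.Agent.N207.Lg.Flat
import Crest.Agent.N207.Lg.Alg4

/-!
# Row 207 (helper54): leaf DIF, the difference of two reduced Ricci tensors
-/

set_option autoImplicit false

open scoped ContDiff Topology
open Metric Set Filter Finset
open Crest.GeometryTopology.CoordMetric Crest.GeometryTopology.ChartCurvature
  Crest.GeometryTopology.MetricFamily
open Crest.Agent.N207.I Crest.Agent.N207.Lg

noncomputable section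

namespace Crest.Agent.N207.NS.Df

section Jet

variable {ι : Type} [Fintype ι]

/-- the reduced Ricci tensor as a polynomial of the jets -/
def wj (g H : M2 ι ℝ) (p : M3 ι ℝ) (q : M4 ι ℝ) (β : M3 ι ℝ) (dβ : M4 ι ℝ) : M2 ι ℝ := fun i j =>
  -(1 / 2) * lapJ H (bar3 (bar g p β) (dbar g p q β dβ) β) i j + qd H (bar g p β) i j -
    cvJ g H (rie β dβ) i j

theorem wj_q (g H : M2 ι ℝ) (p : M3 ι ℝ) (q q' : M4 ι ℝ) (β : M3 ι ℝ) (dβ : M4 ι ℝ) (i j : ι) :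
    wj g H p q β dβ i j + (1 / 2) * lapJ H (q - q') i j = wj g H p q' β dβ i j := by
  have e : bar3 (bar g p β) (dbar g p q β dβ) β =
      bar3 (bar g p β) (dbar g p q' β dβ) β + (q - q') := by
    funext c d a b; simp only [bar3, dbar, Pi.add_apply, Pi.sub_apply]; ring
  simp only [wj, e, lapJ_add, Pi.add_apply]; ring

theorem cvJ_smul (t : ℝ) (g H : M2 ι ℝ) (R : M4 ι ℝ) : cvJ g H (t • R) = t • cvJ g H R := by
  funext i j
  simp only [cvJ, Pi.smul_apply, smul_eq_mul, mul_sum]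
  exact sum_congr rfl fun _ _ => sum_congr rfl fun _ _ => sum_congr rfl fun _ _ => by ring

theorem wj_hom (t : ℝ) (g H : M2 ι ℝ) (p : M3 ι ℝ) (q : M4 ι ℝ) (β : M3 ι ℝ) (dβ : M4 ι ℝ) :
    wj g H (t • p) (t ^ 2 • q) (t • β) (t ^ 2 • dβ) = t ^ 2 • wj g H p q β dβ := by
  funext i j
  simp only [wj, bar_hom, dbar_hom, bar3_hom, rie_hom, qd_hom, lapJ_smul, cvJ_smul, Pi.smul_apply,
    smul_eq_mul]
  ring

/-- the space of jets -/
abbrev JS (ι : Type) : Type :=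
  (M2 ι ℝ × M2 ι ℝ × M3 ι ℝ) × M4 ι ℝ × M2 ι ℝ × M3 ι ℝ × M4 ι ℝ

/-- `wj` with the background connection computed from its jets -/
def wz (z : JS ι) : M2 ι ℝ :=
  wj z.1.1 z.1.2.1 z.1.2.2 z.2.1 (chr z.2.2.1 z.2.2.2.1) (dG2 z.2.2.1 z.2.2.2.1 z.2.2.2.2)

theorem cl_cd {X : Type} [NormedAddCommGroup X] [NormedSpace ℝ X] :
    Cl (fun f : X → ℝ => ContDiff ℝ 1 f) :=
  ⟨fun _ => contDiff_const, fun hf hg => hf.add hg, fun hf hg => hf.mul hg⟩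

theorem cd_wz : ContDiff ℝ 1 (wz (ι := ι)) := by
  have h := cl_cd (X := JS ι)
  have h1 : P2 (fun f : JS ι → ℝ => ContDiff ℝ 1 f) fun z => z.1.1 := fun a b => by
    beta_reduce; fun_prop
  have h2 : P2 (fun f : JS ι → ℝ => ContDiff ℝ 1 f) fun z => z.1.2.1 := fun a b => by
    beta_reduce; fun_prop
  have h3 : P3 (fun f : JS ι → ℝ => ContDiff ℝ 1 f) fun z => z.1.2.2 := fun a b c => by
    beta_reduce; fun_prop
  have h4 : P4 (fun f : JS ι → ℝ => ContDiff ℝ 1 f) fun z => z.2.1 := fun a b c d => by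
    beta_reduce; fun_prop
  have h5 : P2 (fun f : JS ι → ℝ => ContDiff ℝ 1 f) fun z => z.2.2.1 := fun a b => by
    beta_reduce; fun_prop
  have h6 : P3 (fun f : JS ι → ℝ => ContDiff ℝ 1 f) fun z => z.2.2.2.1 := fun a b c => by
    beta_reduce; fun_prop
  have h7 : P4 (fun f : JS ι → ℝ => ContDiff ℝ 1 f) fun z => z.2.2.2.2 :=
    fun a b c d => by
    beta_reduce; fun_prop
  have hβ := h.chr h5 h6
  have hd := h.dG2 h5 h6 h7
  have hT := h.bar h1 h3 hβ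
  refine contDiff_pi.2 fun i => contDiff_pi.2 fun j => ?_
  exact h.sub (h.add (h.mul (h.const _) (h.lapJ h2 (h.bar3 hT (h.dbar h1 h3 h4 hβ hd) hβ) i j))
    (h.qd h2 hT i j)) (h.cvJ h1 h2 (h.rie hβ hd) i j)

theorem wz_lip (R : ℝ) : ∃ K : ℝ, 0 ≤ K ∧ ∀ z z' : JS ι, ‖z‖ ≤ R → ‖z'‖ ≤ R → ∀ i j,
    |wz z i j - wz z' i j| ≤ K * ‖z - z'‖ := by
  obtain ⟨K, hK⟩ := (cd_wz (ι := ι)).contDiffOn.exists_lipschitzOnWith one_ne_zero
    (convex_closedBall (0 : JS ι) R) (isCompact_closedBall 0 R)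
  refine ⟨K, K.2, fun z z' hz hz' i j => ?_⟩
  have := hK.dist_le_mul z (mem_closedBall_zero_iff.2 hz) z' (mem_closedBall_zero_iff.2 hz')
  rw [dist_eq_norm, dist_eq_norm] at this
  exact ((norm_le_pi_norm ((wz z - wz z') i) j).trans (norm_le_pi_norm _ i)).trans this

theorem n2_le {A : M2 ι ℝ} {c : ℝ} (hc : 0 ≤ c) (h : ∀ a b, |A a b| ≤ c) : ‖A‖ ≤ c :=
  (pi_norm_le_iff_of_nonneg hc).2 fun a => (pi_norm_le_iff_of_nonneg hc).2 fun b => h a b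

theorem n3_le {A : M3 ι ℝ} {c : ℝ} (hc : 0 ≤ c) (h : ∀ a b d, |A a b d| ≤ c) : ‖A‖ ≤ c :=
  (pi_norm_le_iff_of_nonneg hc).2 fun a => n2_le hc (h a)

theorem n4_le {A : M4 ι ℝ} {c : ℝ} (hc : 0 ≤ c) (h : ∀ a b d e, |A a b d e| ≤ c) : ‖A‖ ≤ c :=
  (pi_norm_le_iff_of_nonneg hc).2 fun a => n3_le hc (h a)

theorem up2_le {H k H' : M2 ι ℝ} {Λ δ : ℝ} (hH : ∀ a b, |H a b| ≤ Λ) (hH' : ∀ a b, |H' a b| ≤ Λ)
    (hk : ∀ a b, |k a b| ≤ δ) (i j : ι) :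
    |up2 H k H' i j| ≤ (Fintype.card ι : ℝ) ^ 2 * Λ ^ 2 * δ := by
  have h0 : 0 ≤ Λ := (abs_nonneg _).trans (hH i j)
  have h1 : 0 ≤ δ := (abs_nonneg _).trans (hk i j)
  calc |up2 H k H' i j| ≤ ∑ a, ∑ b, |H i a * k a b * H' b j| :=
        (abs_sum_le_sum_abs _ _).trans (sum_le_sum fun a _ => abs_sum_le_sum_abs _ _)
    _ ≤ ∑ _a : ι, ∑ _b : ι, Λ * δ * Λ := sum_le_sum fun a _ => sum_le_sum fun b _ => by
        rw [abs_mul, abs_mul]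
        exact mul_le_mul (mul_le_mul (hH _ _) (hk _ _) (abs_nonneg _) h0) (hH' _ _) (abs_nonneg _)
          (mul_nonneg h0 h1)
    _ = _ := by simp only [sum_const, card_univ, nsmul_eq_mul]; ring

theorem resc {X : Type} [NormedAddCommGroup X] [NormedSpace ℝ X] {t c : ℝ} (ht : 0 ≤ t)
    (hc : 0 ≤ c) {p : X} (h : ‖p‖ ≤ t * c) : t • t⁻¹ • p = p ∧ ‖t⁻¹ • p‖ ≤ c := by
  rcases ht.eq_or_lt with rfl | ht
  · have : p = 0 := norm_le_zero_iff.1 (by simpa using h)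
    simp [this, hc]
  · refine ⟨smul_inv_smul₀ ht.ne' p, ?_⟩
    rw [norm_smul, norm_inv, Real.norm_of_nonneg ht.le, inv_mul_le_iff₀ ht]; exact h

/-- the jet form of DIF -/
theorem dif_jet [DecidableEq ι] (Λ : ℝ) : ∃ C : ℝ, 0 < C ∧ ∀ (g1 g2 H1 H2 Hb : M2 ι ℝ)
    (p1 p2 pb : M3 ι ℝ) (q qb : M4 ι ℝ) (t δ : ℝ), 0 ≤ t → Iv g1 H1 → Iv g2 H2 →
    (∀ a b, |g1 a b| ≤ Λ) → (∀ a b, |g2 a b| ≤ Λ) → (∀ a b, |H1 a b| ≤ Λ) → (∀ a b, |H2 a b| ≤ Λ) →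
    (∀ a b, |Hb a b| ≤ Λ) → ‖p1‖ ≤ t * Λ → ‖p2‖ ≤ t * Λ → ‖pb‖ ≤ t * Λ → ‖q‖ ≤ t ^ 2 * Λ →
    ‖qb‖ ≤ t ^ 2 * Λ → (∀ a b, |g1 a b - g2 a b| ≤ δ) → ∀ i j,
    |wj g1 H1 p1 q (chr Hb pb) (dG2 Hb pb qb) i j - wj g2 H2 p2 q (chr Hb pb) (dG2 Hb pb qb) i j| ≤
      C * (t * ‖p1 - p2‖ + t ^ 2 * δ) := by
  obtain ⟨K, hK0, hK⟩ := wz_lip (ι := ι) Λ
  set N : ℝ := (Fintype.card ι : ℝ) ^ 2 * Λ ^ 2 with hN
  have hN0 : 0 ≤ N := by positivity
  refine ⟨(K + 1) * (N + 1), by positivity, ?_⟩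
  intro g1 g2 H1 H2 Hb p1 p2 pb q qb t δ ht i1 i2 b1 b2 c1 c2 cb d1 d2 db eq eb hδ i j
  have hΛ : 0 ≤ Λ := (abs_nonneg _).trans (b1 i j)
  have hδ0 : 0 ≤ δ := (abs_nonneg _).trans (hδ i j)
  obtain ⟨r1, s1⟩ := resc ht hΛ d1
  obtain ⟨r2, s2⟩ := resc ht hΛ d2
  obtain ⟨rb, sb⟩ := resc ht hΛ db
  obtain ⟨rq, sq⟩ := resc (sq_nonneg t) hΛ eq
  obtain ⟨rqb, sqb⟩ := resc (sq_nonneg t) hΛ eb
  have key : ∀ (g H : M2 ι ℝ) (p : M3 ι ℝ), t • t⁻¹ • p = p →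
      wj g H p q (chr Hb pb) (dG2 Hb pb qb) i j =
        t ^ 2 * wz ((g, H, t⁻¹ • p), (t ^ 2)⁻¹ • q, Hb, t⁻¹ • pb, (t ^ 2)⁻¹ • qb) i j := by
    intro g H p hp
    have := congrFun (congrFun (wj_hom t g H (t⁻¹ • p) ((t ^ 2)⁻¹ • q) (chr Hb (t⁻¹ • pb))
      (dG2 Hb (t⁻¹ • pb) ((t ^ 2)⁻¹ • qb))) i) j
    rw [hp, rq, ← chr_smul, ← dG2_hom, rb, rqb] at this
    exact this
  have nz : ∀ (g H : M2 ι ℝ) (p : M3 ι ℝ), (∀ a b, |g a b| ≤ Λ) → (∀ a b, |H a b| ≤ Λ) → ‖p‖ ≤ Λ →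
      ‖(((g, H, p), (t ^ 2)⁻¹ • q, Hb, t⁻¹ • pb, (t ^ 2)⁻¹ • qb) : JS ι)‖ ≤ Λ := by
    intro g H p hg hH hp
    simp only [Prod.norm_mk, max_le_iff]
    exact ⟨⟨n2_le hΛ hg, n2_le hΛ hH, hp⟩, sq, n2_le hΛ cb, sb, sqb⟩
  have h1 := hK _ _ (nz g1 H1 _ b1 c1 s1) (nz g2 H2 _ b2 c2 s2) i j
  have h2 : ‖H1 - H2‖ ≤ N * δ := by
    rw [inv_sub i1 i2, norm_neg]
    exact n2_le (by positivity) (up2_le c1 c2 hδ)
  have h3 : ‖g1 - g2‖ ≤ δ := n2_le hδ0 hδ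
  have h4 : t ^ 2 * ‖t⁻¹ • p1 - t⁻¹ • p2‖ ≤ t * ‖p1 - p2‖ := by
    rw [← smul_sub, norm_smul, norm_inv, Real.norm_of_nonneg ht]
    rcases ht.eq_or_lt with rfl | ht
    · simp
    · apply le_of_eq; field_simp
  have h5 : ‖(((g1, H1, t⁻¹ • p1), (t ^ 2)⁻¹ • q, Hb, t⁻¹ • pb, (t ^ 2)⁻¹ • qb) : JS ι) -
      ((g2, H2, t⁻¹ • p2), (t ^ 2)⁻¹ • q, Hb, t⁻¹ • pb, (t ^ 2)⁻¹ • qb)‖ ≤
      (N + 1) * δ + ‖t⁻¹ • p1 - t⁻¹ • p2‖ := by
    have hn := norm_nonneg (t⁻¹ • p1 - t⁻¹ • p2)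
    have hNδ : 0 ≤ N * δ := by positivity
    simp only [Prod.mk_sub_mk, sub_self, Prod.norm_mk, max_le_iff, norm_zero]
    have : (N + 1) * δ = N * δ + δ := by ring
    refine ⟨⟨by linarith, by linarith, by linarith⟩, ?_⟩
    show (0 : ℝ) ≤ _; linarith
  rw [key g1 H1 p1 r1, key g2 H2 p2 r2, ← mul_sub, abs_mul, abs_of_nonneg (sq_nonneg t)]
  have h6 := mul_le_mul_of_nonneg_left (h1.trans (mul_le_mul_of_nonneg_left h5 hK0)) (sq_nonneg t)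
  have h7 : 0 ≤ t * ‖p1 - p2‖ := by positivity
  have h8 : 0 ≤ t ^ 2 * δ := by positivity
  have h9 := mul_le_mul_of_nonneg_left h4 hK0
  have h10 : 0 ≤ K * N * (t * ‖p1 - p2‖) := by positivity
  have h11 : 0 ≤ N * (t * ‖p1 - p2‖) := by positivity
  have h12 : 0 ≤ N * (t ^ 2 * δ) := by positivity
  nlinarith

end Jet

variable {n : ℕ} {f : EuclideanSpace ℝ (Fin n) → ℝ} {x : EuclideanSpace ℝ (Fin n)}

theorem abs_pd_le (c : Fin n) : |pderiv c f x| ≤ ‖iteratedFDeriv ℝ 1 f x‖ := by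
  rw [norm_iteratedFDeriv_one]
  simpa [pderiv] using (fderiv ℝ f x).le_opNorm (EuclideanSpace.single c (1 : ℝ))

theorem abs_pd2_le (hf : ContDiffAt ℝ 2 f x) (c d : Fin n) :
    |pderiv c (pderiv d f) x| ≤ ‖iteratedFDeriv ℝ 2 f x‖ := by
  refine (abs_pd_le c).trans ?_
  rw [show (2 : ℕ) = 1 + 1 from rfl, ← norm_iteratedFDeriv_fderiv (n := 1)]
  have hc : ContDiffAt ℝ (1 : ℕ) (fderiv ℝ f) x := hf.fderiv_right (by norm_num)
  have := (ContinuousLinearMap.apply ℝ ℝ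
    (EuclideanSpace.single d (1 : ℝ) : EuclideanSpace ℝ (Fin n))).norm_iteratedFDeriv_comp_left hc le_rfl
  refine le_trans (le_of_eq rfl) (this.trans (mul_le_of_le_one_left (norm_nonneg _) ?_))
  refine ContinuousLinearMap.opNorm_le_bound _ zero_le_one fun L => ?_
  simpa using L.le_opNorm (EuclideanSpace.single d (1 : ℝ))

theorem jet2_sub {K K' : MetricField n} (hK : ∀ a b, ContDiffAt ℝ 2 (fun z => K z a b) x)
    (hK' : ∀ a b, ContDiffAt ℝ 2 (fun z => K' z a b) x) :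
    jet2 (K - K') x = jet2 K x - jet2 K' x := by
  funext c d a b
  have e1 := ((hK a b).eventually (by simp)).and ((hK' a b).eventually (by simp))
  have d1 : ∀ {K : MetricField n}, ContDiffAt ℝ 2 (fun z => K z a b) x →
      DifferentiableAt ℝ (fun z => jet K z d a b) x := fun h =>
    (((h.fderiv_right (m := 1) (by norm_num)).differentiableAt one_ne_zero).clm_apply
      (differentiableAt_const _))
  rw [Pi.sub_apply, Pi.sub_apply, Pi.sub_apply, Pi.sub_apply]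
  refine Eq.trans (pd_congr c (e1.mono fun z hz => ?_)) (pd_sub c (d1 (hK a b)) (d1 (hK' a b)))
  exact pd_sub d (hz.1.differentiableAt (by norm_num)) (hz.2.differentiableAt (by norm_num))

theorem redT_wj {gb G : MetricField n} (hb : C2 gb x) (h : C2 G x) (i j : Fin n) :
    redT gb G x ![i, j] = wj (G x) (iv G x) (jet G x) (jet2 G x) (chr (iv gb x) (jet gb x))
      (dG2 (iv gb x) (jet gb x) (jet2 gb x)) i j := by
  rw [hb.redT_eq h, hb.TTG_eq h.c2, TG_eq, hb.riemann_raw, hb.dGam_eq, chr_eq]; rfl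

theorem abs_le_e0 (k : MetricField 4) (x : E4) (a b : Fin 4) : |k x a b| ≤ √(e0 k x) :=
  Real.abs_le_sqrt ((single_le_sum (f := fun b => k x a b ^ 2) (fun _ _ => sq_nonneg _)
    (mem_univ b)).trans (single_le_sum (f := fun a => ∑ b, k x a b ^ 2)
    (fun _ _ => sum_nonneg fun _ _ => sq_nonneg _) (mem_univ a)))

theorem abs_le_e1 (k : MetricField 4) (x : E4) (c a b : Fin 4) : |jet k x c a b| ≤ √(e1 k x) := by
  have h0 : ∀ a b, 0 ≤ Hd.g2 (fun y => k y a b) x := fun a b => sum_nonneg fun _ _ => sq_nonneg _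
  exact Real.abs_le_sqrt (((single_le_sum (f := fun c => pderiv c (fun y => k y a b) x ^ 2)
    (fun _ _ => sq_nonneg _) (mem_univ c)).trans
    (single_le_sum (f := fun b => Hd.g2 (fun y => k y a b) x) (fun _ _ => h0 _ _)
    (mem_univ b))).trans (single_le_sum (f := fun a => ∑ b, Hd.g2 (fun y => k y a b) x)
    (fun _ _ => sum_nonneg fun _ _ => h0 _ _) (mem_univ a)))

end Crest.Agent.N207.NS.Df

namespace Crest.Agent.N207.NS

open Df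

/-- leaf DIF -/
theorem dif : DIF := by
  intro Λ
  set Λ' : ℝ := max Λ 1 with hΛ'
  have hΛ1 : 1 ≤ Λ' := le_max_right _ _
  have hΛΛ : Λ ≤ Λ' := le_max_left _ _
  obtain ⟨C, hC, h⟩ := dif_jet (ι := Fin 4) Λ'
  refine ⟨C * Λ', by positivity, ?_⟩
  intro U b g1 g2 x r e hb h1 h2 hx hr he heΛ hH p q
  have cb := C2.of_riem hb hx
  have c1 := C2.of_riem h1 hx
  have c2 := C2.of_riem h2 hx
  have hse : √e ≤ Λ' := Real.sqrt_le_iff.2 ⟨by linarith, by nlinarith⟩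
  have hs0 := Real.sqrt_nonneg e
  have hss := Real.mul_self_sqrt he
  set t : ℝ := √e / r with ht
  have ht0 : 0 ≤ t := by positivity
  have ht2 : t ^ 2 = e / r ^ 2 := by rw [ht, div_pow, Real.sq_sqrt he]
  have j1 : ∀ H ∈ [b, g1, g2], ‖jet H x‖ ≤ t * Λ' := fun H hm =>
    n3_le (by positivity) fun c a d => by
      refine (abs_pd_le c).trans ?_
      have := (hH H hm a d).2.2.1
      rw [ht, div_mul_eq_mul_div, le_div_iff₀ hr]
      nlinarith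
  have j2 : ∀ H ∈ [b, g1, g2], C2 H x → ‖jet2 H x‖ ≤ t ^ 2 * Λ' := fun H hm hc =>
    n4_le (by positivity) fun c d a a' => by
      refine (abs_pd2_le (hc.c2 a a') c d).trans ?_
      have := (hH H hm a a').2.2.2
      rw [ht2, div_mul_eq_mul_div, le_div_iff₀ (by positivity)]
      nlinarith
  have mb : b ∈ [b, g1, g2] := by simp
  have m1 : g1 ∈ [b, g1, g2] := by simp
  have m2 : g2 ∈ [b, g1, g2] := by simp
  have k := h (g1 x) (g2 x) (iv g1 x) (iv g2 x) (iv b x) (jet g1 x) (jet g2 x) (jet b x) (jet2 g2 x)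
    (jet2 b x) t (√(e0 (g1 - g2) x)) ht0 c1.iv_inv c2.iv_inv
    (fun a d => (hH g1 m1 a d).1.trans hΛΛ) (fun a d => (hH g2 m2 a d).1.trans hΛΛ)
    (fun a d => (hH g1 m1 a d).2.1.trans hΛΛ) (fun a d => (hH g2 m2 a d).2.1.trans hΛΛ)
    (fun a d => (hH b mb a d).2.1.trans hΛΛ) (j1 g1 m1) (j1 g2 m2) (j1 b mb) (j2 g2 m2 c2)
    (j2 b mb cb) (fun a d => abs_le_e0 (g1 - g2) x a d) p q
  have e2 : ∑ i, ∑ j, (g1 x)⁻¹ i j * pderiv i (pderiv j fun y => (g1 - g2) y p q) x =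
      lapJ (iv g1 x) (jet2 g1 x - jet2 g2 x) p q := by
    rw [← jet2_sub c1.c2 c2.c2]; rfl
  have e3 := wj_q (g1 x) (iv g1 x) (jet g1 x) (jet2 g1 x) (jet2 g2 x) (chr (iv b x) (jet b x))
    (dG2 (iv b x) (jet b x) (jet2 b x)) p q
  have n1 : ‖jet g1 x - jet g2 x‖ ≤ √(e1 (g1 - g2) x) := by
    rw [← jet_sub c1.d c2.d]
    exact n3_le (Real.sqrt_nonneg _) (abs_le_e1 _ x)
  rw [e2, redT_wj cb c1, redT_wj cb c2, sub_add_eq_add_sub, e3]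
  refine k.trans ?_
  have a0 := Real.sqrt_nonneg (e0 (g1 - g2) x)
  have a1 := Real.sqrt_nonneg (e1 (g1 - g2) x)
  have s1 : t * ‖jet g1 x - jet g2 x‖ ≤ Λ' * √e * (√(e1 (g1 - g2) x) / r) := by
    refine (mul_le_mul_of_nonneg_left n1 ht0).trans ?_
    have : t * √(e1 (g1 - g2) x) = 1 * √e * (√(e1 (g1 - g2) x) / r) := by rw [ht]; ring
    rw [this]; gcongr
  have s2 : t ^ 2 * √(e0 (g1 - g2) x) ≤ Λ' * √e * (√(e0 (g1 - g2) x) / r ^ 2) := by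
    have : t ^ 2 * √(e0 (g1 - g2) x) = √e * √e * (√(e0 (g1 - g2) x) / r ^ 2) := by
      rw [ht2, hss]; ring
    rw [this]; gcongr
  calc _ ≤ C * (Λ' * √e * (√(e1 (g1 - g2) x) / r) + Λ' * √e * (√(e0 (g1 - g2) x) / r ^ 2)) := by
        gcongr
    _ = _ := by ring

end Crest.Agent.N207.NS

end
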