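import Crest.Agent.N207.N.Chi
import Crest.Agent.N207.Ga.Data2

/-!
# Row 207 (helper18): the leaves GB, ELL, NEARG
-/

set_option autoImplicit false

open scoped ContDiff
open Metric Set Filter Topology
open Crest.GeometryTopology.CoordMetric Crest.Agent.R202.Tens
open Crest.Agent.N207.I Crest.Agent.N207.CB Crest.Agent.N207.Jt Crest.Agent.N207.K
  Crest.Agent.N207.Lg

noncomputable section

namespace Crest.Agent.N207.NS

variable {M : Type*} {T : TD M} {g : T.V → Fam T} {γ T0 : ℝ}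

theorem lg_of (h : T.Ok) {L : T.V → ℝ} (hT : 16 / T.r ≤ T0) (hL : Lng T (2 * T0 + 16 / T.r) L) :
    4 / T.r ≤ T0 ∧ Ga.Lg T (2 * T0 + 1) L := by
  have hr := h.r_pos
  have h1 : 1 ≤ 16 / T.r := by rw [le_div_iff₀ hr]; linarith [h.r_lt]
  exact ⟨le_trans (by gcongr; norm_num) hT, fun w hw =>
    lng_exp h (fun u hu => by linarith [hL u hu]) hw, fun w hw => by linarith [hL w hw]⟩

/-- **GB** -/
theorem gb' (h : Std T g) : GB T g := by
  obtain ⟨C, -, hC⟩ := Ga.gbL_sj h.ok h.lim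
  have hr := h.ok.r_pos
  refine ⟨16 / T.r, fun k => ⟨C k, fun T0 hT => ⟨fun v =>
    Ga.gb_met h.ok h.lim (le_trans (by gcongr; norm_num) hT) v, fun L hL => ?_⟩⟩⟩
  obtain ⟨h1, h2⟩ := lg_of h.ok hT hL
  exact ⟨h2.1, Ga.gR_met h.ok h.lim h1 h2, fun w x hx a b => by
    rw [mul_comm]; exact (hC T0 L w x hx a b).bd k, fun w x a b hx => Ga.gbL_small h.ok h.lim hx a b⟩

theorem mat_cpt {c : ℝ} (hc : 0 < c) (B : ℝ) : ∃ Λ : ℝ, 1 ≤ Λ ∧ ∀ A : Matrix (Fin 4) (Fin 4) ℝ,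
    Pos c A → (∀ p q, |A p q| ≤ B) → (∀ p q, |A p q| ≤ Λ ∧ |A⁻¹ p q| ≤ Λ) ∧ Λ⁻¹ ≤ √A.det ∧
      √A.det ≤ Λ ∧ ∀ ξ : Fin 4 → ℝ, Λ⁻¹ * ∑ i, ξ i ^ 2 ≤ ∑ i, ∑ j, A⁻¹ i j * ξ i * ξ j := by
  have hK := (isCompact_closedBall (0 : Fin 4 → Fin 4 → ℝ) |B|).inter_right (isClosed_pos c)
  set S := closedBall (0 : Fin 4 → Fin 4 → ℝ) |B| ∩ {A | Pos c (Matrix.of A)}
  have hp : ∀ A ∈ S, (Matrix.of A).PosDef := fun A hA => hA.2.posDef hc
  have hi : ∀ p q, ContinuousOn (fun A : Fin 4 → Fin 4 → ℝ => (Matrix.of A)⁻¹ p q) S :=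
    fun p q A hA => (TR.sm_inv p q A (hp A hA)).continuousAt.continuousWithinAt
  have hd : ContinuousOn (fun A : Fin 4 → Fin 4 → ℝ => √(Matrix.of A).det) S :=
    ME.sm_det.continuous.sqrt.continuousOn
  obtain ⟨C1, h1⟩ := hK.exists_bound_of_continuousOn
    (f := fun (A : Fin 4 → Fin 4 → ℝ) p q => (Matrix.of A)⁻¹ p q)
    (continuousOn_pi.2 fun p => continuousOn_pi.2 fun q => hi p q)
  obtain ⟨C2, h2⟩ := hK.exists_bound_of_continuousOn hd
  obtain ⟨c3, p3, h3⟩ := hK.exists_forall_le' hd (a := 0) fun A hA => Real.sqrt_pos.2 (hp A hA).det_pos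
  obtain ⟨c4, p4, h4⟩ := pos_of_compact hK hi fun A hA => (hp A hA).inv
  have q3 := inv_pos.2 p3
  have q4 := inv_pos.2 p4
  have := abs_nonneg B
  have := abs_nonneg C1
  have := abs_nonneg C2
  refine ⟨1 + |B| + |C1| + |C2| + c3⁻¹ + c4⁻¹, by linarith, fun A hA hB => ?_⟩
  have hS : A ∈ S := ⟨mem_closedBall_zero_iff.2 ((pi_norm_le_iff_of_nonneg (abs_nonneg _)).2 fun p =>
    (pi_norm_le_iff_of_nonneg (abs_nonneg _)).2 fun q => (hB p q).trans (le_abs_self _)), hA⟩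
  refine ⟨fun p q => ⟨by linarith [hB p q, le_abs_self B], ?_⟩, le_trans ?_ (h3 A hS), ?_, fun ξ => ?_⟩
  · have := ((norm_le_pi_norm (_ : Fin 4 → ℝ) q).trans ((norm_le_pi_norm _ p).trans (h1 A hS))).trans
      (le_abs_self _)
    exact le_trans this (by linarith)
  · rw [inv_le_comm₀ (by linarith) p3]; linarith
  · exact (((le_abs_self _).trans (h2 A hS)).trans (le_abs_self _)).trans (by linarith)
  · have h5 : Pos (1 + |B| + |C1| + |C2| + c3⁻¹ + c4⁻¹)⁻¹ A⁻¹ :=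
      (h4 A hS).mono (by rw [inv_le_comm₀ (by linarith) p4]; linarith)
    have h6 := h5.2 (WithLp.toLp 2 ξ)
    rwa [EuclideanSpace.real_norm_sq_eq, bil_apply] at h6

theorem wt_le_two (h : T.Ok) (h0 : 0 ≤ γ) {L : T.V → ℝ} {w : T.V} {x : E4}
    (hx : x ∈ (T.glob L).U (Sum.inr w)) : T.wt γ L w x ≤ 2 := by
  have h1 := hx.1
  have h2 : ‖x‖⁻¹ ^ γ ≤ 1 := Real.rpow_le_one (by positivity) (inv_le_one_of_one_le₀ h1.le) h0
  rw [Ga.wt_eq]
  split_ifs with hw
  · linarith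
  · have h3 := TD.nrm_exp_lt.2 (hx.2 hw)
    rw [norm_smul, Real.norm_of_nonneg (Real.exp_pos _).le] at h3
    linarith [Real.rpow_le_one (by positivity) (h3.trans h.r_lt).le h0]

/-- uniform bounds for the reference metric -/
theorem gbL_bd (h : T.Ok) (hL : T.Lim g γ) (h0 : 0 ≤ γ) : ∃ (C : ℕ → ℝ) (c : ℝ), (∀ k, 0 ≤ C k) ∧
    0 < c ∧ ∀ T0 L s, ∀ x ∈ W1 T L s, Pos c (gbL T g T0 L s x) ∧
      ∀ k p q, scl T s x ^ k * ‖iteratedFDeriv ℝ k (fun y => gbL T g T0 L s y p q) x‖ ≤ C k := by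
  obtain ⟨C, h1, hC⟩ := Ga.gbL_sj h hL
  obtain ⟨D, c, h2, hc, hD⟩ := Ga.ball_bd hL
  refine ⟨fun k => (C k + 1) * 3 + D k, min c (1 / 2), fun k => by linarith [h1 k, h2 k],
    by positivity, fun T0 L s x hx => ?_⟩
  cases s with
  | inl a =>
    have h3 := hD a x ((mem_W1_inl.1 hx).le.trans (by norm_num))
    refine ⟨h3.1.mono (min_le_left _ _), fun k p q => ?_⟩
    simp only [scl, Sum.elim_inl, one_pow, one_mul]
    exact (h3.2 k p q).trans (by linarith [h1 k])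
  | inr w =>
    have h3 := W1_U h _ hx
    refine ⟨(Ga.gbL_pos h hL h3).mono (min_le_right _ _), fun k p q => ?_⟩
    have h4 := (((hC T0 L w x h3 p q).mono (D := fun k => C k + 1) (ϖ' := 2) fun k =>
      mul_le_mul (by linarith) (wt_le_two h h0 h3) Ga.wt_nonneg (by linarith [h1 k])).add
      (Ga.sj_const (ϖ := 1) ((1 : Matrix (Fin 4) (Fin 4) ℝ) p q) (fun k => by linarith [h1 k])
        (by linarith [Ga.one_abs p q, h1 0]))).bd k
    simp only [TD.dv, sub_add_cancel] at h4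
    rw [mul_comm]
    exact h4.trans (by linarith [h2 k])

/-- **ELL** -/
theorem ell (h : Std T g) : ELL T g := by
  obtain ⟨C, c, h0, hc, hC⟩ := gbL_bd h.ok h.lim (by norm_num)
  obtain ⟨Λ, h1, hΛ⟩ := mat_cpt (half_pos hc) (C 0 + c / 32)
  have h2 := Ga.sm_nonneg (m := 3) h0
  refine ⟨c / 32, Λ + Ga.sm C 3, 0, by positivity, by linarith,
    fun T0 _ L _ H s x hx hp hd => ?_⟩
  obtain ⟨h3, h4⟩ := hC T0 L s x hx
  obtain ⟨a1, a2, a3, a4⟩ := hΛ (H s x)
    (Ga.pos_near h3 (fun a b => by simpa using (hp.isHermitian.apply a b).symm) hd) fun p q => by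
      have h5 := h4 0 p q
      rw [pow_zero, one_mul, norm_iteratedFDeriv_zero, Real.norm_eq_abs] at h5
      linarith [hd p q, abs_sub_abs_le_abs_sub (H s x p q) (gbL T g T0 L s x p q)]
  have h6 : (Λ + Ga.sm C 3)⁻¹ ≤ Λ⁻¹ := inv_anti₀ (by linarith) (by linarith)
  exact ⟨fun p q => ⟨by linarith [(a1 p q).1], by linarith [(a1 p q).2]⟩, h6.trans a2,
    a3.trans (by linarith), fun ξ => le_trans (mul_le_mul_of_nonneg_right h6 (by positivity)) (a4 ξ),
    fun k hk p q => (h4 k p q).trans (by linarith [Ga.le_sm h0 hk])⟩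

theorem ue_jet {ι : Type} {l : Filter ι} {u : ι → E4 → ℝ} {v : E4 → ℝ} {S : Set E4}
    (h : UE l u (fun _ => v) fun _ => S) {δ : ℝ} (hδ : 0 < δ) : ∀ᶠ i in l, ∀ z ∈ S, ∀ k ≤ 4,
      ‖iteratedFDeriv ℝ k (fun z => u i z - v z) z‖ ≤ δ := by
  filter_upwards [(Finset.range 5).eventually_all.2 fun k _ => h.ev k hδ, ev_un.1 h.left.sm,
    ev_un.1 h.right.sm] with i a b c z hz k hk
  rw [show (fun z => u i z - v z) = u i - v from rfl,
    iteratedFDeriv_sub_apply ((b z hz).of_le (kle k)) ((c z hz).of_le (kle k))]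
  exact (a k (Finset.mem_range.2 (by omega)) z hz).le

variable {ι : Type} {l : Filter ι} {L : ι → T.V → ℝ} {G : ι → Fam T} {δ : ℝ}

theorem ev_ball (hS : T.Seq g γ l L G) (hδ : 0 < δ) : ∀ᶠ i in l, ∀ a p q, ∀ x : E4, ‖x‖ ≤ 15 / 8 →
    ∀ k ≤ 4, ‖iteratedFDeriv ℝ k (fun z => T.nrm (L i) (G i) (Sum.inl a) z p q -
      g (T.vx a) (Sum.inl a) z p q) x‖ ≤ δ :=
  eventually_all.2 fun a => eventually_all.2 fun p => eventually_all.2 fun q =>
    (ue_jet (hS.ball a p q _ (isCompact_closedBall 0 (15 / 8)) (closedBall_subset_ball (by norm_num)))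
      hδ).mono fun _ hi x hx => hi x (mem_closedBall_zero_iff.2 hx)

theorem ev_out (hS : T.Seq g γ l L G) (hδ : 0 < δ) (T0 : ℝ) : ∀ᶠ i in l, ∀ w p q, ∀ x : E4,
    5 / 4 ≤ ‖x‖ → Real.log ‖x‖ ≤ T0 → ∀ k ≤ 4, ‖x‖ ^ k * ‖iteratedFDeriv ℝ k (fun z =>
      T.nrm (L i) (G i) (Sum.inr w) z p q - g w (Sum.inr w) z p q) x‖ ≤ δ := by
  have he := Real.exp_pos T0
  refine eventually_all.2 fun w => eventually_all.2 fun p => eventually_all.2 fun q =>
    (ue_jet (hS.out w p q (closedBall 0 (Real.exp T0) \ ball 0 (5 / 4))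
      ((isCompact_closedBall _ _).diff isOpen_ball) fun z hz => ?_)
      (δ := δ / Real.exp T0 ^ 4) (by positivity)).mono fun _ hi x h1 h2 k hk => ?_
  · have := hz.2; simp only [mem_ball_zero_iff, not_lt] at this
    show 1 < ‖z‖; linarith
  · have h3 := (Real.log_le_iff_le_exp (by linarith)).1 h2
    have h4 := hi x ⟨mem_closedBall_zero_iff.2 h3, by simpa using h1⟩ k hk
    rw [le_div_iff₀ (by positivity), mul_comm] at h4
    refine le_trans (mul_le_mul_of_nonneg_right ?_ (norm_nonneg _)) h4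
    exact (pow_le_pow_left₀ (norm_nonneg _) h3 k).trans (pow_le_pow_right₀ (by linarith) hk)

theorem ev_inn (h : T.Ok) (hS : T.Seq g γ l L G) (hδ : 0 < δ) (T0 : ℝ) : ∀ᶠ i in l, ∀ w,
    w ≠ T.root → ∀ p q, ∀ x : E4, x ≠ 0 → L i w - Real.log ‖x‖ ≤ T0 →
    ‖x‖ ≤ 7 / 8 * T.r * Real.exp (L i w) → ∀ k ≤ 4, ‖x‖ ^ k * ‖iteratedFDeriv ℝ k (fun z =>
      T.nrm (L i) (G i) (Sum.inr w) z p q -
        g (T.par w) (Sum.inr w) (Real.exp (-L i w) • z) p q) x‖ ≤ δ := by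
  have hr := h.r_pos
  refine eventually_all.2 fun w => eventually_all.2 fun hw => eventually_all.2 fun p =>
    eventually_all.2 fun q =>
    (ue_jet (hS.inn w hw p q (closedBall 0 (7 / 8 * T.r) \ ball 0 (Real.exp (-T0)))
      ((isCompact_closedBall _ _).diff isOpen_ball) fun z hz => ?_) hδ).mono
      fun i hi x h0 h1 h2 k hk => ?_
  · have h2 := hz.2
    have h3 := mem_closedBall_zero_iff.1 hz.1
    simp only [mem_ball_zero_iff, not_lt] at h2
    exact ⟨(Real.exp_pos _).trans_le h2, by linarith⟩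
  · have he := Real.exp_pos (-L i w)
    have h3 := TD.nrm_exp_le.2 h2
    have h4 := hi (Real.exp (-L i w) • x) ⟨mem_closedBall_zero_iff.2 h3, by
      rw [mem_ball_zero_iff, not_lt, ← Real.le_log_iff_exp_le
        (norm_pos_iff.2 (smul_ne_zero he.ne' h0)), Ga.log_smul _ h0]
      linarith⟩ k hk
    have h5 := norm_iter_smul (fun z => T.nrm (L i) (G i) (Sum.inr w) (Real.exp (L i w) • z) p q -
      g (T.par w) (Sum.inr w) z p q) he k x
    simp only [smul_smul, ← Real.exp_add, add_neg_cancel, Real.exp_zero, one_smul] at h5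
    refine (mul_le_mul_of_nonneg_left h5 (by positivity)).trans ?_
    rw [← mul_assoc, ← mul_pow]
    refine le_trans (mul_le_of_le_one_left (norm_nonneg _) (pow_le_one₀ (by positivity) ?_)) h4
    rw [norm_smul, Real.norm_of_nonneg he.le, mul_comm] at h3
    linarith [h.r_lt]

/-- **NEARG** -/
theorem nearg (h : Std T g) : NEARG T g := by
  intro U L G hS
  have ho := h.ok
  have hl := fun T0 : ℝ => eventually_all.2 fun w => eventually_all.2 fun hw : w ≠ T.root =>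
    (hS.top w hw).eventually_ge_atTop (2 * T0 + 1)
  have hu : ∀ {L : T.V → ℝ} {w : T.V} {x : E4}, x ∈ U1 T L (Sum.inr w) → 5 / 4 ≤ ‖x‖ ∧ x ≠ 0 ∧
      (w ≠ T.root → ‖x‖ ≤ 7 / 8 * T.r * Real.exp (L w)) := fun {L w x} hx =>
    ⟨by linarith [hx.1], Ga.glob_ne (U1_U ho _ hx), fun hw => by linarith [hx.1, hx.2 hw]⟩
  refine ⟨fun δ hδ => ?_, fun c δ hδ T0 hc => ?_⟩
  · obtain ⟨C, h0, hC⟩ := Ga.gbL_sj ho h.lim
    choose D hD using hS.neck
    obtain ⟨B, h1, hB⟩ := Ga.exists_seq (P := fun w k c => D w k ≤ c) (fun w k => ⟨_, le_rfl⟩)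
      fun _ _ _ _ a b => b.trans a
    have p1 := Ga.sm_nonneg (m := 2) h0
    have p2 := Ga.sm_nonneg (m := 2) h1
    have t1 : Tendsto (fun T0 : ℝ => (Ga.sm B 2 + Ga.sm C 2) * (2 * Real.exp (-T0) ^ (1 / 2 : ℝ)))
        atTop (𝓝 ((Ga.sm B 2 + Ga.sm C 2) * (2 * 0))) :=
      ((Real.tendsto_exp_neg_atTop_nhds_zero.rpow_const_nhds_zero (by norm_num)).const_mul
        _).const_mul _
    rw [mul_zero, mul_zero] at t1
    filter_upwards [t1.eventually (ge_mem_nhds hδ)] with T0 hT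
    filter_upwards [ev_ball hS hδ, ev_out hS hδ T0, ev_inn ho hS hδ T0, hl T0, hS.met,
      eventually_all.2 fun w => (Finset.range 3).eventually_all.2 fun k _ => hD w k]
      with i e1 e2 e3 e4 e5 e6 s x hx k hk a b
    cases s with
    | inl s =>
      simp only [scl, Sum.elim_inl, one_pow, one_mul]
      exact e1 s a b x ((mem_U1_inl.1 hx).le.trans (by norm_num)) k (by omega)
    | inr w =>
      obtain ⟨u1, u2, u3⟩ := hu hx
      have hc := (Ga.log_sm u2).continuousAt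
      have hn : ∀ᶠ z in 𝓝 x, z ≠ 0 := isOpen_ne.mem_nhds u2
      show ‖x‖ ^ k * _ ≤ δ
      by_cases z1 : Real.log ‖x‖ < T0
      · refine le_of_eq_of_le ?_ (e2 w a b x u1 z1.le k (by omega))
        congr 2
        refine (EventuallyEq.iteratedFDeriv ℝ ?_ k).eq_of_nhds
        filter_upwards [hc.eventually (gt_mem_nhds z1), hn] with z h2 h3
        rw [Matrix.sub_apply, Ga.gbL_out ho h3 h2.le (e4 w)]
      by_cases z2 : w ≠ T.root ∧ L i w - T0 < Real.log ‖x‖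
      · refine le_of_eq_of_le ?_ (e3 w z2.1 a b x u2 (by linarith [z2.2]) (u3 z2.1) k (by omega))
        congr 2
        refine (EventuallyEq.iteratedFDeriv ℝ ?_ k).eq_of_nhds
        filter_upwards [hc.eventually (lt_mem_nhds z2.2), hn] with z h2 h3
        rw [Matrix.sub_apply, Ga.gbL_inn ho z2.1 h3 (by linarith) (e4 w z2.1)]
      have x0 := norm_pos_iff.2 u2
      have hxU := U1_U ho _ hx
      have w1 : T.wt (1 / 2) (L i) w x ≤ 2 * Real.exp (-T0) ^ (1 / 2 : ℝ) := by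
        have b1 : ‖x‖⁻¹ ^ (1 / 2 : ℝ) ≤ Real.exp (-T0) ^ (1 / 2 : ℝ) := by
          refine Real.rpow_le_rpow (by positivity) ?_ (by norm_num)
          rw [Real.exp_neg]
          exact inv_anti₀ (Real.exp_pos _) ((Real.le_log_iff_exp_le x0).1 (not_lt.1 z1))
        rw [Ga.wt_eq]
        split_ifs with hw
        · linarith [Real.rpow_nonneg (Real.exp_pos (-T0)).le (1 / 2)]
        · have b2 : (Real.exp (-L i w) * ‖x‖) ^ (1 / 2 : ℝ) ≤ Real.exp (-T0) ^ (1 / 2 : ℝ) := by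
            refine Real.rpow_le_rpow (by positivity) ?_ (by norm_num)
            rw [← Real.exp_log x0, ← Real.exp_add, Real.exp_le_exp]
            linarith [not_lt.1 fun h2 => z2 ⟨hw, h2⟩]
          linarith
      have w0 : 0 ≤ T.wt (1 / 2) (L i) w x := Ga.wt_nonneg
      have s1 := hC T0 (L i) w x hxU a b
      have s2 : ContDiffAt ℝ ∞ (TD.dv (T.nrm (L i) (G i) (Sum.inr w)) a b) x :=
        TR.sm_dv (Ga.nrm_riem e5.2 (Sum.inr w)) hxU a b
      have s3 := e6 w k (Finset.mem_range.2 (by omega)) a b x hxU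
      rw [mul_right_comm, ← div_eq_mul_inv, le_div_iff₀ (pow_pos x0 k)] at s3
      have s4 := s1.bd k
      have s5 := mul_le_mul_of_nonneg_right ((hB w k).trans (Ga.le_sm h1 hk)) w0
      have s6 := mul_le_mul_of_nonneg_right (Ga.le_sm h0 hk) w0
      have s7 := mul_le_mul_of_nonneg_left w1 (add_nonneg p2 p1)
      rw [show (fun y => (T.nrm (L i) (G i) (Sum.inr w) y - gbL T g T0 (L i) (Sum.inr w) y) a b) =
        TD.dv (T.nrm (L i) (G i) (Sum.inr w)) a b - TD.dv (gbL T g T0 (L i) (Sum.inr w)) a b from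
          funext fun y => by simp [TD.dv],
        iteratedFDeriv_sub_apply (ContDiffAt.of_le s2 (kle k)) (s1.sm.of_le (kle k))]
      refine (mul_le_mul_of_nonneg_left (norm_sub_le _ _) (by positivity)).trans ?_
      linarith
  · filter_upwards [ev_ball hS hδ, ev_out hS hδ T0, ev_inn ho hS hδ T0, hl T0]
      with i e1 e2 e3 e4 v s x hx hK p q
    cases s with
    | inl s =>
      simpa [norm_iteratedFDeriv_zero, gbL] using
        e1 s p q x ((mem_U1_inl.1 hx).le.trans (by norm_num)) 0 (by omega)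
    | inr w =>
      obtain ⟨u1, u2, u3⟩ := hu hx
      rcases hK with ⟨-, h2⟩ | ⟨⟨hw, -⟩, h2⟩
      · rw [Ga.gbL_out ho u2 (h2.trans hc) (e4 w)]
        simpa [norm_iteratedFDeriv_zero] using e2 w p q x u1 (h2.trans hc) 0 (by omega)
      · rw [Ga.log_smul _ u2] at h2
        rw [Ga.gbL_inn ho hw u2 (by linarith) (e4 w hw)]
        simpa [norm_iteratedFDeriv_zero] using e3 w hw p q x u2 (by linarith) (u3 hw) 0 (by omega)

end Crest.Agent.N207.NS

end
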