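import Crest.Agent.N207.N.Chi
import Crest.Agent.N207.K.Hd5

/-!
# Row 207, block N (helper98): integrability of the energy, the leaf `HAR`
-/

set_option autoImplicit false

open scoped ContDiff Topology
open Metric Set Filter MeasureTheory
open Crest.GeometryTopology.CoordMetric
open Crest.Agent.N207.I Crest.Agent.N207.Lg Crest.Agent.N207.CB

noncomputable section

namespace Crest.Agent.N207.NS

namespace Hr

theorem int_dec {f : E4 → ℝ} {a C R : ℝ} (hf : ContinuousOn f {x | a ≤ ‖x‖})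
    (hd : ∀ x, R ≤ ‖x‖ → |f x| ≤ C * ‖x‖ ^ (-5 : ℝ)) : IntegrableOn f {x | a ≤ ‖x‖} := by
  have hm : ∀ b : ℝ, MeasurableSet {x : E4 | b ≤ ‖x‖} := fun b =>
    (isClosed_le continuous_const continuous_norm).measurableSet
  have h1 : IntegrableOn f (Hd.An a (max a (max R 1))) :=
    (hf.mono fun x hx => hx.1).integrableOn_compact (Hd.isCompact_An _ _)
  have h2 : IntegrableOn f {x | max a (max R 1) ≤ ‖x‖} := by
    refine Integrable.mono' (((integrable_one_add_norm (E := E4) (μ := volume) (r := 5)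
      (by simp; norm_num)).const_mul (|C| * 2 ^ (5 : ℝ))).integrableOn)
      ((hf.mono fun x (hx : max a (max R 1) ≤ ‖x‖) =>
        (le_max_left _ _).trans hx).aestronglyMeasurable (hm _))
      ((ae_restrict_mem (hm _)).mono fun x hx => ?_)
    obtain ⟨-, h3, h4⟩ : a ≤ ‖x‖ ∧ R ≤ ‖x‖ ∧ 1 ≤ ‖x‖ := by simpa using hx
    have h5 : (2 * ‖x‖) ^ (-5 : ℝ) ≤ (1 + ‖x‖) ^ (-5 : ℝ) :=
      Real.rpow_le_rpow_of_nonpos (by linarith) (by linarith) (by norm_num)
    have h6 : ‖x‖ ^ (-5 : ℝ) = 2 ^ (5 : ℝ) * (2 * ‖x‖) ^ (-5 : ℝ) := by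
      rw [Real.mul_rpow (by norm_num) (norm_nonneg _), ← mul_assoc, ← Real.rpow_add two_pos]; simp
    calc ‖f x‖ ≤ |C| * ‖x‖ ^ (-5 : ℝ) := (hd x h3).trans
          (mul_le_mul_of_nonneg_right (le_abs_self C) (by positivity))
      _ ≤ _ := by rw [h6, mul_assoc]; gcongr
  exact (h1.union h2).mono_set fun x hx => (le_total _ _).imp (fun h => ⟨hx, h⟩) id

theorem g2_le (u : E4 → ℝ) (x : E4) : Hd.g2 u x ≤ 4 * ‖fderiv ℝ u x‖ ^ 2 := by
  have h : ∀ i : Fin 4, pderiv i u x ^ 2 ≤ ‖fderiv ℝ u x‖ ^ 2 := fun i => by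
    have := (fderiv ℝ u x).le_opNorm (EuclideanSpace.single i 1)
    rw [PiLp.norm_single, norm_one, mul_one] at this
    exact sq_le_sq' (abs_le.1 this).1 (abs_le.1 this).2
  simpa [Hd.g2] using Finset.sum_le_sum fun i (_ : i ∈ Finset.univ) => h i

theorem e0_nn (k : MetricField 4) (x : E4) : 0 ≤ e0 k x := by unfold e0; positivity

theorem e1_nn (k : MetricField 4) (x : E4) : 0 ≤ e1 k x :=
  Finset.sum_nonneg fun _ _ => Finset.sum_nonneg fun _ _ => Hd.g2_nonneg _ _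

variable {M : Type*} {T : TD M} {L : T.V → ℝ} {k : Fam T}

theorem cont_scl (s : T.S) : Continuous (scl T s) := by
  cases s
  exacts [continuous_const, continuous_norm]

/-- the components of the energy are integrable on `K1` -/
theorem int_K1c (h : T.Ok) (hk : ∀ s a b, ContDiffOn ℝ 1 (fun y => k s y a b) (U1 T L s))
    (hd : Dec (3 / 2) (k (Sum.inr T.root))) (s : T.S) (a b : Fin 4) :
    IntegrableOn (Hd.g2 fun y => k s y a b) (K1 T L s) ∧
      IntegrableOn (fun x => (scl T s x ^ 2)⁻¹ * k s x a b ^ 2) (K1 T L s) := by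
  have c1 := (Hd.contOn_g2 (U1_open s) (hk s a b)).mono (K1_U1 h s)
  have c2 : ContinuousOn (fun x => (scl T s x ^ 2)⁻¹ * k s x a b ^ 2) (K1 T L s) :=
    (((cont_scl s).pow 2).continuousOn.inv₀ fun x hx => (pow_pos (one_pos.trans_le
      (one_le_scl s (U1_U h s (K1_U1 h s hx)))) 2).ne').mul
        (((hk s a b).continuousOn.mono (K1_U1 h s)).pow 2)
  by_cases hs : s = Sum.inr T.root
  · subst hs
    have e : K1 T L (Sum.inr T.root) = {x | 23 / 16 ≤ ‖x‖} := by ext x; simp [K1]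
    rw [e] at c1 c2 ⊢
    obtain ⟨C, R, hd⟩ := hd
    refine ⟨int_dec (C := 4 * C ^ 2) (R := max R 1) c1 fun x hx => ?_,
      int_dec (C := C ^ 2) (R := max R 1) c2 fun x hx => ?_⟩
    all_goals
      obtain ⟨h1, h2⟩ := hd x ((le_max_left _ _).trans hx) a b
      have h0 : 0 < ‖x‖ := one_pos.trans_le ((le_max_right _ _).trans hx)
    · have h3 := pow_le_pow_left₀ (norm_nonneg _) h2 2
      rw [mul_pow, ← Real.rpow_natCast (‖x‖ ^ _), ← Real.rpow_mul h0.le] at h3
      rw [abs_of_nonneg (Hd.g2_nonneg _ _)]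
      norm_num at h3 ⊢
      linarith [g2_le (fun y => k (Sum.inr T.root) y a b) x]
    · have h3 := pow_le_pow_left₀ (abs_nonneg _) h1 2
      rw [mul_pow, ← Real.rpow_natCast (‖x‖ ^ _), ← Real.rpow_mul h0.le, sq_abs] at h3
      have e : ‖x‖ ^ (-5 : ℝ) = (‖x‖ ^ 2)⁻¹ * ‖x‖ ^ (-(3 / 2) * ((2 : ℕ) : ℝ)) := by
        rw [← Real.rpow_natCast, ← Real.rpow_neg h0.le, ← Real.rpow_add h0]; norm_num
      rw [abs_of_nonneg (by positivity), e, mul_left_comm]
      exact mul_le_mul_of_nonneg_left h3 (by positivity)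
  · exact ⟨c1.integrableOn_compact (K1_cpt hs), c2.integrableOn_compact (K1_cpt hs)⟩

theorem e0_div (k : MetricField 4) (x : E4) (r : ℝ) :
    e0 k x / r ^ 2 = ∑ a, ∑ b, (r ^ 2)⁻¹ * k x a b ^ 2 := by
  simp only [e0, ← Finset.mul_sum, div_eq_inv_mul]

theorem int_K1 (h : T.Ok) (hk : ∀ s a b, ContDiffOn ℝ 1 (fun y => k s y a b) (U1 T L s))
    (hd : Dec (3 / 2) (k (Sum.inr T.root))) (s : T.S) : IntegrableOn (e1 (k s)) (K1 T L s) ∧
      IntegrableOn (fun x => e0 (k s) x / scl T s x ^ 2) (K1 T L s) := by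
  simp only [e0_div]
  exact ⟨integrable_finsetSum _ fun a _ => integrable_finsetSum _ fun b _ => (int_K1c h hk hd s a b).1,
    integrable_finsetSum _ fun a _ => integrable_finsetSum _ fun b _ => (int_K1c h hk hd s a b).2⟩

/-- cutting by the partition of unity -/
theorem int_chi (h : T.Ok) (hL : T.Long L) (s : T.S) {f : E4 → ℝ} (hf : IntegrableOn f (T.gK L s)) :
    IntegrableOn (fun x => T.χ s ((T.glob L).c s x) * f x) (U1 T L s) ∧
      ∫ x in U1 T L s, T.χ s ((T.glob L).c s x) * f x =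
        ∫ x in T.gK L s, T.χ s ((T.glob L).c s x) * f x := by
  have h0 : ∀ x ∈ U1 T L s \ T.gK L s, T.χ s ((T.glob L).c s x) * f x = 0 := fun x hx => by
    rw [chi_zero h hL s (U1_U h s hx.1) hx.2, zero_mul]
  have hm := (gK_closed (L := L) s).measurableSet
  have hs := (h.glob_pou hL).sub s
  refine ⟨IntegrableOn.of_forall_sdiff_eq_zero (Integrable.bdd_mul (c := 1) hf
    ((((h.glob_pou hL).sm s s).continuousOn.mono hs).aestronglyMeasurable hm)
    ((ae_restrict_mem hm).mono fun x hx => ?_)) (U1_open s).measurableSet h0,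
    setIntegral_eq_of_subset_of_forall_sdiff_eq_zero (U1_open s).measurableSet
      ((gK_K1 h s).trans (K1_U1 h s)) h0⟩
  rw [Real.norm_of_nonneg (TD.χ_nonneg _ _)]
  exact chi_le h hL s s (hs hx)

theorem int_chi_le (h : T.Ok) (hL : T.Long L) (s : T.S) {f : E4 → ℝ}
    (hf : IntegrableOn f (T.gK L s)) (h0 : ∀ x, 0 ≤ f x) :
    ∫ x in U1 T L s, T.χ s ((T.glob L).c s x) * f x ≤ ∫ x in T.gK L s, f x := by
  obtain ⟨h1, h2⟩ := int_chi h hL s hf
  rw [h2]
  exact setIntegral_mono_on (h1.mono_set ((gK_K1 h s).trans (K1_U1 h s))) hf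
    (gK_closed s).measurableSet fun x hx =>
      mul_le_of_le_one_left (h0 x) (chi_le h hL s s ((h.glob_pou hL).sub s hx))

theorem hardy_end {U : Set E4} {u : E4 → ℝ} (hU : IsOpen U) (hu : ContDiffOn ℝ 1 u U)
    (hs : {x | 4 ≤ ‖x‖} ⊆ U) (h1 : IntegrableOn (Hd.g2 u) {x | 4 ≤ ‖x‖})
    (h2 : IntegrableOn (fun x => (‖x‖ ^ 2)⁻¹ * u x ^ 2) {x | 3 / 2 * 4 ≤ ‖x‖}) :
    ∫ x in {x | 3 / 2 * 4 ≤ ‖x‖}, (‖x‖ ^ 2)⁻¹ * u x ^ 2 ≤ ∫ x in {x | 4 ≤ ‖x‖}, Hd.g2 u x := by
  have e2 := ofReal_integral_eq_lintegral_ofReal h2 (Eventually.of_forall fun x => by positivity)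
  have h3 := Hd.hardyL_end (κ := 3 / 2) (by norm_num) hU hu four_pos hs (R := 3 / 2 * 4)
    (by rw [Hd.Lw, ← e2]; exact ENNReal.ofReal_ne_top)
  rw [Hd.Lw, Hd.DD, ← e2,
    ← ofReal_integral_eq_lintegral_ofReal h1 (Eventually.of_forall (Hd.g2_nonneg u))] at h3
  exact (ENNReal.ofReal_le_ofReal_iff (integral_nonneg (Hd.g2_nonneg u))).1 h3

theorem card_inv_le (h : T.Ok) (hL : T.Long L) (s : T.S) :
    0 < (Nat.card (T.grp s) : ℝ)⁻¹ ∧ (Nat.card (T.grp s) : ℝ)⁻¹ ≤ 1 := by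
  have : Finite (T.grp s) := (h.glob_ok hL).fin s
  have h1 : (1 : ℝ) ≤ Nat.card (T.grp s) := Nat.one_le_cast.2 Nat.card_pos
  exact ⟨by positivity, inv_le_one_of_one_le₀ h1⟩

end Hr

open Hr

variable {M : Type*} {T : TD M}

/-- **leaf HAR** -/
theorem har' (h : T.Ok) : HAR T := by
  obtain ⟨C, hC, hH⟩ := Hd.hardy0 (κ := 3 / 2) (by norm_num)
  refine ⟨1 + C, 24 / T.r, by positivity, fun c hc hr L hL k hk hd => ?_⟩
  have hL' : T.Long L := fun w hw => by linarith [lng_exp h hL hw]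
  simp only [intL, Zc, ← Finset.sum_add_distrib, Finset.mul_sum, ← mul_add]
  refine Finset.sum_le_sum fun s _ => ?_
  rw [mul_left_comm (1 + C)]
  refine mul_le_mul_of_nonneg_left ?_ (sq_nonneg _)
  obtain ⟨i1, i0⟩ := int_K1 h hk hd s
  have p0 : ∀ x, 0 ≤ e0 (k s) x / scl T s x ^ 2 := fun x => div_nonneg (e0_nn _ _) (sq_nonneg _)
  have pZ : 0 ≤ ∫ x in T.gK L s ∩ Cor T L c s, e0 (k s) x / scl T s x ^ 2 := integral_nonneg p0
  have p1 : 0 ≤ ∫ x in U1 T L s, T.χ s ((T.glob L).c s x) * e1 (k s) x :=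
    integral_nonneg fun x => mul_nonneg (TD.χ_nonneg _ _) (e1_nn _ _)
  have key : ∫ x in T.gK L s \ Cor T L c s, e0 (k s) x / scl T s x ^ 2 ≤
      (∫ x in U1 T L s, T.χ s ((T.glob L).c s x) * e1 (k s) x) +
        C * ∫ x in T.gK L s ∩ Cor T L c s, e0 (k s) x / scl T s x ^ 2 := by
    cases s with
    | inl a =>
      rw [show T.gK L (Sum.inl a) \ Cor T L c (Sum.inl a) = ∅ from
        eq_empty_of_forall_notMem fun x hx => hx.2 ⟨_, rfl⟩, setIntegral_empty]
      positivity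
    | inr w =>
      have q := mul_pos h.r_pos (Real.exp_pos (L w))
      obtain ⟨P, Q, Z, mQ, sP, sQ, sP', sZ, hP⟩ : ∃ P Q Z : Set E4, MeasurableSet Q ∧
          (∀ x : E4, 6 ≤ ‖x‖ → (w ≠ T.root → ‖x‖ ≤ T.r / 6 * Real.exp (L w)) → x ∈ P) ∧
          (∀ x ∈ Q, 4 ≤ ‖x‖ ∧ (w ≠ T.root → ‖x‖ ≤ T.r / 4 * Real.exp (L w))) ∧ P ⊆ Q ∧
          Z ⊆ T.gK L (Sum.inr w) ∩ Cor T L c (Sum.inr w) ∧ ∀ a b,
          ∫ x in P, (‖x‖ ^ 2)⁻¹ * k (Sum.inr w) x a b ^ 2 ≤ (∫ x in Q, Hd.g2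
            (fun y => k (Sum.inr w) y a b) x) + C * ∫ x in Z, (‖x‖ ^ 2)⁻¹ * k (Sum.inr w) x a b ^ 2 := by
        by_cases hw : w = T.root
        · subst hw
          have s1 : {x : E4 | 4 ≤ ‖x‖} ⊆ K1 T L (Sum.inr T.root) := fun x (hx : 4 ≤ ‖x‖) =>
            ⟨by linarith, fun e => absurd rfl e⟩
          have s2 : {x : E4 | 3 / 2 * 4 ≤ ‖x‖} ⊆ {x | 4 ≤ ‖x‖} := fun x (hx : 3 / 2 * 4 ≤ ‖x‖) =>
            show 4 ≤ ‖x‖ by linarith
          refine ⟨{x | 3 / 2 * 4 ≤ ‖x‖}, {x | 4 ≤ ‖x‖}, ∅,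
            (isClosed_le continuous_const continuous_norm).measurableSet,
            fun x hx _ => show 3 / 2 * 4 ≤ ‖x‖ by linarith, fun x hx => ⟨hx, fun e => absurd rfl e⟩,
            s2, empty_subset _, fun a b => ?_⟩
          obtain ⟨j1, j2⟩ := int_K1c h hk hd (Sum.inr T.root) a b
          simpa using hardy_end (U1_open _) (hk _ a b) (s1.trans (K1_U1 h _)) (j1.mono_set s1)
            (j2.mono_set (s2.trans s1))
        · have h24 := lng_exp h hL hw
          refine ⟨Hd.An (3 / 2 * 4) (T.r / 4 * Real.exp (L w) / (3 / 2)), Hd.An 4 _,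
            Hd.An (T.r / 4 * Real.exp (L w) / (3 / 2)) (T.r / 4 * Real.exp (L w)),
            Hd.measurableSet_An _ _, fun x h1 h2 => ⟨by linarith, by linarith [h2 hw]⟩,
            fun x hx => ⟨hx.1, fun _ => hx.2⟩, Hd.An_mono (by norm_num) (by linarith),
            fun x hx => ⟨⟨by linarith [hx.1], fun _ => by linarith [hx.2]⟩, T.par w,
              Or.inr ⟨⟨hw, rfl⟩, ?_⟩⟩, fun a b => hH _ _ _ _ (U1_open _) (hk _ a b) four_pos
              (by linarith) fun x hx => ⟨by linarith [hx.1], fun _ => by linarith [hx.2]⟩⟩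
          have h1 : T.r / 8 < ‖Real.exp (-L w) • x‖ := TD.lt_nrm_exp.2 (by linarith [hx.1])
          linarith [(Real.le_log_iff_exp_le (by linarith [h.r_pos])).2 (hr.trans h1.le)]
      have sQ' : Q ⊆ T.gK L (Sum.inr w) := fun x hx =>
        ⟨by linarith [(sQ x hx).1], fun hw => by linarith [(sQ x hx).2 hw]⟩
      have sK := sQ'.trans (gK_K1 h _)
      have sZ' := (sZ.trans inter_subset_left).trans (gK_K1 h _)
      have j := int_K1c h hk hd (Sum.inr w)
      have sum : ∀ (S : Set E4) (f : Fin 4 → Fin 4 → E4 → ℝ), (∀ a b, IntegrableOn (f a b) S) →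
          ∫ x in S, ∑ a, ∑ b, f a b x = ∑ a, ∑ b, ∫ x in S, f a b x := fun S f hf => by
        rw [integral_finsetSum _ fun a _ => integrable_finsetSum _ fun b _ => hf a b]
        exact Finset.sum_congr rfl fun a _ => integral_finsetSum _ fun b _ => hf a b
      calc _ ≤ ∫ x in P, e0 (k (Sum.inr w)) x / scl T (Sum.inr w) x ^ 2 := by
            refine setIntegral_mono_set (i0.mono_set (sP'.trans sK)) (Eventually.of_forall p0)
              (LE.le.eventuallyLE fun x hx => ?_)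
            obtain ⟨w', e, a1, a2⟩ := not_Cor ((h.glob_pou hL').sub _ hx.1) hx.2
            obtain rfl := Sum.inr.inj e
            exact sP x (by linarith [six_lt_exp hc]) fun hw =>
              TD.nrm_exp_le.1 (by linarith [a2 hw, h.r_pos])
        _ ≤ (∫ x in Q, e1 (k (Sum.inr w)) x) +
            C * ∫ x in Z, e0 (k (Sum.inr w)) x / scl T (Sum.inr w) x ^ 2 := by
            simp only [e0_div, e1]
            rw [sum _ _ fun a b => (j a b).2.mono_set (sP'.trans sK),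
              sum _ _ fun a b => (j a b).1.mono_set sK, sum _ _ fun a b => (j a b).2.mono_set sZ']
            simp only [Finset.mul_sum, ← Finset.sum_add_distrib]
            exact Finset.sum_le_sum fun a _ => Finset.sum_le_sum fun b _ => hP a b
        _ ≤ _ := by
            refine add_le_add ?_ (mul_le_mul_of_nonneg_left (setIntegral_mono_set
              (i0.mono_set (inter_subset_left.trans (gK_K1 h _))) (Eventually.of_forall p0)
              sZ.eventuallyLE) hC)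
            refine le_of_eq_of_le (setIntegral_congr_fun mQ fun x hx => ?_) (setIntegral_mono_set
              (int_chi h hL' _ (i1.mono_set (gK_K1 h _))).1 (Eventually.of_forall fun x =>
                mul_nonneg (TD.χ_nonneg _ _) (e1_nn _ _)) (sK.trans (K1_U1 h _)).eventuallyLE)
            rw [h.glob_χ_mid hL' (by linarith [(sQ x hx).1]) fun hw => by
              linarith [(sQ x hx).2 hw], if_pos rfl, one_mul]
  have h1 := int_chi_le h hL' s (i0.mono_set (gK_K1 h s)) p0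
  rw [← integral_inter_add_sdiff (meas_Cor c s) (i0.mono_set (gK_K1 h s))] at h1
  obtain ⟨n0, n1⟩ := card_inv_le h hL' s
  have h2 := mul_le_mul_of_nonneg_left (h1.trans (add_le_add le_rfl key)) n0.le
  have h3 := mul_le_of_le_one_left pZ n1
  nlinarith [mul_nonneg hC (mul_nonneg n0.le p1), mul_le_mul_of_nonneg_left h3 hC]

theorem har {g : T.V → Fam T} (h : Std T g) : HAR T := har' h.ok

end Crest.Agent.N207.NS

end
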