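import Crest.Agent.N207.N.Chi
import Crest.Agent.N207.I.Cal5

/-!
# Row 207, block N (helper75): sections on `gl1 L` read in the charts of `core v`
-/

set_option autoImplicit false

open scoped ContDiff Topology
open Metric Set Filter
open Crest.GeometryTopology.CoordMetric
open Crest.Agent.N207.I Crest.Agent.N207.Lg Crest.Agent.N207.CB

noncomputable section

namespace Crest.Agent.N207.NS

variable {M : Type*} {T : TD M} {L : T.V → ℝ} {v w : T.V} {c : ℝ} {s : T.S} {x : E4}

/-- the dilation from the chart `s` of `core v` to the chart `s` of `glob L` -/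
def lam (L : T.V → ℝ) (v : T.V) : T.S → ℝ :=
  Sum.elim (fun _ => 1) fun w => if w = v then 1 else Real.exp (L w)

theorem lam_inl (a : T.B) : lam L v (Sum.inl a) = 1 := rfl

theorem lam_out : lam L v (Sum.inr v) = 1 := if_pos rfl

theorem lam_inn (h : w ≠ v) : lam L v (Sum.inr w) = Real.exp (L w) := if_neg h

theorem lam_pos (s : T.S) : 0 < lam L v s := by
  rcases s with a | w
  · exact one_pos
  · by_cases h : w = v
    · rw [h, lam_out]; exact one_pos
    · rw [lam_inn h]; exact Real.exp_pos _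

theorem loc_apply (k : Fam T) (s : T.S) (x : E4) : loc T L v k s x = k s (lam L v s • x) := by
  rcases s with a | w
  · rw [lam_inl, one_smul]; rfl
  · by_cases h : w = v
    · rw [h, lam_out, one_smul]; exact if_pos rfl
    · rw [lam_inn h]; exact if_neg h

theorem mem_cU1_inl {a : T.B} : x ∈ cU1 T v c (Sum.inl a) ↔ T.vx a = v ∧ ‖x‖ < 25 / 16 := by
  by_cases h : T.vx a = v <;> simp [cU1, h]

theorem mem_cU1_out : x ∈ cU1 T v c (Sum.inr v) ↔ 45 / 32 < ‖x‖ ∧ ‖x‖ < Real.exp (c + 1) := by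
  simp [cU1]

theorem mem_cU1_inn (h : w ≠ v) : x ∈ cU1 T v c (Sum.inr w) ↔
    T.kid v w ∧ Real.exp (-(c + 1)) < ‖x‖ ∧ ‖x‖ < 25 / 32 * T.r := by
  by_cases hk : T.kid v w <;> simp only [cU1, Sum.elim_inr, h, hk, if_true, if_false,
    mem_ofPred_eq, mem_empty_iff_false, true_and, false_and]

theorem cU1_open (s : T.S) : IsOpen (cU1 T v c s) := by
  have h1 : ∀ a b : ℝ, IsOpen {x : E4 | a < ‖x‖ ∧ ‖x‖ < b} := fun a b =>
    (isOpen_lt continuous_const continuous_norm).inter (isOpen_lt continuous_norm continuous_const)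
  rcases s with a | w <;> simp only [cU1, Sum.elim_inl, Sum.elim_inr] <;> split_ifs
  exacts [isOpen_ball, isOpen_empty, h1 _ _, h1 _ _, isOpen_empty]

theorem cU1_sub (h : T.Ok) (s : T.S) : cU1 T v c s ⊆ (T.core v).U s := fun x hx => by
  rcases s with a | w
  · rw [mem_cU1_inl] at hx
    exact TD.mem_core_inl.2 ⟨hx.1, by linarith [hx.2]⟩
  · by_cases hw : w = v
    · subst hw
      exact TD.mem_core_out.2 (by linarith [(mem_cU1_out.1 hx).1])
    · rw [mem_cU1_inn hw] at hx
      exact (TD.mem_core_inn hw).2 ⟨hx.1, (Real.exp_pos _).trans hx.2.1,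
        by linarith [hx.2.2, h.r_pos]⟩

theorem cU1_ok (h : T.Ok) (v : T.V) (c : ℝ) : Atl.Ok { T.core v with U := cU1 T v c } :=
  Ga.res_ok (h.core_ok v) cU1_open (cU1_sub h) fun s γ _ x hx => by
    rcases s with a | w
    · rw [mem_cU1_inl] at hx ⊢; rwa [γ.norm_map]
    · by_cases hw : w = v
      · subst hw; rw [mem_cU1_out] at hx ⊢; rwa [γ.norm_map]
      · rw [mem_cU1_inn hw] at hx ⊢; rwa [γ.norm_map]

/-- the scales match -/
theorem ep_lam (h : T.Ok) (hx : x ∈ cU1 T v c s) : ep T L s * lam L v s = T.eps L v := by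
  rcases s with a | w
  · rw [lam_inl, mul_one, ← (mem_cU1_inl.1 hx).1]; rfl
  · by_cases hw : w = v
    · rw [hw, lam_out, mul_one]; rfl
    · obtain ⟨⟨h1, h2⟩, -⟩ := (mem_cU1_inn hw).1 hx
      rw [lam_inn hw, ← h2]
      show T.eps L w * _ = _
      rw [h.eps_kid L h1, mul_assoc, ← Real.exp_add, neg_add_cancel, Real.exp_zero, mul_one]

theorem orb_smul (w : T.V) (a : ℝ) (x : E4) :
    T.orb w (a • x) = (fun y => a • y) '' T.orb w x := by
  ext y
  constructor
  · rintro ⟨γ, hγ, rfl⟩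
    exact ⟨γ x, ⟨γ, hγ, rfl⟩, (map_smul γ a x).symm⟩
  · rintro ⟨_, ⟨γ, hγ, rfl⟩, rfl⟩
    exact ⟨γ, hγ, map_smul γ a x⟩

/-- the map of the carriers -/
def car (L : T.V → ℝ) (v : T.V) : T.Car → T.Car :=
  Sum.elim Sum.inl fun p => Sum.inr (p.1, (fun y => lam L v (Sum.inr p.1) • y) '' p.2)

section

variable (h : T.Ok) (hL : ∀ w, w ≠ T.root → 16 + 4 * Real.exp (c + 1) ≤ T.r * Real.exp (L w))
include h hL

theorem four_le (hw : w ≠ T.root) (hx : Real.exp (-(c + 1)) < ‖x‖) :
    4 ≤ ‖Real.exp (L w) • x‖ := by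
  have h1 := hL w hw
  have h2 : Real.exp (c + 1) * Real.exp (-(c + 1)) = 1 := by rw [← Real.exp_add]; simp
  have h3 := Real.exp_pos (L w)
  have h4 := Real.exp_pos (-(c + 1))
  have h5 : 4 * Real.exp (c + 1) ≤ Real.exp (L w) := by nlinarith [h.r_lt]
  rw [norm_smul, Real.norm_of_nonneg h3.le]
  nlinarith

theorem loc_maps (hx : x ∈ cU1 T v c s) : lam L v s • x ∈ U1 T L s := by
  rcases s with a | w
  · rw [lam_inl, one_smul, mem_U1_inl]; exact (mem_cU1_inl.1 hx).2
  · by_cases hw : w = v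
    · subst hw
      rw [lam_out, one_smul]
      obtain ⟨h1, h2⟩ := mem_cU1_out.1 hx
      exact ⟨h1, fun h3 => by linarith [hL w h3, Real.exp_pos (c + 1)]⟩
    · obtain ⟨h1, h2, h3⟩ := (mem_cU1_inn hw).1 hx
      rw [lam_inn hw]
      refine ⟨by linarith [four_le h hL h1.1 h2], fun _ => ?_⟩
      rw [norm_smul, Real.norm_of_nonneg (Real.exp_pos _).le, mul_comm]
      exact mul_lt_mul_of_pos_right h3 (Real.exp_pos _)

theorem loc_car (hx : x ∈ cU1 T v c s) :
    (T.glob L).c s (lam L v s • x) = car L v ((T.core v).c s x) := by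
  rcases s with a | w
  · rw [lam_inl, one_smul]; rfl
  · by_cases hw : w = v
    · subst hw
      obtain ⟨h1, h2⟩ := mem_cU1_out.1 hx
      rw [lam_out, one_smul, TD.glob_eq_out fun h3 => by linarith [hL w h3], TD.core_c_out]
      split_ifs
      · rfl
      · simp [car, lam_out]
    · obtain ⟨h1, h2, h3⟩ := (mem_cU1_inn hw).1 hx
      have e : Real.exp (-L w) • Real.exp (L w) • x = x := by
        rw [smul_smul, ← Real.exp_add, neg_add_cancel, Real.exp_zero, one_smul]
      rw [lam_inn hw, TD.glob_c_inr, if_neg (not_lt.2 (four_le h hL h1.1 h2)), e,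
        TD.core_c_inn hw, h1.2]
      by_cases h4 : T.r / 4 < ‖x‖
      · rw [if_pos ⟨h1.1, h4⟩, if_pos h4]; rfl
      · rw [if_neg fun h5 => h4 h5.2, if_neg h4, orb_smul, ← lam_inn hw]; rfl

theorem loc_mor (v : T.V) :
    Atl.Mor { T.core v with U := cU1 T v c } (gl1 T L) id fun s x => lam L v s • x := by
  refine ⟨fun s x hx => loc_maps h hL hx, fun s => (contDiff_const_smul _).contDiffOn,
    fun s x _ => ?_, fun s t x hx y hy e => ?_⟩
  · rw [show fderiv ℝ (fun z : E4 => lam L v s • z) x = _ from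
      ((hasFDerivAt_id x).const_smul (lam L v s)).fderiv]
    exact smul_right_injective _ (lam_pos s).ne'
  · exact (loc_car h hL hx).trans ((congrArg (car L v) e).trans (loc_car h hL hy).symm)

end

theorem pullT_dil (a : ℝ) (H : MetricField 4) (y : E4) :
    pullT (fun z => a • z) (matT H) y = a ^ 2 • matT (fun z => H (a • z)) y := by
  have h1 : fderiv ℝ (fun z : E4 => a • z) y = a • ContinuousLinearMap.id ℝ E4 :=
    ((hasFDerivAt_id y).const_smul a).fderiv
  funext I
  rw [pullT, AI.evT_two]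
  simp only [h1, matT, smul_apply, ContinuousLinearMap.id_apply,
    PiLp.smul_apply, PiLp.single_apply, smul_eq_mul, mul_ite, ite_mul, mul_one, mul_zero, zero_mul,
    Finset.sum_ite_eq', Finset.mem_univ, if_true, Pi.smul_apply, Matrix.cons_val_zero,
    Matrix.cons_val_one]
  ring

theorem lng_loc (h : T.Ok) (hL : Lng T ((16 + 4 * Real.exp (c + 1)) / T.r) L) :
    ∀ w, w ≠ T.root → 16 + 4 * Real.exp (c + 1) ≤ T.r * Real.exp (L w) :=
  fun _ hw => lng_exp h hL hw

/-- **the dictionary** -/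
theorem loc_sec (h : T.Ok) (c : ℝ) : ∃ T1 : ℝ, ∀ L, Lng T T1 L → ∀ k : Fam T,
    (gl1 T L).Sec (fun s => matT (rt T L k s)) → ∀ v,
      Atl.Sec { T.core v with U := cU1 T v c } fun s => matT (loc T L v k s) := by
  refine ⟨(16 + 4 * Real.exp (c + 1)) / T.r, fun L hL k hk v => ?_⟩
  have h1 := lng_loc h hL
  have h2 : T.Long L := fun w hw => by linarith [h1 w hw, Real.exp_pos (c + 1)]
  refine ((((loc_mor h h1 v).sec (cU1_ok h v c) (gl1_ok h h2) hk).smul
    (T.eps L v ^ 2)⁻¹)).congr fun s x hx => ?_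
  have h3 := (TD.eps_pos L v).ne'
  rw [Pi.smul_apply, Pi.smul_apply, pullT_dil, smul_smul]
  funext I
  simp only [matT, rt, loc_apply, Pi.smul_apply, Matrix.smul_apply, smul_eq_mul, id]
  rw [← ep_lam h hx] at h3 ⊢
  have := left_ne_zero_of_mul h3
  have := right_ne_zero_of_mul h3
  field_simp

end Crest.Agent.N207.NS

end
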