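import Crest.Agent.N207.N.Har
import Crest.Agent.N207.N.Loc0
import Crest.Agent.N207.K.Hd5

/-!
# Row 207, block N (helper34): the leaf `LOCG`
-/

set_option autoImplicit false

open scoped ContDiff Topology Pointwise
open Metric Set Filter MeasureTheory
open Crest.GeometryTopology.CoordMetric
open Crest.Agent.N207.I Crest.Agent.N207.Lg Crest.Agent.N207.CB

noncomputable section

namespace Crest.Agent.N207.NS

namespace Lc

theorem int_smul (f : E4 → ℝ) {t : ℝ} (ht : 0 < t) (S : Set E4) :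
    ∫ x in t • S, f x = t ^ 4 * ∫ y in S, f (t • y) := by
  rw [Measure.setIntegral_comp_smul_of_pos volume f S ht, finrank_euclideanSpace_fin, smul_eq_mul,
    mul_inv_cancel_left₀ (by positivity)]

theorem int_le {f g : E4 → ℝ} {A B : Set E4} (hA : MeasurableSet A) (hAB : A ⊆ B)
    (hg : IntegrableOn g B) (h0 : ∀ x, 0 ≤ f x) (h1 : ∀ x, 0 ≤ g x) (h : ∀ x ∈ A, f x ≤ g x) :
    ∫ x in A, f x ≤ ∫ x in B, g x :=
  (integral_mono_of_nonneg (Eventually.of_forall h0) (hg.mono_set hAB)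
    (ae_restrict_of_forall_mem hA h)).trans
    (setIntegral_mono_set hg (Eventually.of_forall h1) hAB.eventuallyLE)

theorem int_un {f : E4 → ℝ} {S A B : Set E4} (h : S ⊆ A ∪ B) (hA : IntegrableOn f A)
    (hB : IntegrableOn f B) (h0 : ∀ x, 0 ≤ f x) : ∫ x in S, f x ≤ (∫ x in A, f x) + ∫ x in B, f x := by
  rw [← integral_add_measure hA hB]
  exact integral_mono_measure ((Measure.restrict_mono h le_rfl).trans (Measure.restrict_union_le _ _))
    (Eventually.of_forall h0) (Integrable.add_measure hA hB)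

theorem cont_e0 {k : MetricField 4} {U : Set E4} (hk : ∀ a b, ContDiffOn ℝ ∞ (fun y => k y a b) U) :
    ContinuousOn (e0 k) U :=
  continuousOn_finsetSum _ fun a _ => continuousOn_finsetSum _ fun b _ =>
    (hk a b).continuousOn.pow 2

/-- the estimate in one chart, after a dilation by `t` -/
theorem key {t a b η P : ℝ} {k : MetricField 4} {ρ : E4 → ℝ} {A K U S0 S1 : Set E4} (ht : 0 < t)
    (ha : 0 ≤ a) (hb : 1 ≤ b) (hη : 0 ≤ η) (hU : IsOpen U) (hKU : K ⊆ U)
    (hk : ∀ a b, ContDiffOn ℝ ∞ (fun y => k y a b) U) (hρ : ∀ x ∈ K, 0 < ρ x)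
    (hF : IntegrableOn (fun x => e1 k x + e0 k x / ρ x ^ 2) K) (hA : MeasurableSet A)
    (hS : MeasurableSet S1) (h01 : S0 ⊆ S1) (h0 : ∀ x ∈ A, t⁻¹ • x ∈ S0 ∧ t ^ 2 ≤ a * ρ x ^ 2)
    (h1 : ∀ y ∈ S1, t • y ∈ K ∧ ρ (t • y) ^ 2 ≤ b * t ^ 2)
    (hl : ∫ y in S0, e0 (fun y => k (t • y)) y ≤ η * (∫ y in S1,
      (e1 (fun y => k (t • y)) y + e0 (fun y => k (t • y)) y)) + P) :
    ∫ x in A, e0 k x / ρ x ^ 2 ≤
      a * (b * η * (∫ x in K, (e1 k x + e0 k x / ρ x ^ 2)) + t ^ 2 * P) := by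
  have sub : t • S1 ⊆ K := by
    rintro _ ⟨y, hy, rfl⟩
    exact (h1 y hy).1
  have mS : MeasurableSet (t • S1) := hS.const_smul₀ t
  have t2 : 0 < t ^ 2 := by positivity
  have nn : ∀ x, 0 ≤ e1 k x + e0 k x / ρ x ^ 2 := fun x =>
    add_nonneg (Hr.e1_nn k x) (div_nonneg (Hr.e0_nn k x) (sq_nonneg _))
  have dom : ∀ x ∈ t • S1, t ^ 2 * e1 k x + e0 k x ≤ b * t ^ 2 * (e1 k x + e0 k x / ρ x ^ 2) := by
    rintro _ ⟨y, hy, rfl⟩
    obtain ⟨a1, a2⟩ := h1 y hy
    have p := pow_pos (hρ _ a1) 2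
    have q : e0 k (t • y) ≤ b * t ^ 2 * (e0 k (t • y) / ρ (t • y) ^ 2) := by
      rw [mul_div_assoc', le_div_iff₀ p, mul_comm]
      exact mul_le_mul_of_nonneg_right a2 (Hr.e0_nn _ _)
    have r := mul_le_mul_of_nonneg_right hb (mul_nonneg t2.le (Hr.e1_nn k (t • y)))
    dsimp only
    nlinarith
  have i0 : IntegrableOn (e0 k) (t • S1) :=
    Integrable.mono' ((hF.mono_set sub).const_mul (b * t ^ 2))
      (((cont_e0 hk).mono (sub.trans hKU)).aestronglyMeasurable mS)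
      (ae_restrict_of_forall_mem mS fun x hx => by
        rw [Real.norm_of_nonneg (Hr.e0_nn k x)]
        nlinarith [dom x hx, mul_nonneg t2.le (Hr.e1_nn k x)])
  have sA : A ⊆ t • S0 := fun x hx => ⟨_, (h0 x hx).1, smul_inv_smul₀ ht.ne' x⟩
  have s1 : ∫ x in A, e0 k x / ρ x ^ 2 ≤ ∫ x in t • S0, a / t ^ 2 * e0 k x :=
    int_le hA sA ((i0.mono_set (smul_set_mono h01)).const_mul _)
      (fun x => div_nonneg (Hr.e0_nn k x) (sq_nonneg _))
      (fun x => mul_nonneg (by positivity) (Hr.e0_nn k x)) fun x hx => by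
        have p := pow_pos (hρ _ (sub (smul_set_mono h01 (sA hx)))) 2
        rw [div_mul_eq_mul_div, div_le_div_iff₀ p t2]
        nlinarith [mul_le_mul_of_nonneg_left (h0 x hx).2 (Hr.e0_nn k x)]
  have s2 : t ^ 4 * ∫ y in S1, (e1 (fun y => k (t • y)) y + e0 (fun y => k (t • y)) y) =
      ∫ x in t • S1, (t ^ 2 * e1 k x + e0 k x) := by
    rw [int_smul _ ht]
    refine congrArg _ (setIntegral_congr_fun hS fun y hy => ?_)
    refine congrArg₂ _ ?_ rfl
    simp only [e1, Finset.mul_sum]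
    refine Finset.sum_congr rfl fun p _ => Finset.sum_congr rfl fun q _ => ?_
    have := Hd.g2_affine (u := fun y => k y p q) 0 t (z := y) (by
      rw [zero_add]
      exact ((hk p q).contDiffAt (hU.mem_nhds (hKU (h1 y hy).1))).differentiableAt (by simp))
    simpa only [zero_add] using this
  have s3 : ∫ x in t • S1, (t ^ 2 * e1 k x + e0 k x) ≤
      ∫ x in K, b * t ^ 2 * (e1 k x + e0 k x / ρ x ^ 2) :=
    int_le mS sub (hF.const_mul _)
      (fun x => add_nonneg (mul_nonneg t2.le (Hr.e1_nn k x)) (Hr.e0_nn k x))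
      (fun x => mul_nonneg (by positivity) (nn x)) dom
  rw [integral_const_mul] at s1 s3
  rw [int_smul _ ht] at s1
  rw [← s2] at s3
  change ∫ y in S0, e0 k (t • y) ≤ _ at hl
  refine s1.trans ?_
  have e : ∀ z : ℝ, a / t ^ 2 * (t ^ 4 * z) = a * (t ^ 2 * z) := fun z => by field_simp
  rw [e]
  refine mul_le_mul_of_nonneg_left ((mul_le_mul_of_nonneg_left hl t2.le).trans ?_) ha
  have s4 : t ^ 2 * (t ^ 2 * ∫ y in S1, (e1 (fun y => k (t • y)) y + e0 (fun y => k (t • y)) y)) ≤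
      t ^ 2 * (b * ∫ x in K, (e1 k x + e0 k x / ρ x ^ 2)) := by linarith
  have s5 := mul_le_mul_of_nonneg_left (le_of_mul_le_mul_left s4 t2) hη
  linarith

variable {M : Type*} {T : TD M} {L : T.V → ℝ} {v : T.V} {c : ℝ}

/-- the dilation from the chart `s` of `core v` to the chart `s` of `glob L` -/
def dl (L : T.V → ℝ) (v : T.V) : T.S → ℝ :=
  Sum.elim (fun _ => 1) fun w => if w = v then 1 else Real.exp (L w)

theorem dl_pos (s : T.S) : 0 < dl L v s := by
  cases s with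
  | inl a => exact one_pos
  | inr w => simp only [dl, Sum.elim_inr]; split_ifs; exacts [one_pos, Real.exp_pos _]

theorem loc_eq (k : Fam T) (s : T.S) : loc T L v k s = fun y => k s (dl L v s • y) := by
  funext y
  cases s with
  | inl a => simp [loc, dl]
  | inr w => simp only [loc, dl, Sum.elim_inr]; split_ifs <;> simp

theorem nrm_e (t : ℝ) (x : E4) : ‖Real.exp t • x‖ = Real.exp t * ‖x‖ := by
  rw [norm_smul, Real.norm_of_nonneg (Real.exp_pos _).le]

theorem far (h : T.Ok) (hL : ∀ w, w ≠ T.root → 4 * Real.exp (c + 1) ≤ T.r * Real.exp (L w))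
    {w : T.V} (hw : w ≠ T.root) : 4 ≤ Real.exp (L w) * Real.exp (-(c + 1)) := by
  rw [Real.exp_neg, ← div_eq_mul_inv, le_div_iff₀ (Real.exp_pos _)]
  nlinarith [hL w hw, h.r_lt, Real.exp_pos (L w)]

theorem mem_U1 (h : T.Ok) (hL : ∀ w, w ≠ T.root → 4 * Real.exp (c + 1) ≤ T.r * Real.exp (L w))
    (s : T.S) {x : E4} (hx : x ∈ cU1 T v c s) : dl L v s • x ∈ U1 T L s := by
  cases s with
  | inl a =>
    simp only [cU1, dl, Sum.elim_inl, one_smul] at hx ⊢
    split_ifs at hx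
    exacts [hx, hx.elim]
  | inr w =>
    simp only [cU1, dl, Sum.elim_inr] at hx ⊢
    split_ifs at hx ⊢ with h1 h2
    · rw [one_smul]
      exact ⟨hx.1, fun hw => by nlinarith [hL w hw, hx.2, Real.exp_pos (c + 1)]⟩
    · have p := Real.exp_pos (L w)
      have q := far h hL h2.1
      exact ⟨by rw [nrm_e]; nlinarith [hx.1], fun _ => by rw [nrm_e]; nlinarith [hx.2]⟩
    · exact hx.elim

theorem mem_K1 (h : T.Ok) (hc : 0 ≤ c)
    (hL : ∀ w, w ≠ T.root → 4 * Real.exp (c + 1) ≤ T.r * Real.exp (L w)) (s : T.S) {y : E4}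
    (hy : y ∈ cK1 T v (c + 1) s) : dl L v s • y ∈ K1 T L s ∧
      scl T s (dl L v s • y) ^ 2 ≤ Real.exp (c + 1) ^ 2 * dl L v s ^ 2 := by
  have o : 1 ≤ Real.exp (c + 1) := Real.one_le_exp (by linarith)
  cases s with
  | inl a =>
    simp only [cK1, dl, scl, Sum.elim_inl, one_smul] at hy ⊢
    split_ifs at hy
    exacts [⟨hy, by nlinarith⟩, hy.elim]
  | inr w =>
    simp only [cK1, dl, scl, Sum.elim_inr] at hy ⊢
    split_ifs at hy ⊢ with h1 h2
    · rw [one_smul, one_pow, mul_one]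
      exact ⟨⟨hy.1, fun hw => by nlinarith [hL w hw, hy.2]⟩,
        pow_le_pow_left₀ (norm_nonneg _) hy.2 2⟩
    · have p := Real.exp_pos (L w)
      have q := far h hL h2.1
      refine ⟨⟨by rw [nrm_e]; nlinarith [hy.1], fun _ => by rw [nrm_e]; nlinarith [hy.2]⟩, ?_⟩
      rw [nrm_e, ← mul_pow, mul_comm]
      exact pow_le_pow_left₀ (by positivity)
        (mul_le_mul_of_nonneg_right (by linarith [hy.2, h.r_lt, h.r_pos]) p.le) 2
    · exact hy.elim

theorem meas_cK1 (s : T.S) : MeasurableSet (cK1 T v c s) := by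
  cases s with
  | inl a =>
    simp only [cK1, Sum.elim_inl]
    split_ifs
    exacts [measurableSet_closedBall, MeasurableSet.empty]
  | inr w =>
    simp only [cK1, Sum.elim_inr]
    split_ifs
    exacts [(Hd.isCompact_An _ _).measurableSet, (Hd.isCompact_An _ _).measurableSet,
      MeasurableSet.empty]

theorem cK_sub (s : T.S) : cK0 T v c s ⊆ cK1 T v (c + 1) s := fun x hx => by
  have hx := hx.2
  cases s with
  | inl a => exact hx
  | inr w =>
    simp only [cK1, Sum.elim_inr] at hx ⊢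
    split_ifs at hx ⊢
    · exact ⟨hx.1, hx.2.trans (Real.exp_le_exp.2 (by linarith))⟩
    · exact ⟨(Real.exp_le_exp.2 (by linarith)).trans hx.1, hx.2⟩
    · exact hx

theorem mem_cK0 (h : T.Ok) (hc : 0 ≤ c) (s : T.S) {x : E4} (hx : x ∈ T.gK L s)
    (hi : InK T L v c s x) : ep T L s * dl L v s = T.eps L v ∧ (dl L v s)⁻¹ • x ∈ cK0 T v c s ∧
      dl L v s ^ 2 ≤ Real.exp c ^ 2 * scl T s x ^ 2 := by
  have o : 1 ≤ Real.exp c := Real.one_le_exp hc
  cases s with
  | inl a =>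
    have e : T.vx a = v := hi
    have := TD.mem_gK_inl.1 hx
    simp only [cK0, cK1, TD.cK, dl, scl, ep, TD.un, Sum.elim_inl, inv_one, one_smul, e, if_true,
      mul_one, one_pow, mem_inter_iff, mem_closedBall_zero_iff]
    exact ⟨trivial, ⟨this, by linarith⟩, by nlinarith⟩
  | inr w =>
    have x1 := hx.1
    rcases hi with ⟨rfl, hi⟩ | ⟨hk, hi⟩
    · simp only [cK0, cK1, TD.cK, dl, scl, ep, TD.un, Sum.elim_inr, inv_one, one_smul, if_true,
        mul_one, one_pow, mem_inter_iff, mem_ofPred_eq, id]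
      refine ⟨trivial, ⟨x1, by linarith, (Real.log_le_iff_le_exp (by linarith)).1 hi⟩, ?_⟩
      rw [← mul_pow]
      exact one_le_pow₀ (by nlinarith)
    · have hw := h.kid_ne hk
      have p := Real.exp_pos (L w)
      have h2 : 0 < ‖Real.exp (-L w) • x‖ := by rw [TD.nrm_exp]; exact div_pos (by linarith) p
      have h3 : Real.exp (-c) ≤ ‖Real.exp (-L w) • x‖ := (Real.le_log_iff_exp_le h2).1 (by linarith)
      have h4 := TD.nrm_exp_le.2 (hx.2 hk.1)
      simp only [cK0, cK1, TD.cK, dl, scl, ep, TD.un, Sum.elim_inr, if_neg hw, if_pos hk,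
        mem_inter_iff, mem_ofPred_eq, id, ← Real.exp_neg]
      refine ⟨?_, ⟨⟨h2, h4⟩, h3, by linarith [h.r_pos]⟩, ?_⟩
      · rw [h.eps_kid L hk.1, hk.2, mul_assoc, ← Real.exp_add, neg_add_cancel, Real.exp_zero, mul_one]
      · rw [TD.nrm_exp, Real.exp_neg, inv_le_iff_one_le_mul₀' (Real.exp_pos _), mul_div_assoc',
          one_le_div p] at h3
        rw [← mul_pow]
        exact pow_le_pow_left₀ p.le h3 2

theorem cor_sub (s : T.S) : T.gK L s ∩ Cor T L c s ⊆ T.gK L s ∩ {x | InK T L (T.un s) c s x} ∪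
    T.gK L s ∩ {x | InK T L (T.par (T.un s)) c s x} := by
  rintro x ⟨hx, v, hv⟩
  cases s with
  | inl a => exact Or.inl ⟨hx, rfl⟩
  | inr w =>
    rcases hv with ⟨rfl, hv⟩ | ⟨hk, hv⟩
    exacts [Or.inl ⟨hx, Or.inl ⟨rfl, hv⟩⟩, Or.inr ⟨hx, Or.inr ⟨⟨hk.1, rfl⟩, hv⟩⟩]

end Lc

open Lc in
/-- **leaf LOCG** -/
theorem locg' {M : Type*} {T : TD M} {g : T.V → Fam T} (h : T.Ok) :
    LOCG T g := fun κ _ _ ψ c η C hc hη G => by
  obtain ⟨T2, hS⟩ := loc_sec h (c + 1)
  refine ⟨2 * Fintype.card T.S * (Real.exp c ^ 2 * |C|) + 1,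
    max T2 (4 * Real.exp (c + 1 + 1) / T.r), by positivity, fun L hL k k1 k2 k3 => ?_⟩
  have l2 : Lng T T2 L := fun w hw => (le_max_left _ _).trans (hL w hw)
  have l3 : ∀ w, w ≠ T.root → 4 * Real.exp (c + 1 + 1) ≤ T.r * Real.exp (L w) := fun w hw =>
    lng_exp h (fun w hw => (le_max_right _ _).trans (hL w hw)) hw
  have l4 : ∀ w, w ≠ T.root → 4 * Real.exp (c + 1) ≤ T.r * Real.exp (L w) := fun w hw =>
    le_trans (by gcongr; linarith) (l3 w hw)
  have sm : ∀ s a b, ContDiffOn ℝ ∞ (fun y => k s y a b) (U1 T L s) := fun s a b =>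
    ((k1.sm s ![a, b]).const_smul (ep T L s ^ 2)⁻¹).congr fun y _ => by
      have := TD.eps_pos L (T.un s)
      simp only [matT, rt, Matrix.smul_apply, smul_eq_mul, Matrix.cons_val_zero, Matrix.cons_val_one]
      field_simp
  have int := Hr.int_K1 h (fun s a b => (sm s a b).of_le (by simp)) k3
  have ρ1 : ∀ s, ∀ x ∈ U1 T L s, 0 < scl T s x := fun s x hx =>
    one_pos.trans_le (one_le_scl s (U1_U h s hx))
  set Q := ∑ j : Σ v, κ v, T.eps L j.1 ^ 2 * pair T g j.1 (ψ j.1 j.2) (loc T L j.1 k) ^ 2 with hQ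
  have q0 : 0 ≤ Q := by positivity
  have q1 : ∀ v, T.eps L v ^ 2 * ∑ j, pair T g v (ψ v j) (loc T L v k) ^ 2 ≤ Q := fun v => by
    rw [hQ, Fintype.sum_sigma, Finset.mul_sum]
    exact Finset.single_le_sum (f := fun v => ∑ j, T.eps L v ^ 2 *
      pair T g v (ψ v j) (loc T L v k) ^ 2) (fun _ _ => by positivity) (Finset.mem_univ v)
  have f0 : ∀ s x, 0 ≤ e0 (k s) x / scl T s x ^ 2 := fun s x =>
    div_nonneg (Hr.e0_nn _ _) (sq_nonneg _)
  have one : ∀ v s, ep T L s ^ 2 * ∫ x in T.gK L s ∩ {x | InK T L v c s x},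
      e0 (k s) x / scl T s x ^ 2 ≤ Real.exp (4 * c + 2) * η * (ep T L s ^ 2 *
        ∫ x in K1 T L s, (e1 (k s) x + e0 (k s) x / scl T s x ^ 2)) + Real.exp c ^ 2 * |C| * Q := by
    intro v s
    have n : 0 ≤ ∫ x in K1 T L s, (e1 (k s) x + e0 (k s) x / scl T s x ^ 2) :=
      integral_nonneg fun x => add_nonneg (Hr.e1_nn _ _) (f0 s x)
    rcases (T.gK L s ∩ {x | InK T L v c s x}).eq_empty_or_nonempty with e | ⟨x0, hx0⟩
    · rw [e, setIntegral_empty, mul_zero]; positivity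
    have hl := G.loc v (loc T L v k) (hS L l2 k k1 v)
      (fun s x hx => by rw [loc_eq]; exact k2 s _ (mem_U1 h l3 s hx)) s
    rw [loc_eq] at hl
    have := mul_le_mul_of_nonneg_left (key (a := Real.exp c ^ 2) (b := Real.exp (c + 1) ^ 2)
      (dl_pos s) (sq_nonneg _) (one_le_pow₀ (Real.one_le_exp (by linarith))) hη (U1_open s)
      (K1_U1 h s) (sm s) (fun x hx => ρ1 s x (K1_U1 h s hx)) ((int s).1.add (int s).2)
      ((gK_closed s).measurableSet.inter (meas_InK v c s)) (meas_cK1 s) (cK_sub s)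
      (fun x hx => (mem_cK0 h (by linarith) s hx.1 hx.2).2)
      (fun y hy => mem_K1 h (by linarith) l4 s hy) hl) (sq_nonneg (ep T L s))
    refine this.trans ?_
    have e1 : Real.exp (4 * c + 2) = Real.exp c ^ 2 * Real.exp (c + 1) ^ 2 := by
      rw [← mul_pow, ← Real.exp_add, ← Real.exp_nat_mul]; congr 1; push_cast; ring
    have e2 := (mem_cK0 h (by linarith) s hx0.1 hx0.2).1
    have e3 := mul_le_mul (le_abs_self C) (q1 v) (by positivity) (abs_nonneg C)
    have e4 := mul_le_mul_of_nonneg_left e3 (sq_nonneg (Real.exp c))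
    rw [e1]
    rw [← e2] at e4
    nlinarith
  have two : Zc T L c k ≤ ∑ s, 2 * (Real.exp (4 * c + 2) * η * (ep T L s ^ 2 *
      ∫ x in K1 T L s, (e1 (k s) x + e0 (k s) x / scl T s x ^ 2)) + Real.exp c ^ 2 * |C| * Q) :=
    Finset.sum_le_sum fun s _ => by
      have i := fun v => (int s).2.mono_set
        ((inter_subset_left (t := {x | InK T L v c s x})).trans (gK_K1 h s))
      have := mul_le_mul_of_nonneg_left (int_un (cor_sub (c := c) s) (i _) (i _) (f0 s))
        (sq_nonneg (ep T L s))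
      linarith [one (T.un s) s, one (T.par (T.un s)) s]
  rw [← Finset.mul_sum, Finset.sum_add_distrib, ← Finset.mul_sum, Finset.sum_const,
    Finset.card_univ, nsmul_eq_mul] at two
  unfold En
  nlinarith

theorem locg {M : Type*} {T : TD M} {g : T.V → Fam T} (h : Std T g) : LOCG T g := locg' h.ok

end Crest.Agent.N207.NS

end
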