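import Crest.Agent.N207.Lg.Defs

/-!
# Row 207, block N (helper75): uniform bounds and Lipschitz bounds over a family of data
-/

set_option autoImplicit false

open Asymptotics Finset
open Crest.Agent.N207.Lg

noncomputable section

namespace Crest.Agent.N207.NS

variable {I ι : Type*} {δ w a a' b b' : I → ℝ}

/-- `a, a' = O(w)` and `a - a' = O(w δ)`, uniformly over the family -/
structure Lp (δ w a a' : I → ℝ) : Prop where
  l : a =O[⊤] w
  r : a' =O[⊤] w
  d : (fun i => a i - a' i) =O[⊤] fun i => w i * δ i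

theorem ob_of_le {M : ℝ} (h : ∀ i, |a i| ≤ M * |w i|) : a =O[⊤] w := isBigO_top.2 ⟨M, h⟩

theorem ob_one {M : ℝ} (h : ∀ i, |a i| ≤ M) : a =O[⊤] fun _ => (1 : ℝ) :=
  ob_of_le (M := M) fun i => by simpa using h i

theorem ob_le (h : ∀ i, |a i| ≤ w i) : a =O[⊤] w :=
  ob_of_le (M := 1) fun i => by rw [one_mul]; exact (h i).trans (le_abs_self _)

theorem ob_unif {κ : Type*} [Finite κ] {f : κ → I → ℝ} (h : ∀ k, f k =O[⊤] w) :
    ∃ C : ℝ, 0 < C ∧ ∀ k i, |f k i| ≤ C * |w i| := by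
  have := Fintype.ofFinite κ
  choose c hc using fun k => isBigO_top.1 (h k)
  refine ⟨∑ k, |c k| + 1, by positivity, fun k i => (hc k i).trans ?_⟩
  refine mul_le_mul_of_nonneg_right ?_ (norm_nonneg _)
  have := single_le_sum (f := fun k => |c k|) (fun _ _ => abs_nonneg _) (mem_univ k)
  linarith [le_abs_self (c k)]

namespace Lp

theorem refl (h : a =O[⊤] w) : Lp δ w a a := ⟨h, h, ob_of_le (M := 0) fun _ => by simp⟩

theorem const (c : ℝ) : Lp δ (fun _ => 1) (fun _ => c) fun _ => c :=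
  refl (ob_one fun _ => le_rfl)

theorem of_le {M : ℝ} (h : ∀ i, |a i| ≤ M) (h' : ∀ i, |a' i| ≤ M) (k : ∀ i, |a i - a' i| ≤ δ i) :
    Lp δ (fun _ => 1) a a' :=
  ⟨ob_one h, ob_one h', ob_le fun i => by rw [one_mul]; exact k i⟩

theorem add (h : Lp δ w a a') (k : Lp δ w b b') :
    Lp δ w (fun i => a i + b i) fun i => a' i + b' i :=
  ⟨h.l.add k.l, h.r.add k.r, (h.d.add k.d).congr_left fun _ => by ring⟩

theorem sub (h : Lp δ w a a') (k : Lp δ w b b') :
    Lp δ w (fun i => a i - b i) fun i => a' i - b' i :=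
  ⟨h.l.sub k.l, h.r.sub k.r, (h.d.sub k.d).congr_left fun _ => by ring⟩

theorem neg (h : Lp δ w a a') : Lp δ w (fun i => -a i) fun i => -a' i :=
  ⟨h.l.neg_left, h.r.neg_left, h.d.neg_left.congr_left fun _ => by ring⟩

theorem mul (h : Lp δ (fun _ => 1) a a') (k : Lp δ w b b') :
    Lp δ w (fun i => a i * b i) fun i => a' i * b' i :=
  ⟨(h.l.mul k.l).congr_right fun _ => one_mul _, (h.r.mul k.r).congr_right fun _ => one_mul _,
    (((h.l.mul k.d).congr_right fun _ => one_mul _).add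
      ((h.d.mul k.r).congr_right fun _ => by ring)).congr_left fun _ => by ring⟩

theorem mul' (h : Lp δ w a a') (k : Lp δ (fun _ => 1) b b') :
    Lp δ w (fun i => a i * b i) fun i => a' i * b' i := by
  simpa only [mul_comm] using k.mul h

theorem sum (s : Finset ι) {f f' : ι → I → ℝ} (h : ∀ j ∈ s, Lp δ w (f j) (f' j)) :
    Lp δ w (fun i => ∑ j ∈ s, f j i) fun i => ∑ j ∈ s, f' j i :=
  ⟨(IsBigO.sum fun j hj => (h j hj).l).congr_left fun _ => Finset.sum_apply _ _ _,
    (IsBigO.sum fun j hj => (h j hj).r).congr_left fun _ => Finset.sum_apply _ _ _,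
    (IsBigO.sum fun j hj => (h j hj).d).congr_left fun _ => by
      rw [Finset.sum_apply, sum_sub_distrib]⟩

theorem prod (s : Finset ι) {f f' : ι → I → ℝ} (h : ∀ j ∈ s, Lp δ (fun _ => 1) (f j) (f' j)) :
    Lp δ (fun _ => 1) (fun i => ∏ j ∈ s, f j i) fun i => ∏ j ∈ s, f' j i := by
  classical
  induction s using Finset.induction_on with
  | empty => simpa using const 1
  | insert j s hj ih =>
    simp only [prod_insert hj]
    exact (h j (mem_insert_self _ _)).mul (ih fun k hk => h k (mem_insert_of_mem hk))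

theorem inv {c : ℝ} (h : Lp δ (fun _ => 1) a a') (hc : 0 < c) (k : ∀ i, c ≤ a i)
    (k' : ∀ i, c ≤ a' i) : Lp δ (fun _ => 1) (fun i => (a i)⁻¹) fun i => (a' i)⁻¹ := by
  have e : ∀ x : ℝ, c ≤ x → |x⁻¹| ≤ c⁻¹ := fun x hx => by
    rw [abs_of_pos (inv_pos.2 (hc.trans_le hx))]; exact inv_anti₀ hc hx
  have l := ob_one (I := I) fun i => e _ (k i)
  have r := ob_one (I := I) fun i => e _ (k' i)
  refine ⟨l, r, ((((l.mul r).mul h.d).neg_left).congr_right fun _ => by ring).congr_left fun i => ?_⟩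
  have := (hc.trans_le (k i)).ne'
  have := (hc.trans_le (k' i)).ne'
  field_simp
  ring

theorem sqrt {c : ℝ} (h : Lp δ (fun _ => 1) a a') (hc : 0 < c) (k : ∀ i, c ≤ a i)
    (k' : ∀ i, c ≤ a' i) : Lp δ (fun _ => 1) (fun i => √(a i)) fun i => √(a' i) := by
  have s := Real.sqrt_pos.2 hc
  have e : ∀ x : ℝ, c ≤ x → |√x| ≤ (√c)⁻¹ * |x| := fun x hx => by
    have h0 := hc.trans_le hx
    rw [abs_of_nonneg (Real.sqrt_nonneg _), abs_of_pos h0, le_inv_mul_iff₀ s]
    calc √c * √x ≤ √x * √x := mul_le_mul_of_nonneg_right (Real.sqrt_le_sqrt hx) (Real.sqrt_nonneg _)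
      _ = x := Real.mul_self_sqrt h0.le
  refine ⟨(ob_of_le fun i => e _ (k i)).trans h.l, (ob_of_le fun i => e _ (k' i)).trans h.r,
    (ob_of_le (M := (√c)⁻¹) fun i => ?_).trans h.d⟩
  have h1 := Real.mul_self_sqrt (hc.trans_le (k i)).le
  have h2 := Real.mul_self_sqrt (hc.trans_le (k' i)).le
  have h3 := Real.sqrt_le_sqrt (k i)
  have h4 := Real.sqrt_nonneg (a' i)
  rw [le_inv_mul_iff₀ s, show a i - a' i = (√(a i) + √(a' i)) * (√(a i) - √(a' i)) by
    linear_combination -h1 + h2, abs_mul]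
  exact mul_le_mul_of_nonneg_right (le_trans (by linarith) (le_abs_self _)) (abs_nonneg _)

end Lp

variable [Fintype ι] {A A' B B' : I → Matrix ι ι ℝ}

/-- the same for the entries of matrices -/
def LM (δ w : I → ℝ) (A A' : I → Matrix ι ι ℝ) : Prop :=
  ∀ p q, Lp δ w (fun i => A i p q) fun i => A' i p q

namespace LM

theorem mul (h : LM δ (fun _ => 1) A A') (k : LM δ w B B') :
    LM δ w (fun i => A i * B i) fun i => A' i * B' i := fun p q => by
  simp only [Matrix.mul_apply]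
  exact Lp.sum _ fun r _ => (h p r).mul (k r q)

theorem mul' (h : LM δ w A A') (k : LM δ (fun _ => 1) B B') :
    LM δ w (fun i => A i * B i) fun i => A' i * B' i := fun p q => by
  simp only [Matrix.mul_apply]
  exact Lp.sum _ fun r _ => (h p r).mul' (k r q)

omit [Fintype ι] in
theorem smul (h : Lp δ (fun _ => 1) a a') (k : LM δ w B B') :
    LM δ w (fun i => a i • B i) fun i => a' i • B' i := fun p q => h.mul (k p q)

theorem tr2 (h : LM δ (fun _ => 1) A A') (k : LM δ w B B') :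
    Lp δ w (fun i => tr2 (fun p q => A i p q) fun p q => B i p q)
      fun i => tr2 (fun p q => A' i p q) fun p q => B' i p q :=
  Lp.sum _ fun p _ => Lp.sum _ fun q _ => (h p q).mul (k p q)

theorem up (h : LM δ (fun _ => 1) A A') (k : LM δ w B B') (p q : ι) :
    Lp δ w (fun i => up (fun p q => A i p q) (fun p q => B i p q) p q)
      fun i => up (fun p q => A' i p q) (fun p q => B' i p q) p q :=
  Lp.sum _ fun r _ => Lp.sum _ fun s _ => ((h p r).mul (k r s)).mul' (h s q)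

variable [DecidableEq ι]

theorem det (h : LM δ (fun _ => 1) A A') :
    Lp δ (fun _ => 1) (fun i => (A i).det) fun i => (A' i).det := by
  simp only [Matrix.det_apply']
  exact Lp.sum _ fun σ _ => (Lp.const _).mul (Lp.prod _ fun j _ => h (σ j) j)

theorem inv {M : ℝ} (h : LM δ (fun _ => 1) A A') (k : ∀ i, (A i).det ≠ 0)
    (k' : ∀ i, (A' i).det ≠ 0) (l : ∀ i p q, |(A i)⁻¹ p q| ≤ M) (l' : ∀ i p q, |(A' i)⁻¹ p q| ≤ M) :
    LM δ (fun _ => 1) (fun i => (A i)⁻¹) fun i => (A' i)⁻¹ := fun p q => by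
  have o : ∀ p q, (fun i => (A i)⁻¹ p q) =O[⊤] fun _ => (1 : ℝ) := fun p q => ob_one fun i => l i p q
  have o' : ∀ p q, (fun i => (A' i)⁻¹ p q) =O[⊤] fun _ => (1 : ℝ) := fun p q =>
    ob_one fun i => l' i p q
  refine ⟨o p q, o' p q, ?_⟩
  have := ((mul (δ := δ) (A := fun i => (A i)⁻¹) (fun p q => Lp.refl (o p q))
    (B := fun i => A' i - A i) (fun p q => Lp.refl ((h p q).d.neg_left.congr_left fun i => by
      simp))).mul' (B := fun i => (A' i)⁻¹) (fun p q => Lp.refl (o' p q)) p q).l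
  refine this.congr_left fun i => ?_
  beta_reduce
  rw [Matrix.mul_sub, Matrix.sub_mul, Matrix.mul_assoc, Matrix.mul_nonsing_inv _ (k' i).isUnit,
    Matrix.nonsing_inv_mul _ (k i).isUnit, Matrix.mul_one, Matrix.one_mul, Matrix.sub_apply]

end LM

/-- lower bound of the determinants -/
theorem det_low [DecidableEq ι] {M : ℝ} (k : ∀ i, 0 < (A i).det)
    (l : ∀ i p q, |(A i)⁻¹ p q| ≤ M) : ∃ c : ℝ, 0 < c ∧ ∀ i, c ≤ (A i).det := by
  obtain ⟨C, hC, h⟩ := ob_unif (κ := Unit) fun _ => (LM.det (δ := fun _ => 0)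
    (A := fun i => (A i)⁻¹) fun p q => Lp.refl (ob_one fun i => l i p q)).l
  refine ⟨C⁻¹, inv_pos.2 hC, fun i => ?_⟩
  have := h () i
  rw [Matrix.det_nonsing_inv, Ring.inverse_eq_inv', abs_one, mul_one,
    abs_of_pos (inv_pos.2 (k i))] at this
  exact inv_le_of_inv_le₀ (k i) this

/-- `√det` -/
theorem LM.sqrt_det [DecidableEq ι] {M : ℝ} (h : LM δ (fun _ => 1) A A') (k : ∀ i, 0 < (A i).det)
    (k' : ∀ i, 0 < (A' i).det) (l : ∀ i p q, |(A i)⁻¹ p q| ≤ M) (l' : ∀ i p q, |(A' i)⁻¹ p q| ≤ M) :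
    Lp δ (fun _ => 1) (fun i => √(A i).det) (fun i => √(A' i).det) ∧
      Lp δ (fun _ => 1) (fun i => (√(A i).det)⁻¹) fun i => (√(A' i).det)⁻¹ := by
  obtain ⟨c, hc, e⟩ := det_low k l
  obtain ⟨c', hc', e'⟩ := det_low k' l'
  have m := lt_min hc hc'
  have f := fun i => (min_le_left c c').trans (e i)
  have f' := fun i => (min_le_right c c').trans (e' i)
  have := h.det.sqrt m f f'
  exact ⟨this, this.inv (Real.sqrt_pos.2 m) (fun i => Real.sqrt_le_sqrt (f i))
    fun i => Real.sqrt_le_sqrt (f' i)⟩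

end Crest.Agent.N207.NS

end
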