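import Crest.Agent.N207.N.St3
import Crest.Agent.N207.N.MKit
import Crest.Agent.N207.Lg.Fun1

/-!
# Row 207, block N (helper75): the leaves MUL and CO
-/

set_option autoImplicit false

open scoped ContDiff Topology
open Asymptotics Finset
open Crest.GeometryTopology.CoordMetric
open Crest.Agent.N207.I Crest.Agent.N207.Lg Crest.Agent.N207.CB

noncomputable section

namespace Crest.Agent.N207.NS

/-- `4 × 4` matrices -/
abbrev Mx : Type := Matrix (Fin 4) (Fin 4) ℝ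

/-- the trace reversal as a linear map -/
def trL (G : Mx) : Mx →ₗ[ℝ] Mx where
  toFun := TRg G
  map_add' X Y := by
    have := tr2_add (fun a b => G⁻¹ a b) (fun a b => X a b) fun a b => Y a b
    unfold TRg
    rw [show (fun a b => (X + Y) a b) = (fun a b => X a b) + fun a b => Y a b from rfl, this]
    module
  map_smul' c X := by
    have := tr2_smul c (fun a b => G⁻¹ a b) fun a b => X a b
    unfold TRg
    rw [show (fun a b => (c • X) a b) = c • fun a b => X a b from rfl, this, RingHom.id_apply]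
    module

theorem pd_sy {G : Mx} (h : G.PosDef) : Sy2 fun a b => G a b := fun i j => by
  simpa using h.isHermitian.apply j i

theorem TRg_TRg {G : Mx} (h : G.PosDef) (X : Mx) : TRg G (TRg G X) = X := by
  have e : TRg G G = -G := by
    unfold TRg
    rw [tr2_eq _ (pd_sy h)]
    change G - ((1 / 2 : ℝ) * (G⁻¹ * G).trace) • G = -G
    rw [Matrix.nonsing_inv_mul _ h.det_pos.ne'.isUnit, Matrix.trace_one, Fintype.card_fin]
    norm_num
    module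
  change trL G (X - _ • G) = X
  rw [map_sub, map_smul]
  change TRg G X - _ • TRg G G = X
  rw [e]
  unfold TRg
  module

theorem tr2_up {H : M2 (Fin 4) ℝ} (hH : Sy2 H) (k X : M2 (Fin 4) ℝ) :
    tr2 (up H k) X = tr2 (up H X) k := by
  simp only [tr2, up, sum_mul]
  rw [sum_congr rfl fun _ _ => sum_comm, sum_comm]
  refine sum_congr rfl fun a _ => ?_
  rw [sum_congr rfl fun _ _ => sum_comm, sum_comm]
  refine sum_congr rfl fun b _ => sum_congr rfl fun i _ => sum_congr rfl fun j _ => ?_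
  rw [hH a i, hH j b]; ring

theorem eq_of_tr2 {A Y : M2 (Fin 4) ℝ} (hA : Sy2 A) (hY : Sy2 Y)
    (h : ∀ k : M2 (Fin 4) ℝ, (∀ p q, k p q = k q p) → tr2 A k = tr2 Y k) : A = Y := by
  have e := h (A - Y) fun p q => by simp only [Pi.sub_apply, hA p q, hY p q]
  rw [← sub_eq_zero, ← sub_tr2] at e
  funext p q
  have := (sum_eq_zero_iff_of_nonneg fun q _ => mul_self_nonneg _).1
    ((sum_eq_zero_iff_of_nonneg fun p _ => sum_nonneg fun q _ => mul_self_nonneg _).1 e p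
      (mem_univ _)) q (mem_univ _)
  exact sub_eq_zero.1 (mul_self_eq_zero.1 this)

theorem mul_alg {G : Mx} (h : G.PosDef) {s : ℝ} (hs : s ≠ 0) (X Y : Mx) :
    s • (((1 / 2 : ℝ) * tr2 (fun a b => G⁻¹ a b) fun a b => X a b) • G⁻¹ - G⁻¹ * X * G⁻¹) = Y ↔
      X = -TRg G (s⁻¹ • (G * Y * G)) := by
  have u := h.det_pos.ne'.isUnit
  have e : ∀ X : Mx, ((1 / 2 : ℝ) * tr2 (fun a b => G⁻¹ a b) fun a b => X a b) • G⁻¹ -
      G⁻¹ * X * G⁻¹ = -(G⁻¹ * TRg G X * G⁻¹) := fun X => by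
    unfold TRg
    rw [Matrix.mul_sub, Matrix.sub_mul, Matrix.mul_smul, Matrix.smul_mul,
      Matrix.nonsing_inv_mul _ u, Matrix.one_mul, neg_sub]
  rw [e]
  constructor
  · rintro rfl
    rw [Matrix.mul_smul, Matrix.smul_mul, smul_smul, inv_mul_cancel₀ hs, one_smul, Matrix.mul_neg,
      Matrix.neg_mul, ← Matrix.mul_assoc, ← Matrix.mul_assoc, Matrix.mul_nonsing_inv _ u,
      Matrix.one_mul, Matrix.mul_assoc, Matrix.nonsing_inv_mul _ u, Matrix.mul_one]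
    change X = -trL G (-_)
    rw [map_neg, neg_neg]
    exact (TRg_TRg h X).symm
  · rintro rfl
    change s • -(G⁻¹ * trL G (-_) * G⁻¹) = Y
    rw [map_neg]
    change s • -(G⁻¹ * -TRg G _ * G⁻¹) = Y
    rw [TRg_TRg h, Matrix.mul_neg, Matrix.neg_mul, neg_neg, Matrix.mul_smul, Matrix.smul_mul,
      smul_smul, mul_inv_cancel₀ hs, one_smul, ← Matrix.mul_assoc, ← Matrix.mul_assoc,
      Matrix.nonsing_inv_mul _ u, Matrix.one_mul, Matrix.mul_assoc, Matrix.mul_nonsing_inv _ u,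
      Matrix.mul_one]

theorem mul1 (b G : MetricField 4) (x : E4) (ι : Type) [Fintype ι] (m : ι → ℝ)
    (ψ : ι → MetricField 4) (X : M2 (Fin 4) ℝ) (hb : (b x).PosDef) (hG : (G x).PosDef)
    (hψ : ∀ j, (ψ j x).IsSymm) (hX : ∀ p q, X p q = X q p) :
    ((∀ k : M2 (Fin 4) ℝ, (∀ p q, k p q = k q p) → tr2 (vG (sq G x) (iv G x) k) X =
      ∑ j, m j * (sq b x * tr2 (up (iv b x) fun p q => ψ j x p q) k)) ↔
    ∀ p q, X p q = -∑ j, m j * PsT b G (ψ j) x p q) := by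
  have hH : Sy2 (iv G x) := pd_sy hG.inv
  have hB : Sy2 (iv b x) := pd_sy hb.inv
  have hs : sq G x ≠ 0 := (Real.sqrt_pos.2 hG.det_pos).ne'
  obtain ⟨Y, hY⟩ : ∃ Y : Mx, Y = ∑ j, (m j * sq b x) • ((b x)⁻¹ * ψ j x * (b x)⁻¹) := ⟨_, rfl⟩
  have eY : ∀ p q, Y p q = ∑ j, m j * sq b x * up (iv b x) (fun p q => ψ j x p q) p q :=
    fun p q => by rw [hY, Matrix.sum_apply]; simp only [up_eq]; rfl
  have e1 : ∀ k : M2 (Fin 4) ℝ, tr2 (vG (sq G x) (iv G x) k) X = tr2 (vG (sq G x) (iv G x) X) k :=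
    fun k => by rw [tr2_vG, tr2_vG, tr2_up hH]; ring
  have e2 : ∀ k : M2 (Fin 4) ℝ, ∑ j, m j * (sq b x * tr2 (up (iv b x) fun p q => ψ j x p q) k) =
      tr2 (fun p q => Y p q) k := fun k => by
    simp only [tr2, eY, sum_mul, mul_sum]
    rw [sum_comm]
    refine sum_congr rfl fun p _ => ?_
    rw [sum_comm]
    exact sum_congr rfl fun q _ => sum_congr rfl fun j _ => by ring
  have sY : Sy2 fun p q => Y p q := fun p q => by
    simp only [eY]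
    exact sum_congr rfl fun j _ => by rw [up_sy hB (fun p q => (hψ j).apply q p) p q]
  have e3 : TRg (G x) ((sq G x)⁻¹ • (G x * Y * G x)) = ∑ j, m j • PsT b G (ψ j) x := by
    change trL (G x) _ = ∑ j, m j • trL (G x) _
    simp only [← map_smul, ← map_sum]
    congr 1
    rw [hY, Matrix.mul_sum, Matrix.sum_mul, smul_sum]
    refine sum_congr rfl fun j _ => ?_
    rw [Matrix.mul_smul, Matrix.smul_mul, smul_smul, smul_smul]
    congr 1
    · ring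
    · simp only [Matrix.mul_assoc]
  have key := mul_alg hG hs (Matrix.of X) Y
  rw [e3] at key
  have e4 : vG (sq G x) (iv G x) X = (sq G x • (((1 / 2 : ℝ) * tr2 (fun a b => (G x)⁻¹ a b)
      fun a b => Matrix.of X a b) • (G x)⁻¹ - (G x)⁻¹ * Matrix.of X * (G x)⁻¹) : Mx) := by
    rw [vG_def, up_eq]; rfl
  simp only [e1, e2]
  constructor
  · intro h p q
    have := key.1 (e4 ▸ eq_of_tr2 (vG_sy _ hH hX) sY h)
    have := congrFun (congrFun this p) q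
    rw [Matrix.neg_apply, Matrix.sum_apply] at this
    exact this
  · intro h k _
    have := key.2 (by ext p q; rw [Matrix.neg_apply, Matrix.sum_apply]; exact h p q)
    rw [e4, this]

theorem mul2 (b ψ : MetricField 4) (x : E4) (hb : (b x).PosDef) :
    PsT b b ψ x = TRg (b x) (ψ x) := by
  have u := hb.det_pos.ne'.isUnit
  have hs : sq b x ≠ 0 := (Real.sqrt_pos.2 hb.det_pos).ne'
  unfold PsT
  rw [div_self hs, one_smul, Matrix.mul_nonsing_inv _ u, Matrix.one_mul, Matrix.mul_assoc,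
    Matrix.nonsing_inv_mul _ u, Matrix.mul_one]

/-- bounded positive definite matrices with bounded inverses -/
def PB (Λ : ℝ) (A : Mx) : Prop := A.PosDef ∧ ∀ p q, |A p q| ≤ Λ ∧ |A⁻¹ p q| ≤ Λ

section fam

variable {I : Type} {δ w : I → ℝ} {A A' X X' : I → Mx} {Λ : ℝ}

theorem PB.lm (h : ∀ i, PB Λ (A i)) (h' : ∀ i, PB Λ (A' i)) (k : ∀ i p q, |A i p q - A' i p q| ≤ δ i) :
    LM δ (fun _ => 1) A A' ∧ LM δ (fun _ => 1) (fun i => (A i)⁻¹) (fun i => (A' i)⁻¹) ∧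
      Lp δ (fun _ => 1) (fun i => √(A i).det) (fun i => √(A' i).det) ∧
      Lp δ (fun _ => 1) (fun i => (√(A i).det)⁻¹) fun i => (√(A' i).det)⁻¹ := by
  have a : LM δ (fun _ => 1) A A' := fun p q =>
    Lp.of_le (fun i => ((h i).2 p q).1) (fun i => ((h' i).2 p q).1) fun i => k i p q
  exact ⟨a, a.inv (fun i => (h i).1.det_pos.ne') (fun i => (h' i).1.det_pos.ne')
    (fun i p q => ((h i).2 p q).2) fun i p q => ((h' i).2 p q).2,
    a.sqrt_det (fun i => (h i).1.det_pos) (fun i => (h' i).1.det_pos)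
    (fun i p q => ((h i).2 p q).2) fun i p q => ((h' i).2 p q).2⟩

theorem PB.lm0 (h : ∀ i, PB Λ (A i)) :
    LM δ (fun _ => 1) A A ∧ LM δ (fun _ => 1) (fun i => (A i)⁻¹) (fun i => (A i)⁻¹) ∧
      Lp δ (fun _ => 1) (fun i => √(A i).det) fun i => √(A i).det := by
  obtain ⟨a, b, c, -⟩ := PB.lm (δ := fun _ => 0) h h fun i p q => by simp
  exact ⟨fun p q => .refl (a p q).l, fun p q => .refl (b p q).l, .refl c.l⟩

theorem LM.trg (a : LM δ (fun _ => 1) A A')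
    (b : LM δ (fun _ => 1) (fun i => (A i)⁻¹) fun i => (A' i)⁻¹) (c : LM δ w X X') :
    LM δ w (fun i => TRg (A i) (X i)) fun i => TRg (A' i) (X' i) := fun p q =>
  (c p q).sub (((Lp.const (1 / 2)).mul (b.tr2 c)).mul' (a p q))

end fam

theorem mul3 (Λ : ℝ) : ∃ C : ℝ, 0 < C ∧ ∀ (b G G' ψ : Mx) (δ P : ℝ), PB Λ b → PB Λ G → PB Λ G' →
    (∀ p q, |ψ p q| ≤ P) → (∀ p q, |G p q - G' p q| ≤ δ) → ∀ p q,
      |TRg G ((√b.det / √G.det) • (G * b⁻¹ * ψ * b⁻¹ * G)) p q -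
        TRg G' ((√b.det / √G'.det) • (G' * b⁻¹ * ψ * b⁻¹ * G')) p q| ≤ C * δ * P := by
  let I := {t : Mx × Mx × Mx × Mx × ℝ × ℝ // PB Λ t.1 ∧ PB Λ t.2.1 ∧ PB Λ t.2.2.1 ∧
    (∀ p q, |t.2.2.2.1 p q| ≤ t.2.2.2.2.2) ∧ ∀ p q, |t.2.1 p q - t.2.2.1 p q| ≤ t.2.2.2.2.1}
  obtain ⟨-, b2, b3⟩ := PB.lm0 (I := I) (δ := fun i => i.1.2.2.2.2.1) fun i => i.2.1
  obtain ⟨g1, g2, -, g4⟩ := PB.lm (I := I) (fun i => i.2.2.1) (fun i => i.2.2.2.1)
    fun i => i.2.2.2.2.2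
  have p : LM (fun i : I => i.1.2.2.2.2.1) (fun i => i.1.2.2.2.2.2) (fun i => i.1.2.2.2.1)
      fun i => i.1.2.2.2.1 := fun p q => .refl (ob_le fun i => i.2.2.2.2.1 p q)
  have := g1.trg g2 (LM.smul (b3.mul g4) ((((g1.mul b2).mul p).mul' b2).mul' g1))
  obtain ⟨C, hC, h⟩ := ob_unif fun k : Fin 4 × Fin 4 => (this k.1 k.2).d
  refine ⟨C, hC, fun b G G' ψ δ P h1 h2 h3 h4 h5 p q => ?_⟩
  have := h (p, q) ⟨(b, G, G', ψ, δ, P), h1, h2, h3, h4, h5⟩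
  rw [abs_of_nonneg (mul_nonneg ((abs_nonneg _).trans (h4 p q)) ((abs_nonneg _).trans (h5 p q)))]
    at this
  rw [mul_assoc C, mul_comm δ]
  exact this

/-- **leaf MUL** -/
theorem mul : MUL := by
  refine ⟨mul1, mul2, fun Λ => ?_⟩
  obtain ⟨C, hC, h⟩ := mul3 Λ
  exact ⟨C, hC, fun b G G' ψ x δ P h1 h2 h3 h4 h5 h6 => h _ _ _ _ δ P ⟨h1, h4 b (by simp)⟩
    ⟨h2, h4 G (by simp)⟩ ⟨h3, h4 G' (by simp)⟩ h5 h6⟩

theorem co_alg (Λ : ℝ) : ∃ C : ℝ, 0 < C ∧ ∀ (b g J K : Mx) (e : ℝ), PB Λ b → PB Λ g →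
    (∀ p q, |J p q| ≤ e) → (∀ p q, |K p q| ≤ e) → ∀ i j p q p' q',
      |(((1 / 2) * √b.det * tr2 (fun p q => b⁻¹ p q) (fun p q => J p q) * g⁻¹ i j +
          √b.det * -up (fun p q => g⁻¹ p q) (fun p q => K p q) i j) * b⁻¹ p p' +
          √b.det * g⁻¹ i j * -up (fun p q => b⁻¹ p q) (fun p q => J p q) p p') * b⁻¹ q q' +
        √b.det * g⁻¹ i j * b⁻¹ p p' * -up (fun p q => b⁻¹ p q) (fun p q => J p q) q q'| ≤ C * e := by
  let I := {t : Mx × Mx × Mx × Mx × ℝ // PB Λ t.1 ∧ PB Λ t.2.1 ∧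
    (∀ p q, |t.2.2.1 p q| ≤ t.2.2.2.2) ∧ ∀ p q, |t.2.2.2.1 p q| ≤ t.2.2.2.2}
  obtain ⟨-, b2, b3⟩ := PB.lm0 (I := I) (δ := fun _ => 0) fun i => i.2.1
  obtain ⟨-, g2, -⟩ := PB.lm0 (I := I) (δ := fun _ => 0) fun i => i.2.2.1
  have j1 : LM (fun _ : I => 0) (fun i => i.1.2.2.2.2) (fun i => i.1.2.2.1) fun i => i.1.2.2.1 :=
    fun p q => .refl (ob_le fun i => i.2.2.2.1 p q)
  have k1 : LM (fun _ : I => 0) (fun i => i.1.2.2.2.2) (fun i => i.1.2.2.2.1)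
      fun i => i.1.2.2.2.1 := fun p q => .refl (ob_le fun i => i.2.2.2.2 p q)
  obtain ⟨C, hC, h⟩ := ob_unif fun k : Fin 4 × Fin 4 × Fin 4 × Fin 4 × Fin 4 × Fin 4 =>
    ((((((((Lp.const (1 / 2)).mul b3).mul (b2.tr2 j1)).mul' (g2 k.1 k.2.1)).add
      (b3.mul (g2.up k1 k.1 k.2.1).neg)).mul' (b2 k.2.2.1 k.2.2.2.2.1)).add
      ((b3.mul (g2 k.1 k.2.1)).mul (b2.up j1 k.2.2.1 k.2.2.2.2.1).neg)).mul'
      (b2 k.2.2.2.1 k.2.2.2.2.2) |>.add (((b3.mul (g2 k.1 k.2.1)).mul (b2 k.2.2.1 k.2.2.2.2.1)).mul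
      (b2.up j1 k.2.2.2.1 k.2.2.2.2.2).neg)).l
  refine ⟨C, hC, fun b g J K e h1 h2 h3 h4 i j p q p' q' => ?_⟩
  have := h (i, j, p, q, p', q') ⟨(b, g, J, K, e), h1, h2, h3, h4⟩
  rwa [abs_of_nonneg ((abs_nonneg _).trans (h3 p q))] at this

theorem co2 (Λ : ℝ) : ∃ C : ℝ, 0 < C ∧ ∀ (b b' : Mx) (δ : ℝ), PB Λ b → PB Λ b' →
    (∀ p q, |b p q - b' p q| ≤ δ) → ∀ p q p' q',
      |√b.det * b⁻¹ p p' * b⁻¹ q q' - √b'.det * b'⁻¹ p p' * b'⁻¹ q q'| ≤ C * δ := by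
  let I := {t : Mx × Mx × ℝ // PB Λ t.1 ∧ PB Λ t.2.1 ∧ ∀ p q, |t.1 p q - t.2.1 p q| ≤ t.2.2}
  obtain ⟨-, g2, g3, -⟩ := PB.lm (I := I) (fun i => i.2.1) (fun i => i.2.2.1) fun i => i.2.2.2
  obtain ⟨C, hC, h⟩ := ob_unif fun k : Fin 4 × Fin 4 × Fin 4 × Fin 4 =>
    ((g3.mul (g2 k.1 k.2.2.1)).mul (g2 k.2.1 k.2.2.2)).d
  refine ⟨C, hC, fun b b' δ h1 h2 h3 p q p' q' => ?_⟩
  have := h (p, q, p', q') ⟨(b, b', δ), h1, h2, h3⟩
  rwa [one_mul, abs_of_nonneg ((abs_nonneg _).trans (h3 p q))] at this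

theorem abs_pd_le (f : E4 → ℝ) (x : E4) (m : Fin 4) :
    |pderiv m f x| ≤ ‖iteratedFDeriv ℝ 1 f x‖ := by
  rw [norm_iteratedFDeriv_one]
  simpa [pderiv] using (fderiv ℝ f x).le_opNorm (EuclideanSpace.single m (1 : ℝ))

/-- **leaf CO** -/
theorem co : CO := fun Λ => by
  obtain ⟨C1, h1, k1⟩ := co_alg Λ
  obtain ⟨C2, h2, k2⟩ := co2 Λ
  refine ⟨C1 + C2, by positivity, fun U b g x r e hb hg hx hr h m i j p q p' q' => ?_,
    fun b b' x δ hb hb' h k p q p' q' => ?_⟩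
  · have jt : ∀ H ∈ [b, g], ∀ p q, |(r • Matrix.of (jet H x m) : Mx) p q| ≤ e := fun H hH p q => by
      rw [Matrix.smul_apply, smul_eq_mul, abs_mul, abs_of_pos hr]
      exact (mul_le_mul_of_nonneg_left (abs_pd_le _ x m) hr.le).trans (h H hH p q).2.2
    have := k1 (b x) (g x) _ _ e
      ⟨hb.posDef x hx, fun p q => ⟨(h b (by simp) p q).1, (h b (by simp) p q).2.1⟩⟩
      ⟨hg.posDef x hx, fun p q => ⟨(h g (by simp) p q).1, (h g (by simp) p q).2.1⟩⟩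
      (jt b (by simp)) (jt g (by simp)) i j p q p' q'
    have d := (((ln_sq hb hx m).fun_mul (ln_iv hg hx m i j)).fun_mul (ln_iv hb hx m p p')).fun_mul
      (ln_iv hb hx m q q')
    have df : DifferentiableAt ℝ (cf b g i j p q p' q') x :=
      (((d_sq hb hx).fun_mul (dA_ap2 (d_iv hg hx) i j)).fun_mul (dA_ap2 (d_iv hb hx) p p')).fun_mul
        (dA_ap2 (d_iv hb hx) q q')
    have e0 : 0 ≤ e := (abs_nonneg _).trans (jt b (by simp) p q)
    rw [pd_eq df d, ← abs_of_pos hr, ← abs_mul]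
    refine le_trans (le_of_eq ?_) (this.trans (by nlinarith))
    congr 1
    simp only [ln_zero, Pi.neg_apply, iv, Lg.sq, tr2, up, Matrix.smul_apply, Matrix.of_apply,
      smul_eq_mul, mul_left_comm _ r, mul_assoc r, ← mul_sum]
    ring
  · have e0 : 0 ≤ δ := (abs_nonneg _).trans (k p q)
    exact (k2 (b x) (b' x) δ ⟨hb, h b (by simp)⟩ ⟨hb', h b' (by simp)⟩ k p q p' q').trans
      (by nlinarith)

end Crest.Agent.N207.NS

end
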