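import Crest.Agent.N207.N.Tol1

/-!
# Row 207, block N (helper39): the leaf `TOL`
-/

set_option autoImplicit false

open scoped ContDiff Topology
open Metric Set Filter MeasureTheory
open Crest.GeometryTopology.CoordMetric
open Crest.Agent.N207.I Crest.Agent.N207.Lg Crest.Agent.N207.CB

noncomputable section

namespace Crest.Agent.N207.NS

variable {M : Type*} {T : TD M} {L : T.V → ℝ} {v : T.V} {s : T.S} {x y : E4} {d : ℝ} {X : Fam T}
  {g : T.V → Fam T}

namespace Tl

theorem exists_cpt (h : T.Ok) (v : T.V) (d : ℝ) (s : T.S) : ∃ K, IsCompact K ∧ K ⊆ (T.core v).U s ∧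
    ∀ L, ∀ x ∈ W1 T L s, Rl T v s → Dp T v d s (al L v s • x) → al L v s • x ∈ K := by
  have hr := h.r_pos
  have cp : ∀ a b : ℝ, IsCompact {x : E4 | a ≤ ‖x‖ ∧ ‖x‖ ≤ b} := fun a b =>
    (isCompact_closedBall (0 : E4) b).of_isClosed_subset
      ((isClosed_le continuous_const continuous_norm).inter
        (isClosed_le continuous_norm continuous_const)) fun x hx => mem_closedBall_zero_iff.2 hx.2
  by_cases r : Rl T v s
  · rcases r.cases h with ⟨a, rfl, rfl⟩ | rfl | ⟨w, rfl, h1, rfl, h2⟩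
    · refine ⟨closedBall 0 (13 / 8), isCompact_closedBall _ _, fun x hx => TD.mem_core_inl.2
        ⟨rfl, by linarith [mem_closedBall_zero_iff.1 hx]⟩, fun L x hx _ _ => ?_⟩
      rw [al_inl, one_smul]; exact ball_subset_closedBall hx
    · refine ⟨_, cp (21 / 16) (Real.exp d), fun x hx => TD.mem_core_out.2 (by linarith [hx.1]),
        fun L x hx _ hd => ?_⟩
      rw [al_out, one_smul] at hd ⊢
      exact ⟨hx.1.le, (dp_out (by linarith [hx.1])).1 hd⟩
    · refine ⟨_, cp (Real.exp (-d)) (27 / 32 * T.r), fun x hx => (TD.mem_core_inn h2).2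
        ⟨⟨h1, rfl⟩, (Real.exp_pos _).trans_le hx.1, by linarith [hx.2]⟩, fun L x hx r hd => ?_⟩
      have := ((TD.mem_core_inn h2).1 (r.mem h (W1_U h _ hx))).2.1
      refine ⟨(dp_inn h2 this).1 hd, ?_⟩
      rw [al_inn h2]; exact (TD.nrm_exp_lt.2 (hx.2 h1)).le
  · exact ⟨∅, isCompact_empty, empty_subset _, fun L x _ r' => absurd r' r⟩

theorem not_dp_ev (hy : y ∈ (T.core v).U s) (hd : ¬ Dp T v d s y) :
    ∀ᶠ z in 𝓝 y, ¬ Dp T v d s z := by
  simp only [Dp, not_forall, not_le] at hd ⊢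
  obtain ⟨w, rfl, hw⟩ := hd
  have h0 : ‖y‖ ≠ 0 := norm_ne_zero_iff.2 (Ga.core_ne hy)
  have c : ContinuousAt (tau T v w d) y := by
    unfold tau
    split_ifs
    exacts [(continuous_norm.continuousAt.log h0).sub continuousAt_const,
      (continuous_norm.continuousAt.log h0).neg.sub continuousAt_const]
  exact (c.eventually (lt_mem_nhds hw)).mono fun z hz => ⟨w, rfl, hz⟩

theorem jet_bd (h : T.Ok) (hX : CB.Sec T v X) (hV : Van T v d 0 X) (s : T.S) (k : ℕ) (a b : Fin 4) :
    ∃ P : ℝ, ∀ L, ∀ x ∈ W1 T L s,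
      scl T s x ^ k * ‖iteratedFDeriv ℝ k (fun y => (toL T L v X s y - (0 : Fam T) s y) a b) x‖ ≤ P := by
  obtain ⟨K, hK, hU, hm⟩ := exists_cpt h v d s
  have ho := (h.core_ok v).isOpen s
  have c1 : Continuous (scl T s) := by
    rcases s with a | w
    exacts [continuous_const, continuous_norm]
  have c2 : ContinuousOn (iteratedFDeriv ℝ k fun y => X s y a b) K := fun y hy =>
    (((hX.sec.sm s ![a, b]).contDiffAt (ho.mem_nhds (hU hy))).continuousAt_iteratedFDeriv
      (by exact_mod_cast le_top)).continuousWithinAt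
  obtain ⟨P, hP⟩ := hK.exists_bound_of_continuousOn ((c1.pow k).continuousOn.mul c2.norm)
  refine ⟨|P|, fun L x hx => ?_⟩
  have hx' := W1_U h s hx
  have og : (T.glob L).U s ∈ 𝓝 x := by
    rcases s with a | w
    exacts [isOpen_ball.mem_nhds hx', (TD.glob_open w).mem_nhds hx']
  have z : ∀ f : E4 → ℝ, f =ᶠ[𝓝 x] (fun _ => 0) → scl T s x ^ k * ‖iteratedFDeriv ℝ k f x‖ ≤ |P| :=
    fun f e => by
      rw [(e.iteratedFDeriv ℝ k).eq_of_nhds, iteratedFDeriv_fun_zero]
      simp
  by_cases r : Rl T v s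
  · have e : (fun y => (toL T L v X s y - (0 : Fam T) s y) a b) =ᶠ[𝓝 x]
        fun y => X s (al L v s • y) a b := by
      filter_upwards [og] with y hy
      simp [r.toL h X hy]
    by_cases hd : Dp T v d s (al L v s • x)
    · rw [(e.iteratedFDeriv ℝ k).eq_of_nhds]
      have h1 := norm_iter_smul (fun y => X s y a b) (al_pos (L := L) (v := v) (s := s)) k x
      have h2 := (le_abs_self _).trans ((hP _ (hm L x hx r hd)).trans (le_abs_self P))
      simp only [Pi.mul_apply, Pi.pow_apply, scl_al, mul_pow] at h2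
      have h3 : 0 ≤ scl T s x ^ k := pow_nonneg (zero_le_one.trans (one_le_scl s hx')) k
      nlinarith [mul_le_mul_of_nonneg_left h1 h3]
    · refine z _ (e.trans ?_)
      have c : ContinuousAt (fun y : E4 => al L v s • y) x := by fun_prop
      filter_upwards [og, c.eventually (not_dp_ev (r.mem h hx') hd)] with y h1 h2
      rw [van_of hV (r.mem h h1) h2]; rfl
  · exact z _ (Eventually.of_forall fun y => by simp [toL_of_not r])

theorem ip_zero {G A : MetricField 4} (S : Tn 4 2) (h0 : A x = 0) : ip G (matT A) S x = 0 := by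
  simp [ip, ipA, matT, h0]

theorem ip_eq {G G' A A' B B' : MetricField 4} (h1 : G x = G' y) (h2 : A x = A' y)
    (h3 : B x = B' y) : ip G (matT A) (matT B) x = ip G' (matT A') (matT B') y := by
  simp only [ip, ipA, matT, h1, h2, h3]

theorem Big.prL (h : T.Ok) (B : Big T L d) (hV : Van T v d 0 X) {T0 : ℝ} (hT : d ≤ T0)
    (hl : Lng T (2 * T0 + 1) L) (k : Fam T) :
    prL T L (gbL T g T0 L) v (toL T L v X) k = T.eps L v ^ 2 * pair T g v X (loc T L v k) := by
  simp only [NS.prL, intL, pair, Atl.int, Finset.mul_sum]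
  refine Finset.sum_congr rfl fun s _ => ?_
  by_cases r : Rl T v s
  · have := B.int_tr h r
      (F := fun x => sq (gbL T g T0 L s) x * ip (gbL T g T0 L s) (matT (toL T L v X s)) (matT (k s)) x)
      (F' := fun y => sq (g v s) y * ip (g v s) (matT (X s)) (matT (loc T L v k s)) y)
      (fun x hx hd => by
        rw [ip_zero _ (toL_supp h hV hx fun i => hd ((inK_iff h).1 i).2), mul_zero])
      (fun y hy hd => by rw [ip_zero _ (van_of hV hy hd), mul_zero])
      (fun x hx hd => by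
        rw [ip_eq (r.gbL h g hT hl hx hd) (r.toL h X hx) (r.loc h k x).symm]
        simp only [Lg.sq, r.gbL h g hT hl hx hd])
    have e : sr T L v s = al L v s ^ 2 := by
      rw [sr, r.ep h, mul_div_cancel_left₀ _ (TD.eps_pos L v).ne']
    simp only [Atl.den, mul_assoc, mul_left_comm _ (sr T L v s), integral_const_mul]
    rw [e, r.ep h]
    change _ = _ * ((Nat.card (T.grp s) : ℝ)⁻¹ * ∫ y in (T.core v).U s, T.χ s ((T.core v).c s y) *
      (sq (g v s) y * ip (g v s) (matT (X s)) (matT (loc T L v k s)) y))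
    rw [← this]; ring
  · have e : (T.core v).U s = ∅ := eq_empty_of_forall_notMem fun y hy => r (rl_of_mem hy)
    simp [e, ip_zero _ (toL_of_not r X _)]

theorem Big.pair_gb (h : T.Ok) (B : Big T L d) (hV : Van T v d 0 X) {T0 : ℝ} (hT : d ≤ T0)
    (hl : Lng T (2 * T0 + 1) L) :
    pair T g v X (loc T L v (gbL T g T0 L)) = pair T g v X (g v) := by
  refine Finset.sum_congr rfl fun s _ => setIntegral_congr_fun
    ((h.core_ok v).isOpen s).measurableSet fun y hy => ?_
  by_cases hd : Dp T v d s y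
  · have r := rl_of_mem hy
    have e : al L v s • (al L v s)⁻¹ • y = y := smul_inv_smul₀ al_pos.ne' y
    have h1 := r.loc (L := L) h (gbL T g T0 L) ((al L v s)⁻¹ • y)
    rw [r.gbL h g hT hl (B.glob h (by rwa [e]) (by rwa [e])).1 (by rwa [e]), e] at h1
    simp only [ip_eq (G := g v s) (A := X s) rfl rfl h1]
  · simp only [ip_zero _ (van_of hV hy hd)]

end Tl

open Tl

/-- **leaf TOL** -/
theorem tol (H : Std T g) : TOL T g := by
  intro κ _ _ ψ c η C hG
  have h := H.ok
  have hr := h.r_pos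
  have hV : ∀ v j, Van T v (c + 1) 0 (ψ v j) := hG.psi.supp
  choose P hP using fun (p : (Σ v, κ v) × T.S × Fin 2 × Fin 4 × Fin 4) =>
    jet_bd h (hG.psi.sec p.1.1 p.1.2) (hV _ _) p.2.1 p.2.2.1 p.2.2.2.1 p.2.2.2.2
  obtain ⟨B1, hB1⟩ := (finite_range P).bddAbove
  obtain ⟨B2, hB2⟩ :=
    (finite_range fun j : Σ v, κ v => |pair T g j.1 (ψ j.1 j.2) (g j.1)|).bddAbove
  have p1 : 0 < 16 / T.r := by positivity
  refine ⟨|B1| + |B2| + 1, |c + 1| + 16 / T.r + 1, by positivity, fun T0 hT L hL v j => ?_⟩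
  have a0 := abs_nonneg (c + 1)
  have B : Big T L (c + 1) := big_of h (by linarith) hL
  have hT' : c + 1 ≤ T0 := by linarith [le_abs_self (c + 1)]
  have hl : Lng T (2 * T0 + 1) L := fun w hw => by linarith [hL w hw]
  refine ⟨B.toL_sec h (hG.psi.sec v j) (hV v j), fun s x hx => ?_,
    fun s x hx => toL_supp h (hV v j) hx, fun s x hx k hk a b => ?_, ?_,
    fun k _ => B.prL h (hV v j) hT' hl k, ?_⟩
  · by_cases r : Rl T v s
    · rw [r.toL h _ hx]; exact (hG.psi.sec v j).symm s _ (r.mem h hx)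
    · rw [toL_of_not r]; exact Matrix.isSymm_zero
  · have := hP (⟨v, j⟩, s, ⟨k, by omega⟩, a, b) L x hx
    linarith [hB1 ⟨(⟨v, j⟩, s, ⟨k, by omega⟩, a, b), rfl⟩, le_abs_self B1, abs_nonneg B2]
  · obtain ⟨σ, h1, h2⟩ := hG.eig v j
    refine ⟨σ, h1, fun s x hx => ?_⟩
    by_cases i : InK T L v (c + 1) s x
    · obtain ⟨r, hd⟩ := (inK_iff h).1 i
      rw [r.toL h _ hx, r.gbL h g hT' hl hx hd]
      exact h2 s _ (r.mem h hx)
    · rw [toL_supp h (hV v j) hx i]
      simp [TRg, tr2]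
  · rw [B.pair_gb h (hV v j) hT' hl]
    linarith [hB2 ⟨⟨v, j⟩, rfl⟩, le_abs_self B2, abs_nonneg B1]

end Crest.Agent.N207.NS

end
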