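import Crest.Agent.N207.N.Har
import Crest.Agent.N207.N.Gb
import Crest.Agent.N207.N.Gr0
import Crest.Agent.N207.M.Scl
import Crest.Agent.N207.I.Cal3

/-!
# Row 207, block N (helper98): the leaf `XC`
-/

set_option autoImplicit false

open scoped ContDiff Topology
open Metric Set Filter MeasureTheory
open Crest.GeometryTopology.CoordMetric Crest.Agent.R202.Tens
open Crest.Agent.N207.I Crest.Agent.N207.Lg Crest.Agent.N207.CB

noncomputable section

namespace Crest.Agent.N207.NS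

namespace Xc

theorem ipA_up {k : ℕ} {H : Matrix (Fin 4) (Fin 4) ℝ} {Λ : ℝ} (h : ∀ p q, |H p q| ≤ Λ)
    (B : Arr 4 k) : ipA H B B ≤ (4 * Λ) ^ k * ∑ I, B I ^ 2 := by
  have h1 : ∀ I J : Fin k → Fin 4, (∏ s, H (I s) (J s)) * (B I * B J) ≤
      Λ ^ k * (B I ^ 2 / 2 + B J ^ 2 / 2) := fun I J => by
    have a1 : |∏ s, H (I s) (J s)| ≤ Λ ^ k := by
      rw [Finset.abs_prod]
      simpa using Finset.prod_le_prod (s := Finset.univ) (fun s _ => abs_nonneg (H (I s) (J s)))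
        fun s _ => h (I s) (J s)
    refine (le_abs_self _).trans ((abs_mul _ _).trans_le (mul_le_mul a1 (abs_le.2 ⟨?_, ?_⟩)
      (abs_nonneg _) ((abs_nonneg _).trans a1)))
    · nlinarith [sq_nonneg (B I + B J)]
    · nlinarith [sq_nonneg (B I - B J)]
  refine (Finset.sum_le_sum fun I _ => Finset.sum_le_sum fun J _ => h1 I J).trans_eq ?_
  simp only [← Finset.mul_sum, Finset.sum_add_distrib, Finset.sum_const, Finset.card_univ,
    Fintype.card_fun, Fintype.card_fin, nsmul_eq_mul, ← Finset.sum_div]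
  push_cast
  rw [mul_pow]; ring

theorem bil_up {H : Matrix (Fin 4) (Fin 4) ℝ} {Λ : ℝ} (h : ∀ p q, |H p q| ≤ Λ) (v : E4) :
    bil H v v ≤ 4 * Λ * ‖v‖ ^ 2 := by
  have h1 : ∀ i j, H i j * v i * v j ≤ Λ * (v i ^ 2 / 2 + v j ^ 2 / 2) := fun i j => by
    rw [mul_assoc]
    refine (le_abs_self _).trans ((abs_mul _ _).trans_le (mul_le_mul (h i j) (abs_le.2 ⟨?_, ?_⟩)
      (abs_nonneg _) ((abs_nonneg _).trans (h i j))))
    · nlinarith [sq_nonneg (v i + v j)]
    · nlinarith [sq_nonneg (v i - v j)]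
  rw [bil_apply, Hd.norm_sq_eq]
  refine (Finset.sum_le_sum fun i _ => Finset.sum_le_sum fun j _ => h1 i j).trans_eq ?_
  simp only [Fin.sum_univ_four]; ring

theorem sum3 (f : (Fin 3 → Fin 4) → ℝ) : ∑ I, f I = ∑ a, ∑ b, ∑ l, f ![l, a, b] := by
  rw [← (Fin.consEquiv fun _ : Fin 3 => Fin 4).sum_comp, Fintype.sum_prod_type, Finset.sum_comm,
    ← (piFinTwoEquiv fun _ => Fin 4).symm.sum_comp, Fintype.sum_prod_type]
  rfl

theorem sum2 (k : MetricField 4) (x : E4) : ∑ I, matT k x I ^ 2 = e0 k x := by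
  rw [← (piFinTwoEquiv fun _ => Fin 4).symm.sum_comp, Fintype.sum_prod_type]
  rfl

theorem chr_up {G : MetricField 4} {x : E4} {Λ ρ : ℝ} (hρ : 0 < ρ) (h1 : ∀ p q, |(G x)⁻¹ p q| ≤ Λ)
    (h2 : ∀ p q, ρ * ‖iteratedFDeriv ℝ 1 (fun y => G y p q) x‖ ≤ Λ) (m i j : Fin 4) :
    |christoffel G x m i j| ≤ 6 * Λ ^ 2 / ρ := by
  have h3 : ∀ l p q, |pderiv l (fun y => G y p q) x| ≤ Λ / ρ := fun l p q => by
    have a := (fderiv ℝ (fun y => G y p q) x).le_opNorm (EuclideanSpace.single l 1)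
    rw [PiLp.norm_single, norm_one, mul_one, ← norm_iteratedFDeriv_one] at a
    exact a.trans ((le_div_iff₀' hρ).2 (h2 p q))
  have h4 : ∀ l, |inverseField G x m l * (pderiv i (fun y => G y j l) x +
      pderiv j (fun y => G y i l) x - pderiv l (fun y => G y i j) x)| ≤ Λ * (3 * (Λ / ρ)) :=
    fun l => (abs_mul _ _).trans_le (mul_le_mul (h1 m l) (abs_le.2 ⟨by
      linarith [abs_le.1 (h3 i j l), abs_le.1 (h3 j i l), abs_le.1 (h3 l i j)], by
      linarith [abs_le.1 (h3 i j l), abs_le.1 (h3 j i l), abs_le.1 (h3 l i j)]⟩) (abs_nonneg _)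
        ((abs_nonneg _).trans (h1 m l)))
  have h5 := (Finset.abs_sum_le_sum_abs _ _).trans (Finset.sum_le_sum fun l (_ : l ∈ Finset.univ) => h4 l)
  rw [christoffel, abs_mul, abs_of_pos (by norm_num : (0 : ℝ) < 1 / 2)]
  simp only [Finset.sum_const, Finset.card_univ, Fintype.card_fin, nsmul_eq_mul] at h5
  have e : 6 * Λ ^ 2 / ρ = 1 / 2 * ((4 : ℕ) * (Λ * (3 * (Λ / ρ)))) := by push_cast; ring
  rw [e]; linarith

theorem cov_cmp {G k : MetricField 4} {x : E4} {c : ℝ} (h : ∀ m i j, |christoffel G x m i j| ≤ c) :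
    ∑ I, cov G (matT k) x I ^ 2 ≤ 2 * e1 k x + 8192 * c ^ 2 * e0 k x ∧
      e1 k x ≤ 2 * ∑ I, cov G (matT k) x I ^ 2 + 8192 * c ^ 2 * e0 k x := by
  have h0 : ∀ p q, |k x p q| ≤ √(e0 k x) := fun p q => Real.abs_le_sqrt
    ((Finset.single_le_sum (f := fun b => k x p b ^ 2) (fun _ _ => sq_nonneg _)
      (Finset.mem_univ q)).trans (Finset.single_le_sum (f := fun a => ∑ b, k x a b ^ 2)
        (fun _ _ => by positivity) (Finset.mem_univ p)))
  have h1 : ∀ (i j : Fin 4) (f : Fin 4 → ℝ), (∀ m, |f m| ≤ √(e0 k x)) →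
      |∑ m, christoffel G x m i j * f m| ≤ 4 * (c * √(e0 k x)) := fun i j f hf => by
    simpa using (Finset.abs_sum_le_sum_abs _ _).trans (Finset.sum_le_sum
      fun m (_ : m ∈ Finset.univ) => (abs_mul _ _).trans_le
        (mul_le_mul (h m i j) (hf m) (abs_nonneg _) ((abs_nonneg _).trans (h m i j))))
  have h2 : ∀ l a b, (cov G (matT k) x ![l, a, b] - pderiv l (fun y => k y a b) x) ^ 2 ≤
      64 * c ^ 2 * e0 k x := fun l a b => by
    have a1 := abs_le.1 (h1 l a _ fun m => h0 m b)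
    have a2 := abs_le.1 (h1 l b _ fun m => h0 a m)
    have a3 := cov_two G (matT k) x l a b
    simp only [matT, Matrix.cons_val_zero, Matrix.cons_val_one] at a3
    refine (sq_le_sq' (b := 8 * (c * √(e0 k x))) ?_ ?_).trans_eq ?_
    · erw [a3]; linarith
    · erw [a3]; linarith
    · rw [mul_pow, mul_pow, Real.sq_sqrt (Hr.e0_nn _ _)]; ring
  have h3 : ∀ u v : Fin 4 → Fin 4 → Fin 4 → ℝ, (∀ l a b, (u l a b - v l a b) ^ 2 ≤
      64 * c ^ 2 * e0 k x) → ∑ a, ∑ b, ∑ l, u l a b ^ 2 ≤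
        2 * ∑ a, ∑ b, ∑ l, v l a b ^ 2 + 8192 * c ^ 2 * e0 k x := fun u v huv => by
    refine (Finset.sum_le_sum fun a _ => Finset.sum_le_sum fun b _ => Finset.sum_le_sum fun l _ =>
      show u l a b ^ 2 ≤ 2 * v l a b ^ 2 + 128 * c ^ 2 * e0 k x by
        nlinarith [huv l a b, sq_nonneg (u l a b - 2 * v l a b)]).trans_eq ?_
    simp only [Finset.sum_add_distrib, ← Finset.mul_sum, Finset.sum_const, Finset.card_univ,
      Fintype.card_fin, nsmul_eq_mul]
    push_cast; ring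
  rw [sum3]
  exact ⟨h3 _ _ h2, h3 _ _ fun l a b => by rw [← neg_sub, neg_sq]; exact h2 l a b⟩

/-- the invariant energy density and the flat one are comparable -/
theorem pt (Λ E : ℝ) (hΛ : 1 ≤ Λ) (hE : 1 ≤ E) : ∃ D : ℝ, 0 < D ∧ ∀ (G k : MetricField 4) (x : E4)
    (ρ w : ℝ), 0 < ρ → (G x).PosDef → (∀ p q, |G x p q| ≤ Λ ∧ |(G x)⁻¹ p q| ≤ Λ) →
    Λ⁻¹ ≤ sq G x → sq G x ≤ Λ → (∀ p q, ρ * ‖iteratedFDeriv ℝ 1 (fun y => G y p q) x‖ ≤ Λ) →
    (ρ ^ 2)⁻¹ ≤ E * w → w ≤ E * (ρ ^ 2)⁻¹ →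
    e1 k x + e0 k x / ρ ^ 2 ≤ D * (sq G x * (nsq G (cov G (matT k)) x + w * nsq G (matT k) x)) ∧
    sq G x * (nsq G (cov G (matT k)) x + w * nsq G (matT k) x) ≤ D * (e1 k x + e0 k x / ρ ^ 2) := by
  obtain ⟨A, hA⟩ : ∃ A, A = (4 * Λ) ^ 3 := ⟨_, rfl⟩
  obtain ⟨B, hB⟩ : ∃ B, B = 8192 * (6 * Λ ^ 2) ^ 2 + 2 := ⟨_, rfl⟩
  have A1 : 1 ≤ A := hA ▸ one_le_pow₀ (by linarith)
  have A2 : (4 * Λ) ^ 2 ≤ A := hA ▸ pow_le_pow_right₀ (by linarith) (by norm_num)
  have B2 : 2 ≤ B := by rw [hB]; linarith [show 0 ≤ 8192 * (6 * Λ ^ 2) ^ 2 by positivity]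
  refine ⟨Λ * (A * (B + E) * E), by positivity, fun G k x ρ w hρ hG h1 h2 h3 h4 h5 h6 => ?_⟩
  obtain ⟨c1, c2⟩ := cov_cmp (k := k) (chr_up hρ (fun p q => (h1 p q).2) h4)
  have u3 : nsq G (cov G (matT k)) x ≤ _ := ipA_up (fun p q => (h1 p q).2) (cov G (matT k) x)
  have u2 : nsq G (matT k) x ≤ _ := ipA_up (fun p q => (h1 p q).2) (matT k x)
  have l3 : _ ≤ _ * nsq G (cov G (matT k)) x :=
    Ar.sum_sq_le_ipA hG (by positivity) (bil_up fun p q => (h1 p q).1) (cov G (matT k) x)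
  have l2 : _ ≤ _ * nsq G (matT k) x :=
    Ar.sum_sq_le_ipA hG (by positivity) (bil_up fun p q => (h1 p q).1) (matT k x)
  have n3 : 0 ≤ nsq G (cov G (matT k)) x := Ar.ipA_nonneg hG (cov G (matT k) x)
  have n2 : 0 ≤ nsq G (matT k) x := Ar.ipA_nonneg hG (matT k x)
  have p0 := Hr.e0_nn k x
  have p1 := Hr.e1_nn k x
  have pr : 0 < (ρ ^ 2)⁻¹ := by positivity
  have pw : 0 < w := (mul_pos_iff_of_pos_left (by linarith)).1 (pr.trans_le h5)
  have e : 8192 * (6 * Λ ^ 2 / ρ) ^ 2 * e0 k x = (B - 2) * ((ρ ^ 2)⁻¹ * e0 k x) := by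
    rw [hB]; field_simp; ring
  rw [sum2] at u2 l2
  rw [← hA] at u3 l3
  rw [e] at c1 c2
  rw [div_eq_inv_mul]
  replace u2 := u2.trans (mul_le_mul_of_nonneg_right A2 p0)
  replace l2 := l2.trans (mul_le_mul_of_nonneg_right A2 n2)
  generalize nsq G (cov G (matT k)) x = a3 at *
  generalize nsq G (matT k) x = a2 at *
  generalize ∑ I, cov G (matT k) x I ^ 2 = S at *
  have q1 : (ρ ^ 2)⁻¹ * e0 k x ≤ E * A * (w * a2) :=
    (mul_le_mul h5 l2 p0 (by positivity)).trans_eq (by ring)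
  have q2 : w * a2 ≤ E * A * ((ρ ^ 2)⁻¹ * e0 k x) :=
    (mul_le_mul h6 u2 n2 (by positivity)).trans_eq (by ring)
  have q0 := mul_nonneg pr.le p0
  have q3 := mul_nonneg pw.le n2
  generalize (ρ ^ 2)⁻¹ * e0 k x = z at *
  generalize w * a2 = y at *
  have K0 := mul_le_mul_of_nonneg_left hE (show 0 ≤ A * (B + E) by positivity)
  have K1 : 2 * A ≤ A * (B + E) * E := by nlinarith
  have K2 : (B - 1) * (E * A) ≤ A * (B + E) * E := by
    nlinarith [mul_pos (by linarith : 0 < A) (by linarith : 0 < E)]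
  have K3 : A * (B - 2) + E * A ≤ A * (B + E) * E := by nlinarith
  constructor
  · have r1 : e1 k x + z ≤ A * (B + E) * E * (a3 + y) := by
      nlinarith [mul_le_mul_of_nonneg_left q1 (show 0 ≤ B - 1 by linarith),
        mul_le_mul_of_nonneg_right K1 n3, mul_le_mul_of_nonneg_right K2 q3]
    have r2 : 1 ≤ Λ * sq G x := by rwa [inv_le_iff_one_le_mul₀' (by linarith)] at h2
    calc _ ≤ _ := r1
      _ ≤ Λ * sq G x * (A * (B + E) * E * (a3 + y)) := le_mul_of_one_le_left (by positivity) r2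
      _ = _ := by ring
  · have r1 : a3 + y ≤ A * (B + E) * E * (e1 k x + z) := by
      nlinarith [mul_le_mul_of_nonneg_left c1 (show 0 ≤ A by linarith),
        mul_le_mul_of_nonneg_right K1 p1, mul_le_mul_of_nonneg_right K3 q0]
    exact (mul_le_mul h3 r1 (by positivity) (by linarith)).trans_eq (by ring)

end Xc

open Xc

variable {M : Type*} {T : TD M} {g : T.V → Fam T}

/-- **leaf XC** -/
theorem xc (h : Std T g) : XC T := by
  obtain ⟨T1, hG⟩ := gb' h
  obtain ⟨_, hG⟩ := hG 0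
  obtain ⟨δ, Λ, T2, hδ, hΛ, hE⟩ := ell h
  obtain ⟨D0, l0, hD0, hl⟩ := N207.M.exists_scf h.ok (A := 4 / T.r) (τ := 1) le_rfl one_pos
  obtain ⟨D, hD, hp⟩ := pt Λ (Real.exp (2 * D0)) hΛ (Real.one_le_exp (by positivity))
  obtain ⟨n, hn⟩ : ∃ n : ℝ, n = ∑ s, (Nat.card (T.grp s) : ℝ) := ⟨_, rfl⟩
  have n0 : 0 ≤ n := by rw [hn]; positivity
  refine ⟨D * D * n + 1, max (2 * max T1 T2 + max T1 T2) l0, by positivity, fun L hL k hk hd => ?_⟩
  have hL1 := hL.mono (le_max_left _ _)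
  obtain ⟨hL', hm, -⟩ := (hG _ (le_max_left T1 T2)).2 L (hL1.mono (by linarith [le_max_left T1 T2]))
  replace hE := hE _ (le_max_right T1 T2) L (hL1.mono (by linarith [le_max_right T1 T2]))
  obtain ⟨l, hl⟩ := hl L ⟨hL', hL.mono (le_max_right _ _)⟩
  generalize gbL T g (max T1 T2) L = H at hm hE
  have ok := gl1_ok h.ok hL'
  have pou := gl1_pou h.ok hL'
  have hm1 : (gl1 T L).IsMet (rt T L H) := ⟨fun s => ⟨U1_open s, fun p q =>
    ((hm.riem s).contDiffOn p q).mono (U1_U h.ok s), fun x hx => (hm.riem s).posDef x (U1_U h.ok s hx)⟩,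
    Ga.res_compat (U1_U h.ok) hm.compat⟩
  have hI := Hr.int_K1 h.ok (fun s a b => (sm_of_rt (hk.sm s) a b).of_le (by simp)) hd
  have hI' : ∀ s, IntegrableOn (fun x => e1 (k s) x + e0 (k s) x / scl T s x ^ 2) (K1 T L s) :=
    fun s => (hI s).1.add (hI s).2
  refine ⟨hI', ?_⟩
  have hc := hk.cov ok hm1
  let f : T.S → E4 → ℝ := fun s x => nsq (rt T L H s) (cov (rt T L H s) (matT (rt T L k s))) x +
    Real.exp (-2 * l s x) * nsq (rt T L H s) (matT (rt T L k s)) x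
  have ef : ∀ s x, √(rt T L H s x).det * f s x = ep T L s ^ 2 * (sq (H s) x *
      (nsq (H s) (cov (H s) (matT (k s))) x + ep T L s ^ 2 * Real.exp (-2 * l s x) *
        nsq (H s) (matT (k s)) x)) := fun s x => by
    have e0 := (ep_pos L s).ne'
    have e1 : matT (rt T L k s) = ep T L s ^ 2 • matT (k s) := rfl
    have e2 : rt T L H s = fun y => ep T L s ^ 2 • H s y := rfl
    have e3 := pow_ne_zero 2 e0
    simp only [f, e1, e2, N207.M.cov_smul_met e3, N207.M.nsq_smul_met e3, N207.M.sqrt_det_smul,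
      cov_smul]
    simp only [nsq, ip, Pi.smul_apply, Ar.ipA_smul_left, Ar.ipA_smul_right, Lg.sq]
    field_simp
    ring_nf
    field_simp
  have key : ∀ s, ∀ x ∈ U1 T L s, ep T L s ^ 2 * (e1 (k s) x + e0 (k s) x / scl T s x ^ 2) ≤
      D * (√(rt T L H s x).det * f s x) ∧ √(rt T L H s x).det * f s x ≤
        D * (ep T L s ^ 2 * (e1 (k s) x + e0 (k s) x / scl T s x ^ 2)) := fun s x hx => by
    have a0 := U1_U h.ok s hx
    have a1 := (riem_of_rt hm s).posDef x a0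
    obtain ⟨b1, b2, b3, -, b4⟩ := hE H s x (U1_W1 h.ok s hx) a1 fun p q => by simpa using hδ.le
    have a2 : 0 < scl T s x := one_pos.trans_le (one_le_scl s a0)
    have a3 := abs_le.1 (hl.cmp s x a0)
    have a4 := ep_pos L s
    have a5 : (scl T s x ^ 2)⁻¹ = ep T L s ^ 2 * Real.exp (-2 * Real.log (Sk.rw T L s x)) := by
      have : Sk.rw T L s x = ep T L s * scl T s x := by cases s <;> rfl
      rw [this, neg_mul, Real.exp_neg, two_mul, Real.exp_add, Real.exp_log (by positivity)]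
      field_simp
    have a6 : ∀ u v : ℝ, u ≤ 2 * D0 + v → ep T L s ^ 2 * Real.exp u ≤
        Real.exp (2 * D0) * (ep T L s ^ 2 * Real.exp v) := fun u v huv => by
      rw [mul_left_comm, ← Real.exp_add]; gcongr
    obtain ⟨c1, c2⟩ := hp (H s) (k s) x _ (ep T L s ^ 2 * Real.exp (-2 * l s x)) a2 a1 b1 b2 b3
      (by simpa only [pow_one] using b4 1 (by norm_num)) (by rw [a5]; exact a6 _ _ (by linarith))
      (by rw [a5]; exact a6 _ _ (by linarith))
    rw [ef]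
    exact ⟨(mul_le_mul_of_nonneg_left c1 (sq_nonneg (ep T L s))).trans_eq (by ring),
      (mul_le_mul_of_nonneg_left c2 (sq_nonneg (ep T L s))).trans_eq (by ring)⟩
  have ct : (gl1 T L).Ct f := fun s => (hc.ct_ip hm1 hc s).add
    ((continuousOn_const.mul ((hl.sm s).continuousOn.mono (U1_U h.ok s))).rexp.mul (hk.ct_ip hm1 hk s))
  have n1 : ∀ s, ∀ x ∈ (gl1 T L).U s, ∀ (m : ℕ) (S : Tn 4 m), 0 ≤ nsq (rt T L H s) S x :=
    fun s x hx _ S => Ar.ipA_nonneg ((hm1.riem s).posDef x hx) (S x)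
  have nn : ∀ s, ∀ x ∈ (gl1 T L).U s, 0 ≤ f s x := fun s x hx =>
    add_nonneg (n1 s x hx _ _) (mul_nonneg (Real.exp_pos _).le (n1 s x hx _ _))
  have j := fun s => (Hr.int_chi h.ok hL' s ((hI' s).mono_set (gK_K1 h.ok s))).1
  have bd : ∀ s, ∀ x ∈ U1 T L s, (gl1 T L).den T.χ (rt T L H) s x * f s x ≤ D * (ep T L s ^ 2 *
      ((Nat.card (T.grp s) : ℝ)⁻¹ * (T.χ s ((T.glob L).c s x) *
        (e1 (k s) x + e0 (k s) x / scl T s x ^ 2)))) := fun s x hx => by
    have := mul_le_mul_of_nonneg_left (key s x hx).2 (mul_nonneg (Hr.card_inv_le h.ok hL' s).1.le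
      (TD.χ_nonneg s ((T.glob L).c s x)))
    exact le_of_eq_of_le (by simp only [Atl.den, gl1, TD.glob]; ring) (this.trans_eq (by ring))
  have ig : (gl1 T L).Intg T.χ (rt T L H) f := fun s => by
    refine Integrable.mono' (μ := volume.restrict (U1 T L s))
      ((((j s).const_mul (Nat.card (T.grp s) : ℝ)⁻¹).const_mul (ep T L s ^ 2)).const_mul D)
      (((Atl.sm_den hm1 pou s).continuousOn.mul (ct s)).aestronglyMeasurable
        (U1_open s).measurableSet) ((ae_restrict_mem (U1_open s).measurableSet).mono fun x hx => ?_)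
    rw [Real.norm_of_nonneg (mul_nonneg (Atl.den_nonneg pou s x) (nn s x hx))]
    exact bd s x hx
  have up : (gl1 T L).int T.χ (rt T L H) f ≤
      D * intL T L fun s x => e1 (k s) x + e0 (k s) x / scl T s x ^ 2 := by
    rw [intL, Finset.mul_sum]
    refine Finset.sum_le_sum fun s _ => ?_
    rw [← integral_const_mul, ← integral_const_mul, ← integral_const_mul]
    exact setIntegral_mono_on (ig s) ((((j s).const_mul _).const_mul _).const_mul D)
      (U1_open s).measurableSet (bd s)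
  have i0 := Atl.int_nonneg (G := rt T L H) ok pou nn
  have lo : En T L k ≤ D * n * (gl1 T L).int T.χ (rt T L H) f := by
    rw [En, hn, Finset.mul_sum, Finset.sum_mul]
    refine Finset.sum_le_sum fun s _ => ?_
    obtain ⟨a1, a2⟩ := Atl.int_U_le ok hm1 pou ((hc.compat.nsq ok hm1).map₂
      ((Ga.res_compF (U1_U h.ok) hl.comp).map₂ (hk.compat.nsq ok hm1)
        fun u v => Real.exp (-2 * u) * v) (· + ·)) (ct.ms ok) nn ig s
    rw [← integral_const_mul, mul_assoc]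
    refine le_trans ?_ (mul_le_mul_of_nonneg_left a2 hD.le)
    rw [← integral_const_mul]
    refine (setIntegral_mono_on ((hI' s).const_mul _)
      (IntegrableOn.mono_set (a1.const_mul D) (K1_U1 h.ok s))
      (K1_closed s).measurableSet fun x hx => (key s x (K1_U1 h.ok s hx)).1).trans
      (setIntegral_mono_set (a1.const_mul D) ((ae_restrict_mem (U1_open s).measurableSet).mono
        fun x hx => mul_nonneg hD.le (mul_nonneg (Real.sqrt_nonneg _) (nn s x hx)))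
        (K1_U1 h.ok s).eventuallyLE)
  have i1 := (mul_nonneg_iff_of_pos_left hD).1 (i0.trans up)
  nlinarith [mul_le_mul_of_nonneg_left up (show 0 ≤ D * n by positivity)]

end Crest.Agent.N207.NS

end
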