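import Crest.Agent.N207.N.Cmp3
import Crest.Agent.N207.N.Cmpj
import Crest.Agent.N207.N.Cmpd
import Crest.Agent.N207.N.Chi
import Crest.Agent.N207.N.Mul
import Crest.Agent.N207.N.Dif
import Crest.Agent.N207.N.Gb
import Crest.Agent.N207.N.Har
import Crest.Agent.N207.N.Locg
import Crest.Agent.N207.N.Xc
import Crest.Agent.N207.N.Tol

/-!
# Row 207, block N (helper4): `CMP` modulo the multiplier bound
-/

set_option autoImplicit false

open Crest.Agent.N207.I Crest.Agent.N207.CB

noncomputable section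

namespace Crest.Agent.N207.NS.Cp

variable {M : Type*} {T : TD M} {g : T.V → Fam T}

theorem cmp_muh (h : Std T g)
    (hM : ∀ (κ : T.V → Type) [∀ v, Fintype (κ v)] [∀ v, DecidableEq (κ v)] (ψ : ∀ v, κ v → Fam T)
      (c η C : ℝ), 2 ≤ c → Real.exp (-c) ≤ T.r / 8 → 0 < η → Good T g κ ψ c η C →
      Tol T g κ ψ c → MUH T g κ ψ c) : CMP T g :=
  cmp_of h (jets h co (chi h) dif (ell h) (gb' h)) (chi h) (har h) (locg h) (xc h)
    fun κ _ _ ψ c η C a b e hg => ⟨hM κ ψ c η C a b e hg (tol h κ ψ c η C hg),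
      prd h co (chi h) (vol h) (ell h) (gb' h) (tol h κ ψ c η C hg)⟩

end Crest.Agent.N207.NS.Cp

end
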