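import Crest.Agent.N207.N.Cmp1

/-!
# Row 207, block N (helper4): `CMP`, the pointwise package (statement)
-/

set_option autoImplicit false

open Crest.GeometryTopology.CoordMetric
open Crest.Agent.N207.I Crest.Agent.N207.Lg Crest.Agent.N207.CB

noncomputable section

namespace Crest.Agent.N207.NS.Cp

variable {M : Type*} (T : TD M)

open Classical in
/-- the weight: `1` near the cores, `θ` on the necks -/
def wθ (L : T.V → ℝ) (c θ : ℝ) (s : T.S) (x : E4) : ℝ := if x ∈ Cor T L c s then 1 else θ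

/-- the pointwise bounds used in the energy identity -/
structure Pw (L : T.V → ℝ) (Λ C c θ : ℝ) (b g1 g2 : Fam T) : Prop where
  mb : ∀ s, ∀ x ∈ U1 T L s, Mb Λ (b s) x
  mg : ∀ s, ∀ x ∈ U1 T L s, Mb Λ (g1 s) x
  dif : ∀ s, ∀ x ∈ U1 T L s, ∀ p q,
    |redT (b s) (g1 s) x ![p, q] - redT (b s) (g2 s) x ![p, q] +
        (1 / 2) * Lq (g1 s) (g1 s - g2 s) x p q| ≤
      C * wθ T L c θ s x *
        (√(e1 (g1 s - g2 s) x) / scl T s x + √(e0 (g1 s - g2 s) x) / scl T s x ^ 2)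
  co : ∀ s, ∀ x ∈ U1 T L s, ∀ a i, scl T s x *
    |pderiv i (fun y => T.χ s ((T.glob L).c s y) * c6 (b s) (g1 s) a y) x| ≤ C * wθ T L c θ s x

/-- the jets package -/
def JETS (g : T.V → Fam T) : Prop := ∃ Λ C : ℝ, 1 ≤ Λ ∧ 0 < C ∧ ∀ θ : ℝ, 0 < θ → θ ≤ 1 →
  ∃ c0 δ T1 : ℝ, 0 < δ ∧ ∀ c, c0 ≤ c → ∀ T0, T1 ≤ T0 → ∀ L, Lng T (2 * T0 + T1) L →
    ∀ b g1 g2 : Fam T, Adm T g T0 L δ b → Adm T g T0 L δ g1 → Adm T g T0 L δ g2 →
      Pw T L Λ C c θ b g1 g2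

end Crest.Agent.N207.NS.Cp

end
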