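import Crest.Agent.N207.N.Cmpg2
import Crest.Agent.N207.N.Har

/-!
# Row 207, block N (helper38): `Cmpg`, comparison of a gauged metric with the family
-/

set_option autoImplicit false

open scoped ContDiff Topology
open Metric Set Filter MeasureTheory
open Crest.GeometryTopology.CoordMetric
open Crest.Agent.N207.I Crest.Agent.N207.Lg Crest.Agent.N207.CB

noncomputable section

namespace Crest.Agent.N207.NS

namespace Cg

variable {M : Type*} {T : TD M} {L L' : T.V → ℝ}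

theorem nid_mono {δ δ' : ℝ} {u : T.S → E4 → E4} (h : NId T L L' δ u) (e : δ ≤ δ') :
    NId T L L' δ' u := ⟨h.sm, h.maps, h.compat, fun s x hx k hk => (h.near s x hx k hk).trans
      (mul_le_mul_of_nonneg_right e (scl_nn s x)), h.dec⟩

theorem en_int (c : Ch T L) {H H' : Fam T} (h : Met1 T L H) (h' : Met1 T L H')
    (d : DecR T (3 / 2) H) (d' : DecR T (3 / 2) H') (s : T.S) :
    IntegrableOn (en T (H - H') s) (K1 T L s) := by
  have := Hr.int_K1 c.ok (k := H - H') (fun s a b => (h.sm_sub h' s a b).of_le (by simp))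
    (dec_sub h h' d d') s
  exact this.1.add this.2

theorem fin_alg {S A a1 a2 f e m B C1 C2 C3 K R E : ℝ} (h1 : 0 ≤ C1) (h2 : 0 ≤ C2) (h3 : 0 ≤ C3)
    (hK : 0 ≤ K) (hR : 0 ≤ R) (hE : 0 ≤ E) (he : 0 ≤ e) (hm : 0 ≤ m) {r : ℝ} (hr : r ≤ R * E)
    (k0 : e + m ≤ C1 * (r + 0)) (k1 : a1 = S) (k2 : a2 = A) (k3 : |a2 - a1 - f| ≤ C2 * e)
    (k4 : |f| ≤ K * (e + r)) (k5 : B ≤ C3 * e) :
    |S - A| ≤ ((C2 + K + C3 + 1) * (C1 * R) + K * R + 1) * E ∧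
      m ≤ ((C2 + K + C3 + 1) * (C1 * R) + K * R + 1) * E ∧
      B ≤ ((C2 + K + C3 + 1) * (C1 * R) + K * R + 1) * E := by
  subst k1 k2
  have e1 : e + m ≤ C1 * R * E := by
    rw [add_zero] at k0; rw [mul_assoc]; exact k0.trans (mul_le_mul_of_nonneg_left hr h1)
  generalize hD : C1 * R * E = D at e1
  have e2 : ((C2 + K + C3 + 1) * (C1 * R) + K * R + 1) * E =
      C2 * D + K * D + C3 * D + D + K * (R * E) + E := by rw [← hD]; ring
  have e3 : e ≤ D := by linarith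
  have p2 := mul_le_mul_of_nonneg_left e3 h2
  have p3 := mul_le_mul_of_nonneg_left e3 h3
  have p4 := mul_le_mul_of_nonneg_left e3 hK
  have p5 := mul_le_mul_of_nonneg_left hr hK
  have q2 := mul_nonneg h2 he
  have q3 := mul_nonneg h3 he
  have q4 := mul_nonneg hK he
  have q5 := mul_nonneg hK (mul_nonneg hR hE)
  rw [e2, mul_add] at *
  rw [abs_le] at k3 k4 ⊢
  refine ⟨⟨?_, ?_⟩, ?_, ?_⟩ <;> linarith [k3.1, k3.2, k4.1, k4.2]

end Cg

open Cg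

variable {M : Type*} {T : TD M} {g : T.V → Fam T}

theorem cmpg (h : Std T g) (hM : MUL) (hC : CHI T) (hG : GB T g) (hE : ELL T g) (hP : PULL T g)
    (hP2 : PULL2 T) (hI : INT T) (hA : ACT T) (hT : TAY T g) {κ : T.V → Type}
    [∀ v, Fintype (κ v)] {ψ : ∀ v, κ v → Fam T} {d : ℝ} (hc : Cmp T g κ ψ d)
    (ht : Tol T g κ ψ d) : Cmpg T g κ ψ := by
  obtain ⟨T1, hC⟩ := hC.ch h.ok
  obtain ⟨δ2, C2, T2, hδ2, hC2, hT⟩ := hT
  obtain ⟨T3, hG⟩ := hG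
  obtain ⟨C3, hG⟩ := hG 0
  obtain ⟨δ4, Λ, T4, hδ4, hΛ, hE⟩ := hE
  obtain ⟨δ5, C5, T5, hδ5, hC5, hP⟩ := hP
  obtain ⟨δ6, C6, T6, hδ6, hC6, hP2⟩ := hP2
  obtain ⟨P, T7, hP7, ht⟩ := ht
  obtain ⟨δ8, T8, hδ8, hI⟩ := hI
  obtain ⟨δ9, C9, T9, hδ9, hC9, hc⟩ := hc
  obtain ⟨CM, hCM, hM3⟩ := hM.2.2 Λ
  obtain ⟨Cg, hCg, hg⟩ := gau_le (2 * Λ)
  obtain ⟨Tm, m0, m1, m2, m3, m4, m5, m6, m7, m8, m9⟩ : ∃ Tm : ℝ, 0 ≤ Tm ∧ T1 ≤ Tm ∧ T2 ≤ Tm ∧
      T3 ≤ Tm ∧ T4 ≤ Tm ∧ T5 ≤ Tm ∧ T6 ≤ Tm ∧ T7 ≤ Tm ∧ T8 ≤ Tm ∧ T9 ≤ Tm :=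
    ⟨max 0 (max T1 (max T2 (max T3 (max T4 (max T5 (max T6 (max T7 (max T8 T9)))))))), by simp⟩
  have hΛ0 : 0 < Λ := by linarith
  obtain ⟨η, hη, n2, n4, n9, nΛ⟩ : ∃ η : ℝ, 0 < η ∧ η ≤ δ2 ∧ η ≤ δ4 ∧ η ≤ δ9 ∧ η ≤ Λ :=
    ⟨min δ2 (min δ4 (min δ9 Λ)), by positivity, by simp⟩
  obtain ⟨δ, hδ, dK, d5, d6, d8⟩ : ∃ δ : ℝ, 0 < δ ∧ δ * (4 + 5 * C5 + C6 * P * (4 * CM + 1)) ≤ η ∧
      δ ≤ δ5 ∧ δ ≤ δ6 ∧ δ ≤ δ8 :=
    ⟨min (η / (4 + 5 * C5 + C6 * P * (4 * CM + 1))) (min δ5 (min δ6 δ8)), by positivity,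
      (le_div_iff₀ (by positivity)).1 (min_le_left _ _), by simp⟩
  have q1 : 0 ≤ C5 * δ := by positivity
  have q2 : 0 ≤ C6 * δ * P := by positivity
  have q3 : 0 ≤ C6 * (CM * (4 * δ) * P) := by positivity
  have a1 : 4 * δ ≤ η := by linarith
  have a2 : C5 * (4 * δ) + C5 * δ ≤ η := by linarith
  have a3 : C6 * (CM * (4 * δ) * P) + C6 * δ * P ≤ η := by linarith
  refine ⟨δ, Tm, hδ, fun T0 h0 => ⟨(C2 + 192 * (2 * Λ) ^ 3 + Cg + 1) * (C9 * (1024 * Λ ^ 3)) +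
    192 * (2 * Λ) ^ 3 * (1024 * Λ ^ 3) + 1, by positivity,
    fun L hL G u E μ G' hGm hF hn hu hz hE0 hEE hS => ?_⟩⟩
  have c := hC L (hL.mono (by linarith))
  have hb0 := ((hG T0 (by linarith)).2 L (hL.mono (by linarith))).2.1
  have hE : EB T g T0 L δ4 Λ := hE T0 (by linarith) L (hL.mono (by linarith))
  have hE' : EB T g T0 L η Λ := fun H s x hx k1 k2 => hE H s x hx k1 fun p q => (k2 p q).trans n4
  obtain ⟨p1, p2, p3, p4, p5, p6, p7⟩ := hP T0 (by linarith) L L (hL.mono (by linarith))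
    (hL.mono (by linarith)) δ u d5 hu
  have hP2 : PB2 T L u C6 δ := hP2 L L (hL.mono (by linarith)) (hL.mono (by linarith)) δ u d6 hu
  have hI : Ct.Inv T L u := hI L L (hL.mono (by linarith)) (hL.mono (by linarith)) u
    (nid_mono hu d8)
  have ht := ht T0 (by linarith) L (hL.mono (by linarith))
  have hT := hT T0 (by linarith) L (hL.mono (by linarith))
  have hc := hc T0 (by linarith) L (hL.mono (by linarith))
  clear hC hG hP
  have pb0 := p2 _ hb0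
  have pG := p2 _ (ls_met hS)
  have A0 : Adm T g T0 L η (gbL T g T0 L) := gb_adm c hb0 hη.le
  have A' : Adm T g T0 L η G' := (ls_adm c hS).mono a1
  have Ab : Adm T g T0 L η (pb T L L u (gbL T g T0 L)) :=
    ⟨pb0.1, (p4 rfl).mono (by linarith), dec_mono p6 (by norm_num)⟩
  have A1 : Adm T g T0 L η (T.nrm L G) := (Ct.adm_flat c hGm hF hn).mono (by linarith)
  have A2 : Adm T g T0 L η (pb T L L u G') := by
    refine ⟨pG.1, Cls.mono (Cls.add ?_ (p4 rfl) c.op1 (pG.1.sm_sub pb0.1)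
      (pb0.1.sm_sub A0.met)) a2, p5 _ (ls_met hS) (ls_dec hS)⟩
    rw [pb_self, pb_self]
    exact p3 _ _ _ (fun s a b => (((riem_of_rt (ls_met hS) s).contDiffOn a b).sub
      ((riem_of_rt hb0 s).contDiffOn a b)).mono (c.W1_U s)) (ls_cls c hS)
  have bd := fun {H : Fam T} (k : Adm T g T0 L η H) => adm_bd c hE' A0.met nΛ k
  choose σ hσ t5 using fun j : Σ v, κ v => (ht j.1 j.2).2.2.2.2.1
  have r1 := ric_bd c A1.met hΛ0 (fun s x hx => ⟨fun p q => ((bd A1 s hx).1 p q).1,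
    (bd A1 s hx).2.1⟩) (Ct.ric_EE c hGm hEE)
  have key := hc _ _ _ (fun s y => Matrix.of fun p q => ricT (T.nrm L G s) y ![p, q])
    (fun j s x => σ j • pm (u s) (PsT (gbL T g T0 L s) (G' s) (toL T L j.1 (ψ j.1 j.2) s)) x)
    (fun j => pb T L L u (toL T L j.1 (ψ j.1 j.2))) (fun j => σ j * μ j)
    (Ab.mono n9) (A1.mono n9) (A2.mono n9)
    (fun j => Prt.mono (prt_pp hM c hu.maps hP2 hb0 (ls_met hS) (hσ j) (ht j.1 j.2).1
      (ht j.1 j.2).2.2.1 (ht j.1 j.2).2.2.2.1 (t5 j) (η := CM * (4 * δ) * P) fun s x hx => by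
        have z0 := (riem_of_rt hb0 s).posDef x (c.W1_U s hx)
        have z1 := (riem_of_rt (ls_met hS) s).posDef x (c.W1_U s hx)
        have y0 := (hE' _ s x hx z0 fun p q => by simpa using hη.le).1
        have y1 := (hE' _ s x hx z1 fun p q => ((ls_cls c hS).val hx p q).trans a1).1
        exact hM3 _ _ _ _ x _ _ z0 z1 z0 (by simpa using ⟨y0, y1, y0⟩)
          (fun p q => by simpa using (ht j.1 j.2).2.2.2.1.val hx p q) ((ls_cls c hS).val hx))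
      (a3.trans n9))
    (fun j => Prt.mono (prt_pb c hu.maps hP2 (ht j.1 j.2).1 (ht j.1 j.2).2.2.1
      (ht j.1 j.2).2.2.2.1) (by linarith))
    (fun s x hx i j => eqn c hσ pb0.2 pG.2 hz
      (fun s x hx => ls_red hM hb0 (fun v j => (ht v j).2.1) hS s hx) s hx i j) r1.1
  have z1 : ∑ j : Σ v, κ v, (prL T L (pb T L L u (gbL T g T0 L)) j.1
      (pb T L L u (toL T L j.1 (ψ j.1 j.2))) (T.nrm L G - pb T L L u G') / T.eps L j.1) ^ 2 = 0 :=
    Finset.sum_eq_zero fun j _ => by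
      rw [Ct.prl_zero c hI hb0 p1 pb0 (fun s => (hP2 0 0 s).2.2.2 rfl) A1.met hS j (ht j.1 j.2).1
        (ht j.1 j.2).2.2.1 (ht j.1 j.2).2.2.2.2.2.1]
      simp
  have z2 : ∑ j : Σ v, κ v, T.eps L j.1 ^ 2 * (σ j * μ j) ^ 2 = mu2 T κ L μ :=
    Finset.sum_congr rfl fun j _ => by rcases hσ j with e | e <;> simp [e]
  rw [z1, z2] at key
  have hs : ∀ s, ∀ x ∈ U1 T L s, 0 < scl T s x := fun s x hx =>
    one_pos.trans_le (c.cell s x (c.U1_W1 s hx)).1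
  have i12 := en_int c A1.met A2.met A1.dec A2.dec
  have hz' : ∀ s, ∀ x ∈ U1 T L s, gauT (pb T L L u (gbL T g T0 L) s) (T.nrm L G s) x = 0 := by
    rw [pb_self]; exact hz
  have gl : ∀ {b g1 g2 : Fam T}, Adm T g T0 L η b → Adm T g T0 L η g1 → Adm T g T0 L η g2 →
      (∀ s, ∀ x ∈ U1 T L s, gauT (b s) (g1 s) x = 0) → ∀ s, ∀ x ∈ U1 T L s,
      gau (sq (g2 s) x) (iv (g2 s) x) (TG (b s) (g2 s) x) ≤ Cg * en T (g2 - g1) s x :=
    fun k0 k1 k2 k s x hx => (le_abs_self _).trans (hg _ _ _ _ x _ (k0.met.riem s) (k1.met.riem s)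
      (k2.met.riem s) hx (hs s x hx) (List.forall_mem_cons.2 ⟨(bd k0 s hx).1,
        List.forall_mem_cons.2 ⟨(bd k1 s hx).1, List.forall_mem_singleton.2 (bd k2 s hx).1⟩⟩) (bd k2 s hx).2.2 (k s x hx))
  have k5 := Ct.bb_bound c hI hCg.le hb0 (ls_met hS) pb0 pG A1.met
    (en_int c A'.met A0.met A'.dec A0.dec) i12
    (gl A0 A0 A' fun s x hx => (Lg.C2.of_riem (A0.met.riem s) hx).gauT_self)
    (by rw [← en_symm]; exact gl Ab A1 A2 hz')
  obtain ⟨f1, k4⟩ := Ct.fv_bound c (C := 192 * (2 * Λ) ^ 3) (by positivity) Ab.met A1.met A2.met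
    r1.1 i12 fun s x hx => by
      have e1 : redT (pb T L L u (gbL T g T0 L) s) (T.nrm L G s) x = ricT (T.nrm L G s) x :=
        redT_of_gauT (by filter_upwards [(c.op1 s).mem_nhds hx] with y hy using hz' s y hy)
      have e2 := fv_le (s := sq (T.nrm L G s) x) (H := iv (T.nrm L G s) x)
        ((abs_of_nonneg (Real.sqrt_nonneg _)).trans_le (bd A1 s hx).2.2)
        (fun p q => ((bd A1 s hx).1 p q).2.1) (hs s x hx) (pb T L L u G' s - T.nrm L G s)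
        (fun y => Matrix.of fun p q => ricT (T.nrm L G s) y ![p, q]) x
      rw [fv, e1, ← en_symm]
      refine e2.trans (mul_le_mul_of_nonneg_left (add_le_add_left ?_ _) (by positivity))
      exact le_add_of_nonneg_left (e1_nn _ _)
  obtain ⟨l1, l2⟩ := (hA L c.long).1 _ G pb0.1 p6 p7 hGm hF
  have l3 : ∀ s, ∀ x ∈ U1 T L s, fgfF (pb T L L u (gbL T g T0 L) s) (T.nrm L G s) x =
      lagF (pb T L L u (gbL T g T0 L) s) (T.nrm L G s) x := fun s x hx => fgfF_of_gauT (hz' s x hx)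
  obtain ⟨-, k3⟩ := hT _ _ _ (Ab.mono n2) p7 (A1.mono n2) (A2.mono n2) (c.IntL_congr l1 l3) f1
  rw [En_symm] at k3
  exact fin_alg hC9.le hC2.le hCg.le (by positivity) (by positivity) (sq_nonneg E)
    (Finset.sum_nonneg fun s _ => mul_nonneg (sq_nonneg _) (integral_nonneg fun x =>
      add_nonneg (e1_nn _ _) (div_nonneg (e0_nn _ _) (sq_nonneg _))))
    (Finset.sum_nonneg fun j _ => by positivity) r1.2 key ((c.intL_congr l3).trans l2)
    (act_pb (c.ok.glob_ok c.long) c.op1 hb0 (ls_met hS) pb0.2 pG.2 hS.int hI).2 k3 k4 k5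

end Crest.Agent.N207.NS

end
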