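import Crest.Agent.N207.N.Thb
import Crest.Agent.N207.N.Mul
import Crest.Agent.N207.Lg.Hom
import Crest.Agent.N207.I.Met
import Crest.Agent.N207.A.Arr

/-!
# Row 207, block N (helper38): pointwise estimates for `Cmpg`
-/

set_option autoImplicit false

open scoped ContDiff Topology
open Metric Set Filter MeasureTheory
open Crest.GeometryTopology.CoordMetric
open Crest.Agent.N207.I Crest.Agent.N207.Lg Crest.Agent.N207.CB

noncomputable section

namespace Crest.Agent.N207.NS.Cg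

theorem cl_lp {I : Type} (δ : I → ℝ) : Lg.Cl (X := I × Bool) fun f : I × Bool → ℝ =>
    Lp δ (fun _ => 1) (fun i => f (i, true)) fun i => f (i, false) :=
  ⟨fun c => Lp.const c, fun h k => h.add k, fun h k => h.mul k⟩

theorem gv_lip (Λ : ℝ) : ∃ C : ℝ, 0 < C ∧ ∀ (b g g' : Mx) (π p p' : M3 (Fin 4) ℝ) (d : ℝ),
    PB Λ b → PB Λ g → PB Λ g' → (∀ a e, |g a e - g' a e| ≤ d) →
    (∀ c a e, |π c a e| ≤ Λ ∧ |p c a e| ≤ Λ ∧ |p' c a e| ≤ Λ ∧ |p c a e - p' c a e| ≤ d) → ∀ j,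
    |gv (fun a e => g⁻¹ a e) (bar (fun a e => g a e) p (chr (fun a e => b⁻¹ a e) π)) j -
      gv (fun a e => g'⁻¹ a e) (bar (fun a e => g' a e) p' (chr (fun a e => b⁻¹ a e) π)) j| ≤
      C * d := by
  let I := {t : Mx × Mx × Mx × M3 (Fin 4) ℝ × M3 (Fin 4) ℝ × M3 (Fin 4) ℝ × ℝ //
    PB Λ t.1 ∧ PB Λ t.2.1 ∧ PB Λ t.2.2.1 ∧ (∀ a e, |t.2.1 a e - t.2.2.1 a e| ≤ t.2.2.2.2.2.2) ∧
    ∀ c a e, |t.2.2.2.1 c a e| ≤ Λ ∧ |t.2.2.2.2.1 c a e| ≤ Λ ∧ |t.2.2.2.2.2.1 c a e| ≤ Λ ∧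
      |t.2.2.2.2.1 c a e - t.2.2.2.2.2.1 c a e| ≤ t.2.2.2.2.2.2}
  obtain ⟨-, b2, -⟩ := PB.lm0 (I := I) (δ := fun i => i.1.2.2.2.2.2.2) fun i => i.2.1
  obtain ⟨g1, g2, -⟩ := PB.lm (I := I) (fun i => i.2.2.1) (fun i => i.2.2.2.1)
    fun i => i.2.2.2.2.1
  have h := cl_lp (I := I) fun i => i.1.2.2.2.2.2.2
  have key := h.gv (H := fun z a e => (cond z.2 z.1.1.2.1 z.1.1.2.2.1)⁻¹ a e) g2
    (h.bar (g := fun z a e => cond z.2 z.1.1.2.1 z.1.1.2.2.1 a e)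
      (T := fun z => cond z.2 z.1.1.2.2.2.2.1 z.1.1.2.2.2.2.2.1) g1
      (fun c a e => Lp.of_le (fun i => (i.2.2.2.2.2 c a e).2.1) (fun i => (i.2.2.2.2.2 c a e).2.2.1)
        fun i => (i.2.2.2.2.2 c a e).2.2.2)
      (h.chr (H := fun z a e => (z.1.1.1)⁻¹ a e) (T := fun z => z.1.1.2.2.2.1) b2
        fun c a e => Lp.refl (ob_one fun i => (i.2.2.2.2.2 c a e).1)))
  obtain ⟨C, hC, k⟩ := ob_unif fun j => (key j).d
  refine ⟨C, hC, fun b g g' π p p' d h1 h2 h3 h4 h5 j => ?_⟩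
  have := k j ⟨(b, g, g', π, p, p', d), h1, h2, h3, h4, h5⟩
  rwa [one_mul, abs_of_nonneg ((abs_nonneg _).trans (h4 0 0))] at this

theorem abs_sum2_le {f : Fin 4 → Fin 4 → ℝ} {m : ℝ} (h : ∀ a b, |f a b| ≤ m) :
    |∑ a, ∑ b, f a b| ≤ 16 * m :=
  ((Finset.abs_sum_le_sum_abs _ _).trans (Finset.sum_le_sum fun a _ =>
    (Finset.abs_sum_le_sum_abs _ _).trans (Finset.sum_le_sum fun b _ => h a b))).trans_eq (by
      simp only [Finset.sum_const, Finset.card_univ, Fintype.card_fin, nsmul_eq_mul]; ring)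

theorem abs_mul_le' {x y a b : ℝ} (hx : |x| ≤ a) (hy : |y| ≤ b) : |x * y| ≤ a * b := by
  rw [abs_mul]; exact mul_le_mul hx hy (abs_nonneg _) ((abs_nonneg _).trans hx)

theorem e0_nonneg (k : MetricField 4) (x : E4) : 0 ≤ e0 k x := by unfold e0; positivity

theorem e1_nonneg (k : MetricField 4) (x : E4) : 0 ≤ e1 k x := by unfold e1 Hd.g2; positivity

theorem sq_le_e0 (k : MetricField 4) (x : E4) (a b : Fin 4) : k x a b ^ 2 ≤ e0 k x :=
  (Finset.single_le_sum (f := fun b => k x a b ^ 2) (fun _ _ => sq_nonneg _)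
    (Finset.mem_univ b)).trans (Finset.single_le_sum (f := fun a => ∑ b, k x a b ^ 2)
      (fun _ _ => by positivity) (Finset.mem_univ a))

theorem sq_le_e1 (k : MetricField 4) (x : E4) (c a b : Fin 4) : jet k x c a b ^ 2 ≤ e1 k x :=
  ((Finset.single_le_sum (f := fun c => jet k x c a b ^ 2) (fun _ _ => sq_nonneg _)
    (Finset.mem_univ c)).trans (Finset.single_le_sum (f := fun b => ∑ c, jet k x c a b ^ 2)
      (fun _ _ => by positivity) (Finset.mem_univ b))).trans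
    (Finset.single_le_sum (f := fun a => ∑ b, ∑ c, jet k x c a b ^ 2)
      (fun _ _ => by positivity) (Finset.mem_univ a))

/-- the gauge term is quadratic in the distance to a gauged metric -/
theorem gau_le (Λ : ℝ) : ∃ C : ℝ, 0 < C ∧ ∀ (U : Set E4) (b g1 g2 : MetricField 4) (x : E4) (r : ℝ),
    IsRiemannianOn b U → IsRiemannianOn g1 U → IsRiemannianOn g2 U → x ∈ U → 0 < r →
    (∀ H ∈ [b, g1, g2], ∀ p q, |H x p q| ≤ Λ ∧ |(H x)⁻¹ p q| ≤ Λ ∧
      r * ‖iteratedFDeriv ℝ 1 (fun y => H y p q) x‖ ≤ Λ) → sq g2 x ≤ Λ → gauT b g1 x = 0 →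
    |gau (sq g2 x) (iv g2 x) (TG b g2 x)| ≤ C * (e1 (g2 - g1) x + e0 (g2 - g1) x / r ^ 2) := by
  obtain ⟨C, hC, h⟩ := gv_lip Λ
  refine ⟨8 * Λ ^ 2 * C ^ 2 + 1, by positivity, fun U b g1 g2 x r hb h1 h2 hx hr hB hs h0 => ?_⟩
  have B0 := hB b (by simp)
  have B1 := hB g1 (by simp)
  have B2 := hB g2 (by simp)
  have hΛ : 0 ≤ Λ := (abs_nonneg _).trans (B0 0 0).1
  have p0 := e0_nonneg (g2 - g1) x
  have p1 := e1_nonneg (g2 - g1) x
  set Q := e1 (g2 - g1) x + e0 (g2 - g1) x / r ^ 2 with hQ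
  have hQ0 : 0 ≤ Q := by positivity
  have hj : ∀ H : MetricField 4, (∀ p q, r * ‖iteratedFDeriv ℝ 1 (fun y => H y p q) x‖ ≤ Λ) →
      ∀ c a e, |(r • jet H x) c a e| ≤ Λ := fun H hH c a e => by
    simp only [Pi.smul_apply, smul_eq_mul, abs_mul, abs_of_pos hr]
    exact (mul_le_mul_of_nonneg_left (abs_pd_le _ x c) hr.le).trans (hH a e)
  have hg : ∀ G : MetricField 4, ∀ j, gv (iv G x) (bar (G x) (r • jet G x)
      (chr (iv b x) (r • jet b x))) j = r * gv (iv G x) (TG b G x) j := fun G j => by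
    rw [chr_smul, ← chr_eq, bar_hom, ← TG_eq, gv_smul']; rfl
  have key : ∀ j, |gv (iv g2 x) (TG b g2 x) j| ≤ C * √Q := fun j => by
    have := h (b x) (g2 x) (g1 x) (r • jet b x) (r • jet g2 x) (r • jet g1 x) (r * √Q)
      ⟨hb.posDef x hx, fun p q => ⟨(B0 p q).1, (B0 p q).2.1⟩⟩
      ⟨h2.posDef x hx, fun p q => ⟨(B2 p q).1, (B2 p q).2.1⟩⟩
      ⟨h1.posDef x hx, fun p q => ⟨(B1 p q).1, (B1 p q).2.1⟩⟩ (fun a e => by
        rw [← Real.sqrt_sq hr.le, ← Real.sqrt_mul (sq_nonneg _)]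
        refine Real.abs_le_sqrt ((sq_le_e0 (g2 - g1) x a e).trans ?_)
        rw [hQ, mul_add, mul_div_cancel₀ _ (by positivity)]
        exact le_add_of_nonneg_left (by positivity))
      (fun c a e => ⟨hj b (fun p q => (B0 p q).2.2) c a e, hj g2 (fun p q => (B2 p q).2.2) c a e,
        hj g1 (fun p q => (B1 p q).2.2) c a e, by
          have e1 : (r • jet g2 x) c a e - (r • jet g1 x) c a e = r * jet (g2 - g1) x c a e := by
            rw [jet_sub (d_g h2 hx) (d_g h1 hx)]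
            simp only [Pi.smul_apply, smul_eq_mul, Pi.sub_apply]; ring
          rw [e1, abs_mul, abs_of_pos hr]
          refine mul_le_mul_of_nonneg_left (Real.abs_le_sqrt ((sq_le_e1 _ x c a e).trans ?_)) hr.le
          exact le_add_of_nonneg_right (by positivity)⟩) j
    have z : gv (iv g1 x) (TG b g1 x) j = 0 := by rw [← gauT_ap, h0]; rfl
    have e2 := hg g2 j
    have e1 := hg g1 j
    change |gv (iv g2 x) (bar (g2 x) _ (chr (iv b x) _)) j -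
      gv (iv g1 x) (bar (g1 x) _ (chr (iv b x) _)) j| ≤ _ at this
    rw [e1, e2, z, mul_zero, sub_zero, abs_mul, abs_of_pos hr, mul_left_comm] at this
    exact le_of_mul_le_mul_left this hr
  have e3 : |ip1 (iv g2 x) (gv (iv g2 x) (TG b g2 x)) (gv (iv g2 x) (TG b g2 x))| ≤
      16 * (Λ * (C * √Q * (C * √Q))) :=
    abs_sum2_le fun i j => abs_mul_le' (B2 i j).2.1 (abs_mul_le' (key i) (key j))
  have e4 : |1 / 2 * sq g2 x| ≤ 1 / 2 * Λ := by
    have : 0 ≤ sq g2 x := Real.sqrt_nonneg _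
    rw [abs_of_nonneg (by positivity)]; linarith
  refine (abs_mul_le' e4 e3).trans ?_
  have e5 : 1 / 2 * Λ * (16 * (Λ * (C * √Q * (C * √Q)))) = 8 * Λ ^ 2 * C ^ 2 * (√Q * √Q) := by ring
  rw [e5, Real.mul_self_sqrt hQ0, add_mul]
  linarith

/-- the first variation density -/
theorem fv_le {s Λ r : ℝ} {H : M2 (Fin 4) ℝ} (hs : |s| ≤ Λ) (hH : ∀ p q, |H p q| ≤ Λ) (hr : 0 < r)
    (k X : MetricField 4) (x : E4) :
    |tr2 (vG s H fun p q => k x p q) fun p q => X x p q| ≤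
      192 * Λ ^ 3 * (e0 k x / r ^ 2 + r ^ 2 * e0 X x) := by
  have hΛ : 0 ≤ Λ := (abs_nonneg _).trans hs
  have hk : ∀ p q, |k x p q| ≤ √(e0 k x) := fun p q => Real.abs_le_sqrt (sq_le_e0 k x p q)
  have hX : ∀ p q, |X x p q| ≤ √(e0 X x) := fun p q => Real.abs_le_sqrt (sq_le_e0 X x p q)
  have e1 := Real.mul_self_sqrt (e0_nonneg k x)
  have e2 := Real.mul_self_sqrt (e0_nonneg X x)
  generalize √(e0 k x) = a at hk e1
  generalize √(e0 X x) = b at hX e2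
  have h1 : ∀ i j, |vG s H (fun p q => k x p q) i j| ≤ Λ * (24 * Λ ^ 2 * a) := fun i j => by
    refine abs_mul_le' hs ((abs_sub _ _).trans ?_)
    have t1 : |1 / 2 * tr2 H (fun p q => k x p q) * H i j| ≤ 1 / 2 * (16 * (Λ * a)) * Λ :=
      abs_mul_le' (abs_mul_le' (by norm_num) (abs_sum2_le fun p q =>
        abs_mul_le' (hH p q) (hk p q))) (hH i j)
    have t2 : |up H (fun p q => k x p q) i j| ≤ 16 * (Λ * a * Λ) :=
      abs_sum2_le fun p q => abs_mul_le' (abs_mul_le' (hH i p) (hk p q)) (hH q j)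
    linarith
  refine (abs_sum2_le fun i j => abs_mul_le' (h1 i j) (hX i j)).trans ?_
  rw [← e1, ← e2]
  have e3 : 2 * (a * b) ≤ a * a / r ^ 2 + r ^ 2 * (b * b) := by
    have : a * a / r ^ 2 + r ^ 2 * (b * b) - 2 * (a * b) = (a / r - r * b) ^ 2 := by field_simp; ring
    linarith [sq_nonneg (a / r - r * b)]
  calc _ = 192 * Λ ^ 3 * (2 * (a * b)) := by ring
    _ ≤ _ := mul_le_mul_of_nonneg_left e3 (by positivity)

/-- the entries of the Ricci tensor against its norm -/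
theorem e0_le_nsq {G : MetricField 4} {x : E4} {Λ : ℝ} (hG : (G x).PosDef)
    (hΛ : ∀ p q, |G x p q| ≤ Λ) (X : Tn 4 2) :
    e0 (fun y => Matrix.of fun p q => X y ![p, q]) x ≤ (16 * Λ) ^ 2 * nsq G X x := by
  have h0 : 0 ≤ Λ := (abs_nonneg _).trans (hΛ 0 0)
  have := Ar.sum_sq_le_ipA hG (c := 16 * Λ) (by positivity) (fun v => by
    have := (le_abs_self _).trans (Jt.abs_bil_le hΛ v v)
    refine this.trans_eq ?_
    push_cast; ring) (X x)
  refine le_trans (le_of_eq ?_) this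
  rw [← (piFinTwoEquiv fun _ => Fin 4).symm.sum_comp, Fintype.sum_prod_type]
  rfl

end Crest.Agent.N207.NS.Cg

end
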