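import Crest.Agent.N207.N.Cmpt

/-!
# Row 207, block N (helper78): the constraints of the comparison vanish
-/

set_option autoImplicit false

open scoped ContDiff Topology ENNReal
open Metric Set Filter MeasureTheory
open Crest.GeometryTopology.CoordMetric Crest.Agent.R202.Tens
open Crest.Agent.N207.I Crest.Agent.N207.Lg Crest.Agent.N207.CB

noncomputable section

namespace Crest.Agent.N207.NS.Ct

variable {M : Type*} {T : TD M} {L : T.V → ℝ} {u : T.S → E4 → E4}

theorem pb_sub (L' : T.V → ℝ) (H H' : Fam T) :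
    pb T L L' u (H - H') = pb T L L' u H - pb T L L' u H' := by
  funext s x
  ext p q
  simp only [pb, pm_apply, Pi.sub_apply, Matrix.sub_apply, Matrix.smul_apply, smul_eq_mul, mul_sub,
    Finset.sum_sub_distrib]

theorem sec_sub {H H' : Fam T} (h : (T.glob L).IsMet (rt T L H)) (h' : (T.glob L).IsMet (rt T L H')) :
    (T.glob L).Sec fun s => matT (rt T L (H - H') s) :=
  ((Atl.Sec.met h).sub (Atl.Sec.met h')).congr fun s x _ => by
    funext I; simp [matT, rt, mul_sub]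

theorem prl_zero (c : Ch T L) (hint : Inv T L u) {g : T.V → Fam T} {κ : T.V → Type}
    [∀ v, Fintype (κ v)] {ψ : ∀ v, κ v → Fam T} {T0 δ d : ℝ} {μ : (Σ v, κ v) → ℝ} {G G' : Fam T}
    (hb : (T.glob L).IsMet (rt T L (gbL T g T0 L)))
    (p1 : ∀ X : Fam T, (T.glob L).Sec (fun s => matT (rt T L X s)) →
      (gl1 T L).Sec fun s => matT (rt T L (pb T L L u X) s))
    (p2 : Met1 T L (pb T L L u (gbL T g T0 L)) ∧ ∀ s, Pull (pm (u s) (gbL T g T0 L s))
      (gbL T g T0 L s) (u s) (U1 T L s) ((T.glob L).U s))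
    (hin : ∀ s v d, ∀ x ∈ U1 T L s, InK T L v d s (u s x) → InK T L v (d + 1) s x)
    (hG : Met1 T L G) (h : LS T g T0 κ ψ δ L (th T g κ ψ T0 L u G) μ G') (j : Σ v, κ v)
    (t1 : (T.glob L).Sec fun s => matT (rt T L (toL T L j.1 (ψ j.1 j.2)) s))
    (t3 : ∀ s, ∀ x ∈ (T.glob L).U s, ¬ InK T L j.1 d s x → toL T L j.1 (ψ j.1 j.2) s x = 0)
    (t6 : ∀ k : Fam T, (∀ s a b, ContinuousOn (fun y => k s y a b) (U1 T L s)) →
      prL T L (gbL T g T0 L) j.1 (toL T L j.1 (ψ j.1 j.2)) k =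
        T.eps L j.1 ^ 2 * pair T g j.1 (ψ j.1 j.2) (loc T L j.1 k)) :
    prL T L (pb T L L u (gbL T g T0 L)) j.1 (pb T L L u (toL T L j.1 (ψ j.1 j.2)))
      (G - pb T L L u G') = 0 := by
  have hs := sec_sub (ls_met h) hb
  have e : G - pb T L L u G' =
      (G - pb T L L u (gbL T g T0 L)) - pb T L L u (G' - gbL T g T0 L) := by
    rw [pb_sub]; abel
  have he := (pow_pos (TD.eps_pos L j.1) 2).ne'
  rw [e, prL_sub c (d := d + 1) p2.1 (fun s a b => (sm_of_rt ((p1 _ t1).sm s) a b).continuousOn)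
    (fun s a b => (sm_of_rt ((hG.sec_sub p2.1).sm s) a b).continuousOn)
    (fun s a b => (sm_of_rt ((p1 _ hs).sm s) a b).continuousOn) (fun s x hx hn => by
      rw [Cg.pb_self]
      exact pm_zero (t3 s _ ((p2.2 s).maps x hx) fun e => hn (hin s _ _ x hx e))),
    prL_pb c hint hb p2.2 t1 hs fun s x hx => t3 s x (c.U1_U s hx),
    t6 _ fun s a b => (sm_of_rt ((c.sec1 hs).sm s) a b).continuousOn, h.con j, th,
    mul_div_cancel₀ _ he, sub_self]

theorem intL_en (c : Ch T L) {H H' : Fam T} (h : Met1 T L H) (h' : Met1 T L H')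
    (i : ∀ s, IntegrableOn (en T (H - H') s) (K1 T L s)) :
    IntL T L (en T (H - H')) ∧ intL T L (en T (H - H')) ≤ En T L (H - H') :=
  c.intL_le_K1 (c.en_cont fun s a b => sm_of_rt ((h.sec_sub h').sm s) a b)
    (fun _ _ _ => add_nonneg (e1_nn _ _) (div_nonneg (e0_nn _ _) (sq_nonneg _))) i

theorem gau_intL (c : Ch T L) {b G : Fam T} {f : T.S → E4 → ℝ} (hb : Met1 T L b) (hG : Met1 T L G)
    (hf : IntL T L f) (h : ∀ s, ∀ x ∈ U1 T L s,
      gau (sq (G s) x) (iv (G s) x) (TG (b s) (G s) x) ≤ f s x) :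
    IntL T L fun s x => gau (sq (G s) x) (iv (G s) x) (TG (b s) (G s) x) := by
  refine c.IntL_of_le hf (fun s => ?_) fun s x hx => ?_
  · simp only [gau_eq]
    exact (sm_sqrt_det (hG.riem s)).continuousOn.mul (continuousOn_const.mul
      ((smT_gauT (hb.riem s) (hG.riem s)).nsq (hG.riem s)).continuousOn)
  · rw [abs_of_nonneg]
    · exact h s x hx
    · rw [gau_eq]
      exact mul_nonneg (Real.sqrt_nonneg _) (mul_nonneg (by norm_num)
        (Ar.ipA_nonneg ((hG.riem s).posDef x hx) (gauT (b s) (G s) x)))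

/-- the gauge vector of the family is controlled by the energy of the difference -/
theorem bb_bound (c : Ch T L) (hint : Inv T L u) {b G g1 : Fam T} {C C' : ℝ} (hC : 0 ≤ C)
    (hb : (T.glob L).IsMet (rt T L b)) (hG : (T.glob L).IsMet (rt T L G))
    (p : Met1 T L (pb T L L u b) ∧
      ∀ s, Pull (pm (u s) (b s)) (b s) (u s) (U1 T L s) ((T.glob L).U s))
    (q : Met1 T L (pb T L L u G) ∧
      ∀ s, Pull (pm (u s) (G s)) (G s) (u s) (U1 T L s) ((T.glob L).U s))
    (h1 : Met1 T L g1) (i1 : ∀ s, IntegrableOn (en T (G - b) s) (K1 T L s))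
    (i2 : ∀ s, IntegrableOn (en T (g1 - pb T L L u G) s) (K1 T L s))
    (e1 : ∀ s, ∀ x ∈ U1 T L s,
      gau (sq (G s) x) (iv (G s) x) (TG (b s) (G s) x) ≤ C' * en T (G - b) s x)
    (e2 : ∀ s, ∀ x ∈ U1 T L s, gau (sq (pb T L L u G s) x) (iv (pb T L L u G s) x)
      (TG (pb T L L u b s) (pb T L L u G s) x) ≤ C * en T (g1 - pb T L L u G) s x) :
    BB T L b G ≤ C * En T L (g1 - pb T L L u G) := by
  have a1 := intL_en c (c.met1 hG) (c.met1 hb) i1
  have a2 := intL_en c h1 q.1 i2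
  rw [← BB_pb c hint hb hG p.2 q.2 (gau_intL c (c.met1 hb) (c.met1 hG) (a1.1.smul C') e1)]
  refine (c.intL_mono (gau_intL c p.1 q.1 (a2.1.smul C) e2) (a2.1.smul C) e2).trans ?_
  rw [intL_smul]
  exact mul_le_mul_of_nonneg_left a2.2 hC

theorem fv_cont {b G k : MetricField 4} {U : Set E4} (hb : IsRiemannianOn b U)
    (hG : IsRiemannianOn G U) (hk : ∀ p q, ContDiffOn ℝ ∞ (fun x => k x p q) U) :
    ContinuousOn (fv b G k) U :=
  ((sm_sqrt_det hG).continuousOn.mul ((smT_ktT hG (K := k) fun I => hk (I 0) (I 1)).ip hG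
    (smT_redT hb hG)).continuousOn).congr fun x hx =>
      tr2_vG_eq (hG.posDef x hx).det_pos.ne' (g_sy_ev hG hx).self_of_nhds k (redT b G)

/-- the first variation at a metric with small Ricci curvature -/
theorem fv_bound (c : Ch T L) {b g1 g2 : Fam T} {R : T.S → E4 → ℝ} {C : ℝ} (hC : 0 ≤ C)
    (hb : Met1 T L b) (h1 : Met1 T L g1) (h2 : Met1 T L g2) (hR : IntL T L R)
    (i : ∀ s, IntegrableOn (en T (g1 - g2) s) (K1 T L s))
    (e : ∀ s, ∀ x ∈ U1 T L s,
      |fv (b s) (g1 s) (g2 s - g1 s) x| ≤ C * (en T (g1 - g2) s x + R s x)) :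
    IntL T L (fun s => fv (b s) (g1 s) (g2 s - g1 s)) ∧
      |intL T L fun s => fv (b s) (g1 s) (g2 s - g1 s)| ≤ C * (En T L (g1 - g2) + intL T L R) := by
  have a := intL_en c h1 h2 i
  have a2 := (a.1.add hR).smul C
  have a3 : IntL T L fun s => fv (b s) (g1 s) (g2 s - g1 s) :=
    c.IntL_of_le a2 (fun s => fv_cont (hb.riem s) (h1.riem s) fun p q =>
    ((h2.riem s).contDiffOn p q).sub ((h1.riem s).contDiffOn p q)) e
  have a4 : intL T L (fun s x => C * (en T (g1 - g2) s x + R s x)) ≤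
      C * (En T L (g1 - g2) + intL T L R) := by
    rw [intL_smul, intL_add a.1 hR]
    exact mul_le_mul_of_nonneg_left (by linarith [a.2]) hC
  refine ⟨a3, abs_le.2 ⟨?_, (c.intL_mono a3 a2 fun s x hx => (abs_le.1 (e s x hx)).2).trans a4⟩⟩
  have a5 := c.intL_mono (a2.smul (-1)) a3 fun s x hx => by linarith [(abs_le.1 (e s x hx)).1]
  rw [intL_smul] at a5
  linarith

end Crest.Agent.N207.NS.Ct

end
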