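import Crest.Agent.N207.N.Cmpg1
import Crest.Agent.N207.N.Cmpt2
import Crest.Agent.N207.N.Gr2

/-!
# Row 207, block N (helper38): the data fed to `Cmp` in the proof of `Cmpg`
-/

set_option autoImplicit false

open scoped ContDiff Topology
open Metric Set Filter MeasureTheory
open Crest.GeometryTopology.CoordMetric
open Crest.Agent.N207.I Crest.Agent.N207.Lg Crest.Agent.N207.CB

noncomputable section

namespace Crest.Agent.N207.NS.Cg

variable {M : Type*} {T : TD M} {L : T.V → ℝ} {g : T.V → Fam T} {T0 δ Λ C P : ℝ}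
  {u : T.S → E4 → E4}

/-- the conclusion of `ELL` -/
def EB (T : TD M) (g : T.V → Fam T) (T0 : ℝ) (L : T.V → ℝ) (δ Λ : ℝ) : Prop :=
  ∀ (H : Fam T) (s : T.S), ∀ x ∈ W1 T L s, (H s x).PosDef →
    (∀ p q, |H s x p q - gbL T g T0 L s x p q| ≤ δ) →
    (∀ p q, |H s x p q| ≤ Λ ∧ |(H s x)⁻¹ p q| ≤ Λ) ∧ Λ⁻¹ ≤ sq (H s) x ∧ sq (H s) x ≤ Λ ∧
    (∀ ξ : Fin 4 → ℝ, Λ⁻¹ * ∑ i, ξ i ^ 2 ≤ ∑ i, ∑ j, (H s x)⁻¹ i j * ξ i * ξ j) ∧
    ∀ k ≤ 3, ∀ p q, scl T s x ^ k * ‖iteratedFDeriv ℝ k (fun y => gbL T g T0 L s y p q) x‖ ≤ Λ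

/-- the conclusion of `PULL2` for `L' = L` -/
def PB2 (T : TD M) (L : T.V → ℝ) (u : T.S → E4 → E4) (C δ : ℝ) : Prop :=
  ∀ (X : Fam T) (P : ℝ) (s : T.S),
    ((∀ a b, ContinuousOn (fun y => X s y a b) (W1 T L s)) →
      ∀ a b, ContinuousOn (fun y => pm (u s) (X s) y a b) (U1 T L s)) ∧
    (∀ x ∈ U1 T L s, (∀ a b, |X s (u s x) a b| ≤ P) → ∀ a b, |pm (u s) (X s) x a b| ≤ C * P) ∧
    (L = L → (∀ a b, ContDiffOn ℝ 1 (fun y => X s y a b) (W1 T L s)) → Cls T (W1 T L) 1 P X 0 →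
      ∀ x ∈ U1 T L s, ∀ a b, |pm (u s) (X s) x a b - X s x a b| ≤ C * δ * P) ∧
    (L = L → ∀ v c, ∀ x ∈ U1 T L s, InK T L v c s (u s x) → InK T L v (c + 1) s x)

theorem adm_bd (c : Ch T L) (hE : EB T g T0 L δ Λ) (hb : Met1 T L (gbL T g T0 L)) (hδ : δ ≤ Λ)
    {H : Fam T} (h : Adm T g T0 L δ H) (s : T.S) {x : E4} (hx : x ∈ U1 T L s) :
    (∀ p q, |H s x p q| ≤ 2 * Λ ∧ |(H s x)⁻¹ p q| ≤ 2 * Λ ∧
      scl T s x * ‖iteratedFDeriv ℝ 1 (fun y => H s y p q) x‖ ≤ 2 * Λ) ∧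
      Λ⁻¹ ≤ sq (H s) x ∧ sq (H s) x ≤ 2 * Λ := by
  obtain ⟨e1, e2, e3, -, e5⟩ := hE H s x (c.U1_W1 s hx) (Met1.pos h.met hx) (h.near.val hx)
  have h0 : 0 ≤ Λ := (abs_nonneg _).trans (e1 0 0).1
  refine ⟨fun p q => ⟨by linarith [(e1 p q).1], by linarith [(e1 p q).2], ?_⟩, e2, by linarith⟩
  have k1 := h.near s x hx 1 (by norm_num) p q
  have k2 := e5 1 (by norm_num) p q
  have hn := (c.op1 s).mem_nhds hx
  have d1 : ContDiffAt ℝ 1 (fun y => (H s y - gbL T g T0 L s y) p q) x :=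
    ((h.met.sm_sub hb s p q).contDiffAt hn).of_le (by simp)
  have d2 : ContDiffAt ℝ 1 (fun y => gbL T g T0 L s y p q) x :=
    (((hb.riem s).contDiffOn p q).contDiffAt hn).of_le (by simp)
  have e : (fun y => H s y p q) = (fun y => (H s y - gbL T g T0 L s y) p q) +
      fun y => gbL T g T0 L s y p q := by funext y; simp
  rw [e, iteratedFDeriv_add_apply d1 d2]
  rw [pow_one] at k1 k2
  have := mul_le_mul_of_nonneg_left (norm_add_le
    (iteratedFDeriv ℝ 1 (fun y => (H s y - gbL T g T0 L s y) p q) x)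
    (iteratedFDeriv ℝ 1 (fun y => gbL T g T0 L s y p q) x)) (scl_nn (T := T) s x)
  rw [mul_add] at this
  linarith

theorem dec_mono {k : MetricField 4} {p q : ℝ} (h : Dec p k) (e : q ≤ p) : Dec q k := by
  obtain ⟨C, R, h⟩ := h
  refine ⟨|C|, max R 1, fun x hx a b => ?_⟩
  have h1 : 1 ≤ ‖x‖ := (le_max_right _ _).trans hx
  obtain ⟨k1, k2⟩ := h x ((le_max_left _ _).trans hx) a b
  exact ⟨k1.trans (mul_le_mul (le_abs_self _) (Real.rpow_le_rpow_of_exponent_le h1 (by linarith))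
    (by positivity) (abs_nonneg _)), k2.trans (mul_le_mul (le_abs_self _)
      (Real.rpow_le_rpow_of_exponent_le h1 (by linarith)) (by positivity) (abs_nonneg _))⟩

variable {v : T.V} {ψ : Fam T} {d : ℝ}

theorem prt_pb (c : Ch T L) (hu : ∀ s, MapsTo (u s) (U1 T L s) (W1 T L s)) (h2 : PB2 T L u C δ)
    (t1 : (T.glob L).Sec fun s => matT (rt T L (toL T L v ψ) s))
    (t3 : ∀ s, ∀ x ∈ (T.glob L).U s, ¬ InK T L v (d + 1) s x → toL T L v ψ s x = 0)
    (t4 : Cls T (W1 T L) 1 P (toL T L v ψ) 0) :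
    Prt T L v (d + 2) (C * δ * P) ψ (pb T L L u (toL T L v ψ)) := by
  rw [pb_self]
  have hs : ∀ s a b, ContDiffOn ℝ ∞ (fun y => toL T L v ψ s y a b) (W1 T L s) := fun s a b =>
    (sm_of_rt (t1.sm s) a b).mono (c.W1_U s)
  refine ⟨fun s => (h2 _ 0 s).1 fun a b => (hs s a b).continuousOn, fun s =>
    (h2 _ P s).2.2.1 rfl (fun a b => (hs s a b).of_le (by simp)) t4, fun s x hx hn => ?_⟩
  refine pm_zero_at (t3 s _ (c.W1_U s (hu s hx)) fun e => hn ?_)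
  have := (h2 0 0 s).2.2.2 rfl v (d + 1) x hx e
  rwa [add_assoc, one_add_one_eq_two] at this

theorem prt_pp (hM : MUL) (c : Ch T L) (hu : ∀ s, MapsTo (u s) (U1 T L s) (W1 T L s))
    (h2 : PB2 T L u C δ) {b G : Fam T} (hb : (T.glob L).IsMet (rt T L b))
    (hG : (T.glob L).IsMet (rt T L G)) {σ η : ℝ} (hσ : σ = 1 ∨ σ = -1)
    (t1 : (T.glob L).Sec fun s => matT (rt T L (toL T L v ψ) s))
    (t3 : ∀ s, ∀ x ∈ (T.glob L).U s, ¬ InK T L v (d + 1) s x → toL T L v ψ s x = 0)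
    (t4 : Cls T (W1 T L) 1 P (toL T L v ψ) 0)
    (t5 : ∀ s, ∀ x ∈ (T.glob L).U s, TRg (b s x) (toL T L v ψ s x) = σ • toL T L v ψ s x)
    (hn : ∀ s, ∀ x ∈ W1 T L s, ∀ p q, |PsT (b s) (G s) (toL T L v ψ s) x p q -
      PsT (b s) (b s) (toL T L v ψ s) x p q| ≤ η) :
    Prt T L v (d + 2) (C * η + C * δ * P) ψ
      fun s x => σ • pm (u s) (PsT (b s) (G s) (toL T L v ψ s)) x := by
  have k := prt_pb c hu h2 t1 t3 t4
  rw [pb_self] at k
  have hs : ∀ s a b, ContinuousOn (fun y => toL T L v ψ s y a b) ((T.glob L).U s) := fun s a b =>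
    (sm_of_rt (t1.sm s) a b).continuousOn
  have s1 : |σ| = 1 := by rcases hσ with e | e <;> simp [e]
  have s2 : σ * σ = 1 := by rcases hσ with e | e <;> simp [e]
  refine ⟨fun s a a' => continuousOn_const.mul ((h2 (fun s => PsT (b s) (G s) (toL T L v ψ s))
    0 s).1 (fun p q => (cont_PsT (riem_of_rt hb s) (riem_of_rt hG s) (hs s) p q).mono
      (c.W1_U s)) a a'), fun s x hx a a' => ?_, fun s x hx hi => ?_⟩
  · have hy := hu s hx
    have k1 := k.near s x hx a a'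
    have k2 := (h2 (fun s y => σ • PsT (b s) (G s) (toL T L v ψ s) y - toL T L v ψ s y) η s).2.1
      x hx (fun p q => by
        have e1 := hn s _ hy p q
        rw [hM.2.1 _ _ _ ((riem_of_rt hb s).posDef _ (c.W1_U s hy)), t5 s _ (c.W1_U s hy)] at e1
        have : (σ • PsT (b s) (G s) (toL T L v ψ s) (u s x) - toL T L v ψ s (u s x)) p q =
            σ * (PsT (b s) (G s) (toL T L v ψ s) (u s x) p q - (σ • toL T L v ψ s (u s x)) p q) := by
          simp only [Matrix.sub_apply, Matrix.smul_apply, smul_eq_mul]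
          linear_combination (toL T L v ψ s (u s x) p q) * s2
        rw [this, abs_mul, s1, one_mul]
        exact e1) a a'
    have e : pm (u s) (fun y => σ • PsT (b s) (G s) (toL T L v ψ s) y - toL T L v ψ s y) x a a' =
        (σ • pm (u s) (PsT (b s) (G s) (toL T L v ψ s)) x) a a' - pm (u s) (toL T L v ψ s) x a a' := by
      simp only [Matrix.smul_apply, smul_eq_mul, pm_apply, Matrix.sub_apply, Finset.mul_sum,
        ← Finset.sum_sub_distrib]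
      exact Finset.sum_congr rfl fun i _ => Finset.sum_congr rfl fun j _ => by ring
    rw [e] at k2
    exact (abs_sub_le _ _ _).trans (add_le_add k2 k1)
  · have e : toL T L v ψ s (u s x) = 0 := t3 s _ (c.W1_U s (hu s hx)) fun e => hi (by
      have := (h2 0 0 s).2.2.2 rfl v (d + 1) x hx e
      rwa [add_assoc, one_add_one_eq_two] at this)
    rw [pm_zero_at (by simp [PsT, TRg, tr2, e]), smul_zero]

theorem Prt.mono {δ' : ℝ} {Φ : Fam T} (h : Prt T L v d δ ψ Φ) (e : δ ≤ δ') : Prt T L v d δ' ψ Φ :=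
  ⟨h.cont, fun s x hx a b => (h.near s x hx a b).trans e, h.supp⟩

/-- the equation -/
theorem eqn (c : Ch T L) {ι : Type} [Fintype ι] {b G g1 : Fam T} {m σ : ι → ℝ} {r : ι → T.S → ℝ}
    {Y : ι → Fam T} (hσ : ∀ j, σ j = 1 ∨ σ j = -1)
    (p : ∀ s, R202.Tens.Pull (pm (u s) (b s)) (b s) (u s) (U1 T L s) ((T.glob L).U s))
    (q : ∀ s, R202.Tens.Pull (pm (u s) (G s)) (G s) (u s) (U1 T L s) ((T.glob L).U s))
    (h0 : ∀ s, ∀ x ∈ U1 T L s, gauT (pm (u s) (b s)) (g1 s) x = 0)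
    (h : ∀ s, ∀ x ∈ (T.glob L).U s, ∀ i j,
      redT (b s) (G s) x ![i, j] = -∑ l, m l * (r l s * Y l s x i j))
    (s : T.S) {x : E4} (hx : x ∈ U1 T L s) (i j : Fin 4) :
    redT (pb T L L u b s) (g1 s) x ![i, j] - redT (pb T L L u b s) (pb T L L u G s) x ![i, j] =
      ricT (g1 s) x ![i, j] + ∑ l, σ l * m l * (r l s * (σ l • pm (u s) (Y l s) x) i j) := by
  simp only [pb_self]
  rw [redT_of_gauT (by filter_upwards [(c.op1 s).mem_nhds hx] with y hy using h0 s y hy),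
    redT_pm (q s) (p s) hx, pm_sum (m := fun l => -(m l * r l s)) (Y := fun l => Y l s)
      (fun i j => by
        refine (h s _ ((p s).maps x hx) i j).trans ?_
        rw [← Finset.sum_neg_distrib]
        exact Finset.sum_congr rfl fun l _ => by ring), sub_eq_add_neg, ← Finset.sum_neg_distrib]
  congr 1
  refine Finset.sum_congr rfl fun l _ => ?_
  have s2 : σ l * σ l = 1 := by rcases hσ l with e | e <;> simp [e]
  simp only [Matrix.smul_apply, smul_eq_mul]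
  linear_combination (-(m l * r l s * pm (u s) (Y l s) x i j)) * s2

/-- the Ricci term -/
theorem ric_bd (c : Ch T L) {g1 : Fam T} {E : ℝ} (h1 : Met1 T L g1) (hΛ : 0 < Λ)
    (hb : ∀ s, ∀ x ∈ U1 T L s, (∀ p q, |g1 s x p q| ≤ 2 * Λ) ∧ Λ⁻¹ ≤ sq (g1 s) x)
    (h : IntL T L (fun s x => scl T s x ^ 2 * (sq (g1 s) x * nsq (g1 s) (ricT (g1 s)) x)) ∧
      intL T L (fun s x => scl T s x ^ 2 * (sq (g1 s) x * nsq (g1 s) (ricT (g1 s)) x)) ≤ E ^ 2) :
    IntL T L (fun s x => scl T s x ^ 2 * e0 (fun y => Matrix.of fun p q => ricT (g1 s) y ![p, q]) x) ∧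
    intL T L (fun s x => scl T s x ^ 2 * e0 (fun y => Matrix.of fun p q => ricT (g1 s) y ![p, q]) x)
      ≤ 1024 * Λ ^ 3 * E ^ 2 := by
  have key : ∀ s, ∀ x ∈ U1 T L s,
      scl T s x ^ 2 * e0 (fun y => Matrix.of fun p q => ricT (g1 s) y ![p, q]) x ≤
      1024 * Λ ^ 3 * (scl T s x ^ 2 * (sq (g1 s) x * nsq (g1 s) (ricT (g1 s)) x)) := fun s x hx => by
    have e1 := e0_le_nsq (Met1.pos h1 hx) (hb s x hx).1 (ricT (g1 s))
    have e2 : 1 ≤ Λ * sq (g1 s) x := by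
      have := mul_le_mul_of_nonneg_left (hb s x hx).2 hΛ.le
      rwa [mul_inv_cancel₀ hΛ.ne'] at this
    have e3 : 0 ≤ nsq (g1 s) (ricT (g1 s)) x := Ar.ipA_nonneg (Met1.pos h1 hx) (ricT (g1 s) x)
    rw [mul_left_comm]
    refine mul_le_mul_of_nonneg_left (e1.trans ?_) (sq_nonneg _)
    calc _ = (16 * (2 * Λ)) ^ 2 * nsq (g1 s) (ricT (g1 s)) x * 1 := (mul_one _).symm
      _ ≤ (16 * (2 * Λ)) ^ 2 * nsq (g1 s) (ricT (g1 s)) x * (Λ * sq (g1 s) x) :=
          mul_le_mul_of_nonneg_left e2 (by positivity)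
      _ = _ := by ring
  have i1 := c.IntL_of_le (f := fun s x => scl T s x ^ 2 *
      e0 (fun y => Matrix.of fun p q => ricT (g1 s) y ![p, q]) x) (h.1.smul (1024 * Λ ^ 3))
    (fun s => ((scl_cont s).continuousOn.pow 2).mul (e0_cont fun a b =>
      (AI.smT_ricT (h1.riem s) ![a, b]).continuousOn))
    fun s x hx => by
      rw [abs_of_nonneg (mul_nonneg (sq_nonneg _) (e0_nn _ _))]; exact key s x hx
  refine ⟨i1, (c.intL_mono i1 (h.1.smul _) key).trans ?_⟩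
  rw [intL_smul]
  exact mul_le_mul_of_nonneg_left h.2 (by positivity)

end Crest.Agent.N207.NS.Cg

end
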