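import Crest.Agent.N207.N.St3
import Crest.Agent.N207.M.Rad
import Crest.Agent.N207.Lg.Nat

/-!
# Row 207, block N (helper38): `Thb`, the parameters of a gauged metric are small
-/

set_option autoImplicit false

open scoped ContDiff Topology
open Metric Set Filter MeasureTheory
open Crest.GeometryTopology.CoordMetric
open Crest.Agent.N207.I Crest.Agent.N207.Lg Crest.Agent.N207.CB

noncomputable section

namespace Crest.Agent.N207.NS

namespace Cg

theorem abs_int_le_vol {U S : Set E4} (hU : MeasurableSet U) (hS : MeasurableSet S)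
    (hi : IntegrableOn (fun _ => (1 : ℝ)) S) {f : E4 → ℝ} {K : ℝ} (hK : 0 ≤ K)
    (h1 : ∀ x ∈ U, x ∈ S → |f x| ≤ K) (h0 : ∀ x ∈ U, x ∉ S → f x = 0) :
    |∫ x in U, f x| ≤ K * (volume S).toReal := by
  have hi' : Integrable (S.indicator fun _ => K) := by
    rw [integrable_indicator_iff hS]
    exact (hi.const_mul K).congr (Eventually.of_forall fun _ => mul_one K)
  have h2 : ‖∫ x in U, f x‖ ≤ ∫ x in U, S.indicator (fun _ => K) x := by
    refine norm_integral_le_of_norm_le hi'.integrableOn ?_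
    filter_upwards [ae_restrict_mem hU] with x hx
    by_cases hs : x ∈ S
    · rw [indicator_of_mem hs]; exact h1 x hx hs
    · rw [indicator_of_notMem hs, h0 x hx hs, norm_zero]
  refine h2.trans ((setIntegral_le_integral hi' (Eventually.of_forall fun x =>
    indicator_nonneg (fun _ _ => hK) x)).trans_eq ?_)
  rw [integral_indicator hS, setIntegral_const, smul_eq_mul, mul_comm]; rfl

theorem abs_ip_le {b X Y : MetricField 4} {x : E4} {Λ P d : ℝ} (hΛ : ∀ p q, |(b x)⁻¹ p q| ≤ Λ)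
    (hX : ∀ p q, |X x p q| ≤ P) (hY : ∀ p q, |Y x p q| ≤ d) :
    |ip b (matT X) (matT Y) x| ≤ 256 * Λ ^ 2 * (P * d) := by
  have h0 : 0 ≤ Λ := (abs_nonneg _).trans (hΛ 0 0)
  have h1 : 0 ≤ P := (abs_nonneg _).trans (hX 0 0)
  rw [ip, ipA_two]
  have : ∀ a b' c e : Fin 4, |(b x)⁻¹ a b' * (b x)⁻¹ c e * (matT X x ![a, c] * matT Y x ![b', e])| ≤
      Λ ^ 2 * (P * d) := fun a b' c e => by
    rw [abs_mul, abs_mul, abs_mul, pow_two]
    exact mul_le_mul (mul_le_mul (hΛ _ _) (hΛ _ _) (abs_nonneg _) h0)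
      (mul_le_mul (hX _ _) (hY _ _) (abs_nonneg _) h1) (by positivity) (by positivity)
  calc _ ≤ ∑ _a : Fin 4, ∑ _b : Fin 4, ∑ _c : Fin 4, ∑ _e : Fin 4, Λ ^ 2 * (P * d) :=
        (Finset.abs_sum_le_sum_abs _ _).trans (Finset.sum_le_sum fun a _ =>
          (Finset.abs_sum_le_sum_abs _ _).trans (Finset.sum_le_sum fun b' _ =>
            (Finset.abs_sum_le_sum_abs _ _).trans (Finset.sum_le_sum fun c _ =>
              (Finset.abs_sum_le_sum_abs _ _).trans (Finset.sum_le_sum fun e _ => this a b' c e))))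
    _ = _ := by simp only [Finset.sum_const, Finset.card_univ, Fintype.card_fin, nsmul_eq_mul]; ring

variable {M : Type*} {T : TD M} {L L' : T.V → ℝ}

theorem ep_pos (L : T.V → ℝ) (s : T.S) : 0 < ep T L s := TD.eps_pos L _

theorem pb_self (u : T.S → E4 → E4) (H : Fam T) : pb T L L u H = fun s => pm (u s) (H s) := by
  funext s x
  simp only [pb, div_self (ep_pos L s).ne', one_pow, one_smul]

theorem NId.nonneg {δ : ℝ} {u : T.S → E4 → E4} (h : NId T L L' δ u) : 0 ≤ δ := by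
  have hx : ‖(EuclideanSpace.single 0 2 : E4)‖ = 2 := by simp
  have := h.near (Sum.inr T.root) (EuclideanSpace.single 0 2)
    ⟨by rw [hx]; norm_num, fun e => (e rfl).elim⟩ 0 (by norm_num)
  have e : scl T (Sum.inr T.root) (EuclideanSpace.single 0 2) = 2 := hx
  rw [e] at this
  have h2 : (0 : ℝ) ≤ 2 ^ 0 * ‖iteratedFDeriv ℝ 0 (fun y => u (Sum.inr T.root) y - y)
    (EuclideanSpace.single 0 2)‖ := by positivity
  linarith

theorem Cls.val {U : T.S → Set E4} {m : ℕ} {δ : ℝ} {H H' : Fam T} (h : Cls T U m δ H H')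
    {s : T.S} {x : E4} (hx : x ∈ U s) (a b : Fin 4) : |H s x a b - H' s x a b| ≤ δ := by
  simpa using h s x hx 0 (Nat.zero_le _) a b

theorem pm_zero_at {u : E4 → E4} {X : MetricField 4} {x : E4} (h : X (u x) = 0) : pm u X x = 0 := by
  have : matT X (u x) = 0 := by funext I; simp [matT, h]
  ext a b
  simp [pm, N207.M.pullT_zero_at this]

theorem card_inv_le (s : T.S) : (0 : ℝ) ≤ (Nat.card (T.grp s) : ℝ)⁻¹ ∧
    (Nat.card (T.grp s) : ℝ)⁻¹ ≤ 1 :=
  ⟨by positivity, Nat.cast_inv_le_one _⟩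

/-- the pairing with a bounded field living within depth `c` -/
theorem prL_bd (hT : T.Ok) (hL : T.Long L) (hU : ∀ s, IsOpen (U1 T L s))
    (hs : ∀ s, U1 T L s ⊆ (T.glob L).U s)
    (hχ : ∀ s, ∀ x ∈ U1 T L s, 0 ≤ T.χ s ((T.glob L).c s x) ∧ T.χ s ((T.glob L).c s x) ≤ 1)
    {v : T.V} {c C Λ P d : ℝ} (hΛ : 0 ≤ Λ) (hP : 0 ≤ P) (hd : 0 ≤ d)
    (hv : ∀ s, MeasurableSet {x | InK T L v c s x} ∧
      IntegrableOn (fun _ => (1 : ℝ)) (T.gK L s ∩ {x | InK T L v c s x}) ∧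
      ep T L s ^ 2 * (sr T L v s * (volume (T.gK L s ∩ {x | InK T L v c s x})).toReal) ≤
        C * T.eps L v ^ 2) {b Φ k : Fam T}
    (hb : ∀ s, ∀ x ∈ U1 T L s, sq (b s) x ≤ Λ ∧ ∀ p q, |(b s x)⁻¹ p q| ≤ Λ)
    (h1 : ∀ s, ∀ x ∈ U1 T L s, ∀ p q, |Φ s x p q| ≤ P)
    (h0 : ∀ s, ∀ x ∈ U1 T L s, ¬ InK T L v c s x → Φ s x = 0)
    (hk : ∀ s, ∀ x ∈ U1 T L s, InK T L v c s x → ∀ p q, |k s x p q| ≤ d) :
    |prL T L b v Φ k| ≤ Fintype.card T.S * (256 * Λ ^ 3 * C * (P * d) * T.eps L v ^ 2) := by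
  have key : ∀ s, |ep T L s ^ 2 * ((Nat.card (T.grp s) : ℝ)⁻¹ * ∫ x in U1 T L s,
      T.χ s ((T.glob L).c s x) * (sr T L v s * (sq (b s) x * ip (b s) (matT (Φ s)) (matT (k s)) x)))|
      ≤ 256 * Λ ^ 3 * C * (P * d) * T.eps L v ^ 2 := fun s => by
    have hsr : 0 ≤ sr T L v s := sq_nonneg _
    obtain ⟨m1, m2, m3⟩ := hv s
    have := abs_int_le_vol (hU s).measurableSet ((N207.M.isClosed_gK s).measurableSet.inter m1) m2
      (f := fun x => T.χ s ((T.glob L).c s x) *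
        (sr T L v s * (sq (b s) x * ip (b s) (matT (Φ s)) (matT (k s)) x)))
      (K := sr T L v s * (Λ * (256 * Λ ^ 2 * (P * d)))) (by positivity) (fun x hx hS => by
        have e1 := abs_ip_le (hb s x hx).2 (h1 s x hx) (hk s x hx hS.2)
        have e2 : 0 ≤ sq (b s) x := Real.sqrt_nonneg _
        rw [abs_mul, abs_mul, abs_mul, abs_of_nonneg (hχ s x hx).1, abs_of_nonneg hsr,
          abs_of_nonneg e2]
        refine (mul_le_of_le_one_left (by positivity) (hχ s x hx).2).trans ?_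
        exact mul_le_mul_of_nonneg_left (mul_le_mul (hb s x hx).1 e1 (abs_nonneg _) hΛ) hsr)
      (fun x hx hS => by
        by_cases e : T.χ s ((T.glob L).c s x) = 0
        · simp only [e, zero_mul]
        · have e1 : Φ s x = 0 := h0 s x hx fun hk => hS ⟨N207.M.gK_of_χ hT hL (hs s hx) e, hk⟩
          have e2 : matT (Φ s) x = 0 := by funext I; simp [matT, e1]
          simp only [ip, e2, ipA_zero_left, mul_zero])
    rw [abs_mul, abs_mul, abs_of_nonneg (sq_nonneg _), abs_of_nonneg (card_inv_le s).1]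
    calc _ ≤ ep T L s ^ 2 * (sr T L v s * (Λ * (256 * Λ ^ 2 * (P * d))) *
          (volume (T.gK L s ∩ {x | InK T L v c s x})).toReal) :=
          mul_le_mul_of_nonneg_left ((mul_le_of_le_one_left (abs_nonneg _) (card_inv_le s).2).trans
            this) (sq_nonneg _)
      _ = 256 * Λ ^ 3 * (P * d) * (ep T L s ^ 2 * (sr T L v s *
          (volume (T.gK L s ∩ {x | InK T L v c s x})).toReal)) := by ring
      _ ≤ 256 * Λ ^ 3 * (P * d) * (C * T.eps L v ^ 2) :=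
          mul_le_mul_of_nonneg_left m3 (by positivity)
      _ = _ := by ring
  refine (Finset.abs_sum_le_sum_abs _ _).trans ((Finset.sum_le_sum fun s _ => key s).trans_eq ?_)
  rw [Finset.sum_const, Finset.card_univ, nsmul_eq_mul]

theorem Lng.mono {c c' : ℝ} (h : Lng T c L) (e : c' ≤ c) : Lng T c' L :=
  fun w hw => e.trans (h w hw)

theorem posDef_of_smul {A : Matrix (Fin 4) (Fin 4) ℝ} {c : ℝ} (hc : 0 < c) (h : (c • A).PosDef) :
    A.PosDef := by
  have := h.smul (inv_pos.2 hc)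
  rwa [smul_smul, inv_mul_cancel₀ hc.ne', one_smul] at this

theorem Met1.pos {H : Fam T} (h : Met1 T L H) {s : T.S} {x : E4} (hx : x ∈ U1 T L s) :
    (H s x).PosDef := posDef_of_smul (pow_pos (ep_pos L s) 2) ((h.riem s).posDef x hx)

end Cg

open Cg

variable {M : Type*} {T : TD M} {g : T.V → Fam T}

theorem thb (h : Std T g) (hC : CHI T) (hV : VOL T) (hG : GB T g) (hE : ELL T g) (hP : PULL T g)
    (hP2 : PULL2 T) {κ : T.V → Type} [∀ v, Fintype (κ v)] {ψ : ∀ v, κ v → Fam T} {c : ℝ}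
    (ht : Tol T g κ ψ c) : Thb T g κ ψ c := by
  obtain ⟨C1, T1, -, hC⟩ := hC
  obtain ⟨C2, T2, hC2, hV⟩ := hV (c + 2)
  obtain ⟨T3, hG⟩ := hG
  obtain ⟨C3, hG⟩ := hG 0
  obtain ⟨δ4, Λ, T4, hδ4, hΛ, hE⟩ := hE
  obtain ⟨δ5, C5, T5, hδ5, hC5, hP⟩ := hP
  obtain ⟨δ6, C6, T6, hδ6, hC6, hP2⟩ := hP2
  obtain ⟨P, T7, hP7, ht⟩ := ht
  set Tm := max 0 (max T1 (max T2 (max T3 (max T4 (max T5 (max T6 T7)))))) with hTm
  have m0 : 0 ≤ Tm := le_max_left _ _
  have m1 : T1 ≤ Tm := by simp [hTm]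
  have m2 : T2 ≤ Tm := by simp [hTm]
  have m3 : T3 ≤ Tm := by simp [hTm]
  have m4 : T4 ≤ Tm := by simp [hTm]
  have m5 : T5 ≤ Tm := by simp [hTm]
  have m6 : T6 ≤ Tm := by simp [hTm]
  have m7 : T7 ≤ Tm := by simp [hTm]
  clear_value Tm
  have hΛ0 : 0 < Λ := by linarith
  refine ⟨min (δ4 / C5) (min δ5 δ6), (Fintype.card T.S + 1) * (256 * Λ ^ 3 * C2 * (C6 * P) *
    (C5 + 1)), Tm, by positivity, by positivity, fun T0 h0 L hL δ δ' u G hδ hδ' hu hGm hGn => ?_⟩
  have d0 := NId.nonneg hu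
  have d4 : C5 * δ ≤ δ4 := by
    rw [mul_comm, ← le_div_iff₀ hC5]; exact hδ.trans (min_le_left _ _)
  have d5 : δ ≤ δ5 := hδ.trans ((min_le_right _ _).trans (min_le_left _ _))
  have d6 : δ ≤ δ6 := hδ.trans ((min_le_right _ _).trans (min_le_right _ _))
  obtain ⟨hLg, hOk, hχ, hK⟩ := hC L (Lng.mono hL (by linarith))
  have hV := hV L (Lng.mono hL (by linarith))
  have hG := ((hG T0 (by linarith)).2 L (Lng.mono hL (by linarith))).2.1
  have hE := hE T0 (by linarith) L (Lng.mono hL (by linarith))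
  obtain ⟨-, p2, -, p4, -⟩ := hP T0 (by linarith) L L (Lng.mono hL (by linarith))
    (Lng.mono hL (by linarith)) δ u d5 hu
  have hP2 := hP2 L L (Lng.mono hL (by linarith)) (Lng.mono hL (by linarith)) δ u d6 hu
  have ht := ht T0 (by linarith) L (Lng.mono hL (by linarith))
  have hb := (p2 _ hG).1
  have hn := p4 rfl
  refine (pi_norm_le_iff_of_nonneg (by positivity)).2 fun j => ?_
  obtain ⟨-, -, t3, t4, -⟩ := ht j.1 j.2
  have hW : ∀ s, ∀ x ∈ U1 T L s, u s x ∈ W1 T L s := fun s x hx => hu.maps s hx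
  have key := prL_bd h.ok hLg hOk.isOpen (fun s => (hK s).2.2.1.trans (hK s).2.2.2.1)
    (fun s x hx => ⟨hχ.nonneg _ _, (((hK s).2.2.2.2.2.2.2.2.2 0).2 x hx).1⟩) hΛ0.le
    (P := C6 * P) (d := δ' + C5 * δ) (by positivity) (by positivity)
    (fun s => ⟨((hV j.1).1 s).1, ((hV j.1).1 s).2.1, ((hV j.1).1 s).2.2.1⟩)
    (b := pb T L L u (gbL T g T0 L)) (Φ := pb T L L u (toL T L j.1 (ψ j.1 j.2)))
    (k := G - pb T L L u (gbL T g T0 L))
    (fun s x hx => by
      have := hE _ s x ((hK s).2.2.1 hx) (Met1.pos hb hx) fun p q => (Cls.val hn hx p q).trans d4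
      exact ⟨this.2.2.1, fun p q => (this.1 p q).2⟩)
    (fun s x hx => by
      rw [pb_self]
      exact (hP2 _ P s).2.1 x hx fun a b => by simpa using Cls.val t4 (hW s x hx) a b)
    (fun s x hx hn => by
      rw [pb_self]
      refine pm_zero_at (t3 s _ ((hK s).2.2.2.1 (hW s x hx)) fun e => hn ?_)
      have := (hP2 0 0 s).2.2.2 rfl j.1 (c + 1) x hx e
      rwa [add_assoc, one_add_one_eq_two] at this)
    (fun s x hx hi p q => by
      have e1 := hGn j.1 s x hx hi p q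
      have e2 := Cls.val hn hx p q
      simp only [Pi.sub_apply, Matrix.sub_apply]
      rw [abs_le] at *
      constructor <;> linarith [e1.1, e1.2, e2.1, e2.2])
  have he : 0 < T.eps L j.1 ^ 2 := pow_pos (TD.eps_pos L _) 2
  rw [Real.norm_eq_abs, th, abs_div, abs_of_pos he, div_le_iff₀ he]
  refine key.trans ?_
  have e3 : δ' + C5 * δ ≤ (C5 + 1) * (δ + δ') := by nlinarith only [d0, hδ', hC5]
  calc _ ≤ (Fintype.card T.S + 1 : ℝ) * (256 * Λ ^ 3 * C2 * (C6 * P * ((C5 + 1) * (δ + δ'))) *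
        T.eps L j.1 ^ 2) := by gcongr; linarith
    _ = _ := by ring

end Crest.Agent.N207.NS

end
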