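import Crest.Agent.N207.N.Gs0
import Crest.Agent.N207.N.Gr1
import Crest.Agent.N207.N.Thb

/-!
# Row 207, block N (helper78): transport of integrals by maps near the identity
-/

set_option autoImplicit false

open scoped ContDiff Topology ENNReal
open Metric Set Filter MeasureTheory
open Crest.GeometryTopology.CoordMetric Crest.Agent.R202.Tens
open Crest.Agent.N207.I Crest.Agent.N207.Lg Crest.Agent.N207.CB

noncomputable section

namespace Crest.Agent.N207.NS.Ct

variable {M : Type*} {T : TD M} {L : T.V → ℝ} {u : T.S → E4 → E4}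

/-- the conclusion of `INT` for `L' = L` -/
def Inv (T : TD M) (L : T.V → ℝ) (u : T.S → E4 → E4) : Prop :=
  ∀ (H : T.S → MetricField 4) (f : T.S → E4 → ℝ), (T.glob L).IsMet H →
    (T.glob L).CompF f → (T.glob L).Intg T.χ H f →
    (gl1 T L).Intg T.χ (fun s => pm (u s) (H s)) (fun s x => f s (u s x)) ∧
      (gl1 T L).int T.χ (fun s => pm (u s) (H s)) (fun s x => f s (u s x)) =
        (T.glob L).int T.χ H f

theorem int_of_IntL (c : Ch T L) {f : T.S → E4 → ℝ} (h : IntL T L f) (s : T.S) :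
    IntegrableOn (fun x => T.χ s ((T.glob L).c s x) * f s x) ((T.glob L).U s) :=
  (h s).of_forall_sdiff_eq_zero ((c.ok.glob_ok c.long).isOpen s).measurableSet fun x hx => by
    by_contra h
    exact hx.2 (c.gK_U1 s (c.χ_supp hx.1 (left_ne_zero_of_mul h)))

theorem intL_pb (c : Ch T L) (hint : Inv T L u) {H : Fam T} (hH : (T.glob L).IsMet (rt T L H))
    {f : T.S → E4 → ℝ} (hf : (T.glob L).CompF fun s x => (ep T L s ^ 2)⁻¹ * f s x)
    (hI : IntL T L fun s x => sq (H s) x * f s x) :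
    IntL T L (fun s x => sq (pm (u s) (H s)) x * f s (u s x)) ∧
      intL T L (fun s x => sq (pm (u s) (H s)) x * f s (u s x)) =
        intL T L fun s x => sq (H s) x * f s x := by
  have hA := c.ok.glob_ok c.long
  have e1 : ∀ s x, (T.glob L).den T.χ (rt T L H) s x * ((ep T L s ^ 2)⁻¹ * f s x) = ep T L s ^ 2 *
      (Nat.card (T.grp s) : ℝ)⁻¹ * (T.χ s ((T.glob L).c s x) * (sq (H s) x * f s x)) :=
    fun s x => by
      change (Nat.card (T.grp s) : ℝ)⁻¹ * (_ * sq (fun z => ep T L s ^ 2 • H s z) x) * _ = _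
      have := (ep_pos L s).ne'
      rw [sq_cs]; field_simp
  have e2 : ∀ s x, (gl1 T L).den T.χ (fun s => pm (u s) (rt T L H s)) s x *
      ((ep T L s ^ 2)⁻¹ * f s (u s x)) = ep T L s ^ 2 * (Nat.card (T.grp s) : ℝ)⁻¹ *
        (T.χ s ((T.glob L).c s x) * (sq (pm (u s) (H s)) x * f s (u s x))) := fun s x => by
    change (Nat.card (T.grp s) : ℝ)⁻¹ * (T.χ s ((T.glob L).c s x) *
      sq (pm (u s) fun z => ep T L s ^ 2 • H s z) x) * _ = _
    have := (ep_pos L s).ne'
    rw [pm_cs, sq_cs]; field_simp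
  obtain ⟨i1, i2⟩ := hint (rt T L H) _ hH hf fun s => by
    simp only [e1]; exact (int_of_IntL c hI s).const_mul _
  refine ⟨fun s => ?_, ?_⟩
  · have h0 : ep T L s ^ 2 * (Nat.card (T.grp s) : ℝ)⁻¹ ≠ 0 :=
      mul_ne_zero (pow_pos (ep_pos L s) 2).ne' (inv_ne_zero (Atl.card_pos hA s).ne')
    have h1 := (i1 s).const_mul (ep T L s ^ 2 * (Nat.card (T.grp s) : ℝ)⁻¹)⁻¹
    simp only [e2, inv_mul_cancel_left₀ h0] at h1
    exact h1
  · simp only [Atl.int, e1, e2, integral_const_mul, c.int_U] at i2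
    simp only [intL, ← mul_assoc]
    simp only [← mul_assoc] at i2
    exact i2

theorem matT_pm (u : E4 → E4) (X : MetricField 4) : matT (pm u X) = pullT u (matT X) :=
  funext fun _ => arr2_ext fun _ _ => rfl

theorem rel_pm (u : E4 → E4) (V : Set E4) (X : MetricField 4) : Rel u V (matT (pm u X)) (matT X) :=
  fun y _ => congrFun (matT_pm u X) y

theorem ip_rt (b X Y : Fam T) (s : T.S) (x : E4) :
    ip (rt T L b s) (matT (rt T L X s)) (matT (rt T L Y s)) x =
      ip (b s) (matT (X s)) (matT (Y s)) x := by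
  have h := (pow_pos (ep_pos L s) 2).ne'
  refine (N207.M.ip_smul_met h (b s) _ _ x).trans ?_
  simp only [ip, ipA_two, matT, rt, Matrix.smul_apply, smul_eq_mul, Finset.mul_sum]
  refine Finset.sum_congr rfl fun _ _ => Finset.sum_congr rfl fun _ _ =>
    Finset.sum_congr rfl fun _ _ => Finset.sum_congr rfl fun _ _ => ?_
  have := (ep_pos L s).ne'
  field_simp

theorem smT_of_rt {k : Fam T} {s : T.S} {U : Set E4} (h : SmT (matT (rt T L k s)) U) :
    SmT (matT (k s)) U := fun I => sm_of_rt h (I 0) (I 1)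

theorem intL_prL (c : Ch T L) {b Φ k : Fam T} {v : T.V} {d : ℝ} (hb : Met1 T L b)
    (hΦ : ∀ s a b, ContinuousOn (fun x => Φ s x a b) (U1 T L s))
    (hk : ∀ s a b, ContinuousOn (fun x => k s x a b) (U1 T L s))
    (hz : ∀ s, ∀ x ∈ U1 T L s, ¬ InK T L v d s x → Φ s x = 0) :
    IntL T L fun s x => sr T L v s * (sq (b s) x * ip (b s) (matT (Φ s)) (matT (k s)) x) := by
  refine c.intL_of_supp (v := v) (d := d) (fun s => continuousOn_const.mul
    ((sm_sqrt_det (hb.riem s)).continuousOn.mul ?_)) fun s x hx hn => ?_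
  · unfold ip
    simp only [ipA_two, matT]
    refine continuousOn_finsetSum _ fun _ _ => continuousOn_finsetSum _ fun _ _ =>
      continuousOn_finsetSum _ fun _ _ => continuousOn_finsetSum _ fun _ _ =>
      ((sm_inv (hb.riem s) _ _).continuousOn.mul (sm_inv (hb.riem s) _ _).continuousOn).mul
        ((hΦ s _ _).mul (hk s _ _))
  · simp [ip, ipA_two, matT, hz s x hx hn]

theorem prL_sub (c : Ch T L) {b Φ k k' : Fam T} {v : T.V} {d : ℝ} (hb : Met1 T L b)
    (hΦ : ∀ s a b, ContinuousOn (fun x => Φ s x a b) (U1 T L s))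
    (hk : ∀ s a b, ContinuousOn (fun x => k s x a b) (U1 T L s))
    (hk' : ∀ s a b, ContinuousOn (fun x => k' s x a b) (U1 T L s))
    (hz : ∀ s, ∀ x ∈ U1 T L s, ¬ InK T L v d s x → Φ s x = 0) :
    prL T L b v Φ (k - k') = prL T L b v Φ k - prL T L b v Φ k' := by
  rw [prL, prL, prL, ← intL_sub (intL_prL c hb hΦ hk hz) (intL_prL c hb hΦ hk' hz)]
  congr 1
  funext s x
  simp only [ip, ipA_two, matT, Pi.sub_apply, Matrix.sub_apply, mul_sub,
    Finset.sum_sub_distrib]

/-- invariance of the pairing -/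
theorem prL_pb (c : Ch T L) (hint : Inv T L u) {b Φ k : Fam T} {v : T.V} {d : ℝ}
    (hb : (T.glob L).IsMet (rt T L b))
    (p : ∀ s, Pull (pm (u s) (b s)) (b s) (u s) (U1 T L s) ((T.glob L).U s))
    (hΦ : (T.glob L).Sec fun s => matT (rt T L Φ s)) (hk : (T.glob L).Sec fun s => matT (rt T L k s))
    (hz : ∀ s, ∀ x ∈ U1 T L s, ¬ InK T L v d s x → Φ s x = 0) :
    prL T L (pb T L L u b) v (pb T L L u Φ) (pb T L L u k) = prL T L b v Φ k := by
  have h1 := intL_prL c (c.met1 hb) (fun s a b => (sm_of_rt ((c.sec1 hΦ).sm s) a b).continuousOn)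
    (fun s a b => (sm_of_rt ((c.sec1 hk).sm s) a b).continuousOn) hz
  have h2 := (intL_pb c hint hb (f := fun s x => sr T L v s * ip (b s) (matT (Φ s)) (matT (k s)) x)
    (by
      have := (hΦ.compat.ip (c.ok.glob_ok c.long) hb hk.compat).map fun t => (T.eps L v ^ 2)⁻¹ * t
      convert this using 3 with s x
      have := (ep_pos L s).ne'
      rw [ip_rt, sr]; field_simp)
    (by simpa only [mul_left_comm] using h1)).2
  simp only [prL, Cg.pb_self]
  refine (c.intL_congr fun s x hx => ?_).trans (h2.trans (by simp only [mul_left_comm]))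
  rw [(rel_pm _ _ _).ip (p s) (rel_pm _ _ _) hx, mul_left_comm]

theorem gau_eq (b G : MetricField 4) (x : E4) :
    gau (sq G x) (iv G x) (TG b G x) = sq G x * (1 / 2 * nsq G (gauT b G) x) := by
  rw [nsq_gauT, gau]; ring

/-- invariance of the norm of the gauge vector -/
theorem BB_pb (c : Ch T L) (hint : Inv T L u) {b G : Fam T}
    (hb : (T.glob L).IsMet (rt T L b)) (hG : (T.glob L).IsMet (rt T L G))
    (p : ∀ s, Pull (pm (u s) (b s)) (b s) (u s) (U1 T L s) ((T.glob L).U s))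
    (q : ∀ s, Pull (pm (u s) (G s)) (G s) (u s) (U1 T L s) ((T.glob L).U s))
    (hI : IntL T L fun s x => gau (sq (G s) x) (iv (G s) x) (TG (b s) (G s) x)) :
    BB T L (pb T L L u b) (pb T L L u G) = BB T L b G := by
  have hA := c.ok.glob_ok c.long
  simp only [gau_eq] at hI
  have h2 := (intL_pb c hint hG (f := fun s x => 1 / 2 * nsq (G s) (gauT (b s) (G s)) x)
    (by
      have h3 : (T.glob L).Compat fun s => gauT (rt T L b s) (rt T L G s) := fun a a' x F t => by
        obtain ⟨V, h1, h2, h3, -⟩ := t.exists_nbhd hA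
        exact rel_gauT (hG.pull hA h1 h3) (hb.pull hA h1 h3) x h2
      have := (h3.nsq hA hG).map fun t => 1 / 2 * t
      convert this using 3 with s x
      have h := pow_pos (ep_pos L s) 2
      rw [show nsq (rt T L G s) (gauT (rt T L b s) (rt T L G s)) x = _ from
        (congrArg (nsq _ · x) (gauT_cs h h (b s) (G s))).trans
          (N207.M.nsq_smul_met h.ne' (G s) _ x)]
      ring) hI).2
  simp only [BB, Cg.pb_self, gau_eq]
  refine (c.intL_congr fun s x hx => ?_).trans h2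
  rw [nsq, nsq, (rel_gauT (q s) (p s)).ip (q s) (rel_gauT (q s) (p s)) hx]

theorem rt_nrm (G : T.S → MetricField 4) : rt T L (T.nrm L G) = G := by
  funext s x
  exact smul_inv_smul₀ (pow_pos (ep_pos L s) 2).ne' _

theorem adm_flat (c : Ch T L) {g : T.V → Fam T} {T0 δ : ℝ} {G : T.S → MetricField 4}
    (hG : (T.glob L).IsMet G) (hF : Sk.Flat T G)
    (h : Cls T (U1 T L) 2 δ (T.nrm L G) (gbL T g T0 L)) : Adm T g T0 L δ (T.nrm L G) := by
  refine ⟨c.met1 (by rwa [rt_nrm]), h, ?_⟩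
  obtain ⟨R, hR⟩ := hF
  refine ⟨0, R + 1, fun x hx a b => ?_⟩
  have e : (fun y => (T.nrm L G (Sum.inr T.root) y - 1) a b) =ᶠ[𝓝 x] fun _ => 0 := by
    filter_upwards [(isOpen_lt continuous_const continuous_norm).mem_nhds
      (show R < ‖x‖ by linarith)] with y hy
    simp [TD.nrm, TD.un, c.ok.eps_root, hR y (le_of_lt hy)]
  beta_reduce
  rw [e.fderiv_eq, e.eq_of_nhds]
  simp

/-- the weighted `L²` norm of the Ricci tensor -/
theorem ric_EE (c : Ch T L) {G : T.S → MetricField 4} (hG : (T.glob L).IsMet G) {E : ℝ}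
    (hE : Sk.EE T L G ≤ ENNReal.ofReal (E ^ 2)) :
    IntL T L (fun s x => scl T s x ^ 2 *
      (sq (T.nrm L G s) x * nsq (T.nrm L G s) (ricT (T.nrm L G s)) x)) ∧
    intL T L (fun s x => scl T s x ^ 2 *
      (sq (T.nrm L G s) x * nsq (T.nrm L G s) (ricT (T.nrm L G s)) x)) ≤ E ^ 2 := by
  have hA := c.ok.glob_ok c.long
  have hm : Met1 T L (T.nrm L G) := c.met1 (by rwa [rt_nrm])
  set f : T.S → E4 → ℝ := fun s x => T.χ s ((T.glob L).c s x) * (scl T s x ^ 2 *
    (sq (T.nrm L G s) x * nsq (T.nrm L G s) (ricT (T.nrm L G s)) x)) with hf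
  set a : T.S → ℝ := fun s => ep T L s ^ 2 * (Nat.card (T.grp s) : ℝ)⁻¹ with ha
  have a0 : ∀ s, 0 < a s := fun s =>
    mul_pos (pow_pos (ep_pos L s) 2) (inv_pos.2 (Atl.card_pos hA s))
  have f0 : ∀ s, ∀ x ∈ U1 T L s, 0 ≤ f s x := fun s x hx => mul_nonneg (c.χ_nonneg _ _)
    (mul_nonneg (sq_nonneg _) (mul_nonneg (Real.sqrt_nonneg _)
      (Ar.ipA_nonneg ((hm.riem s).posDef x hx) (ricT (T.nrm L G s) x))))
  have fc : ∀ s, ContinuousOn (f s) (U1 T L s) := fun s => (c.χ_sm s).continuousOn.mul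
    (((scl_cont s).pow 2).continuousOn.mul ((sm_sqrt_det (hm.riem s)).continuousOn.mul
      ((SmT.ricT (hm.riem s)).nsq (hm.riem s)).continuousOn))
  have e : ∀ s x, ENNReal.ofReal ((T.glob L).den T.χ G s x) *
      ENNReal.ofReal (Sk.rw T L s x ^ 2 * nsq (G s) (ricT (G s)) x) =
        ENNReal.ofReal (a s * f s x) := fun s x => by
    rw [← ENNReal.ofReal_mul (show 0 ≤ (T.glob L).den T.χ G s x from mul_nonneg (by positivity)
      (mul_nonneg (c.χ_nonneg _ _) (Real.sqrt_nonneg _)))]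
    congr 1
    have h := (ep_pos L s).ne'
    have h2 : (ep T L s ^ 2)⁻¹ ≠ 0 := by positivity
    have e1 : ricT (T.nrm L G s) = ricT (G s) := by
      funext y I; exact ricci_csmul h2 (G s) y _ _
    have e2 : Sk.rw T L s x = ep T L s * scl T s x := by cases s <;> rfl
    have e3 := sq_cs (ep T L s ^ 2)⁻¹ (G s) x
    have e4 := N207.M.nsq_smul_met h2 (G s) (ricT (G s)) x
    simp only [hf, ha, e1, e2]
    rw [show sq (T.nrm L G s) x = _ from e3, show nsq (T.nrm L G s) (ricT (G s)) x = _ from e4]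
    change (Nat.card (T.grp s) : ℝ)⁻¹ * (_ * sq (G s) x) * _ = _
    field_simp
  simp only [Sk.EE, Atl.lint, e] at hE
  have h1 : ∑ s, ∫⁻ x in U1 T L s, ENNReal.ofReal (a s * f s x) ≤ ENNReal.ofReal (E ^ 2) :=
    (Finset.sum_le_sum fun s _ => lintegral_mono_set (c.U1_U s)).trans hE
  have n0 : ∀ s, 0 ≤ᵐ[volume.restrict (U1 T L s)] fun x => a s * f s x := fun s =>
    (ae_restrict_iff' (c.op1 s).measurableSet).2 (Eventually.of_forall fun x hx =>
      mul_nonneg (a0 s).le (f0 s x hx))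
  have i1 : ∀ s, IntegrableOn (fun x => a s * f s x) (U1 T L s) := fun s =>
    (lintegral_ofReal_ne_top_iff_integrable ((continuousOn_const.mul (fc s)).aestronglyMeasurable
      (c.op1 s).measurableSet) (n0 s)).1 (ne_top_of_le_ne_top ENNReal.ofReal_ne_top
        ((Finset.single_le_sum (f := fun s => ∫⁻ x in U1 T L s, ENNReal.ofReal (a s * f s x))
          (fun _ _ => zero_le) (Finset.mem_univ s)).trans h1))
  refine ⟨fun s => ?_, ?_⟩
  · have := (i1 s).const_mul (a s)⁻¹
    simp only [inv_mul_cancel_left₀ (a0 s).ne'] at this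
    exact this
  · simp only [← ofReal_integral_eq_lintegral_ofReal (i1 _) (n0 _)] at h1
    rw [← ENNReal.ofReal_sum_of_nonneg fun s _ => integral_nonneg_of_ae (n0 s),
      ENNReal.ofReal_le_ofReal_iff (sq_nonneg _)] at h1
    refine le_of_eq_of_le (Finset.sum_congr rfl fun s _ => ?_) h1
    rw [integral_const_mul, ha, mul_assoc]

end Crest.Agent.N207.NS.Ct

end
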