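import Crest.Agent.N207.CB.Defs
import Crest.Agent.N207.Sk.Sta

/-!
# Row 207, blocks M/N (helper3): design free definitions

Reused: `CB.gb`, `CB.gbL` (reference metrics, vertex units), `CB.scl`, `CB.rad`, `Sk.rw` (the scale
`ρ` in root units), `Sk.EE`, `Sk.SS`, `Sk.Fast`, `TD.nrm` (root units → vertex units).
-/

set_option autoImplicit false

open scoped ContDiff ENNReal
open Metric Set Filter Topology MeasureTheory
open Crest.GeometryTopology.CoordMetric
open Crest.Agent.N207.I Crest.Agent.N207.CB Crest.Agent.N207.Sk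

noncomputable section

namespace Crest.Agent.N207.N

variable {M : Type*} (T : TD M) {k : ℕ}

/-- vertex units → root units (inverse of `T.nrm L`) -/
def rt (L : T.V → ℝ) (G : Fam T) : Fam T := fun s x => T.eps L (T.un s) ^ 2 • G s x

/-- the reference metric on `glob L` in root units -/
def gR (g : T.V → Fam T) (T0 : ℝ) (L : T.V → ℝ) : Fam T := rt T L (gbL T g T0 L)

/-- energy density `|∇k|² + |k|² / ρ²` for the background `b` (root units) -/
def enD (L : T.V → ℝ) (b : Fam T) (h : T.S → Tn 4 k) (s : T.S) (x : E4) : ℝ :=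
  nsq (b s) (cov (b s) (h s)) x + nsq (b s) (h s) x / rw T L s x ^ 2

/-- the energy (lower integral) -/
def En (L : T.V → ℝ) (b : Fam T) (h : T.S → Tn 4 k) : ℝ≥0∞ :=
  (T.glob L).lint T.χ b fun s x => ENNReal.ofReal (enD T L b h s x)

/-- the dual norm `∫ ρ² |F|²` (`EE T L G = ee T L G (Ric G)`) -/
def ee (L : T.V → ℝ) (b : Fam T) (F : T.S → Tn 4 k) : ℝ≥0∞ :=
  (T.glob L).lint T.χ b fun s x => ENNReal.ofReal (rw T L s x ^ 2 * nsq (b s) (F s) x)

theorem EE_eq (L : T.V → ℝ) (G : Fam T) : EE T L G = ee T L G fun s => ricT (G s) := rfl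

/-- scale invariant `Cᵐ` smallness (vertex units) on the sets `K s` -/
def SmallOn (K : T.S → Set E4) (m : ℕ) (δ : ℝ) (h : Fam T) : Prop :=
  ∀ s, ∀ x ∈ K s, ∀ j ≤ m, ∀ a b, scl T s x ^ j * ‖iteratedFDeriv ℝ j (fun y => h s y a b) x‖ ≤ δ

/-- scale invariant `Cᵐ` smallness (vertex units) on the supports of the partition of unity -/
def Small (L : T.V → ℝ) (m : ℕ) (δ : ℝ) (h : Fam T) : Prop := SmallOn T (T.gK L) m δ h

/-- decay `|x|^{-p}` at the root end beyond the radius `R` -/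
def Dec (R p : ℝ) (m : ℕ) (C : ℝ) (h : Fam T) : Prop :=
  ∀ x : E4, R ≤ ‖x‖ → ∀ j ≤ m, ∀ a b,
    ‖x‖ ^ j * ‖iteratedFDeriv ℝ j (fun y => h (Sum.inr T.root) y a b) x‖ ≤ C * (R / ‖x‖) ^ p

theorem nrm_rt (L : T.V → ℝ) (G : Fam T) : T.nrm L (rt T L G) = G := by
  funext s y
  have : T.eps L (T.un s) ^ 2 ≠ 0 := pow_ne_zero _ (Real.exp_pos _).ne'
  simp only [TD.nrm, rt, smul_smul, inv_mul_cancel₀ this, one_smul]

theorem rt_nrm (L : T.V → ℝ) (G : Fam T) : rt T L (T.nrm L G) = G := by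
  funext s y
  have : T.eps L (T.un s) ^ 2 ≠ 0 := pow_ne_zero _ (Real.exp_pos _).ne'
  simp only [TD.nrm, rt, smul_smul, mul_inv_cancel₀ this, one_smul]

theorem rw_eq (L : T.V → ℝ) (s : T.S) (x : E4) : rw T L s x = T.eps L (T.un s) * scl T s x := by
  cases s <;> rfl

theorem ls_small {g : T.V → Fam T} {T0 : ℝ} {κ : T.V → Type} [∀ v, Fintype (κ v)]
    {ψ : ∀ v, κ v → Fam T} {δ : ℝ} {L : T.V → ℝ} {θ μ : (Σ v, κ v) → ℝ} {G : Fam T}
    (h : LS T g T0 κ ψ δ L θ μ G) : Small T L 2 δ (G - gbL T g T0 L) :=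
  fun s x hx j hj a b => h.small s x hx x (mem_ball_self (by
    cases s with
    | inl _ => show (0 : ℝ) < 1 / 8; norm_num
    | inr w =>
      have h1 : 3 / 2 ≤ ‖x‖ := hx.1
      show (0 : ℝ) < ‖x‖ / 8
      linarith)) j (by omega) a b

end Crest.Agent.N207.N

end
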