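import Crest.Agent.N207.N.Gs0

/-!
# Row 207, block N (helper28): the dilation map of the leaf `DIL`, Euclidean part
-/

set_option autoImplicit false

open scoped ContDiff Topology
open Metric Set Filter
open Crest.GeometryTopology.CoordMetric
open Crest.Agent.N207.I Crest.Agent.N207.CB

noncomputable section

namespace Crest.Agent.N207.NS.Dl

/-- jets of a smooth family that vanishes at `t = 0` -/
theorem fam_le1 {V : Type} [NormedAddCommGroup V] [NormedSpace ℝ V] {F : ℝ × E4 → V}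
    (hF : ContDiff ℝ ∞ F) (h0 : ∀ x, F (0, x) = 0) (R : ℝ) (k : ℕ) :
    ∃ C : ℝ, 0 ≤ C ∧ ∀ t, |t| ≤ 1 → ∀ x : E4, ‖x‖ ≤ R →
      ‖iteratedFDeriv ℝ k (fun y => F (t, y)) x‖ ≤ C * |t| := by
  have h1 : ContDiff ℝ 1 (iteratedFDeriv ℝ k F) := hF.iteratedFDeriv_right (by exact_mod_cast le_top)
  obtain ⟨K, hK⟩ := h1.contDiffOn.exists_lipschitzOnWith (s := closedBall 0 1 ×ˢ closedBall 0 R)
    one_ne_zero ((convex_closedBall _ _).prod (convex_closedBall _ _))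
    ((isCompact_closedBall _ _).prod (isCompact_closedBall _ _))
  have e : ∀ t x, iteratedFDeriv ℝ k (fun y => F (t, y)) x =
      (iteratedFDeriv ℝ k F (t, x)).compContinuousLinearMap
        fun _ => ContinuousLinearMap.inr ℝ ℝ E4 := by
    intro t x
    have h2 : ContDiff ℝ ∞ fun z => F ((t, 0) + z) := hF.comp (by fun_prop)
    have := (ContinuousLinearMap.inr ℝ ℝ E4).iteratedFDeriv_comp_right h2 x (i := k)
      (by exact_mod_cast le_top)
    rw [iteratedFDeriv_comp_add_left] at this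
    simpa [Function.comp_def] using this
  refine ⟨K, K.2, fun t ht x hx => ?_⟩
  have e0 := e 0 x
  simp only [h0, iteratedFDeriv_fun_zero, Pi.zero_apply] at e0
  have e1 : iteratedFDeriv ℝ k (fun y => F (t, y)) x =
      (iteratedFDeriv ℝ k F (t, x) - iteratedFDeriv ℝ k F (0, x)).compContinuousLinearMap
        fun _ => ContinuousLinearMap.inr ℝ ℝ E4 := by
    rw [e, ← sub_zero (ContinuousMultilinearMap.compContinuousLinearMap _ _), e0]; rfl
  have h3 := hK.dist_le_mul (t, x) ⟨by simpa using ht, by simpa using hx⟩ (0, x)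
    ⟨by simp, by simpa using hx⟩
  rw [e1]
  refine (ContinuousMultilinearMap.norm_compContinuousLinearMap_le _ _).trans ?_
  rw [dist_eq_norm, Prod.dist_eq, dist_self, dist_zero_right, max_eq_left (norm_nonneg _)] at h3
  refine (mul_le_of_le_one_right (norm_nonneg _) ?_).trans h3
  exact Finset.prod_le_one (fun _ _ => norm_nonneg _)
    fun _ _ => ContinuousLinearMap.norm_inr_le_one ℝ ℝ E4

theorem fam_le {V ι : Type} [NormedAddCommGroup V] [NormedSpace ℝ V] [Fintype ι]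
    {F : ι → ℝ × E4 → V} (hF : ∀ i, ContDiff ℝ ∞ (F i)) (h0 : ∀ i x, F i (0, x) = 0) {R : ℝ}
    (hR : 1 ≤ R) (m : ℕ) : ∃ C : ℝ, 0 ≤ C ∧ ∀ t, |t| ≤ 1 → ∀ x : E4, ‖x‖ ≤ R → ∀ i, ∀ k ≤ m,
      ‖x‖ ^ k * ‖iteratedFDeriv ℝ k (fun y => F i (t, y)) x‖ ≤ C * |t| := by
  choose C h1 h2 using fun i k => fam_le1 (hF i) (h0 i) R k
  have hs : ∀ i, 0 ≤ ∑ k ∈ Finset.range (m + 1), C i k := fun i =>
    Finset.sum_nonneg fun k _ => h1 i k
  refine ⟨R ^ m * ∑ i, ∑ k ∈ Finset.range (m + 1), C i k,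
    mul_nonneg (by positivity) (Finset.sum_nonneg fun i _ => hs i), fun t ht x hx i k hk => ?_⟩
  rw [mul_assoc]
  refine mul_le_mul ((pow_le_pow_left₀ (norm_nonneg _) hx k).trans (pow_le_pow_right₀ hR hk))
    ((h2 i k t ht x hx).trans (mul_le_mul_of_nonneg_right ?_ (abs_nonneg _))) (norm_nonneg _)
    (by positivity)
  exact (Finset.single_le_sum (fun k _ => h1 i k)
    (Finset.mem_range.2 (Nat.lt_succ_of_le hk))).trans
    (Finset.single_le_sum (fun i _ => hs i) (Finset.mem_univ i))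

theorem lin_jet (a : ℝ) (x : E4) (k : ℕ) :
    ‖x‖ ^ k * ‖iteratedFDeriv ℝ k (fun y : E4 => a • y) x‖ ≤ |a| * ‖x‖ := by
  have e : fderiv ℝ (fun y : E4 => a • y) = fun _ => a • ContinuousLinearMap.id ℝ E4 :=
    funext fun y => ((hasFDerivAt_id y).const_smul a).fderiv
  rcases k with _ | _ | k
  · simp [norm_smul]
  · rw [← norm_iteratedFDeriv_fderiv, e, norm_iteratedFDeriv_zero, norm_smul, mul_comm]
    simp
  · rw [← norm_iteratedFDeriv_fderiv, e, iteratedFDeriv_const_of_ne (Nat.succ_ne_zero _)]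
    simp only [Pi.zero_apply, norm_zero, mul_zero]
    positivity

/-- the cut-off -/
def be (T0 : ℝ) (x : E4) : ℝ := Real.smoothTransition
  ((‖x‖ ^ 2 - Real.exp (T0 + 5 / 4) ^ 2) / (Real.exp (T0 + 7 / 4) ^ 2 - Real.exp (T0 + 5 / 4) ^ 2))

/-- the dilation -/
def uu (T0 t : ℝ) (x : E4) : E4 := Real.exp (t * be T0 x) • x

variable {T0 t : ℝ} {x : E4}

theorem gap (T0 : ℝ) : 0 < Real.exp (T0 + 7 / 4) ^ 2 - Real.exp (T0 + 5 / 4) ^ 2 :=
  sub_pos.2 (pow_lt_pow_left₀ (Real.exp_lt_exp.2 (by linarith)) (Real.exp_pos _).le two_ne_zero)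

theorem uu_lo (h : ‖x‖ ≤ Real.exp (T0 + 5 / 4)) : uu T0 t x = x := by
  rw [uu, be, Real.smoothTransition.zero_of_nonpos (div_nonpos_of_nonpos_of_nonneg
    (sub_nonpos.2 (pow_le_pow_left₀ (norm_nonneg _) h 2)) (gap T0).le)]
  simp

theorem uu_hi (h : Real.exp (T0 + 7 / 4) ≤ ‖x‖) : uu T0 t x = Real.exp t • x := by
  rw [uu, be, Real.smoothTransition.one_of_one_le ((one_le_div (gap T0)).2
    (sub_le_sub_right (pow_le_pow_left₀ (Real.exp_pos _).le h 2) _)), mul_one]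

theorem uu_zero (T0 : ℝ) (x : E4) : uu T0 0 x = x := by simp [uu]

theorem uu_sm (T0 : ℝ) : ContDiff ℝ ∞ fun p : ℝ × E4 => uu T0 p.1 p.2 := by
  have h1 : ContDiff ℝ ∞ (be T0) := Real.smoothTransition.contDiff.comp
    (((contDiff_norm_sq ℝ).sub contDiff_const).div_const _)
  exact (contDiff_fst.mul (h1.comp contDiff_snd)).exp.smul contDiff_snd

theorem uu_sm1 (T0 t : ℝ) : ContDiff ℝ ∞ (uu T0 t) :=
  (uu_sm T0).comp (f := fun y : E4 => (t, y)) (by fun_prop)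

theorem norm_uu (ht : |t| ≤ 1) (T0 : ℝ) (x : E4) :
    Real.exp (-1) * ‖x‖ ≤ ‖uu T0 t x‖ ∧ ‖uu T0 t x‖ ≤ Real.exp 1 * ‖x‖ := by
  have h1 : |t * be T0 x| ≤ 1 := by
    rw [abs_mul, be, abs_of_nonneg (Real.smoothTransition.nonneg _)]
    exact mul_le_one₀ ht (Real.smoothTransition.nonneg _) (Real.smoothTransition.le_one _)
  rw [uu, norm_smul, Real.norm_of_nonneg (Real.exp_pos _).le]
  exact ⟨mul_le_mul_of_nonneg_right (Real.exp_le_exp.2 (abs_le.1 h1).1) (norm_nonneg _),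
    mul_le_mul_of_nonneg_right (Real.exp_le_exp.2 (abs_le.1 h1).2) (norm_nonneg _)⟩

theorem uu_ge (ht : |t| ≤ 1) (h : Real.exp (T0 + 5 / 4) ≤ ‖x‖) :
    Real.exp (T0 + 1 / 4) ≤ ‖uu T0 t x‖ := by
  refine le_trans ?_ (norm_uu ht T0 x).1
  rw [show T0 + 1 / 4 = -1 + (T0 + 5 / 4) by ring, Real.exp_add]
  exact mul_le_mul_of_nonneg_left h (Real.exp_pos _).le

theorem uu_le (ht : |t| ≤ 1) (h : ‖x‖ ≤ Real.exp (T0 + 2)) : ‖uu T0 t x‖ ≤ Real.exp (T0 + 3) := by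
  refine (norm_uu ht T0 x).2.trans ?_
  rw [show T0 + 3 = 1 + (T0 + 2) by ring, Real.exp_add 1]
  exact mul_le_mul_of_nonneg_left h (Real.exp_pos _).le

theorem uu_iso (γ : Iso4) (T0 t : ℝ) (x : E4) : uu T0 t (γ x) = γ (uu T0 t x) := by
  simp only [uu, be, γ.norm_map, map_smul]

/-- `u - id` is small -/
theorem uu_near (h0 : 0 ≤ T0) : ∃ C : ℝ, 0 ≤ C ∧ ∀ t, |t| ≤ 1 → ∀ x : E4, 1 ≤ ‖x‖ → ∀ k ≤ 3,
    ‖x‖ ^ k * ‖iteratedFDeriv ℝ k (fun y => uu T0 t y - y) x‖ ≤ C * |t| * ‖x‖ := by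
  obtain ⟨C, h1, h2⟩ := fam_le (ι := Unit) (F := fun _ p => uu T0 p.1 p.2 - p.2)
    (fun _ => (uu_sm T0).sub contDiff_snd) (fun _ x => by simp [uu_zero])
    (R := Real.exp (T0 + 2)) (Real.one_le_exp (by linarith)) 3
  refine ⟨C + 2, by positivity, fun t ht x hx k hk => ?_⟩
  have a1 := abs_nonneg t
  by_cases h : ‖x‖ ≤ Real.exp (T0 + 2)
  · refine (h2 t ht x h () k hk).trans ?_
    have := mul_nonneg h1 a1
    nlinarith
  · have e : (fun y => uu T0 t y - y) =ᶠ[𝓝 x] fun y => (Real.exp t - 1) • y := by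
      filter_upwards [continuous_norm.continuousAt.eventually (lt_mem_nhds (not_le.1 h))] with y hy
      rw [uu_hi ((Real.exp_le_exp.2 (by linarith)).trans hy.le), sub_smul, one_smul]
    rw [(e.iteratedFDeriv ℝ k).self_of_nhds]
    refine (lin_jet _ x k).trans (mul_le_mul_of_nonneg_right ?_ (norm_nonneg _))
    have := Real.abs_exp_sub_one_le ht
    nlinarith

/-- the pull-back of the flat metric is near the flat metric -/
theorem uu_flat (h0 : 0 ≤ T0) : ∃ C : ℝ, 0 ≤ C ∧ ∀ t, |t| ≤ 1 → ∀ x : E4,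
    ‖x‖ ≤ Real.exp (T0 + 2) → ∀ a b, ∀ k ≤ 2, ‖x‖ ^ k * ‖iteratedFDeriv ℝ k
      (fun y => (Real.exp (-t) ^ 2 • pm (uu T0 t) (fun _ => 1) y - 1) a b) x‖ ≤ C * |t| := by
  refine (fam_le (ι := Fin 4 × Fin 4) (F := fun i p =>
      (Real.exp (-p.1) ^ 2 • pm (uu T0 p.1) (fun _ => 1) p.2 - 1) i.1 i.2)
    (fun i => ?_) (fun i x => ?_) (R := Real.exp (T0 + 2)) (Real.one_le_exp (by linarith)) 2).imp
    fun C h => ⟨h.1, fun t ht x hx a b k hk => h.2 t ht x hx (a, b) k hk⟩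
  · have h3 : ContDiff ℝ ∞ fun p : ℝ × E4 => fderiv ℝ (uu T0 p.1) p.2 :=
      ContDiff.fderiv (f := fun (p : ℝ × E4) y => uu T0 p.1 y) (m := ∞)
        ((uu_sm T0).comp (f := fun q : (ℝ × E4) × E4 => (q.1.1, q.2)) (by fun_prop))
        contDiff_snd (by exact_mod_cast le_top)
    have h4 : ∀ a i, ContDiff ℝ ∞ fun p : ℝ × E4 =>
        fderiv ℝ (uu T0 p.1) p.2 (EuclideanSpace.single a 1) i := fun a i =>
      (EuclideanSpace.proj i : E4 →L[ℝ] ℝ).contDiff.comp (h3.clm_apply contDiff_const)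
    simp only [Matrix.sub_apply, Matrix.smul_apply, pm_apply, smul_eq_mul]
    exact ((contDiff_fst.neg.exp.pow 2).mul (ContDiff.sum fun a _ => ContDiff.sum fun b _ =>
      ((h4 _ _).mul (h4 _ _)).mul contDiff_const)).sub contDiff_const
  · rw [pm_dil (a := 1) (Eventually.of_forall fun z => by rw [uu_zero, one_smul])]
    simp

theorem sq_exp (ht : |t| ≤ 1) : |Real.exp (-t) ^ 2 - 1| ≤ 8 * |t| := by
  have h1 := Real.abs_exp_sub_one_le (x := -t) (by rwa [abs_neg])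
  rw [abs_neg] at h1
  have h2 := (abs_le.1 h1).2
  rw [show Real.exp (-t) ^ 2 - 1 = (Real.exp (-t) - 1) * (Real.exp (-t) + 1) by ring, abs_mul,
    abs_of_pos (a := Real.exp (-t) + 1) (by positivity)]
  have := mul_le_mul h1 (show Real.exp (-t) + 1 ≤ 4 by linarith) (by positivity) (by positivity)
  linarith

end Crest.Agent.N207.NS.Dl

end
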