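import Crest.Agent.N207.N.Dil1

/-!
# Row 207, block N (helper28): the leaf `DIL`
-/

set_option autoImplicit false

open scoped ContDiff Topology
open Metric Set Filter
open Crest.GeometryTopology.CoordMetric
open Crest.Agent.N207.I Crest.Agent.N207.CB

noncomputable section

namespace Crest.Agent.N207.NS

namespace Dl

variable {M : Type*} {T : TD M} {g : T.V → Fam T} {L : T.V → ℝ} {w : T.V} {T0 t : ℝ} {x : E4}

theorem uw (h : T.Ok) (L : T.V → ℝ) (s : T.S) :
    U1 T L s ⊆ W1 T L s ∧ W1 T L s ⊆ (T.glob L).U s := by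
  rcases s with a | w
  · exact ⟨ball_subset_ball (by norm_num), ball_subset_ball (by norm_num)⟩
  · have := mul_pos h.r_pos (Real.exp_pos (L w))
    exact ⟨fun x hx => ⟨by linarith [hx.1], fun hw => by linarith [hx.2 hw]⟩,
      fun x hx => ⟨by linarith [hx.1], fun hw => by linarith [hx.2 hw]⟩⟩

theorem par_ne (h : T.Ok) (hw : w ≠ T.root) : w ≠ T.par w := fun e => by
  have := h.dep_par w hw
  rw [← e] at this; omega

theorem eps_alt (h : T.Ok) (L : T.V → ℝ) (w : T.V) (t : ℝ) (v : T.V) :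
    T.eps (Function.update L w (L w + t)) v = T.eps L v ∨
      (T.eps (Function.update L w (L w + t)) v = Real.exp (-t) * T.eps L v ∧ T.dep w ≤ T.dep v) := by
  induction v using h.ind with
  | h0 => exact Or.inl (by rw [h.eps_root, h.eps_root])
  | h1 v hv ih =>
    have hd := h.dep_par v hv
    rw [h.eps_kid _ hv, h.eps_kid L hv]
    by_cases e : v = w
    · subst e
      refine Or.inr ⟨?_, le_rfl⟩
      rw [ih.resolve_right fun h' => by omega, Function.update_self, neg_add, Real.exp_add]; ring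
    · rw [Function.update_of_ne e]
      exact ih.imp (fun h' => by rw [h']) fun h' => ⟨by rw [h'.1]; ring, by omega⟩

theorem eps_w (h : T.Ok) (hw : w ≠ T.root) (L : T.V → ℝ) (t : ℝ) :
    T.eps (Function.update L w (L w + t)) w / T.eps L w = Real.exp (-t) := by
  have hd := h.dep_par w hw
  rw [div_eq_iff (TD.eps_pos L w).ne', h.eps_kid _ hw, h.eps_kid L hw,
    (eps_alt h L w t (T.par w)).resolve_right fun h' => by omega, Function.update_self, neg_add,
    Real.exp_add]
  ring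

theorem ep_sq (h : T.Ok) (ht : |t| ≤ 1) (L : T.V → ℝ) (w : T.V) (s : T.S) :
    |(ep T (Function.update L w (L w + t)) s / ep T L s) ^ 2 - 1| ≤ 8 * |t| := by
  rcases eps_alt h L w t (T.un s) with e | ⟨e, -⟩
  · rw [ep, e, div_self (ep_pos L s).ne']; simp
  · rw [ep, e, mul_div_assoc, div_self (ep_pos L s).ne', mul_one]; exact sq_exp ht

theorem own_flat (hx : Real.exp (T0 + 1 / 10) ≤ ‖x‖) : gb T g T0 w (Sum.inr w) x = 1 := by
  have h1 : T0 + 1 / 10 ≤ Real.log ‖x‖ :=
    (Real.le_log_iff_exp_le ((Real.exp_pos _).trans_le hx)).2 hx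
  have h2 : stp 0 (1 / 10) (tau T w w T0 x) = 1 := Real.smoothTransition.one_of_one_le
    ((one_le_div (by norm_num)).2 (by simp only [tau, if_true]; linarith))
  simp only [gb, Sum.elim_inr, h2]; simp

theorem par_flat (h : T.Ok) (hw : w ≠ T.root) {L0 : ℝ} (hL : 2 * T0 + 4 ≤ L0) (h0 : 0 < ‖x‖)
    (hx : ‖x‖ ≤ Real.exp (T0 + 3)) :
    gb T g T0 (T.par w) (Sum.inr w) (Real.exp (-L0) • x) = 1 := by
  have h1 : Real.log ‖Real.exp (-L0) • x‖ ≤ -L0 + (T0 + 3) := by
    rw [norm_smul, Real.norm_of_nonneg (Real.exp_pos _).le, Real.log_mul (Real.exp_pos _).ne' h0.ne',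
      Real.log_exp]
    linarith [(Real.log_le_iff_le_exp h0).2 hx]
  have h2 : stp 0 (1 / 10) (tau T (T.par w) w T0 (Real.exp (-L0) • x)) = 1 :=
    Real.smoothTransition.one_of_one_le ((one_le_div (by norm_num)).2 (by
      simp only [tau, if_neg (par_ne h hw)]; linarith))
  simp only [gb, Sum.elim_inr, h2]; simp

theorem gbL_inr (hw : w ≠ T.root) (L : T.V → ℝ) (x : E4) : gbL T g T0 L (Sum.inr w) x =
    gb T g T0 w (Sum.inr w) x + (gb T g T0 (T.par w) (Sum.inr w) (Real.exp (-L w) • x) - 1) := by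
  simp only [gbL, Sum.elim_inr, if_neg hw]

/-- the family of maps -/
def uF (T : TD M) (w : T.V) (T0 t : ℝ) : T.S → E4 → E4 :=
  fun s => if s = Sum.inr w then uu T0 t else fun x => x

theorem uF_w : uF T w T0 t (Sum.inr w) = uu T0 t := if_pos rfl

theorem uF_ne {s : T.S} (hs : s ≠ Sum.inr w) : uF T w T0 t s = fun x => x := if_neg hs

theorem same {s : T.S} (hs : s ≠ Sum.inr w) (a : ℝ) :
    (T.glob (Function.update L w a)).c s = (T.glob L).c s ∧
      W1 T (Function.update L w a) s = W1 T L s ∧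
      gbL T g T0 (Function.update L w a) s = gbL T g T0 L s ∧
      ∀ x O, (T.glob L).c s x ≠ Sum.inr (w, O) := by
  rcases s with b | v
  · exact ⟨rfl, rfl, rfl, fun _ _ => Sum.inl_ne_inr⟩
  · have hv : v ≠ w := fun e => hs (congrArg _ e)
    refine ⟨?_, ?_, ?_, fun x O => ?_⟩
    · simp only [TD.glob, Sum.elim_inr, Function.update_of_ne hv]
    · simp only [W1, Sum.elim_inr, Function.update_of_ne hv]
    · simp only [gbL, Sum.elim_inr, Function.update_of_ne hv]
    · simp only [TD.glob, Sum.elim_inr]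
      split_ifs <;> simp [hv]

theorem e4 (h3 : 3 ≤ T0) {c : ℝ} (hc : 0 ≤ c) : 4 ≤ Real.exp (T0 + c) := by
  linarith [Real.add_one_le_exp (T0 + c)]

theorem cancel (L0 t : ℝ) (x : E4) :
    Real.exp (-(L0 + t)) • Real.exp t • x = Real.exp (-L0) • x := by
  rw [smul_smul, ← Real.exp_add]; congr 2; ring

theorem small (ht : |t| ≤ 1) (hk : Real.exp (T0 + 5) ≤ T.r / 4 * Real.exp (L w))
    (h : ‖x‖ ≤ Real.exp (T0 + 2)) : ‖uu T0 t x‖ ≤ T.r / 4 * Real.exp (L w + t) := by
  refine (uu_le ht h).trans ?_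
  have h1 : Real.exp (T0 + 3) ≤ Real.exp (T0 + 5) * Real.exp t := by
    rw [← Real.exp_add]; exact Real.exp_le_exp.2 (by linarith [(abs_le.1 ht).1])
  rw [Real.exp_add (L w), ← mul_assoc]
  exact h1.trans (mul_le_mul_of_nonneg_right hk (Real.exp_pos _).le)

theorem lt_iff (r L0 : ℝ) (x : E4) : r < ‖Real.exp (-L0) • x‖ ↔ r * Real.exp L0 < ‖x‖ := by
  rw [norm_smul, Real.norm_of_nonneg (Real.exp_pos _).le, Real.exp_neg, ← div_eq_inv_mul,
    lt_div_iff₀ (Real.exp_pos _)]

theorem chart (hw : w ≠ T.root) (h3 : 3 ≤ T0) (ht : |t| ≤ 1)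
    (hk : Real.exp (T0 + 5) ≤ T.r / 4 * Real.exp (L w)) (x : E4) :
    ((T.glob (Function.update L w (L w + t))).c (Sum.inr w) (uu T0 t x) =
      (T.glob L).c (Sum.inr w) x ∧ ∀ O, (T.glob L).c (Sum.inr w) x ≠ Sum.inr (w, O)) ∨
    ((T.glob L).c (Sum.inr w) x = Sum.inr (w, T.orb w x) ∧
      (T.glob (Function.update L w (L w + t))).c (Sum.inr w) (uu T0 t x) =
        Sum.inr (w, T.orb w (uu T0 t x))) := by
  simp only [TD.glob, Sum.elim_inr, Function.update_self]
  by_cases h1 : ‖x‖ < 4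
  · rw [uu_lo (h1.le.trans (e4 h3 (by norm_num)))]
    simp [h1]
  have h4 : ¬ ‖uu T0 t x‖ < 4 := by
    by_cases h : ‖x‖ ≤ Real.exp (T0 + 5 / 4)
    · rwa [uu_lo h]
    · exact not_lt.2 ((e4 h3 (by norm_num)).trans (uu_ge ht (not_le.1 h).le))
  by_cases h2 : T.r / 4 < ‖Real.exp (-L w) • x‖
  · have h5 : Real.exp (T0 + 7 / 4) ≤ ‖x‖ :=
      ((Real.exp_le_exp.2 (by linarith)).trans hk).trans ((lt_iff _ _ _).1 h2).le
    rw [if_neg h4, if_neg h1, uu_hi h5, cancel]
    simp [hw, h2]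
  · have h5 : ¬ T.r / 4 < ‖Real.exp (-(L w + t)) • uu T0 t x‖ := by
      by_cases h : ‖x‖ ≤ Real.exp (T0 + 2)
      · rw [lt_iff]; exact not_lt.2 (small ht hk h)
      · rwa [uu_hi ((Real.exp_le_exp.2 (by linarith)).trans (not_le.1 h).le), cancel]
    right
    rw [if_neg h4, if_neg h1, if_neg fun h => h2 h.2, if_neg fun h => h5 h.2]
    exact ⟨rfl, rfl⟩

theorem nid (h : T.Ok) (hw : w ≠ T.root) (h3 : 3 ≤ T0) (ht : |t| ≤ 1)
    (hk : Real.exp (T0 + 5) ≤ T.r / 4 * Real.exp (L w)) {δ : ℝ} (hδ : 0 ≤ δ)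
    (hn : ∀ x : E4, 1 ≤ ‖x‖ → ∀ k ≤ 3,
      ‖x‖ ^ k * ‖iteratedFDeriv ℝ k (fun y => uu T0 t y - y) x‖ ≤ δ * ‖x‖) :
    NId T L (Function.update L w (L w + t)) δ (uF T w T0 t) := by
  have hs := fun s (hs : s ≠ Sum.inr w) =>
    same (g := fun _ _ _ => 0) (T0 := T0) (L := L) hs (L w + t)
  refine ⟨fun s => ?_, fun s => ?_, fun s s' x _ y _ e => ?_, fun s x hx k hk => ?_,
    0, 0, fun x _ k _ => ?_⟩
  · by_cases e : s = Sum.inr w
    · rw [e, uF_w]; exact (uu_sm1 T0 t).contDiffOn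
    · rw [uF_ne e]; exact contDiffOn_id
  · by_cases e : s = Sum.inr w
    · subst e
      rw [uF_w]
      intro x hx
      have hr := h.r_pos
      refine ⟨?_, fun _ => ?_⟩
      · by_cases h1 : ‖x‖ ≤ Real.exp (T0 + 5 / 4)
        · rw [uu_lo h1]; linarith [hx.1]
        · linarith [uu_ge ht (not_le.1 h1).le, e4 h3 (show (0 : ℝ) ≤ 1 / 4 by norm_num)]
      · rw [Function.update_self]
        have h2 := mul_pos hr (Real.exp_pos (L w + t))
        by_cases h1 : ‖x‖ ≤ Real.exp (T0 + 2)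
        · linarith [small ht hk h1]
        · rw [uu_hi ((Real.exp_le_exp.2 (by linarith)).trans (not_le.1 h1).le), norm_smul,
            Real.norm_of_nonneg (Real.exp_pos _).le]
          have := mul_lt_mul_of_pos_left (hx.2 hw) (Real.exp_pos t)
          rw [Real.exp_add] at h2 ⊢
          linarith
    · rw [uF_ne e, (hs s e).2.1]; exact (uw h L s).1
  · by_cases e1 : s = Sum.inr w <;> by_cases e2 : s' = Sum.inr w
    · subst e1 e2
      rw [uF_w]
      rcases chart hw h3 ht hk x with ⟨a1, a2⟩ | ⟨a1, a2⟩ <;>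
        rcases chart hw h3 ht hk y with ⟨b1, b2⟩ | ⟨b1, b2⟩
      · rw [a1, b1, e]
      · exact absurd (e.trans b1) (a2 _)
      · exact absurd (e.symm.trans a1) (b2 _)
      · have e3 : T.orb w x = T.orb w y := by
          rw [a1, b1] at e; exact congrArg Prod.snd (Sum.inr.inj e)
        obtain ⟨γ, hγ, rfl⟩ : y ∈ T.orb w x := e3 ▸ TD.mem_orb w y
        rw [a2, b2, uu_iso, TD.orb_inv hγ]
    · subst e1
      rw [uF_w, uF_ne e2, (hs _ e2).1]
      rcases chart hw h3 ht hk x with ⟨a1, -⟩ | ⟨a1, -⟩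
      · rw [a1, e]
      · exact absurd (e.symm.trans a1) ((hs _ e2).2.2.2 _ _)
    · subst e2
      rw [uF_w, uF_ne e1, (hs _ e1).1]
      rcases chart hw h3 ht hk y with ⟨a1, -⟩ | ⟨a1, -⟩
      · rw [a1, e]
      · exact absurd (e.trans a1) ((hs _ e1).2.2.2 _ _)
    · rw [uF_ne e1, uF_ne e2, (hs _ e1).1, (hs _ e2).1]; exact e
  · by_cases e : s = Sum.inr w
    · subst e
      rw [uF_w]
      exact hn x (by linarith [hx.1]) k hk
    · simp only [uF_ne e, sub_self, iteratedFDeriv_fun_zero, Pi.zero_apply, norm_zero, mul_zero]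
      refine mul_nonneg hδ ?_
      cases s
      exacts [zero_le_one, norm_nonneg _]
  · simp [uF_ne (T := T) (s := Sum.inr T.root) fun e => hw (Sum.inr.inj e).symm]

theorem scal {H H' : MetricField 4} {c : ℝ} {a b : Fin 4} {k : ℕ}
    (hH : ContDiffAt ℝ ∞ (fun y => H y a b) x) (e : ∀ᶠ y in 𝓝 x, H' y = c • H y) :
    ‖iteratedFDeriv ℝ k (fun y => (H' y - H y) a b) x‖ =
      |c - 1| * ‖iteratedFDeriv ℝ k (fun y => H y a b) x‖ := by
  have e1 : (fun y => (H' y - H y) a b) =ᶠ[𝓝 x] fun y => (c - 1) • H y a b :=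
    e.mono fun y hy => by simp only [hy, Matrix.sub_apply, Matrix.smul_apply, smul_eq_mul]; ring
  rw [(e1.iteratedFDeriv ℝ k).self_of_nhds,
    iteratedFDeriv_const_smul_apply' (hH.of_le (by exact_mod_cast le_top)), norm_smul,
    Real.norm_eq_abs]

end Dl

open Dl

variable {M : Type*} {T : TD M} {g : T.V → Fam T}

theorem dil (h : Std T g) (hG : GB T g) (hE : ELL T g) : DIL T g := by
  obtain ⟨T1, hG⟩ := hG
  obtain ⟨C0, hG⟩ := hG 0
  obtain ⟨δ, Λ, T2, hδ, hΛ, hE⟩ := hE
  have hr := h.ok.r_pos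
  refine ⟨max (max T1 T2) (max 5 (5 - Real.log (T.r / 4))), fun T0 hT => ?_⟩
  simp only [max_le_iff] at hT
  obtain ⟨⟨t1, t2⟩, t3, -⟩ := hT
  obtain ⟨C1, c1, h1⟩ := uu_near (T0 := T0) (by linarith)
  obtain ⟨C2, c2, h2⟩ := uu_flat (T0 := T0) (by linarith)
  refine ⟨C1 + C2 + 8 * Λ, by positivity, fun L hL w hw t ht => ?_⟩
  have a0 := abs_nonneg t
  have hLw := hL w hw
  have l1 := le_max_right (max T1 T2) (max 5 (5 - Real.log (T.r / 4)))
  have l2 := le_max_left (max T1 T2) (max 5 (5 - Real.log (T.r / 4)))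
  simp only [max_le_iff] at l1 l2
  have hk : Real.exp (T0 + 5) ≤ T.r / 4 * Real.exp (L w) := by
    rw [← Real.exp_log (show 0 < T.r / 4 by positivity), ← Real.exp_add]
    exact Real.exp_le_exp.2 (by linarith [l1.2])
  have hm := riem_of_rt ((hG T0 t1).2 L (hL.mono (by linarith [l2.1]))).2.1
  have hb : ∀ s, ∀ x ∈ U1 T L s, ∀ k ≤ 2, ∀ (a b : Fin 4) (H' : MetricField 4),
      (∀ᶠ y in 𝓝 x, H' y = (ep T (Function.update L w (L w + t)) s / ep T L s) ^ 2 •
        gbL T g T0 L s y) → scl T s x ^ k *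
      ‖iteratedFDeriv ℝ k (fun y => (H' y - gbL T g T0 L s y) a b) x‖ ≤
        (C1 + C2 + 8 * Λ) * |t| := by
    intro s x hx k hk a b H' e
    have x1 := (uw h.ok L s).1 hx
    have x2 := (uw h.ok L s).2 x1
    have := (hE T0 t2 L (hL.mono (by linarith [l2.2])) (gbL T g T0 L) s x x1 ((hm s).posDef x x2)
      fun p q => by simpa using hδ.le).2.2.2.2 k (by omega) a b
    rw [scal (((hm s).contDiffOn a b).contDiffAt ((hm s).isOpen.mem_nhds x2)) e, mul_left_comm]
    have hs : 0 ≤ scl T s x := by cases s; exacts [zero_le_one, norm_nonneg _]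
    have := mul_le_mul (ep_sq h.ok ht L w s) this (by positivity) (by positivity)
    nlinarith [mul_nonneg c1 a0, mul_nonneg c2 a0]
  have hL1 : 2 * T0 + 4 ≤ L w := by linarith [l1.1]
  have hL2 : 2 * T0 + 4 ≤ L w + t := by linarith [l1.1, (abs_le.1 ht).1]
  have ee : ∀ {a b : ℝ}, a ≤ b → Real.exp (T0 + a) ≤ Real.exp (T0 + b) := fun h =>
    Real.exp_le_exp.2 (by linarith)
  refine ⟨uF T w T0 t, nid h.ok hw (by linarith) ht hk (by positivity) fun x hx k hk =>
    (h1 t ht x hx k hk).trans (by gcongr; linarith), fun s hs x => by rw [uF_ne hs],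
    fun x hx => by rw [uF_w, uu_lo (hx.trans (ee (by norm_num)))],
    fun x hx => by rw [uF_w, uu_hi ((ee (by norm_num)).trans hx)], fun s x hx k hk a b => ?_⟩
  by_cases e : s = Sum.inr w
  swap
  · refine hb s x hx k hk a b _ (Eventually.of_forall fun y => ?_)
    rw [pb, uF_ne e, (same e _).2.2.1,
      pm_dil (a := 1) (Eventually.of_forall fun z => (one_smul _ _).symm)]
    simp
  subst e
  have x0 : 0 < ‖x‖ := by linarith [hx.1]
  have n0 := continuous_norm.continuousAt.eventually (lt_mem_nhds x0)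
  have ew : ep T (Function.update L w (L w + t)) (Sum.inr w) / ep T L (Sum.inr w) =
      Real.exp (-t) := eps_w h.ok hw L t
  by_cases r1 : ‖x‖ < Real.exp (T0 + 5 / 4)
  · refine hb _ x hx k hk a b _ ?_
    filter_upwards [n0, (continuous_norm.continuousAt.eventually
      (gt_mem_nhds r1)).eventually_nhds] with y y0 hy
    have y1 := hy.self_of_nhds.le.trans (ee (show (5 : ℝ) / 4 ≤ 3 by norm_num))
    rw [pb, uF_w, pm_dil (a := 1) (hy.mono fun z hz => by rw [uu_lo hz.le, one_smul]), one_smul,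
      gbL_inr hw, gbL_inr hw, Function.update_self, par_flat h.ok hw hL1 y0 y1,
      par_flat h.ok hw hL2 y0 y1, one_pow, one_smul]
  by_cases r2 : Real.exp (T0 + 7 / 4) < ‖x‖
  · have e1 : (fun y => (pb T L (Function.update L w (L w + t)) (uF T w T0 t)
        (gbL T g T0 (Function.update L w (L w + t))) (Sum.inr w) y -
          gbL T g T0 L (Sum.inr w) y) a b) =ᶠ[𝓝 x] fun _ => 0 := by
      filter_upwards [(continuous_norm.continuousAt.eventually
        (lt_mem_nhds r2)).eventually_nhds] with y hy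
      have y1 := hy.self_of_nhds.le
      have y2 : Real.exp (T0 + 1 / 10) ≤ ‖Real.exp t • y‖ := by
        rw [← uu_hi y1]; exact (ee (by norm_num)).trans (uu_ge ht ((ee (by norm_num)).trans y1))
      rw [pb, uF_w, ew, pm_dil (hy.mono fun z hz => uu_hi hz.le), smul_smul, ← mul_pow,
        ← Real.exp_add, neg_add_cancel, Real.exp_zero, one_pow, one_smul, gbL_inr hw, gbL_inr hw,
        Function.update_self, cancel, own_flat y2, own_flat ((ee (by norm_num)).trans y1), sub_self]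
      rfl
    rw [(e1.iteratedFDeriv ℝ k).self_of_nhds]
    simp only [iteratedFDeriv_fun_zero, Pi.zero_apply, norm_zero, mul_zero]
    positivity
  have r3 : Real.exp (T0 + 1) < ‖x‖ := (Real.exp_lt_exp.2 (by linarith)).trans_le (not_lt.1 r1)
  have r4 : ‖x‖ < Real.exp (T0 + 2) := (not_lt.1 r2).trans_lt (Real.exp_lt_exp.2 (by linarith))
  have e1 : (fun y => (pb T L (Function.update L w (L w + t)) (uF T w T0 t)
      (gbL T g T0 (Function.update L w (L w + t))) (Sum.inr w) y -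
        gbL T g T0 L (Sum.inr w) y) a b) =ᶠ[𝓝 x]
      fun y => (Real.exp (-t) ^ 2 • pm (uu T0 t) (fun _ => 1) y - 1) a b := by
    filter_upwards [n0, continuous_norm.continuousAt.eventually (lt_mem_nhds r3),
      continuous_norm.continuousAt.eventually (gt_mem_nhds r4)] with y y0 y1 y2
    have y3 : Real.exp (T0 + 1 / 10) ≤ ‖uu T0 t y‖ := by
      by_cases q : ‖y‖ ≤ Real.exp (T0 + 5 / 4)
      · rw [uu_lo q]; exact (ee (by norm_num)).trans y1.le
      · exact (ee (by norm_num)).trans (uu_ge ht (not_le.1 q).le)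
    have y4 : gbL T g T0 (Function.update L w (L w + t)) (Sum.inr w) (uu T0 t y) = 1 := by
      rw [gbL_inr hw, Function.update_self, own_flat y3,
        par_flat h.ok hw hL2 ((Real.exp_pos _).trans_le y3) (uu_le ht y2.le), sub_self, add_zero]
    have y5 : pm (uu T0 t) (gbL T g T0 (Function.update L w (L w + t)) (Sum.inr w)) y =
        pm (uu T0 t) (fun _ => 1) y := by
      ext p q; simp only [pm_apply, y4]
    rw [pb, uF_w, ew, y5, gbL_inr hw, own_flat ((ee (by norm_num)).trans y1.le),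
      par_flat h.ok hw hL1 y0 (y2.le.trans (ee (by norm_num))), sub_self, add_zero]
  rw [(e1.iteratedFDeriv ℝ k).self_of_nhds]
  refine (h2 t ht x r4.le a b k hk).trans ?_
  gcongr
  linarith

end Crest.Agent.N207.NS

end
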