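import Crest.Agent.N207.K.Hd1

/-!
# Row 207 (helper44): finitely many bumps control the `L²` norm up to a small gradient term
-/

set_option autoImplicit false

open scoped ContDiff Topology ENNReal
open Set Filter Metric MeasureTheory
open Crest.GeometryTopology.CoordMetric
open Crest.Agent.N207.Hd

noncomputable section

namespace Crest.Agent.N207.N

theorem measurable_g2 (u : E4 → ℝ) : Measurable (g2 u) :=
  Finset.measurable_sum _ fun _ _ => (measurable_fderiv_apply_const ℝ u _).pow_const 2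

/-- Jensen's inequality for a weight of mass one -/
theorem sq_int_le {α : Type*} [MeasurableSpace α] {μ : Measure α} {φ f : α → ℝ}
    (h0 : ∀ z, 0 ≤ φ z) (hi : Integrable φ μ) (h1 : ∫ z, φ z ∂μ = 1)
    (hf : Integrable (fun z => φ z * f z) μ) (hf2 : Integrable (fun z => φ z * f z ^ 2) μ) :
    (∫ z, φ z * f z ∂μ) ^ 2 ≤ ∫ z, φ z * f z ^ 2 ∂μ := by
  set c := ∫ z, φ z * f z ∂μ with hc
  have h2 : 0 ≤ ∫ z, (φ z * f z ^ 2 - 2 * c * (φ z * f z) + c ^ 2 * φ z) ∂μ :=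
    integral_nonneg fun z => by
      have := mul_nonneg (h0 z) (sq_nonneg (f z - c))
      simp only [Pi.zero_apply]; nlinarith
  have h3 : Integrable (fun z => φ z * f z ^ 2 - 2 * c * (φ z * f z)) μ :=
    hf2.sub (hf.const_mul _)
  rw [integral_add h3 (hi.const_mul _), integral_sub hf2 (hf.const_mul _),
    integral_const_mul, integral_const_mul, h1, ← hc] at h2
  nlinarith

variable {U K' : Set E4} {u : E4 → ℝ}

/-- the gradient density cut to `K'` -/
def GG (K' : Set E4) (u : E4 → ℝ) (y : E4) : ℝ≥0∞ := K'.indicator (fun y => ENNReal.ofReal (g2 u y)) y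

theorem measurable_GG (hK : MeasurableSet K') (u : E4 → ℝ) : Measurable (GG K' u) :=
  (measurable_g2 u).ennreal_ofReal.indicator hK

theorem seg_le (hU : IsOpen U) (hu : ContDiffOn ℝ 1 u U) (hKU : K' ⊆ U) {a h : E4}
    (hs : ∀ t ∈ Icc (0 : ℝ) 1, a + t • h ∈ K') :
    ENNReal.ofReal ((u (a + h) - u a) ^ 2) ≤
      ENNReal.ofReal (‖h‖ ^ 2) * ∫⁻ t in Icc (0 : ℝ) 1, GG K' u (a + t • h) := by
  have hl : Continuous fun t : ℝ => a + t • h := by fun_prop
  have hm : MapsTo (fun t : ℝ => a + t • h) (Icc 0 1) U := fun t ht => hKU (hs t ht)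
  have hc : ContinuousOn (fun t : ℝ => fderiv ℝ u (a + t • h) h) (Icc 0 1) :=
    ((hu.continuousOn_fderiv_of_isOpen hU le_rfl).comp hl.continuousOn hm).clm_apply
      continuousOn_const
  have hg : ContinuousOn (fun t : ℝ => g2 u (a + t • h)) (Icc 0 1) :=
    (contOn_g2 hU hu).comp hl.continuousOn hm
  have hd : ∀ t ∈ uIcc (0 : ℝ) 1, HasDerivAt (fun t : ℝ => u (a + t • h))
      (fderiv ℝ u (a + t • h) h) t := by
    intro t ht
    rw [uIcc_of_le zero_le_one] at ht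
    have h1 : HasDerivAt (fun t : ℝ => a + t • h) h t := by
      simpa using ((hasDerivAt_id t).smul_const h).const_add a
    exact ((hu.contDiffAt (hU.mem_nhds (hm ht))).differentiableAt one_ne_zero).hasFDerivAt.comp_hasDerivAt t h1
  have h2 := intervalIntegral.integral_eq_sub_of_hasDerivAt hd
    (hc.intervalIntegrable_of_Icc zero_le_one)
  simp only [one_smul, zero_smul, add_zero] at h2
  rw [intervalIntegral.integral_of_le zero_le_one, ← integral_Icc_eq_integral_Ioc] at h2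
  have h3 := sq_int_le (μ := volume.restrict (Icc (0 : ℝ) 1)) (φ := fun _ => 1)
    (f := fun t => fderiv ℝ u (a + t • h) h) (fun _ => zero_le_one) (by simp) (by simp)
    (by simp only [one_mul]; exact hc.integrableOn_Icc)
    (by simp only [one_mul]; exact (hc.pow 2).integrableOn_Icc)
  simp only [one_mul] at h3
  have h4 : ∫ t in Icc (0 : ℝ) 1, fderiv ℝ u (a + t • h) h ^ 2 ≤
      ∫ t in Icc (0 : ℝ) 1, ‖h‖ ^ 2 * g2 u (a + t • h) :=
    setIntegral_mono_on (hc.pow 2).integrableOn_Icc (hg.integrableOn_Icc.const_mul _)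
      measurableSet_Icc fun t _ => fderiv_sq_le u _ h
  rw [← h2]
  refine (ENNReal.ofReal_le_ofReal (h3.trans h4)).trans ?_
  rw [integral_const_mul, ENNReal.ofReal_mul (sq_nonneg _),
    ofReal_integral_eq_lintegral_ofReal hg.integrableOn_Icc
      (Eventually.of_forall fun t => g2_nonneg u _)]
  refine mul_le_mul_right (le_of_eq ?_) _
  refine setLIntegral_congr_fun measurableSet_Icc fun t ht => ?_
  simp only [GG, indicator_of_mem (hs t ht)]

theorem integrable_bump {φ f : E4 → ℝ} {ε : ℝ} (hφ : Continuous φ)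
    (hs : ∀ z, φ z ≠ 0 → ‖z‖ < ε) (hf : ContinuousOn f (closedBall 0 ε)) :
    Integrable fun z => φ z * f z := by
  refine ((hφ.continuousOn.mul hf).integrableOn_compact
    (isCompact_closedBall 0 ε)).integrable_of_forall_notMem_eq_zero fun z hz => ?_
  have : φ z = 0 := by
    by_contra h
    exact hz (mem_closedBall_zero_iff.2 (hs z h).le)
  simp [this]

theorem avg_le (hU : IsOpen U) (hu : ContDiffOn ℝ 1 u U) (hKU : K' ⊆ U) {φ : E4 → ℝ} {ε c : ℝ}
    (hφ : Continuous φ) (h0 : ∀ z, 0 ≤ φ z) (h1 : ∫ z, φ z = 1) (hs : ∀ z, φ z ≠ 0 → ‖z‖ < ε)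
    {p h : E4 → E4} (hp : Continuous p) (hh : Continuous h)
    (hK : ∀ z ∈ closedBall (0 : E4) ε, ∀ t ∈ Icc (0 : ℝ) 1, p z + t • h z ∈ K')
    (hc : ∀ z ∈ closedBall (0 : E4) ε, ‖h z‖ ≤ c) :
    ENNReal.ofReal ((∫ z, φ z * (u (p z + h z) - u (p z))) ^ 2) ≤ ENNReal.ofReal (c ^ 2) *
      ∫⁻ z, ENNReal.ofReal (φ z) * ∫⁻ t in Icc (0 : ℝ) 1, GG K' u (p z + t • h z) := by
  have hf : ContinuousOn (fun z => u (p z + h z) - u (p z)) (closedBall 0 ε) :=
    (hu.continuousOn.comp (hp.add hh).continuousOn fun z hz => hKU (by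
      simpa using hK z hz 1 (by simp))).sub
      (hu.continuousOn.comp hp.continuousOn fun z hz => hKU (by simpa using hK z hz 0 (by simp)))
  have hi : Integrable φ := by
    simpa using integrable_bump (f := fun _ => 1) hφ hs continuousOn_const
  have h2 : Integrable fun z => φ z * (u (p z + h z) - u (p z)) ^ 2 :=
    integrable_bump hφ hs (hf.pow 2)
  have h3 := sq_int_le h0 hi h1 (integrable_bump hφ hs hf) h2
  refine (ENNReal.ofReal_le_ofReal h3).trans ?_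
  rw [ofReal_integral_eq_lintegral_ofReal h2
    (Eventually.of_forall fun z => mul_nonneg (h0 z) (sq_nonneg _)),
    ← lintegral_const_mul' _ _ ENNReal.ofReal_ne_top]
  refine lintegral_mono fun z => ?_
  by_cases hz : φ z = 0
  · simp [hz]
  have hz' : z ∈ closedBall (0 : E4) ε := mem_closedBall_zero_iff.2 (hs z hz).le
  rw [ENNReal.ofReal_mul (h0 z), mul_left_comm]
  refine mul_le_mul_right ((seg_le hU hu hKU (hK z hz')).trans ?_) _
  exact mul_le_mul_left (ENNReal.ofReal_le_ofReal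
    (pow_le_pow_left₀ (norm_nonneg _) (hc z hz') 2)) _

theorem lint_shift {G : E4 → ℝ≥0∞} (a : E4) : ∫⁻ x, G (a + x) = ∫⁻ x, G x :=
  lintegral_add_left_eq_self G a

theorem lint_avg {G : E4 → ℝ≥0∞} (hm : Measurable G) {φ : E4 → ℝ≥0∞} (hφ : Measurable φ)
    (h1 : ∫⁻ z, φ z = 1) (hf : ∀ z, φ z ≠ ⊤) :
    ∫⁻ x, ∫⁻ z, φ z * ∫⁻ t in Icc (0 : ℝ) 1, G (x + t • z) = ∫⁻ x, G x := by
  have m1 : Measurable fun q : (E4 × E4) × ℝ => G (q.1.1 + q.2 • q.1.2) :=
    hm.comp (by fun_prop : Continuous fun q : (E4 × E4) × ℝ => q.1.1 + q.2 • q.1.2).measurable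
  have m2 : Measurable fun q : E4 × E4 => ∫⁻ t in Icc (0 : ℝ) 1, G (q.1 + t • q.2) :=
    m1.lintegral_prod_right'
  have m4 : Measurable (Function.uncurry fun (x z : E4) =>
      φ z * ∫⁻ t in Icc (0 : ℝ) 1, G (x + t • z)) := (hφ.comp measurable_snd).mul m2
  rw [lintegral_lintegral_swap m4.aemeasurable]
  have e : ∀ z : E4, ∫⁻ x, φ z * ∫⁻ t in Icc (0 : ℝ) 1, G (x + t • z) =
      φ z * ∫⁻ x, G x := fun z => by
    have m3 : Measurable (Function.uncurry fun (x : E4) (t : ℝ) => G (x + t • z)) :=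
      hm.comp (by fun_prop : Continuous fun q : E4 × ℝ => q.1 + q.2 • z).measurable
    rw [lintegral_const_mul' _ _ (hf z), lintegral_lintegral_swap m3.aemeasurable]
    simp only [lintegral_add_right_eq_self]
    simp
  simp only [e]
  rw [lintegral_mul_const _ hφ, h1, one_mul]

theorem lint_seg {G : E4 → ℝ≥0∞} (hm : Measurable G) {φ : E4 → ℝ≥0∞} {B : ℝ≥0∞} (hB : B ≠ ⊤)
    (h : ∀ z, φ z ≤ B) (a w : E4) :
    ∫⁻ z, φ z * ∫⁻ t in Icc (0 : ℝ) 1, G (a + z + t • w) ≤ B * ∫⁻ x, G x := by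
  refine (lintegral_mono fun z => mul_le_mul_left (h z) _).trans ?_
  have m3 : Measurable (Function.uncurry fun (z : E4) (t : ℝ) => G (a + z + t • w)) :=
    hm.comp (by fun_prop : Continuous fun q : E4 × ℝ => a + q.1 + q.2 • w).measurable
  rw [lintegral_const_mul' _ _ hB, lintegral_lintegral_swap m3.aemeasurable]
  have e : ∀ t : ℝ, ∫⁻ z, G (a + z + t • w) = ∫⁻ x, G x := fun t => by
    rw [← lint_shift (G := G) (a + t • w)]
    exact lintegral_congr fun z => by rw [add_right_comm]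
  simp [e]

theorem three_sq (a m1 m2 P S : ℝ) (h1 : (m1 - m2) ^ 2 ≤ P) (h2 : m2 ^ 2 ≤ S) :
    a ^ 2 ≤ 3 * (m1 - a) ^ 2 + (3 * P + 3 * S) := by
  nlinarith [sq_nonneg (m1 - a + (m1 - m2)), sq_nonneg (m1 - a + m2), sq_nonneg (m1 - m2 - m2)]

theorem pt_le (hU : IsOpen U) (hu : ContDiffOn ℝ 1 u U) (hKU : K' ⊆ U) (hK : MeasurableSet K')
    {φ : E4 → ℝ} {ε δ B D : ℝ} (hφ : Continuous φ) (h0 : ∀ z, 0 ≤ φ z) (h1 : ∫ z, φ z = 1)
    (hs : ∀ z, φ z ≠ 0 → ‖z‖ < ε) (hB : ∀ z, φ z ≤ B) (hD0 : 0 ≤ D) (hε : 0 < ε)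
    (hD : ∫⁻ y, GG K' u y = ENNReal.ofReal D) {x z0 : E4} (hxz : ‖x - z0‖ ≤ δ) (hδ : δ ≤ ε)
    (hx : ∀ w : E4, ‖w‖ ≤ 2 * ε → x + w ∈ K') (hz : ∀ w : E4, ‖w‖ ≤ 2 * ε → z0 + w ∈ K') :
    ENNReal.ofReal (u x ^ 2) ≤ ENNReal.ofReal (3 * ε ^ 2) *
      (∫⁻ z, ENNReal.ofReal (φ z) * ∫⁻ t in Icc (0 : ℝ) 1, GG K' u (x + t • z)) +
      ENNReal.ofReal (3 * (δ ^ 2 * (B * D)) + 3 * (∫ y, φ (y - z0) * u y) ^ 2) := by
  have hB0 : 0 ≤ B := (h0 0).trans (hB 0)
  have hcu : ∀ y, (∀ w : E4, ‖w‖ ≤ 2 * ε → y + w ∈ K') →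
      ContinuousOn (fun z => u (y + z)) (closedBall 0 ε) := fun y hy =>
    hu.continuousOn.comp (continuous_const.add continuous_id).continuousOn fun z hz =>
      hKU (hy z ((mem_closedBall_zero_iff.1 hz).trans (by linarith)))
  have i0 : Integrable φ := by
    simpa using integrable_bump (f := fun _ => 1) hφ hs continuousOn_const
  have i1 := integrable_bump hφ hs (hcu x hx)
  have i2 := integrable_bump hφ hs (hcu z0 hz)
  have a1 := avg_le hU hu hKU hφ h0 h1 hs (p := fun _ => x) (h := fun z => z)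
    (c := ε) continuous_const continuous_id (fun z hz t ht => hx _ (by
      rw [norm_smul, Real.norm_of_nonneg ht.1]
      nlinarith [mem_closedBall_zero_iff.1 hz, ht.1, ht.2, norm_nonneg z]))
    fun z hz => mem_closedBall_zero_iff.1 hz
  have a2 := avg_le hU hu hKU hφ h0 h1 hs (p := fun z => z0 + z)
    (h := fun _ => x - z0) (c := δ) (continuous_const.add continuous_id) continuous_const
    (fun z hz' t ht => by
      rw [add_assoc]
      refine hz _ ((norm_add_le _ _).trans ?_)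
      rw [norm_smul, Real.norm_of_nonneg ht.1]
      nlinarith [mem_closedBall_zero_iff.1 hz', ht.1, ht.2, norm_nonneg (x - z0)])
    fun _ _ => hxz
  have a3 := lint_seg (measurable_GG hK u) (φ := fun z => ENNReal.ofReal (φ z))
    (B := ENNReal.ofReal B) ENNReal.ofReal_ne_top (fun z => ENNReal.ofReal_le_ofReal (hB z))
    z0 (x - z0)
  have e1 : ∫ z, φ z * (u (x + z) - u x) = (∫ z, φ z * u (x + z)) - u x := by
    simp only [mul_sub]
    rw [integral_sub i1 (i0.mul_const _), integral_mul_const, h1, one_mul]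
  have e2 : ∫ z, φ z * (u (z0 + z + (x - z0)) - u (z0 + z)) =
      (∫ z, φ z * u (x + z)) - ∫ y, φ (y - z0) * u y := by
    have e3 : ∀ z, z0 + z + (x - z0) = x + z := fun z => by abel
    simp only [mul_sub, e3]
    rw [integral_sub i1 i2, ← integral_add_left_eq_self (fun y => φ (y - z0) * u y) z0]
    simp
  rw [e1] at a1
  rw [e2] at a2
  have a5 := a2.trans (mul_le_mul_right a3 _)
  have hP : 0 ≤ δ ^ 2 * (B * D) := mul_nonneg (sq_nonneg _) (mul_nonneg hB0 hD0)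
  rw [hD, ← ENNReal.ofReal_mul hB0, ← ENNReal.ofReal_mul (sq_nonneg _),
    ENNReal.ofReal_le_ofReal_iff hP] at a5
  refine (ENNReal.ofReal_le_ofReal (three_sq (u x) _ _ _ _ a5 le_rfl)).trans ?_
  rw [ENNReal.ofReal_add (mul_nonneg zero_le_three (sq_nonneg _))
    (add_nonneg (mul_nonneg zero_le_three hP) (mul_nonneg zero_le_three (sq_nonneg _))),
    ENNReal.ofReal_mul zero_le_three, ENNReal.ofReal_mul zero_le_three, mul_assoc]
  exact add_le_add_left (mul_le_mul_right a1 _) _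

theorem exists_bump {ε : ℝ} (hε : 0 < ε) : ∃ (φ : E4 → ℝ) (B : ℝ), ContDiff ℝ ∞ φ ∧
    (∀ z, 0 ≤ φ z) ∧ ∫ z, φ z = 1 ∧ (∀ z, φ z ≠ 0 → ‖z‖ < ε) ∧ ∀ z, φ z ≤ B := by
  let b : ContDiffBump (0 : E4) := ⟨ε / 2, ε, by positivity, by linarith⟩
  have hsm : ContDiff ℝ ∞ (b.normed volume) := b.contDiff_normed
  obtain ⟨B, hB⟩ := hsm.continuous.bounded_above_of_compact_support b.hasCompactSupport_normed
  refine ⟨_, B, hsm, b.nonneg_normed, b.integral_normed, fun z hz => ?_,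
    fun z => (le_abs_self _).trans (hB z)⟩
  have : z ∈ Function.support (b.normed volume) := hz
  rw [b.support_normed_eq] at this
  exact mem_ball_zero_iff.1 this

/-- **finitely many bumps** -/
theorem eucFam {K : Set E4} (hK : IsCompact K) {ε : ℝ} (hε : 0 < ε) :
    ∃ (Z : Finset E4) (φ : E4 → ℝ) (C : ℝ), (∀ z ∈ Z, z ∈ K) ∧ ContDiff ℝ ∞ φ ∧
      (∀ z, φ z ≠ 0 → ‖z‖ < ε) ∧ 0 ≤ C ∧ ∀ (U : Set E4) (u : E4 → ℝ), IsOpen U →
        ContDiffOn ℝ 1 u U → cthickening (2 * ε) K ⊆ U →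
        ∫ x in K, u x ^ 2 ≤ 6 * ε ^ 2 * (∫ x in cthickening (2 * ε) K, g2 u x) +
          C * ∑ z ∈ Z, (∫ y, φ (y - z) * u y) ^ 2 := by
  obtain ⟨φ, B, hsm, h0, h1, hs, hB⟩ := exists_bump hε
  have hB0 : 0 ≤ B := (h0 0).trans (hB 0)
  obtain ⟨V, hV⟩ : ∃ V, V = volume.real K := ⟨_, rfl⟩
  have hV0 : 0 ≤ V := hV ▸ measureReal_nonneg
  have hBV : 0 ≤ B * V := mul_nonneg hB0 hV0
  obtain ⟨δ, hδ⟩ : ∃ δ, δ = ε / (1 + B * V) := ⟨_, rfl⟩
  have hδ0 : 0 < δ := by rw [hδ]; positivity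
  have hδε : δ ≤ ε := hδ ▸ div_le_self hε.le (by linarith)
  have hδ2 : δ ^ 2 * B * V ≤ ε ^ 2 := by
    have e : δ * (1 + B * V) = ε := hδ ▸ div_mul_cancel₀ _ (by linarith)
    nlinarith [mul_nonneg hδ0.le hBV, sq_nonneg (δ * (B * V)), sq_nonneg δ]
  obtain ⟨Z0, hZK, hZf, hZ⟩ := hK.finite_cover_balls hδ0
  refine ⟨hZf.toFinset, φ, 3 * V, fun z hz => hZK (hZf.mem_toFinset.1 hz), hsm, hs,
    by positivity, fun U u hU hu hKU => ?_⟩
  have hK'c : IsCompact (cthickening (2 * ε) K) := hK.cthickening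
  have hmem : ∀ x ∈ K, ∀ w : E4, ‖w‖ ≤ 2 * ε → x + w ∈ cthickening (2 * ε) K := fun x hx w hw =>
    mem_cthickening_of_dist_le _ x _ _ hx (by simpa [dist_eq_norm] using hw)
  generalize cthickening (2 * ε) K = K' at hK'c hmem hKU ⊢
  have hm := hK'c.isClosed.measurableSet
  obtain ⟨D, hD⟩ : ∃ D, D = ∫ x in K', g2 u x := ⟨_, rfl⟩
  have hD0 : 0 ≤ D := hD ▸ integral_nonneg fun x => g2_nonneg u x
  have hDl : ∫⁻ y, GG K' u y = ENNReal.ofReal D := by
    rw [hD, ofReal_integral_eq_lintegral_ofReal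
      (((contOn_g2 hU hu).mono hKU).integrableOn_compact hK'c)
      (Eventually.of_forall fun x => g2_nonneg u x)]
    exact lintegral_indicator hm _
  obtain ⟨S, hS⟩ : ∃ S, S = ∑ z ∈ hZf.toFinset, (∫ y, φ (y - z) * u y) ^ 2 := ⟨_, rfl⟩
  have hS0 : 0 ≤ S := hS ▸ Finset.sum_nonneg fun _ _ => sq_nonneg _
  have i0 : Integrable φ := by
    simpa using integrable_bump (f := fun _ => 1) hsm.continuous hs continuousOn_const
  have hφl : ∫⁻ z, ENNReal.ofReal (φ z) = 1 := by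
    rw [← ofReal_integral_eq_lintegral_ofReal i0 (Eventually.of_forall h0), h1,
      ENNReal.ofReal_one]
  have hA := lint_avg (measurable_GG hm u) hsm.continuous.measurable.ennreal_ofReal hφl
    fun _ => ENNReal.ofReal_ne_top
  have hP : 0 ≤ 3 * (δ ^ 2 * (B * D)) + 3 * S := by positivity
  have hpt : ∀ x ∈ K, ENNReal.ofReal (u x ^ 2) ≤ ENNReal.ofReal (3 * ε ^ 2) *
      (∫⁻ z, ENNReal.ofReal (φ z) * ∫⁻ t in Icc (0 : ℝ) 1, GG K' u (x + t • z)) +
      ENNReal.ofReal (3 * (δ ^ 2 * (B * D)) + 3 * S) := by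
    intro x hx
    obtain ⟨z0, hz0, hxz⟩ := mem_iUnion₂.1 (hZ hx)
    have hxz' : ‖x - z0‖ ≤ δ := by rw [← dist_eq_norm]; exact (mem_ball.1 hxz).le
    have a4 : (∫ y, φ (y - z0) * u y) ^ 2 ≤ S := hS ▸
      Finset.single_le_sum (f := fun z => (∫ y, φ (y - z) * u y) ^ 2) (fun _ _ => sq_nonneg _)
        (hZf.mem_toFinset.2 hz0)
    refine (pt_le hU hu hKU hm hsm.continuous h0 h1 hs hB hD0 hε hDl hxz' hδε (hmem x hx)
      (hmem z0 (hZK hz0))).trans (add_le_add_right (ENNReal.ofReal_le_ofReal ?_) _)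
    linarith
  have hKK : K ⊆ U := fun x hx => hKU (by simpa using hmem x hx 0 (by simp [hε.le]))
  have hE : 0 ≤ 3 * ε ^ 2 := by positivity
  have hfin : ENNReal.ofReal (∫ x in K, u x ^ 2) ≤
      ENNReal.ofReal (3 * ε ^ 2 * D + (3 * (δ ^ 2 * (B * D)) + 3 * S) * V) := by
    have hi : IntegrableOn (fun x => u x ^ 2) K :=
      ((hu.continuousOn.mono hKK).pow 2).integrableOn_compact hK
    rw [ofReal_integral_eq_lintegral_ofReal hi (Eventually.of_forall fun x => sq_nonneg _)]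
    refine (setLIntegral_mono' hK.isClosed.measurableSet hpt).trans ?_
    rw [lintegral_add_right _ measurable_const, lintegral_const_mul' _ _ ENNReal.ofReal_ne_top,
      setLIntegral_const, ENNReal.ofReal_add (mul_nonneg hE hD0) (mul_nonneg hP hV0),
      ENNReal.ofReal_mul hE, ENNReal.ofReal_mul hP, hV,
      ofReal_measureReal hK.measure_lt_top.ne, ← hDl, ← hA]
    exact add_le_add_left (mul_le_mul_right (setLIntegral_le_lintegral _ _) _) _
  rw [ENNReal.ofReal_le_ofReal_iff (add_nonneg (mul_nonneg hE hD0) (mul_nonneg hP hV0))] at hfin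
  rw [← hD, ← hS]
  nlinarith [mul_le_mul_of_nonneg_right hδ2 hD0]

end Crest.Agent.N207.N

end
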