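import Crest.Agent.N207.I.Cal4
import Crest.Agent.N207.AI.EvoS
import Crest.Agent.N207.CB.Defs

/-!
# Row 207 (helper44): sections with support in a fixed compact set and their `L²` pairing
-/

set_option autoImplicit false

open scoped ContDiff Topology
open Set Filter Metric MeasureTheory
open Crest.GeometryTopology.CoordMetric
open Crest.Agent.N207.I Crest.Agent.N207.CB Crest.Agent.N207.Lg

noncomputable section

namespace Crest.Agent.N207.N

/-- orthonormalisation of a finite family for a semidefinite form -/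
theorem exists_on {V : Type*} [AddCommGroup V] [Module ℝ V] (B : LinearMap.BilinForm ℝ V)
    (hs : ∀ x y, B x y = B y x) (hp : ∀ x, 0 ≤ B x x) {ι : Type} [Fintype ι] (e : ι → V) :
    ∃ (κ : Type) (_ : Fintype κ) (f : κ → V) (C : ℝ), 0 ≤ C ∧ (∀ i, B (f i) (f i) = 1) ∧
      (∀ i j, i ≠ j → B (f i) (f j) = 0) ∧ ∀ l : V →ₗ[ℝ] ℝ, (∀ x, B x x = 0 → l x = 0) →
        ∀ i, l (e i) ^ 2 ≤ C * ∑ j, l (f j) ^ 2 := by
  classical
  let Φ : (ι → ℝ) →ₗ[ℝ] V := Fintype.linearCombination ℝ e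
  obtain ⟨v, hv⟩ := LinearMap.BilinForm.exists_orthogonal_basis (B := B.compl₁₂ Φ Φ)
    ⟨fun x y => hs _ _⟩
  have hv' : ∀ i j, i ≠ j → B (Φ (v i)) (Φ (v j)) = 0 := fun i j h => hv h
  let d : _ → ℝ := fun k => B (Φ (v k)) (Φ (v k))
  let c : ι → {k // d k ≠ 0} → ℝ := fun i k => v.repr (Pi.single i 1) k * √(d k)
  have hq : ∀ k : {k // d k ≠ 0}, √(d k) ≠ 0 := fun k =>
    (Real.sqrt_pos.2 ((hp _).lt_of_ne' k.2)).ne'
  refine ⟨{k // d k ≠ 0}, inferInstance, fun k => (√(d k))⁻¹ • Φ (v k), ∑ i, ∑ k, c i k ^ 2,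
    by positivity, fun k => ?_, fun i j h => ?_, fun l hl i => ?_⟩
  · simp only [map_smul, LinearMap.smul_apply, smul_eq_mul]
    have h1 : √(d k) * √(d k) = B (Φ (v k)) (Φ (v k)) := Real.mul_self_sqrt (hp _)
    have := hq k
    rw [← h1]; field_simp
  · simp only [map_smul, LinearMap.smul_apply, smul_eq_mul]
    rw [hv' _ _ fun e => h (Subtype.ext e), mul_zero, mul_zero]
  · have h1 : e i = Φ (Pi.single i 1) := by
      simp [Φ, Fintype.linearCombination_apply_single]
    have h2 : l (e i) = ∑ k, v.repr (Pi.single i 1) k * l (Φ (v k)) := by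
      rw [h1]
      conv_lhs => rw [← v.sum_repr (Pi.single i 1)]
      simp only [map_sum, map_smul, smul_eq_mul]
    have h3 : l (e i) = ∑ k : {k // d k ≠ 0}, c i k * l ((√(d k))⁻¹ • Φ (v k)) := by
      rw [h2, ← Fintype.sum_subtype_add_sum_subtype (fun k => d k ≠ 0),
        Finset.sum_eq_zero (s := Finset.univ (α := {k // ¬ d k ≠ 0})) fun k _ => by
          rw [hl _ (not_not.1 k.2), mul_zero], add_zero]
      refine Finset.sum_congr rfl fun k _ => ?_
      have := hq k
      simp only [c, map_smul, smul_eq_mul]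
      field_simp
    rw [h3]
    refine (Finset.sum_mul_sq_le_sq_mul_sq _ _ _).trans
      (mul_le_mul_of_nonneg_right ?_ (by positivity))
    exact Finset.single_le_sum (f := fun i => ∑ k, c i k ^ 2) (fun _ _ => by positivity)
      (Finset.mem_univ i)

variable {X : Type*} {α : Type} {A : Atl X α} {G ψ ψ' w : α → MetricField 4} {χ : α → X → ℝ}
  {K R : α → Set E4} {S : Set X}

/-- smooth symmetric sections vanishing off `S` -/
structure CSec (A : Atl X α) (S : Set X) (ψ : α → MetricField 4) : Prop where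
  sec : A.Sec fun s => matT (ψ s)
  symm : ∀ s, ∀ x ∈ A.U s, (ψ s x).IsSymm
  van : A.Van ψ S

/-- `C¹` symmetric sections over the region `R` only -/
structure LocS (A : Atl X α) (R : α → Set E4) (w : α → MetricField 4) : Prop where
  sm : ∀ s a b, ContDiffOn ℝ 1 (fun x => w s x a b) (R s)
  symm : ∀ s, ∀ x ∈ R s, (w s x).IsSymm
  compat : ∀ s s' x F, A.Tr s s' x F → x ∈ R s → F x ∈ R s' →
    matT (w s) x = pullT F (matT (w s')) x

/-- the setting: `S` compact in the open region `R` -/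
structure Stg [Fintype α] (A : Atl X α) (G : α → MetricField 4) (χ : α → X → ℝ)
    (K R : α → Set E4) (S : Set X) : Prop where
  ok : A.Ok
  met : A.IsMet G
  pou : A.PoU χ K
  op : ∀ s, IsOpen (R s)
  sub : ∀ s, R s ⊆ A.U s
  cs : A.CS S
  cl : A.Cl S
  sat : ∀ b, ∀ y ∈ A.U b, A.c b y ∈ S → y ∈ R b

/-- the `L²` pairing -/
def pr [Fintype α] (A : Atl X α) (χ : α → X → ℝ) (G ψ w : α → MetricField 4) : ℝ :=
  A.int χ G fun s x => ip (G s) (matT (ψ s)) (matT (w s)) x

/-- the trace -/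
def trM (G ψ : MetricField 4) (x : E4) : ℝ := tr2 (fun a b => (G x)⁻¹ a b) fun a b => ψ x a b

/-- the pure trace part -/
def trP (G ψ : α → MetricField 4) : α → MetricField 4 :=
  fun s x => (1 / 4 * trM (G s) (ψ s) x) • G s x

theorem locS_of_sec (hR : ∀ s, R s ⊆ A.U s) (h1 : A.Sec fun s => matT (w s))
    (h2 : ∀ s, ∀ x ∈ A.U s, (w s x).IsSymm) : LocS A R w :=
  ⟨fun s a b => ((h1.sm s ![a, b]).of_le (by exact_mod_cast le_top)).mono (hR s),
    fun s x hx => h2 s x (hR s hx), fun s s' x F t _ _ => h1.compat s s' x F t⟩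

namespace CSec

theorem zero : CSec A S 0 :=
  ⟨Atl.Sec.zero, fun _ _ _ => Matrix.isSymm_zero, fun _ _ _ h => absurd rfl h⟩

theorem add (h : CSec A S ψ) (h' : CSec A S ψ') : CSec A S (ψ + ψ') :=
  ⟨h.sec.add h'.sec, fun s x hx => (h.symm s x hx).add (h'.symm s x hx),
    (h.van.add h'.van).mono (union_self S).le⟩

theorem smul (c : ℝ) (h : CSec A S ψ) : CSec A S (c • ψ) :=
  ⟨h.sec.smul c, fun s x hx => (h.symm s x hx).smul c,
    h.van.of_imp fun b y _ e => by simp [e]⟩

theorem vanT (h : CSec A S ψ) : A.Van (fun s => matT (ψ s)) S :=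
  h.van.of_imp fun b y _ e => by funext I; simp [matT, e]

theorem trP (hA : A.Ok) (hG : A.IsMet G) (h : CSec A S ψ) : CSec A S (trP G ψ) := by
  have h1 := h.sec.trT (k := 0) hA hG
  refine ⟨((Atl.Sec.met hG).smT (f := fun s x => trT (k := 0) (G s) (matT (ψ s)) x ![])
    (h1.compat.val hA) fun s => h1.sm s _).smul (1 / 4) |>.congr fun s x _ => ?_,
    fun s x hx => (Matrix.IsSymm.ext fun i j => R202.Tens.metric_symm (hG.riem s) hx j i).smul _,
    h.van.of_imp fun b y _ e => by simp [N.trP, trM, tr2, e]⟩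
  funext I
  simp only [matT, N.trP, Matrix.smul_apply, smul_eq_mul, Pi.smul_apply, smT, mul_assoc]
  rfl

end CSec

theorem trM_smul (G ψ : MetricField 4) (c : ℝ) (x : E4) : trM G (c • ψ) x = c * trM G ψ x := by
  simp only [trM, tr2, Pi.smul_apply, Matrix.smul_apply, smul_eq_mul, Finset.mul_sum, mul_left_comm]

theorem trM_add (G ψ ψ' : MetricField 4) (x : E4) :
    trM G (ψ + ψ') x = trM G ψ x + trM G ψ' x := by
  simp only [trM, tr2, Pi.add_apply, Matrix.add_apply, mul_add, Finset.sum_add_distrib]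

theorem trM_of_eq {G ψ : MetricField 4} {U : Set E4} {x : E4} (hG : IsRiemannianOn G U)
    (hx : x ∈ U) {c : ℝ} (e : ψ x = c • G x) : trM G ψ x = 4 * c := by
  have h1 := tr_g hG hx
  simp only [trM, tr2, e, Matrix.smul_apply, smul_eq_mul, mul_left_comm _ c, ← Finset.mul_sum, h1]
  push_cast; ring

theorem ip_of_eq {G ψ : MetricField 4} {U : Set E4} {x : E4} (hG : IsRiemannianOn G U)
    (hx : x ∈ U) {c : ℝ} (e : ψ x = c • G x) (w : MetricField 4) :
    ip G (matT ψ) (matT w) x = c * trM G w x := by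
  have h1 : matT ψ x = c • matT G x := by funext I; simp [matT, e]
  rw [ip, h1, ipA_smul_left]
  exact congrArg _ (AI.ip_matT hG hx (matT w))

variable [Fintype α]

namespace Stg

variable (h : Stg A G χ K R S)
include h

theorem locS (hψ : CSec A S ψ) : LocS A R ψ := locS_of_sec h.sub hψ.sec hψ.symm

theorem ct (hψ : CSec A S ψ) (hw : LocS A R w) :
    A.Ct fun s => ip (G s) (matT (ψ s)) (matT (w s)) := fun b y hy => by
  refine ContinuousAt.continuousWithinAt ?_
  by_cases e : A.c b y ∈ S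
  · have hy' := h.sat b y hy e
    refine ContinuousOn.continuousAt (s := R b) ?_ ((h.op b).mem_nhds hy')
    show ContinuousOn (fun x => ∑ I : Fin 2 → Fin 4, ∑ J : Fin 2 → Fin 4,
      (∏ s, (G b x)⁻¹ (I s) (J s)) * (matT (ψ b) x I * w b x (J 0) (J 1))) (R b)
    refine continuousOn_finsetSum _ fun I _ => continuousOn_finsetSum _ fun J _ =>
      ContinuousOn.mul (continuousOn_finsetProd _ fun s _ => ?_) (ContinuousOn.mul
        (((hψ.sec.sm b I).continuousOn).mono (h.sub b)) (hw.sm b _ _).continuousOn)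
    exact ((sm_inv (h.met.riem b) _ _).continuousOn).mono (h.sub b)
  · have hv := hψ.vanT.ip_left (G := G) fun s => matT (w s)
    exact (continuousAt_const (y := (0 : ℝ))).congr (hv.ev h.ok h.cl hy e).symm

theorem compF (hψ : CSec A S ψ) (hw : LocS A R w) :
    A.CompF fun s => ip (G s) (matT (ψ s)) (matT (w s)) :=
  Atl.compF_of_tr h.ok fun a b x F t => by
    by_cases e : A.c a x ∈ S
    · obtain ⟨V, h1, -, p⟩ := h.met.loc h.ok t
      have h2 : matT (ψ a) x = pullT F (matT (ψ b)) x := hψ.sec.compat a b x F t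
      rw [← AI.ip_pullT p h1, ip, ip, h2, hw.compat a b x F t
        (h.sat a x t.mem e) (h.sat b _ t.mem' (t.eq0 ▸ e))]
    · have hv := hψ.vanT.ip_left (G := G) fun s => matT (w s)
      exact (not_not.1 fun k => e (hv a x t.mem k)).trans
        (not_not.1 fun k => e (t.eq0 ▸ hv b _ t.mem' k)).symm

theorem intg (hψ : CSec A S ψ) (hw : LocS A R w) :
    A.Intg χ G fun s => ip (G s) (matT (ψ s)) (matT (w s)) :=
  Atl.intg_of_cs h.ok h.met h.pou h.cs (h.ct hψ hw) (hψ.vanT.ip_left _)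

theorem pr_add (hψ : CSec A S ψ) (hψ' : CSec A S ψ') (hw : LocS A R w) :
    pr A χ G (ψ + ψ') w = pr A χ G ψ w + pr A χ G ψ' w := by
  rw [pr, pr, pr, ← Atl.int_add (h.intg hψ hw) (h.intg hψ' hw)]
  exact Atl.int_congr h.ok fun a x _ => ipA_add_left _ _ _

omit h in
theorem pr_smul (c : ℝ) (ψ w : α → MetricField 4) : pr A χ G (c • ψ) w = c * pr A χ G ψ w := by
  rw [pr, pr, ← Atl.int_const_mul]
  exact congrArg _ (funext fun a => funext fun x => ipA_smul_left _ _ _)

theorem pr_comm (ψ w : α → MetricField 4) : pr A χ G ψ w = pr A χ G w ψ :=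
  Atl.int_congr h.ok fun a _ hx => ip_comm (h.met.riem a) hx _ _

theorem pr_nonneg (ψ : α → MetricField 4) : 0 ≤ pr A χ G ψ ψ :=
  Atl.int_nonneg h.ok h.pou fun a _ hx => AI.nsq_nonneg (h.met.riem a) hx _

theorem pr_null (hψ : CSec A S ψ) (h0 : pr A χ G ψ ψ = 0) (w : α → MetricField 4) :
    pr A χ G ψ w = 0 := by
  have hn : ∀ a, 0 ≤ᵐ[volume.restrict (A.U a)]
      fun x => A.den χ G a x * ip (G a) (matT (ψ a)) (matT (ψ a)) x := fun a =>
    (ae_restrict_mem (h.ok.isOpen a).measurableSet).mono fun x hx =>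
      mul_nonneg (Atl.den_nonneg h.pou a x) (AI.nsq_nonneg (h.met.riem a) hx _)
  have h1 := (Finset.sum_eq_zero_iff_of_nonneg fun a _ => integral_nonneg_of_ae (hn a)).1 h0
  refine Finset.sum_eq_zero fun a ha => integral_eq_zero_of_ae ?_
  filter_upwards [(integral_eq_zero_iff_of_nonneg_ae (hn a) (h.intg hψ (h.locS hψ) a)).1 (h1 a ha),
    ae_restrict_mem (h.ok.isOpen a).measurableSet] with x h2 hx
  rcases mul_eq_zero.1 h2 with h3 | h3
  · simp [h3]
  · have h4 := AI.ip_sq_le (h.met.riem a) hx (matT (ψ a)) (matT (w a))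
    rw [nsq, h3, zero_mul] at h4
    simp [pow_eq_zero_iff (two_ne_zero) |>.1 (h4.antisymm (sq_nonneg _))]

/-- orthonormalisation inside a linear class `P` of sections -/
theorem exists_fam (P : Submodule ℝ (α → MetricField 4)) {ι : Type} [Fintype ι]
    (e : ι → α → MetricField 4) (he : ∀ i, CSec A S (e i)) (hP : ∀ i, e i ∈ P) :
    ∃ (κ : Type) (_ : Fintype κ) (f : κ → α → MetricField 4) (C : ℝ), 0 ≤ C ∧
      (∀ j, CSec A S (f j) ∧ f j ∈ P) ∧ (∀ j, pr A χ G (f j) (f j) = 1) ∧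
      (∀ i j, i ≠ j → pr A χ G (f i) (f j) = 0) ∧
      ∀ w, LocS A R w → ∀ i, pr A χ G (e i) w ^ 2 ≤ C * ∑ j, pr A χ G (f j) w ^ 2 := by
  let W : Submodule ℝ (α → MetricField 4) :=
    { carrier := {ψ | CSec A S ψ ∧ ψ ∈ P}
      add_mem' := fun a b => ⟨a.1.add b.1, P.add_mem a.2 b.2⟩
      zero_mem' := ⟨CSec.zero, P.zero_mem⟩
      smul_mem' := fun c _ a => ⟨a.1.smul c, P.smul_mem c a.2⟩ }
  let B : LinearMap.BilinForm ℝ W := LinearMap.mk₂ ℝ (fun s t => pr A χ G s t)
    (fun s s' t => h.pr_add s.2.1 s'.2.1 (h.locS t.2.1)) (fun c s t => pr_smul c _ _)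
    (fun s t t' => by
      simp only [h.pr_comm s]
      exact h.pr_add t.2.1 t'.2.1 (h.locS s.2.1))
    (fun c s t => by
      simp only [h.pr_comm s]
      exact pr_smul c _ _)
  obtain ⟨κ, hκ, f, C, h0, h1, h2, h3⟩ := exists_on B (fun s t => h.pr_comm _ _)
    (fun s => h.pr_nonneg _) fun i => (⟨e i, he i, hP i⟩ : W)
  refine ⟨κ, hκ, fun j => f j, C, h0, fun j => (f j).2, h1, h2, fun w hw i => ?_⟩
  exact h3
    { toFun := fun s => pr A χ G s w
      map_add' := fun s t => h.pr_add s.2.1 t.2.1 hw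
      map_smul' := fun c s => pr_smul c _ _ } (fun s hs => h.pr_null s.2.1 hs w) i

end Stg

end Crest.Agent.N207.N

end
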