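import Crest.Agent.N207.N.Fam1
import Crest.Agent.N207.N.Fam2

/-!
# Row 207 (helper44): the family of constraints on an abstract atlas
-/

set_option autoImplicit false

open scoped ContDiff Topology
open Set Filter Metric MeasureTheory
open Crest.GeometryTopology.CoordMetric
open Crest.Agent.N207.I Crest.Agent.N207.CB Crest.Agent.N207.Lg Crest.Agent.N207.Hd

noncomputable section

namespace Crest.Agent.N207.N

theorem ipA_dual {G : MetricField 4} {U : Set E4} {y : E4} (hG : IsRiemannianOn G U) (hy : y ∈ U)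
    (a b : Fin 4) (W : Arr 4 2) :
    ipA (G y)⁻¹ (fun I => G y a (I 0) * G y b (I 1)) W = W ![a, b] := by
  rw [Ar.ipA_rank2, ← g_ginv_sum hG hy a fun k => W ![k, b]]
  refine Finset.sum_congr rfl fun i _ => ?_
  rw [Finset.mul_sum]
  refine Finset.sum_congr rfl fun k _ => ?_
  rw [← g_ginv_sum hG hy b fun l => W ![k, l]]
  simp only [Finset.mul_sum, Matrix.cons_val_zero, Matrix.cons_val_one]
  exact Finset.sum_congr rfl fun j _ => Finset.sum_congr rfl fun l _ => by ring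

variable {X : Type*} {α : Type} {A : Atl X α} {G : α → MetricField 4} {χ : α → X → ℝ}
  {K0 R : α → Set E4} {S : Set X}

/-- symmetrisation -/
def symM (t : Tn 4 2) : MetricField 4 :=
  fun x => Matrix.of fun i j => 1 / 2 * (t x ![i, j] + t x ![j, i])

theorem matT_symM (t : Tn 4 2) :
    matT (symM t) = (1 / 2 : ℝ) • (t + prmT (Equiv.swap 0 1) t) := by
  funext x I
  have e1 : ![I 0, I 1] = I := by funext i; fin_cases i <;> rfl
  have e2 : ![I 1, I 0] = I ∘ Equiv.swap 0 1 := by funext i; fin_cases i <;> rfl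
  simp only [matT, symM, Matrix.of_apply, e1, e2, Pi.smul_apply, Pi.add_apply, prmT, smul_eq_mul]

theorem exists_rad (hA : A.Ok) {s : α} {K V : Set E4} (hK : IsCompact K) (hU : K ⊆ A.U s)
    (hV : IsOpen V) (hKV : K ⊆ V) {η : ℝ} (hη : 0 < η) : ∃ ε > 0, 6 * ε ^ 2 ≤ η ∧
      cthickening (2 * ε) K ⊆ V ∧ ∀ z ∈ K, InjOn (A.c s) (ball z (2 * ε)) := by
  obtain ⟨δ, hδ, h1⟩ := hK.exists_cthickening_subset_open hV hKV
  choose r hr h2 h3 using fun x : K => hA.exists_ball (hU x.2)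
  obtain ⟨δ', hδ', h4⟩ := lebesgue_number_lemma_of_metric (c := fun x : K => ball (x : E4) (r x))
    hK (fun _ => isOpen_ball) fun x hx => mem_iUnion.2 ⟨⟨x, hx⟩, mem_ball_self (hr _)⟩
  obtain ⟨ε, hε, e1, e2, e3, e4⟩ : ∃ ε > 0, ε ≤ δ / 2 ∧ ε ≤ δ' / 2 ∧ ε ≤ 1 ∧ ε ≤ η / 6 :=
    ⟨min (min (δ / 2) (δ' / 2)) (min 1 (η / 6)), by positivity,
      (min_le_left _ _).trans (min_le_left _ _), (min_le_left _ _).trans (min_le_right _ _),
      (min_le_right _ _).trans (min_le_left _ _), (min_le_right _ _).trans (min_le_right _ _)⟩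
  refine ⟨ε, hε, by nlinarith, (cthickening_mono (by linarith) K).trans h1, fun z hz => ?_⟩
  obtain ⟨x, hx⟩ := h4 z hz
  exact (h3 x).mono ((ball_subset_ball (by linarith)).trans (hx.trans ball_subset_closedBall))

variable [Fintype α]

theorem Stg.bump (h : Stg A G χ K0 R S) {s : α} {z : E4} {ε : ℝ} (hε : 0 < ε) {φ : E4 → ℝ}
    (hφ : ContDiff ℝ ∞ φ) (hs : ∀ y, φ y ≠ 0 → ‖y‖ < ε) (hB : ball z (2 * ε) ⊆ R s)
    (hi : InjOn (A.c s) (ball z (2 * ε))) (hS : A.c s '' closedBall z ε ⊆ S) (a b : Fin 4) :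
    ∃ ψ, CSec A S ψ ∧ ∀ w, LocS A R w → pr A χ G ψ w = ∫ y, φ (y - z) * w s y a b := by
  have hBU := hB.trans (h.sub s)
  have hg := h.met.riem s
  have hd : ∀ y ∈ A.U s, √(G s y).det ≠ 0 := fun y hy =>
    (Real.sqrt_pos.2 (hg.posDef y hy).det_pos).ne'
  let c : E4 → ℝ := fun y => φ (y - z) * (√(G s y).det)⁻¹
  have hc : ContDiffOn ℝ ∞ c (A.U s) :=
    (hφ.comp (contDiff_id.sub contDiff_const)).contDiffOn.mul ((sm_sqrt_det hg).inv hd)
  have hCB : closedBall z ε ⊆ ball z (2 * ε) := closedBall_subset_ball (by linarith)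
  have hz : ∀ y, φ (y - z) ≠ 0 → y ∈ closedBall z ε := fun y hy =>
    mem_closedBall_iff_norm.2 (hs _ hy).le
  obtain ⟨t, t1, t2, t3, -, -⟩ := Atl.exists_extT (k := 2)
    (T := fun y I => c y * (G s y a (I 0) * G s y b (I 1))) h.ok isOpen_ball hBU hi
    (fun I => (hc.mul ((hg.contDiffOn _ _).mul (hg.contDiffOn _ _))).mono hBU)
    (isCompact_closedBall z ε) hCB fun y _ k => hz y fun e => k (by funext I; simp [c, e])
  have v1 : A.Van (fun s => symM (t s)) (A.c s '' closedBall z ε) :=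
    t3.of_imp fun b y _ e => by ext i j; simp [symM, e]
  have hψ : CSec A S fun s => symM (t s) :=
    ⟨((t1.add (t1.prmT (Equiv.swap 0 1))).smul (1 / 2)).congr fun a x _ => by
      rw [matT_symM]; rfl, fun a x _ => Matrix.IsSymm.ext fun i j => by simp [symM, add_comm],
      v1.mono hS⟩
  refine ⟨_, hψ, fun w hw => ?_⟩
  have v2 : A.Van (fun s' => ip (G s') (matT (symM (t s'))) (matT (w s'))) (A.c s '' ball z (2 * ε)) :=
    (v1.mono (image_mono hCB)).of_imp fun b y _ e => by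
      have : matT (symM (t b)) y = 0 := by funext I; simp [matT, e]
      rw [ip, this, ipA_zero_left]
  rw [pr, (Atl.int_inj h.ok h.met h.pou (h.compF hψ hw) ((h.ct hψ hw).ms h.ok) isOpen_ball hBU hi
    v2).2 (h.intg hψ hw), ← setIntegral_eq_integral_of_forall_compl_eq_zero (s := ball z (2 * ε))
      (f := fun y => φ (y - z) * w s y a b) fun y hy => by rw [not_not.1 fun k => hy (hCB (hz y k)), zero_mul]]
  refine setIntegral_congr_fun measurableSet_ball fun y hy => ?_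
  have e1 : matT (symM (t s)) y = (1 / 2 * c y) • ((fun I => G s y a (I 0) * G s y b (I 1)) +
      fun I => G s y b (I 0) * G s y a (I 1)) := by
    funext I
    simp only [matT, symM, Matrix.of_apply, t2 y hy, Matrix.cons_val_zero, Matrix.cons_val_one,
      Pi.smul_apply, Pi.add_apply, smul_eq_mul]
    ring
  have e2 : w s y b a = w s y a b := (hw.symm s y (hB hy)).apply a b
  have := hd y (hBU hy)
  simp only [ip, e1, ipA_smul_left, ipA_add_left, ipA_dual hg (hBU hy), matT, Matrix.cons_val_zero,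
    Matrix.cons_val_one, e2, c]
  field_simp
  ring

/-- trace free fields -/
def Pp (A : Atl X α) (G : α → MetricField 4) : Submodule ℝ (α → MetricField 4) where
  carrier := {ψ | ∀ s, ∀ x ∈ A.U s, trM (G s) (ψ s) x = 0}
  add_mem' ha hb s x hx := by rw [Pi.add_apply, trM_add, ha s x hx, hb s x hx, add_zero]
  zero_mem' s x _ := by simp [trM, tr2]
  smul_mem' c _ ha s x hx := by rw [Pi.smul_apply, trM_smul, ha s x hx, mul_zero]

/-- pure trace fields -/
def Pm (A : Atl X α) (G : α → MetricField 4) : Submodule ℝ (α → MetricField 4) where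
  carrier := {ψ | ∀ s, ∀ x ∈ A.U s, ∃ c : ℝ, ψ s x = c • G s x}
  add_mem' ha hb s x hx := by
    obtain ⟨c, hc⟩ := ha s x hx
    obtain ⟨c', hc'⟩ := hb s x hx
    exact ⟨c + c', by rw [Pi.add_apply, Pi.add_apply, hc, hc', add_smul]⟩
  zero_mem' s x _ := ⟨0, by simp⟩
  smul_mem' c _ ha s x hx := by
    obtain ⟨c', hc'⟩ := ha s x hx
    exact ⟨c * c', by rw [Pi.smul_apply, Pi.smul_apply, hc', mul_smul]⟩

/-- orthonormal eigenfamilies controlling a finite family -/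
theorem Stg.exists_eig (h : Stg A G χ K0 R S) {ι : Type} [Fintype ι]
    (e : ι → α → MetricField 4) (he : ∀ i, CSec A S (e i)) :
    ∃ (κ : Type) (_ : Fintype κ) (ψ : κ → α → MetricField 4) (C : ℝ), 0 ≤ C ∧
      (∀ j, CSec A S (ψ j)) ∧ (∀ j, ∃ c : ℝ, (c = 1 ∨ c = -1) ∧
        ∀ s, ∀ x ∈ A.U s, TRg (G s x) (ψ j s x) = c • ψ j s x) ∧
      (∀ j, pr A χ G (ψ j) (ψ j) = 1) ∧ (∀ i j, i ≠ j → pr A χ G (ψ i) (ψ j) = 0) ∧
      ∀ w, LocS A R w → ∀ i, pr A χ G (e i) w ^ 2 ≤ C * ∑ j, pr A χ G (ψ j) w ^ 2 := by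
  have m1 : ∀ i, CSec A S (trP G (e i)) := fun i => (he i).trP h.ok h.met
  have m2 : ∀ i, CSec A S (e i + (-1 : ℝ) • trP G (e i)) := fun i => (he i).add ((m1 i).smul _)
  obtain ⟨κ, _, f, C, c0, c1, c2, c3, c4⟩ := h.exists_fam (Pp A G) _ m2 fun i s x hx => by
    rw [Pi.add_apply, Pi.smul_apply, trM_add, trM_smul, 
      trM_of_eq (ψ := trP G (e i) s) (h.met.riem s) hx rfl]; ring
  obtain ⟨κ', _, f', C', d0, d1, d2, d3, d4⟩ := h.exists_fam (Pm A G) _ m1 fun i s x _ => ⟨_, rfl⟩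
  have o : ∀ i j, pr A χ G (f' i) (f j) = 0 := fun i j => by
    rw [pr, ← Atl.int_zero (A := A) (χ := χ) (G := G)]
    refine Atl.int_congr h.ok fun s x hx => ?_
    obtain ⟨c, hc⟩ := (d1 i).2 s x hx
    rw [ip_of_eq (h.met.riem s) hx hc, (c1 j).2 s x hx, mul_zero]
  refine ⟨κ ⊕ κ', inferInstance, Sum.elim f f', 2 * C + 2 * C', by positivity, ?_, ?_, ?_, ?_,
    fun w hw i => ?_⟩
  · rintro (j | j)
    exacts [(c1 j).1, (d1 j).1]
  · rintro (j | j)
    · refine ⟨1, Or.inl rfl, fun s x hx => ?_⟩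
      have h1 : tr2 (fun a b => (G s x)⁻¹ a b) (fun a b => f j s x a b) = 0 := (c1 j).2 s x hx
      simp [TRg, h1]
    · refine ⟨-1, Or.inr rfl, fun s x hx => ?_⟩
      obtain ⟨c, hc⟩ := (d1 j).2 s x hx
      have h1 : tr2 (fun a b => (G s x)⁻¹ a b) (fun a b => f' j s x a b) = 4 * c :=
        trM_of_eq (h.met.riem s) hx hc
      rw [Sum.elim_inr, TRg, h1, hc, ← sub_smul, smul_smul]
      congr 1; ring
  · rintro (j | j)
    exacts [c2 j, d2 j]
  · rintro (i | i) (j | j) hij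
    exacts [c3 i j fun e => hij (congrArg _ e), (h.pr_comm _ _).trans (o j i), o i j,
      d3 i j fun e => hij (congrArg _ e)]
  · have h1 := h.pr_add (m2 i) (m1 i) hw
    have h0 : e i + (-1 : ℝ) • trP G (e i) + trP G (e i) = e i := by
      rw [neg_one_smul, neg_add_cancel_right]
    rw [h0] at h1
    have h2 := c4 w hw i
    have h3 := d4 w hw i
    have p1 : 0 ≤ ∑ j, pr A χ G (f j) w ^ 2 := Finset.sum_nonneg fun _ _ => sq_nonneg _
    have p2 : 0 ≤ ∑ j, pr A χ G (f' j) w ^ 2 := Finset.sum_nonneg fun _ _ => sq_nonneg _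
    rw [Fintype.sum_sum_type, h1]
    simp only [Sum.elim_inl, Sum.elim_inr]
    generalize pr A χ G (e i + (-1 : ℝ) • trP G (e i)) w = x at h2 ⊢
    generalize pr A χ G (trP G (e i)) w = y at h3 ⊢
    nlinarith [sq_nonneg (x - y), mul_nonneg c0 p2, mul_nonneg d0 p1]

/-- **the family of constraints** on an atlas -/
theorem absFam (hA : A.Ok) (hG : A.IsMet G) (hχ : A.PoU χ K0) (hR : ∀ s, IsOpen (R s))
    (hRU : ∀ s, R s ⊆ A.U s)
    (hsat : ∀ a b, ∀ x ∈ R a, ∀ y ∈ A.U b, A.c a x = A.c b y → y ∈ R b)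
    {K K' : α → Set E4} (hK : ∀ s, IsCompact (K s)) (hK' : ∀ s, IsCompact (K' s))
    (h1 : ∀ s, K s ⊆ interior (K' s)) (h2 : ∀ s, K' s ⊆ R s) {η : ℝ} (hη : 0 < η) :
    ∃ (κ : Type) (_ : Fintype κ) (ψ : κ → α → MetricField 4) (C : ℝ), 0 ≤ C ∧
      (∀ j, CSec A (⋃ s, A.c s '' K' s) (ψ j)) ∧ (∀ j, ∃ c : ℝ, (c = 1 ∨ c = -1) ∧
        ∀ s, ∀ x ∈ A.U s, TRg (G s x) (ψ j s x) = c • ψ j s x) ∧
      (∀ j, pr A χ G (ψ j) (ψ j) = 1) ∧ (∀ i j, i ≠ j → pr A χ G (ψ i) (ψ j) = 0) ∧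
      ∀ w, LocS A R w → ∀ s a b, ∫ x in K s, w s x a b ^ 2 ≤
        η * (∫ x in K' s, g2 (fun x => w s x a b) x) + C * ∑ j, pr A χ G (ψ j) w ^ 2 := by
  have hU : ∀ s, K' s ⊆ A.U s := fun s => (h2 s).trans (hRU s)
  have h : Stg A G χ K0 R (⋃ s, A.c s '' K' s) :=
    ⟨hA, hG, hχ, hR, hRU, ⟨K', fun s => ⟨hK' s, hU s⟩, Subset.rfl⟩, fun b y hy hn => by
      simp only [mem_iUnion, not_exists] at hn ⊢
      exact eventually_all.2 fun a => hA.cl_cpt (hK' a) (hU a) b y hy (hn a), fun b y hy hm => by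
      obtain ⟨a, x, hx, e⟩ := mem_iUnion.1 hm
      exact hsat a b x (h2 a hx) y hy e⟩
  choose ε hε e1 e2 e3 using fun s => exists_rad hA (hK s)
    ((h1 s).trans (interior_subset.trans (hU s))) isOpen_interior (h1 s) hη
  replace e2 := fun s => (e2 s).trans interior_subset
  choose Z φ C z1 z2 z3 z4 z5 using fun s => eucFam (hK s) (hε s)
  have hb : ∀ s, ∀ z ∈ K s, closedBall z (2 * ε s) ⊆ K' s := fun s z hz =>
    (closedBall_subset_cthickening hz _).trans (e2 s)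
  choose e he1 he2 using fun i : (s : α) × Z s × Fin 4 × Fin 4 =>
    h.bump (s := i.1) (z := i.2.1) (hε _) (z2 _) (z3 _)
      (ball_subset_closedBall.trans ((hb _ _ (z1 _ _ i.2.1.2)).trans (h2 _)))
      (e3 _ _ (z1 _ _ i.2.1.2)) (subset_iUnion_of_subset i.1 (image_mono
        ((closedBall_subset_closedBall (by linarith [hε i.1])).trans (hb _ _ (z1 _ _ i.2.1.2)))))
      i.2.2.1 i.2.2.2
  obtain ⟨κ, _, ψ, C', c0, c1, c2, c3, c4, c5⟩ := h.exists_eig e he1
  have n0 : ∀ s, 0 ≤ C s * ((Z s).card * C') := fun s => mul_nonneg (z4 s) (by positivity)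
  refine ⟨κ, inferInstance, ψ, ∑ s, C s * ((Z s).card * C'), Finset.sum_nonneg fun s _ => n0 s,
    c1, c2, c3, c4, fun w hw s a b => ?_⟩
  have p0 : 0 ≤ ∑ j, pr A χ G (ψ j) w ^ 2 := Finset.sum_nonneg fun _ _ => sq_nonneg _
  refine (z5 s (R s) _ (hR s) (hw.sm s a b) ((e2 s).trans (h2 s))).trans (add_le_add ?_ ?_)
  · refine mul_le_mul (e1 s) (setIntegral_mono_set
      (((contOn_g2 (hR s) (hw.sm s a b)).mono (h2 s)).integrableOn_compact (hK' s))
      (Eventually.of_forall fun x => g2_nonneg _ x) (e2 s).eventuallyLE)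
      (integral_nonneg fun x => g2_nonneg _ x) hη.le
  · refine le_trans ?_ (mul_le_mul_of_nonneg_right (Finset.single_le_sum
      (f := fun s => C s * ((Z s).card * C')) (fun s _ => n0 s) (Finset.mem_univ s)) p0)
    rw [mul_assoc, mul_assoc, ← nsmul_eq_mul]
    refine mul_le_mul_of_nonneg_left (Finset.sum_le_card_nsmul _ _ _ fun z hz => ?_) (z4 s)
    have := c5 w hw ⟨s, ⟨z, hz⟩, a, b⟩
    rwa [he2 _ w hw] at this

end Crest.Agent.N207.N

end
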