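import Crest.Agent.N207.N.Fin0
import Crest.Agent.N207.CB.LF1
import Crest.Agent.N207.CB.Gl4
import Crest.Agent.N207.L.Xy

/-!
# Row 207, block N (helper34): the static chain
-/

set_option autoImplicit false

open Crest.Agent.N207.I Crest.Agent.N207.CB

namespace Crest.Agent.N207.NS

/-- **the static chain** -/
theorem swl {X : Type*} : Sk.SWL' X :=
  swl_L fun T => lstmt_of (glb T) L.xns L.Xy.xhs

end Crest.Agent.N207.NS
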