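import Crest.Agent.N207.N.Gr0
import Crest.Agent.N207.Lg.Hom
import Crest.Agent.N207.Ga.Ten
import Crest.Agent.N207.I.Cal3
import Crest.Agent.N207.I.Car4

/-!
# Row 207, block N (helper86): scale invariance, pull-backs of matrix fields, `act_pb`
-/

set_option autoImplicit false

open scoped ContDiff Topology
open Metric Set Filter MeasureTheory
open Crest.GeometryTopology.CoordMetric Crest.Agent.R202.Tens
open Crest.Agent.N207.I Crest.Agent.N207.Lg Crest.Agent.N207.CB

noncomputable section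

namespace Crest.Agent.N207.NS

section Scale

variable {b G H X : MetricField 4} {c e : ℝ} {y : E4} {u : E4 → E4}

theorem sq_cs (e : ℝ) (G : MetricField 4) (y : E4) :
    sq (fun z => e • G z) y = e ^ 2 * sq G y := by
  simp only [Lg.sq, Matrix.det_smul, Fintype.card_fin]
  rw [show e ^ 4 = (e ^ 2) ^ 2 by ring, Real.sqrt_mul (sq_nonneg _), Real.sqrt_sq (sq_nonneg e)]

theorem iv_cs (he : 0 < e) (G : MetricField 4) (y : E4) :
    iv (fun z => e • G z) y = e⁻¹ • iv G y := by
  funext p q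
  simp only [iv, minv_smul he.ne', Matrix.smul_apply, Pi.smul_apply]

theorem TG_cs (hc : 0 < c) (e : ℝ) (b G : MetricField 4) (y : E4) :
    TG (fun z => c • b z) (fun z => e • G z) y = e • TG b G y := by
  rw [← TG_smul]
  simp only [TG, Ga.cov_cs hc.ne']
  rfl

theorem gv_cs (hc : 0 < c) (he : 0 < e) (b G : MetricField 4) (y : E4) :
    gv (iv (fun z => e • G z) y) (TG (fun z => c • b z) (fun z => e • G z) y) =
      gv (iv G y) (TG b G y) := by
  rw [iv_cs he, TG_cs hc, smul_gv, gv_smul', smul_smul, inv_mul_cancel₀ he.ne', one_smul]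

theorem gauT_cs (hc : 0 < c) (he : 0 < e) (b G : MetricField 4) :
    gauT (fun z => c • b z) (fun z => e • G z) = gauT b G := by
  funext y I
  simp only [gauT, gv_cs hc he]

theorem redT_cs (hc : 0 < c) (he : 0 < e) (b G : MetricField 4) :
    redT (fun z => c • b z) (fun z => e • G z) = redT b G := by
  funext y I
  simp only [redT, gauT_cs hc he, Ga.cov_cs hc.ne', ricci_csmul he.ne']

theorem lagS_cs (hc : 0 < c) (he : 0 < e) (b G : MetricField 4) (y : E4) :
    lagS (fun z => c • b z) (fun z => e • G z) y = e⁻¹ * lagS b G y := by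
  have : ricci (fun z => c • b z) y = ricci b y := by
    funext i j; exact ricci_csmul hc.ne' b y i j
  simp only [lagS, ell, iv_cs he, TG_cs hc, smul_chr, chr_smul, smul_smul,
    mul_inv_cancel₀ he.ne', one_smul, smul_tr2, this]
  ring

theorem fgfS_cs (hc : 0 < c) (he : 0 < e) (b G : MetricField 4) (y : E4) :
    fgfS (fun z => c • b z) (fun z => e • G z) y = e⁻¹ * fgfS b G y := by
  rw [fgfS, fgfS, lagS_cs hc he, nsq_gauT, nsq_gauT, gv_cs hc he, iv_cs he, ip1_smul]
  ring

theorem lagF_cs (hc : 0 < c) (he : 0 < e) (b G : MetricField 4) (y : E4) :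
    lagF (fun z => c • b z) (fun z => e • G z) y = e * lagF b G y := by
  rw [lagF_eq, lagF_eq, sq_cs e, lagS_cs hc he]
  field_simp

theorem fgfF_cs (hc : 0 < c) (he : 0 < e) (b G : MetricField 4) (y : E4) :
    fgfF (fun z => c • b z) (fun z => e • G z) y = e * fgfF b G y := by
  rw [fgfF_eq, fgfF_eq, sq_cs e, fgfS_cs hc he]
  field_simp

theorem one_cs (G : MetricField 4) : (fun z => (1 : ℝ) • G z) = G := by simp

/-- `PsT` only depends on the values at the point, and on `G` up to a factor -/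
theorem PsT_pt {b' G' X' : MetricField 4} {y' : E4} (he : 0 < e) (h1 : b' y' = b y)
    (h2 : G' y' = e • G y) (h3 : X' y' = X y) : PsT b' G' X' y' = PsT b G X y := by
  have e1 : sq G' y' = e ^ 2 * sq G y := by rw [← sq_cs e]; simp only [Lg.sq, h2]
  have e2 : sq b' y' = sq b y := by simp only [Lg.sq, h1]
  have e3 : ∀ A : Matrix (Fin 4) (Fin 4) ℝ, TRg (e • G y) A = TRg (G y) A := fun A => by
    have : (fun p q => (e • G y)⁻¹ p q) = e⁻¹ • fun p q => (G y)⁻¹ p q := by
      funext p q; simp only [minv_smul he.ne', Matrix.smul_apply, Pi.smul_apply]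
    rw [TRg, TRg, this, smul_tr2, smul_smul]
    congr 2
    field_simp
  simp only [PsT, e1, e2, h1, h2, h3, e3, Matrix.smul_mul, Matrix.mul_smul, smul_smul]
  congr 2
  field_simp

theorem PsT_zero' (h : X y = 0) : PsT b G X y = 0 := by
  simp [PsT, TRg, tr2, h]

/-! ### pull-backs of matrix fields -/

theorem pm_apply (u : E4 → E4) (H : MetricField 4) (x : E4) (p q : Fin 4) : pm u H x p q =
    ∑ i, ∑ j, fderiv ℝ u x (EuclideanSpace.single p 1) i *
      fderiv ℝ u x (EuclideanSpace.single q 1) j * H (u x) i j := by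
  rw [pm, Matrix.of_apply, pullT, AI.evT_two]
  rfl

theorem pm_cs (e : ℝ) (u : E4 → E4) (H : MetricField 4) :
    pm u (fun z => e • H z) = fun z => e • pm u H z := by
  funext x
  ext p q
  simp only [pm_apply, Matrix.smul_apply, smul_eq_mul, Finset.mul_sum]
  exact Finset.sum_congr rfl fun _ _ => Finset.sum_congr rfl fun _ _ => by ring

theorem pm_zero (h : H (u y) = 0) : pm u H y = 0 := by
  ext p q
  simp [pm_apply, h]

theorem pm_sum {ι : Type*} [Fintype ι] {m : ι → ℝ} {Y : ι → MetricField 4}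
    (h : ∀ p q, H (u y) p q = ∑ j, m j * Y j (u y) p q) (p q : Fin 4) :
    pm u H y p q = ∑ j, m j * pm u (Y j) y p q := by
  simp only [pm_apply, h, Finset.mul_sum]
  rw [Finset.sum_comm.trans (Finset.sum_congr rfl fun _ _ => Finset.sum_comm), Finset.sum_comm]
  refine Finset.sum_congr rfl fun _ _ => ?_
  rw [Finset.sum_comm]
  exact Finset.sum_congr rfl fun _ _ => Finset.sum_congr rfl fun _ _ => by ring

/-- pull-back by a map that is a dilation near the point -/
theorem pm_dil {a : ℝ} (h : ∀ᶠ z in 𝓝 y, u z = a • z) (H : MetricField 4) :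
    pm u H y = a ^ 2 • H (a • y) := by
  have h1 : fderiv ℝ u y = a • ContinuousLinearMap.id ℝ E4 :=
    (EventuallyEq.fderiv_eq h).trans ((hasFDerivAt_id y).const_smul a).fderiv
  ext p q
  simp only [pm_apply, h1, h.self_of_nhds, smul_apply,
    ContinuousLinearMap.id_apply, PiLp.smul_apply, PiLp.single_apply, smul_eq_mul, mul_ite,
    ite_mul, mul_one, mul_zero, zero_mul, Finset.sum_ite_eq', Finset.mem_univ, if_true,
    Matrix.smul_apply]
  ring

theorem pm_dil_ev {a : ℝ} (h : ∀ᶠ z in 𝓝 y, u z = a • z) (H : MetricField 4) :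
    ∀ᶠ z in 𝓝 y, pm u H z = a ^ 2 • H (a • z) :=
  h.eventually_nhds.mono fun _ hz => pm_dil hz H

/-- naturality of the reduced Ricci tensor -/
theorem redT_pm {V W : Set E4} (p : Pull (pm u G) G u V W) (q : Pull (pm u b) b u V W)
    (hy : y ∈ V) (i j : Fin 4) : redT (pm u b) (pm u G) y ![i, j] = pm u (redM b G) y i j := by
  have : matT (redM b G) = redT b G := funext fun y => arr2_ext fun _ _ => rfl
  rw [rel_redT p q y hy, pm, Matrix.of_apply, this]

end Scale

variable {M : Type*} {T : TD M} {L L' : T.V → ℝ} {u : T.S → E4 → E4}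

/-- invariance of the action -/
theorem act_pb (hA : (T.glob L').Ok) (hU : ∀ s, IsOpen (U1 T L s)) {b G : Fam T}
    (hb : (T.glob L').IsMet (rt T L' b)) (hG : (T.glob L').IsMet (rt T L' G))
    (pb' : ∀ s, Pull (pm (u s) (b s)) (b s) (u s) (U1 T L s) ((T.glob L').U s))
    (pG : ∀ s, Pull (pm (u s) (G s)) (G s) (u s) (U1 T L s) ((T.glob L').U s))
    (hI : ∀ s, IntegrableOn (fun x => T.χ s ((T.glob L').c s x) * fgfF (b s) (G s) x)
      ((T.glob L').U s))
    (hint : ∀ (H : T.S → MetricField 4) (f : T.S → E4 → ℝ), (T.glob L').IsMet H →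
      (T.glob L').CompF f → (T.glob L').Intg T.χ H f →
      (gl1 T L).Intg T.χ (fun s => pm (u s) (H s)) (fun s x => f s (u s x)) ∧
      (gl1 T L).int T.χ (fun s => pm (u s) (H s)) (fun s x => f s (u s x)) =
        (T.glob L').int T.χ H f) :
    IntL T L (fun s => fgfF (pb T L L' u b s) (pb T L L' u G s)) ∧
      intL T L (fun s => fgfF (pb T L L' u b s) (pb T L L' u G s)) = actL T L' b G := by
  have p0 : ∀ s, 0 < ep T L s ^ 2 := fun s => pow_pos (ep_pos L s) 2
  have p1 : ∀ s, 0 < ep T L' s ^ 2 := fun s => pow_pos (ep_pos L' s) 2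
  have p2 : ∀ s, 0 < (ep T L' s / ep T L s) ^ 2 := fun s =>
    pow_pos (div_pos (ep_pos L' s) (ep_pos L s)) 2
  set f : T.S → E4 → ℝ := fun s => fgfS (rt T L' b s) (rt T L' G s) with hf
  have e1 : ∀ s x, (T.glob L').den T.χ (rt T L' G) s x * f s x = ep T L' s ^ 2 *
      (Nat.card (T.grp s) : ℝ)⁻¹ * (T.χ s ((T.glob L').c s x) * fgfF (b s) (G s) x) := fun s x => by
    have := fgfF_cs (p1 s) (p1 s) (b s) (G s) x
    rw [fgfF_eq] at this
    change (Nat.card (T.grp s) : ℝ)⁻¹ * (_ * sq (fun z => ep T L' s ^ 2 • G s z) x) *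
      fgfS (fun z => ep T L' s ^ 2 • b s z) (fun z => ep T L' s ^ 2 • G s z) x = _
    rw [mul_assoc, mul_assoc, this]
    ring
  have e2 : ∀ s, ∀ x ∈ U1 T L s, (gl1 T L).den T.χ (fun s => pm (u s) (rt T L' G s)) s x *
      f s (u s x) = ep T L s ^ 2 * (Nat.card (T.grp s) : ℝ)⁻¹ * (T.χ s ((T.glob L).c s x) *
        fgfF (pb T L L' u b s) (pb T L L' u G s) x) := fun s x hx => by
    have h1 := fgfF_cs (p2 s) (p2 s) (pm (u s) (b s)) (pm (u s) (G s)) x
    have h2 := fgfS_cs (p1 s) (p1 s) (b s) (G s) (u s x)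
    have h3 := sq_cs (ep T L' s ^ 2) (pm (u s) (G s)) x
    rw [fgfF_eq (pm _ _), fgfS_pull (pG s) (pb' s) hx] at h1
    rw [← pm_cs] at h3
    change (Nat.card (T.grp s) : ℝ)⁻¹ * (T.χ s ((T.glob L).c s x) *
      sq (pm (u s) fun z => ep T L' s ^ 2 • G s z) x) *
      fgfS (fun z => ep T L' s ^ 2 • b s z) (fun z => ep T L' s ^ 2 • G s z) (u s x) =
      _ * (_ * fgfF (fun z => (ep T L' s / ep T L s) ^ 2 • pm (u s) (b s) z)
        (fun z => (ep T L' s / ep T L s) ^ 2 • pm (u s) (G s) z) x)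
    rw [h1, h2, h3]
    have := (ep_pos L s).ne'
    have := (ep_pos L' s).ne'
    field_simp
  obtain ⟨i1, i2⟩ := hint (rt T L' G) f hG (Atl.compF_of_tr hA fun a a' x F t => by
      obtain ⟨V, h1, h2, h3, -⟩ := t.exists_nbhd hA
      exact fgfS_pull (hG.pull hA h1 h3) (hb.pull hA h1 h3) h2)
    fun s => by simp only [e1]; exact (hI s).const_mul _
  refine ⟨fun s => ?_, ?_⟩
  · have h0 : ep T L s ^ 2 * (Nat.card (T.grp s) : ℝ)⁻¹ ≠ 0 :=
      mul_ne_zero (p0 s).ne' (inv_ne_zero (Atl.card_pos hA s).ne')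
    refine (((i1 s).congr_fun (e2 s) (hU s).measurableSet).const_mul
      (ep T L s ^ 2 * (Nat.card (T.grp s) : ℝ)⁻¹)⁻¹).congr (Eventually.of_forall fun x => ?_)
    simp only [← mul_assoc, inv_mul_cancel₀ h0, one_mul]
  · simp only [Atl.int, e1] at i2
    simp only [intL, actL, ← mul_assoc, ← integral_const_mul]
    simp only [← mul_assoc] at i2 e2
    rw [← i2]
    exact Finset.sum_congr rfl fun s _ =>
      (setIntegral_congr_fun (hU s).measurableSet (e2 s)).symm

end Crest.Agent.N207.NS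

end
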