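import Crest.Agent.N207.N.Gr1
import Crest.Agent.N207.N.Gs0
import Crest.Agent.N207.Ga.Met2

/-!
# Row 207, block N (helper86): geometry of the dilation of one neck
-/

set_option autoImplicit false

open scoped ContDiff Topology
open Metric Set Filter MeasureTheory
open Crest.GeometryTopology.CoordMetric Crest.Agent.R202.Tens
open Crest.Agent.N207.I Crest.Agent.N207.I.TD Crest.Agent.N207.Lg Crest.Agent.N207.CB

noncomputable section

namespace Crest.Agent.N207.NS.Gs

variable {M : Type*}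

/-- the data of the dilation -/
structure Dl (T : TD M) (T0 c : ℝ) (L L' : T.V → ℝ) (w : T.V) (t : ℝ) (u : T.S → E4 → E4) :
    Prop where
  ok : T.Ok
  ne : w ≠ T.root
  t1 : |t| ≤ 1 / 2
  c0 : c + 3 ≤ T0
  p0 : 0 ≤ T0
  lng : Lng T (2 * T0 + 5) L
  at_w : L' w = L w + t
  off_w : ∀ v, v ≠ w → L' v = L v
  oth : ∀ s, s ≠ Sum.inr w → ∀ x, u s x = x
  inn : ∀ x, ‖x‖ ≤ Real.exp (T0 + 1) → u (Sum.inr w) x = x
  out : ∀ x, Real.exp (T0 + 2) ≤ ‖x‖ → u (Sum.inr w) x = Real.exp t • x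
  mid : ∀ x ∈ U1 T L (Sum.inr w), ‖u (Sum.inr w) x - x‖ ≤ ‖x‖ / 2

/-- the annulus where `u` is not a dilation -/
def An (T : TD M) (T0 : ℝ) (w : T.V) (s : T.S) (x : E4) : Prop :=
  s = Sum.inr w ∧ Real.exp (T0 + 1) ≤ ‖x‖ ∧ ‖x‖ ≤ Real.exp (T0 + 2)

/-- the local dilation factor -/
def aa (T : TD M) (T0 : ℝ) (w : T.V) (t : ℝ) (s : T.S) (x : E4) : ℝ :=
  if s = Sum.inr w ∧ Real.exp (T0 + 2) < ‖x‖ then Real.exp t else 1

/-- nonzero points of the end charts -/
def Nz (T : TD M) (s : T.S) (x : E4) : Prop := ∀ v, s = Sum.inr v → x ≠ 0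

variable {T : TD M} {g : T.V → Fam T} {T0 c t : ℝ} {L L' : T.V → ℝ} {w v : T.V}
  {u : T.S → E4 → E4} {s : T.S} {x : E4}

theorem nz_of (hx : x ∈ U1 T L s) : Nz T s x := by
  rintro v rfl rfl
  have := hx.1
  norm_num at this

theorem aa_pos : 0 < aa T T0 w t s x := by
  unfold aa; split_ifs
  · exact Real.exp_pos t
  · exact one_pos

theorem aa_ne (h : s ≠ Sum.inr w) : aa T T0 w t s x = 1 := if_neg fun e => h e.1

theorem aa_in (h : ‖x‖ ≤ Real.exp (T0 + 2)) : aa T T0 w t s x = 1 := if_neg fun e => e.2.not_ge h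

theorem aa_out (h : Real.exp (T0 + 2) < ‖x‖) : aa T T0 w t (Sum.inr w) x = Real.exp t :=
  if_pos ⟨rfl, h⟩

theorem gb_out (h : T0 + 1 / 10 ≤ Real.log ‖x‖) : gb T g T0 v (Sum.inr v) x = 1 :=
  Ga.gb_one (by simp only [tau, if_true]; linarith)

theorem gb_inn (hT : T.Ok) (hv : v ≠ T.root) {l : ℝ} (hx : x ≠ 0)
    (h : Real.log ‖x‖ + T0 + 1 / 10 ≤ l) :
    gb T g T0 (T.par v) (Sum.inr v) (Real.exp (-l) • x) = 1 :=
  Ga.gb_one (by simp only [tau, if_neg (hT.par_ne hv), Ga.log_smul _ hx]; linarith)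

theorem log_le {a : ℝ} (hx : x ≠ 0) (h : ‖x‖ ≤ Real.exp a) : Real.log ‖x‖ ≤ a :=
  (Real.log_le_iff_le_exp (norm_pos_iff.2 hx)).2 h

theorem le_log {a : ℝ} (h : Real.exp a ≤ ‖x‖) : a ≤ Real.log ‖x‖ :=
  (Real.le_log_iff_exp_le ((Real.exp_pos a).trans_le h)).2 h

theorem ne0 {a : ℝ} (h : Real.exp a ≤ ‖x‖) : x ≠ 0 := norm_pos_iff.1 ((Real.exp_pos a).trans_le h)

namespace Dl

variable (d : Dl T T0 c L L' w t u)
include d

theorem ex : Real.exp (-L' w) * Real.exp t = Real.exp (-L w) := by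
  rw [← Real.exp_add, d.at_w]; congr 1; ring

/-- off the annulus `u` is a dilation that matches the reference metrics -/
theorem off (g : T.V → Fam T) (hx : Nz T s x) (hA : ¬ An T T0 w s x) : ∀ᶠ z in 𝓝 x,
    u s z = aa T T0 w t s x • z ∧ gbL T g T0 L' s (aa T T0 w t s x • z) = gbL T g T0 L s z := by
  have t1 := abs_le.1 d.t1
  have hl := d.lng w d.ne
  by_cases hs : s = Sum.inr w
  · subst hs
    rcases lt_or_ge ‖x‖ (Real.exp (T0 + 1)) with h | h
    · rw [aa_in (h.le.trans (Real.exp_le_exp.2 (by linarith)))]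
      filter_upwards [(isOpen_lt continuous_norm continuous_const).mem_nhds h,
        isOpen_ne.mem_nhds (hx w rfl)] with z h1 h2
      have := log_le h2 (le_of_lt h1)
      rw [one_smul, Ga.gbL_kid d.ne, Ga.gbL_kid d.ne, gb_inn d.ok d.ne h2 (by linarith [d.at_w]),
        gb_inn d.ok d.ne h2 (by linarith)]
      exact ⟨d.inn z (le_of_lt h1), rfl⟩
    · have h' : Real.exp (T0 + 2) < ‖x‖ := lt_of_not_ge fun e => hA ⟨rfl, h, e⟩
      rw [aa_out h']
      filter_upwards [(isOpen_lt continuous_const continuous_norm).mem_nhds h'] with z h1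
      have := le_log (le_of_lt h1)
      rw [Ga.gbL_kid d.ne, Ga.gbL_kid d.ne, smul_smul, d.ex,
        gb_out (by rw [Ga.log_smul _ (ne0 (le_of_lt h1))]; linarith), gb_out (x := z) (by linarith)]
      exact ⟨d.out z (le_of_lt h1), rfl⟩
  · rw [aa_ne hs]
    refine Eventually.of_forall fun z => ⟨by rw [one_smul, d.oth s hs], ?_⟩
    rcases s with a | v
    · rw [one_smul]; rfl
    · simp only [gbL, Sum.elim_inr, one_smul, d.off_w v fun e => hs (congrArg _ e)]

/-- on the annulus the reference metric is flat -/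
theorem one (g : T.V → Fam T) (hA : An T T0 w s x) : gbL T g T0 L s =ᶠ[𝓝 x] fun _ => 1 := by
  obtain ⟨rfl, h1, h2⟩ := hA
  have hl := d.lng w d.ne
  filter_upwards [(isOpen_lt continuous_const continuous_norm).mem_nhds
      ((Real.exp_lt_exp.2 (show T0 + 1 / 2 < T0 + 1 by linarith)).trans_le h1),
    (isOpen_lt continuous_norm continuous_const).mem_nhds
      (h2.trans_lt (Real.exp_lt_exp.2 (show T0 + 2 < T0 + 3 by linarith)))] with z h3 h4
  have h5 := le_log (le_of_lt h3)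
  have h6 := log_le (ne0 (le_of_lt h3)) (le_of_lt h4)
  rw [Ga.gbL_kid d.ne, gb_out (by linarith), gb_inn d.ok d.ne (ne0 (le_of_lt h3)) (by linarith)]
  simp

theorem kid_far {v' : T.V} (hx : x ≠ 0) (hk : T.kid v v')
    (h : -Real.log ‖Real.exp (-L v') • x‖ ≤ c + 1) : Real.exp (T0 + 2) < ‖x‖ ∧
      Real.exp (-L' v') * aa T T0 w t (Sum.inr v') x = Real.exp (-L v') := by
  rw [Ga.log_smul _ hx] at h
  have h1 : Real.exp (T0 + 2) < ‖x‖ := (Real.lt_log_iff_exp_lt (norm_pos_iff.2 hx)).1 (by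
    linarith [d.lng v' hk.1, d.c0])
  refine ⟨h1, ?_⟩
  by_cases e : v' = w
  · subst e; rw [aa_out h1, d.ex]
  · rw [aa_ne fun e' => e (Sum.inr_injective e'), mul_one, d.off_w v' e]

/-- near the cores everything is matched by the dilation -/
theorem ink (hx : Nz T s x) (hi : InK T L v (c + 1) s x) : ¬ An T T0 w s x ∧
    (∀ X, toL T L' v X s (aa T T0 w t s x • x) = toL T L v X s x) ∧
    ep T L' s * aa T T0 w t s x * T.eps L v = ep T L s * T.eps L' v := by
  rcases s with a | v'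
  · obtain rfl : T.vx a = v := hi
    refine ⟨fun h => by simpa using h.1, fun X => by rw [aa_ne (by simp), one_smul]; rfl, ?_⟩
    rw [aa_ne (by simp), mul_one, mul_comm]; rfl
  · rcases hi with ⟨rfl, h⟩ | ⟨hk, h⟩
    · have h1 : ‖x‖ < Real.exp (T0 + 1) :=
        (Real.log_lt_iff_lt_exp (norm_pos_iff.2 (hx _ rfl))).1 (by linarith [d.c0])
      rw [aa_in (h1.le.trans (Real.exp_le_exp.2 (by linarith)))]
      refine ⟨fun h => h.2.1.not_gt h1, fun X => by simp [toL], ?_⟩
      rw [mul_one, mul_comm]; rfl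
    · obtain ⟨h1, h2⟩ := d.kid_far (hx _ rfl) hk h
      refine ⟨fun h => h.2.2.not_gt h1, fun X => ?_, ?_⟩
      · simp only [toL, Sum.elim_inr, if_neg (d.ok.kid_ne hk), smul_smul, h2]
      · change T.eps L' v' * _ * _ = T.eps L v' * _
        rw [d.ok.eps_kid L' hk.1, d.ok.eps_kid L hk.1, hk.2, mul_assoc (T.eps L' v), h2]
        ring

theorem ink' (hx : x ∈ U1 T L s) (hi : InK T L' v (c + 1) s (u s x)) : InK T L v (c + 1) s x := by
  by_cases hs : s = Sum.inr w
  · subst hs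
    have t1 := abs_le.1 d.t1
    have hl := d.lng w d.ne
    have x0 := nz_of hx w rfl
    have x1 := norm_pos_iff.2 x0
    have m := abs_le.1 ((abs_norm_sub_norm_le _ _).trans (d.mid x hx))
    have u0 : 0 < ‖u (Sum.inr w) x‖ := by linarith
    have l2 : Real.log 2 ≤ 1 := by linarith [Real.log_two_lt_d9]
    have m1 : Real.log ‖x‖ ≤ 1 + Real.log ‖u (Sum.inr w) x‖ :=
      (Real.log_le_log x1 (show ‖x‖ ≤ 2 * ‖u (Sum.inr w) x‖ by linarith)).trans (by
        rw [Real.log_mul two_ne_zero u0.ne']; linarith)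
    have m2 : Real.log ‖u (Sum.inr w) x‖ ≤ 1 + Real.log ‖x‖ :=
      (Real.log_le_log u0 (show _ ≤ 2 * ‖x‖ by linarith)).trans (by
        rw [Real.log_mul two_ne_zero x1.ne']; linarith)
    rcases hi with ⟨e, h⟩ | ⟨hk, h⟩
    · have h1 : ‖x‖ ≤ Real.exp (T0 + 1) := (Real.log_le_iff_le_exp x1).1 (by linarith [d.c0])
      rw [d.inn x h1] at h
      exact Or.inl ⟨e, h⟩
    · have h' := h
      rw [Ga.log_smul _ (norm_pos_iff.1 u0), d.at_w] at h'
      have h1 : Real.exp (T0 + 2) ≤ ‖x‖ := (Real.le_log_iff_exp_le x1).1 (by linarith [d.c0])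
      rw [d.out x h1, smul_smul, d.ex] at h
      exact Or.inr ⟨hk, h⟩
  · rw [d.oth s hs] at hi
    rcases s with a | v'
    · exact hi
    · simpa only [InK, Sum.elim_inr, d.off_w v' fun e => hs (congrArg _ e)] using hi

theorem eps_cases (v : T.V) : T.eps L' v = T.eps L v ∨ (T.dep w ≤ T.dep v ∧
    T.eps L' v = Real.exp (-t) * T.eps L v ∧ T.eps L v ≤ T.eps L w) := by
  refine d.ok.ind (P := fun v => T.eps L' v = T.eps L v ∨ (T.dep w ≤ T.dep v ∧
    T.eps L' v = Real.exp (-t) * T.eps L v ∧ T.eps L v ≤ T.eps L w))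
    (Or.inl (by rw [d.ok.eps_root, d.ok.eps_root])) (fun v hv ih => ?_) v
  have hd := d.ok.dep_par v hv
  by_cases e : v = w
  · subst e
    refine Or.inr ⟨le_rfl, ?_, le_rfl⟩
    rw [d.ok.eps_kid L' hv, d.ok.eps_kid L hv, ih.resolve_right fun h => by omega, d.at_w,
      neg_add, Real.exp_add]
    ring
  · have h1 : Real.exp (-L v) ≤ 1 := Real.exp_le_one_iff.2 (by linarith [d.lng v hv, d.p0])
    rw [d.ok.eps_kid L' hv, d.ok.eps_kid L hv, d.off_w v e]
    refine ih.imp (fun h => by rw [h]) fun h => ⟨by omega, by rw [h.2.1, mul_assoc], ?_⟩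
    exact (mul_le_of_le_one_right (eps_pos L _).le h1).trans h.2.2

theorem rho (v : T.V) : (T.eps L' v / T.eps L v) ^ 2 ≤ 3 ∧
    |(T.eps L' v / T.eps L v) ^ 2 - 1| * T.eps L v ≤ 4 * (T.eps L w * |t|) := by
  have p := eps_pos L v
  have p' := eps_pos L w
  rcases d.eps_cases v with h | ⟨-, h, h'⟩
  · rw [h, div_self p.ne']
    exact ⟨by norm_num, by simp only [one_pow, sub_self, abs_zero, zero_mul]; positivity⟩
  · have h1 : |-t + -t| ≤ 2 * |t| := (abs_add_le _ _).trans (by rw [abs_neg]; linarith)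
    have h2 := Real.abs_exp_sub_one_le (x := -t + -t) (by linarith [d.t1])
    rw [h, mul_div_assoc, div_self p.ne', mul_one, pow_two, ← Real.exp_add]
    refine ⟨by linarith [(abs_le.1 h2).2, d.t1], ?_⟩
    calc _ ≤ 4 * |t| * T.eps L w := mul_le_mul (by linarith) h' p.le (by positivity)
      _ = _ := by ring

theorem pb_off (g : T.V → Fam T) (hx : Nz T s x) (hA : ¬ An T T0 w s x) (H : Fam T) :
    ∀ᶠ z in 𝓝 x, pb T L L' u H s z =
      ((ep T L' s / ep T L s) ^ 2 * aa T T0 w t s x ^ 2) • H s (aa T T0 w t s x • z) :=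
  (pm_dil_ev ((d.off g hx hA).mono fun _ h => h.1) (H s)).mono fun z h => by
    rw [pb, h, smul_smul]

/-- off the annulus the pulled back reference metric is a multiple of the reference metric -/
theorem bg_off (g : T.V → Fam T) (hx : Nz T s x) (hA : ¬ An T T0 w s x) : ∃ k : ℝ, 0 < k ∧
    pb T L L' u (gbL T g T0 L') s =ᶠ[𝓝 x] fun z => k • gbL T g T0 L s z :=
  ⟨_, mul_pos (pow_pos (div_pos (ep_pos L' s) (ep_pos L s)) 2) (pow_pos aa_pos 2), by
    filter_upwards [d.pb_off g hx hA (gbL T g T0 L'), d.off g hx hA] with z h1 h2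
    rw [h1, h2.2]⟩

theorem bg_root (g : T.V → Fam T) (x : E4) :
    gbL T g T0 L (Sum.inr T.root) x = pb T L L' u (gbL T g T0 L') (Sum.inr T.root) x := by
  have hs : (Sum.inr T.root : T.S) ≠ Sum.inr w := fun e => d.ne (Sum.inr_injective e).symm
  rw [pb, pm_dil (a := 1) (Eventually.of_forall fun z => by rw [one_smul, d.oth _ hs])]
  simp [ep, un, d.ok.eps_root, gbL]

theorem fac (hx : Nz T s x) (hi : InK T L v (c + 1) s x) :
    (ep T L' s / ep T L s) ^ 2 * aa T T0 w t s x ^ 2 = (T.eps L' v / T.eps L v) ^ 2 ∧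
      sr T L' v s * aa T T0 w t s x ^ 2 = sr T L v s := by
  have h := (d.ink hx hi).2.2
  have p1 := (ep_pos L s).ne'
  have p2 := (eps_pos L v).ne'
  have p3 := (eps_pos L' v).ne'
  rw [sr, sr, ← mul_pow, ← mul_pow]
  constructor <;> congr 1 <;> field_simp <;> linarith

/-- the multiplier terms are matched -/
theorem psi (g : T.V → Fam T) (hx : x ∈ U1 T L s) (G X : Fam T)
    (h0 : ¬ InK T L v (c + 1) s x → toL T L v X s x = 0)
    (h1 : ¬ InK T L' v (c + 1) s (u s x) → toL T L' v X s (u s x) = 0) (p q : Fin 4) :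
    sr T L' v s * pm (u s) (PsT (gbL T g T0 L' s) (G s) (toL T L' v X s)) x p q =
      sr T L v s * PsT (gbL T g T0 L s) (pb T L L' u G s) (toL T L v X s) x p q := by
  by_cases hi : InK T L v (c + 1) s x
  · have hz := nz_of hx
    obtain ⟨a1, a2, -⟩ := d.ink hz hi
    have a3 := d.off g hz a1
    rw [pm_dil (a3.mono fun _ h => h.1), PsT_pt (mul_pos (pow_pos (div_pos (ep_pos L' s)
      (ep_pos L s)) 2) (pow_pos aa_pos 2)) a3.self_of_nhds.2.symm
      (d.pb_off g hz a1 G).self_of_nhds (a2 X).symm, ← (d.fac hz hi).2, Matrix.smul_apply,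
      smul_eq_mul, mul_assoc]
  · rw [PsT_zero' (h0 hi), pm_zero (PsT_zero' (h1 fun e => hi (d.ink' hx e)))]
    simp

/-- the constraints only see the dilation -/
theorem loc_eq (g : T.V → Fam T) (hx : x ∈ (T.core v).U s)
    (h : ∀ v', s = Sum.inr v' → tau T v v' (c + 1) x < 0) (G : Fam T) :
    loc T L v (pb T L L' u G - gbL T g T0 L) s x =
      loc T L' v ((T.eps L' v / T.eps L v) ^ 2 • G - gbL T g T0 L') s x := by
  obtain ⟨y, h1, h2, h3, h4⟩ : ∃ y, Nz T s y ∧ InK T L v (c + 1) s y ∧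
      (∀ k, loc T L v k s x = k s y) ∧ ∀ k, loc T L' v k s x = k s (aa T T0 w t s y • y) := by
    rcases s with a | v'
    · refine ⟨x, fun _ e => by simp at e, ?_, fun _ => rfl, fun k => ?_⟩
      · by_contra e
        simp only [core, Sum.elim_inl, bU, if_neg (show ¬ T.vx a = v from e)] at hx
        exact hx
      · rw [aa_ne (by simp), one_smul]; rfl
    · have h := h v' rfl
      by_cases e : v' = v
      · subst e
        simp only [tau, if_true, core, Sum.elim_inr, mem_ofPred_eq] at h hx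
        have x0 : 0 < ‖x‖ := by linarith
        refine ⟨x, fun _ _ => norm_pos_iff.1 x0, Or.inl ⟨rfl, by linarith⟩, fun k => by simp [loc],
          fun k => ?_⟩
        rw [aa_in ((Real.log_le_iff_le_exp x0).1 (by linarith [d.c0]))]
        simp [loc]
      · by_cases hk : T.kid v v'
        · simp only [tau, if_neg e, core, Sum.elim_inr, if_pos hk, mem_ofPred_eq] at h hx
          have y0 : Real.exp (L v') • x ≠ 0 :=
            smul_ne_zero (Real.exp_pos _).ne' (norm_pos_iff.1 hx.1)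
          have h5 : -Real.log ‖Real.exp (-L v') • Real.exp (L v') • x‖ ≤ c + 1 := by
            rw [smul_smul, ← Real.exp_add, neg_add_cancel, Real.exp_zero, one_smul]; linarith
          refine ⟨_, fun _ _ => y0, Or.inr ⟨hk, h5⟩, fun k => by simp [loc, e], fun k => ?_⟩
          have h6 := (d.kid_far y0 hk h5).2
          have h7 : aa T T0 w t (Sum.inr v') (Real.exp (L v') • x) * Real.exp (L v') =
              Real.exp (L' v') := by
            rw [Real.exp_neg, Real.exp_neg] at h6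
            have := (Real.exp_pos (L v')).ne'
            have := (Real.exp_pos (L' v')).ne'
            field_simp at h6
            linarith
          simp only [loc, Sum.elim_inr, if_neg e, smul_smul, h7]
        · simp only [core, Sum.elim_inr, if_neg e, if_neg hk] at hx
          exact hx.elim
  have a1 := (d.ink h1 h2).1
  rw [h3, h4, Pi.sub_apply, Pi.sub_apply, Pi.sub_apply, Pi.sub_apply,
    (d.pb_off g h1 a1 G).self_of_nhds, (d.off g h1 a1).self_of_nhds.2, (d.fac h1 h2).1]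
  rfl

end Dl

end Crest.Agent.N207.NS.Gs

end
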