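import Crest.Agent.N207.N.Gr2
import Crest.Agent.N207.N.Gs2

/-!
# Row 207, block N (helper86): integrals over the annulus, the constraints after the dilation
-/

set_option autoImplicit false

open scoped ContDiff Topology
open Metric Set Filter MeasureTheory
open Crest.GeometryTopology.CoordMetric Crest.Agent.R202.Tens
open Crest.Agent.N207.I Crest.Agent.N207.I.TD Crest.Agent.N207.Lg Crest.Agent.N207.CB

noncomputable section

namespace Crest.Agent.N207.NS.Gs

theorem opt_le {X a b d : ℝ} (ha : 0 ≤ a) (hb : 0 ≤ b)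
    (h : ∀ l : ℝ, 0 < l → X ≤ l * a + b / l + d) : X ≤ 2 * (√a * √b) + d := by
  rcases le_or_gt X d with k | k
  · exact k.trans (le_add_of_nonneg_left (by positivity))
  have := discrim_le_zero (a := a) (b := -(X - d)) (c := b) fun l => by
    rcases le_or_gt l 0 with m | m
    · have := mul_nonneg (sub_pos.2 k).le (neg_nonneg.2 m)
      have := mul_nonneg ha (mul_self_nonneg l)
      linarith
    · have := mul_le_mul_of_nonneg_right (sub_le_iff_le_add.2 (h l m)) m.le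
      rw [add_mul, div_mul_cancel₀ _ m.ne'] at this
      linarith
  rw [discrim, neg_sq] at this
  have h2 : X - d ≤ 2 * (√a * √b) := by
    refine abs_le_of_sq_le_sq' ?_ (by positivity) |>.2
    rw [mul_pow, mul_pow, Real.sq_sqrt ha, Real.sq_sqrt hb]; linarith
  linarith

theorem am_le {l : ℝ} (hl : 0 < l) (η : ℝ) {a : ℝ} (ha : 0 ≤ a) : η * √a ≤ l * a + η ^ 2 / l := by
  have h := Real.sq_sqrt ha
  rw [← sub_nonneg, show l * a + η ^ 2 / l - η * √a =
    ((l * √a - η / 2) ^ 2 + 3 / 4 * η ^ 2) / l by rw [sub_sq, mul_pow, h]; field_simp; ring]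
  positivity

variable {M : Type*} {T : TD M} {g : T.V → Fam T} {T0 c t δ δ' : ℝ} {L L' : T.V → ℝ} {w v : T.V}
  {u : T.S → E4 → E4}

theorem int_neck (k : Ch T L) {s : T.S} (hs : s ≠ Sum.inr T.root) {f : E4 → ℝ}
    (hf : ContinuousOn f (U1 T L s)) :
    IntegrableOn (fun x => T.χ s ((T.glob L).c s x) * f x) (U1 T L s) :=
  ((((k.χ_sm s).continuousOn.mul hf).mono (k.K1_U1 s)).integrableOn_compact
    (k.cpt s hs)).of_forall_sdiff_eq_zero (k.op1 s).measurableSet fun x hx => by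
      by_contra h
      exact hx.2 (k.gK_K1 s (k.χ_supp (k.U1_U s hx.1) (left_ne_zero_of_mul h)))

/-- densities living on a bounded part of one neck -/
theorem intL_ann (k : Ch T L) (hw : w ≠ T.root) {D f f' : T.S → E4 → ℝ} {α β γ R : ℝ}
    (hα : 0 ≤ α) (hβ : 0 ≤ β) (hγ : 0 ≤ γ)
    (hf : ContinuousOn (f (Sum.inr w)) (U1 T L (Sum.inr w)))
    (hf' : ContinuousOn (f' (Sum.inr w)) (U1 T L (Sum.inr w)))
    (f0 : ∀ s, ∀ x ∈ U1 T L s, 0 ≤ f s x) (f0' : ∀ s, ∀ x ∈ U1 T L s, 0 ≤ f' s x)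
    (h : ∀ s, ∀ x ∈ U1 T L s, D s x = 0 ∨
      (s = Sum.inr w ∧ ‖x‖ ≤ R ∧ |D s x| ≤ α * f s x + β * f' s x + γ)) :
    |intL T L D| ≤ α * intL T L f + β * intL T L f' +
      γ * (volume.real (closedBall (0 : E4) R) * T.eps L w ^ 2) := by
  have hm := fun s => (k.op1 s).measurableSet
  set s0 : T.S := Sum.inr w
  have hs : s0 ≠ Sum.inr T.root := fun e => hw (Sum.inr_injective e)
  have J : ∀ F : T.S → E4 → ℝ, (∀ s, ∀ x ∈ U1 T L s, 0 ≤ F s x) → ep T L s0 ^ 2 *
      ((Nat.card (T.grp s0) : ℝ)⁻¹ * ∫ x in U1 T L s0, T.χ s0 ((T.glob L).c s0 x) * F s0 x) ≤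
      intL T L F := fun F hF => Finset.single_le_sum (f := fun s => ep T L s ^ 2 *
        ((Nat.card (T.grp s) : ℝ)⁻¹ * ∫ x in U1 T L s, T.χ s ((T.glob L).c s x) * F s x))
      (fun s _ => by
        have := setIntegral_nonneg (μ := volume) (hm s) fun x hx =>
          mul_nonneg (k.χ_nonneg s ((T.glob L).c s x)) (hF s x hx)
        positivity) (Finset.mem_univ s0)
  have i3 : Integrable ((closedBall (0 : E4) R).indicator fun _ => γ) :=
    (integrable_indicator_iff measurableSet_closedBall).2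
      (integrableOn_const (isCompact_closedBall _ _).measure_lt_top.ne)
  have i1 := (int_neck k hs hf).const_mul α
  have i2 := (int_neck k hs hf').const_mul β
  have h1 : ‖∫ x in U1 T L s0, T.χ s0 ((T.glob L).c s0 x) * D s0 x‖ ≤ ∫ x in U1 T L s0,
      (α * (T.χ s0 ((T.glob L).c s0 x) * f s0 x) + β * (T.χ s0 ((T.glob L).c s0 x) * f' s0 x) +
        (closedBall (0 : E4) R).indicator (fun _ => γ) x) := by
    refine norm_integral_le_of_norm_le ((i1.add i2).add i3.integrableOn) ?_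
    filter_upwards [ae_restrict_mem (hm s0)] with x hx
    have a0 := k.χ_nonneg s0 ((T.glob L).c s0 x)
    have a1 := f0 s0 x hx
    have a2 := f0' s0 x hx
    rcases h s0 x hx with e | ⟨-, e1, e2⟩
    · have := indicator_nonneg (s := closedBall (0 : E4) R) (fun _ _ => hγ) x
      rw [e, mul_zero, norm_zero]; positivity
    · rw [indicator_of_mem (mem_closedBall_zero_iff.2 e1), Real.norm_eq_abs, abs_mul,
        abs_of_nonneg a0]
      have := mul_le_of_le_one_left hγ (k.χ_le_one hx)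
      linarith [mul_le_mul_of_nonneg_left e2 a0]
  rw [integral_add (by exact i1.add i2) i3.integrableOn, integral_add i1 i2, integral_const_mul,
    integral_const_mul] at h1
  have h2 := (setIntegral_le_integral (s := U1 T L s0) i3
    (Eventually.of_forall fun x => indicator_nonneg (fun _ _ => hγ) x)).trans_eq
    ((integral_indicator measurableSet_closedBall).trans (setIntegral_const γ))
  rw [smul_eq_mul] at h2
  have n0 : (0 : ℝ) ≤ (Nat.card (T.grp s0) : ℝ)⁻¹ := by positivity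
  have n1 := mul_le_of_le_one_left (mul_nonneg (measureReal_nonneg (μ := volume)
    (s := closedBall (0 : E4) R)) hγ) (Nat.cast_inv_le_one (α := ℝ) (Nat.card (T.grp s0)))
  rw [intL, Finset.sum_eq_single s0 (fun s _ hs => by
    rw [setIntegral_congr_fun (g := fun _ => 0) (hm s) fun x hx => by
      simp only [(h s x hx).resolve_right fun e => hs e.1, mul_zero]]
    simp) (by simp), abs_mul, abs_mul, abs_of_nonneg (sq_nonneg _), abs_of_nonneg n0]
  have h3 := mul_le_mul_of_nonneg_left (mul_le_mul_of_nonneg_left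
    (h1.trans (add_le_add_right h2 _)) n0) (sq_nonneg (ep T L s0))
  have h4 := mul_le_mul_of_nonneg_left (J f f0) hα
  have h5 := mul_le_mul_of_nonneg_left (J f' f0') hβ
  have h6 := mul_le_mul_of_nonneg_left n1 (sq_nonneg (ep T L s0))
  rw [Real.norm_eq_abs] at h3
  change _ ≤ _ + _ + γ * (_ * ep T L s0 ^ 2)
  linarith

theorem cls_pb {H H' : Fam T} (h1 : Met1 T L (pb T L L' u H)) (h2 : Met1 T L (pb T L L' u H'))
    (hρ : ∀ s, (ep T L' s / ep T L s) ^ 2 ≤ 3)
    (h : Cls T (U1 T L) 2 δ (fun s => pm (u s) (H s)) fun s => pm (u s) (H' s)) :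
    Cls T (U1 T L) 2 (3 * δ) (pb T L L' u H) (pb T L L' u H') := fun s x hx k hk a b => by
  have p := pow_pos (div_pos (ep_pos L' s) (ep_pos L s)) 2
  have r1 := riem_of_smul p (h1.riem s)
  have r2 := riem_of_smul p (h2.riem s)
  have e : (fun y => (pb T L L' u H s y - pb T L L' u H' s y) a b) = fun y =>
      (ep T L' s / ep T L s) ^ 2 • (pm (u s) (H s) y - pm (u s) (H' s) y) a b := by
    funext y; simp [pb, mul_sub]
  have h3 := h s x hx k hk a b
  rw [e, iteratedFDeriv_const_smul_apply' (by exact (((r1.contDiffOn a b).sub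
    (r2.contDiffOn a b)).contDiffAt (r1.isOpen.mem_nhds hx)).of_le (by exact_mod_cast le_top)),
    norm_smul, Real.norm_of_nonneg p.le, mul_left_comm]
  exact mul_le_mul (hρ s) h3 (mul_nonneg (pow_nonneg (scl_nn s x) k) (norm_nonneg _)) (by norm_num)

theorem prL_smul {b Φ : Fam T} (a : ℝ) (k : Fam T) :
    prL T L b v Φ (a • k) = a * prL T L b v Φ k := by
  rw [prL, prL, ← intL_smul]
  congr 1
  funext s x
  have : ip (b s) (matT (Φ s)) (matT ((a • k) s)) x = a * ip (b s) (matT (Φ s)) (matT (k s)) x :=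
    ipA_smul_right _ _ _
  rw [this]; ring

theorem pair_congr (hT : T.Ok) {X k k' : Fam T}
    (h : ∀ s, ∀ x ∈ (T.core v).U s, X s x ≠ 0 → k s x = k' s x) :
    pair T g v X k = pair T g v X k' :=
  Finset.sum_congr rfl fun s _ => setIntegral_congr_fun ((hT.core_ok v).isOpen s).measurableSet
    fun x hx => by
      by_cases e : X s x = 0
      · simp only [ip_zero e]
      · simp only [ip, show matT (k s) x = matT (k' s) x by funext I; simp [matT, h s x hx e]]

variable {κ : T.V → Type} [∀ v, Fintype (κ v)] {ψ : ∀ v, κ v → Fam T} {P : ℝ}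
  {θ μ μ' : (Σ v, κ v) → ℝ} {G G' : Fam T}

/-- the content of `Tol` at one `L` -/
structure Tl (g : T.V → Fam T) (ψ : ∀ v, κ v → Fam T) (c P T0 : ℝ) (L : T.V → ℝ) : Prop where
  cont : ∀ v j s p q, ContinuousOn (fun x => toL T L v (ψ v j) s x p q) (U1 T L s)
  symm : ∀ v j s, ∀ x ∈ (T.glob L).U s, (toL T L v (ψ v j) s x).IsSymm
  supp : ∀ v j s, ∀ x ∈ (T.glob L).U s, ¬ InK T L v (c + 1) s x → toL T L v (ψ v j) s x = 0
  pr : ∀ v j, ∀ k : Fam T, (∀ s a b, ContinuousOn (fun y => k s y a b) (U1 T L s)) →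
    prL T L (gbL T g T0 L) v (toL T L v (ψ v j)) k =
      T.eps L v ^ 2 * pair T g v (ψ v j) (loc T L v k)
  bd : ∀ v j, |pair T g v (ψ v j) (loc T L v (gbL T g T0 L))| ≤ P

omit [∀ v, Fintype (κ v)] in
theorem tol_tl (h : Tol T g κ ψ c) : ∃ P T1 : ℝ, 0 < P ∧ ∀ T0, T1 ≤ T0 → ∀ L,
    Lng T (2 * T0 + T1) L → Ch T L → Tl g ψ c P T0 L := by
  obtain ⟨P, T1, hP, h⟩ := h
  refine ⟨P, T1, hP, fun T0 h0 L hL k => ?_⟩
  have h := h T0 h0 L hL
  exact ⟨fun v j s p q => (sm_of_rt ((h v j).1.sm s) p q).continuousOn.mono (k.U1_U s),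
    fun v j => (h v j).2.1, fun v j => (h v j).2.2.1, fun v j => (h v j).2.2.2.2.2.1,
    fun v j => (h v j).2.2.2.2.2.2⟩

theorem Met1.ct {H : Fam T} (h : Met1 T L H) (s : T.S) (p q : Fin 4) :
    ContinuousOn (fun x => H s x p q) (U1 T L s) := ((h.riem s).contDiffOn p q).continuousOn

/-- the constraints of the pulled back solution -/
theorem con_eq (k : Ch T L) (k' : Ch T L') (d : Dl T T0 c L L' w t u) (hψ : Psi T κ ψ (c + 1))
    (t1 : Tl g ψ c P T0 L) (t2 : Tl g ψ c P T0 L') (hb : Met1 T L (gbL T g T0 L))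
    (hb' : Met1 T L' (gbL T g T0 L')) (h : LS T g T0 κ ψ δ L θ μ G)
    (h' : LS T g T0 κ ψ δ L' θ μ' G') (hH : Met1 T L (pb T L L' u G')) (j : Σ v, κ v) :
    prL T L (gbL T g T0 L) j.1 (toL T L j.1 (ψ j.1 j.2)) (G - pb T L L' u G') =
      T.eps L j.1 ^ 2 * ((1 - (T.eps L' j.1 / T.eps L j.1) ^ 2) *
        (θ j + pair T g j.1 (ψ j.1 j.2) (loc T L' j.1 (gbL T g T0 L')))) := by
  obtain ⟨v, i⟩ := j
  set ρ := (T.eps L' v / T.eps L v) ^ 2
  have c1 := fun s p q => ((k.met1 (ls_met h)).sm_sub hb s p q).continuousOn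
  have c2 := fun s p q => (hH.sm_sub hb s p q).continuousOn
  have c3 := fun s p q => ((k'.met1 (ls_met h')).sm_sub hb' s p q).continuousOn
  have c4 : ∀ s p q, ContinuousOn (fun x => (ρ • (G' - gbL T g T0 L')) s x p q) (U1 T L' s) :=
    fun s p q => continuousOn_const.mul (c3 s p q)
  have c5 : ∀ s p q, ContinuousOn (fun x => ((1 - ρ) • gbL T g T0 L') s x p q) (U1 T L' s) :=
    fun s p q => continuousOn_const.mul (Met1.ct hb' s p q)
  have e1 := k'.prL_sub hb' (t2.cont v i) (fun s x hx => t2.supp v i s x (k'.U1_U s hx)) c4 c5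
  rw [t2.pr v i (_ - _) fun s p q => by exact (c4 s p q).sub (c5 s p q), prL_smul, prL_smul, t2.pr v i _ c3,
    t2.pr v i _ (Met1.ct hb'), h'.con ⟨v, i⟩, show ρ • (G' - gbL T g T0 L') -
      (1 - ρ) • gbL T g T0 L' = ρ • G' - gbL T g T0 L' by module] at e1
  rw [← sub_sub_sub_cancel_right _ _ (gbL T g T0 L), k.prL_sub hb (t1.cont v i)
    (fun s x hx => t1.supp v i s x (k.U1_U s hx)) c1 c2, t1.pr v i _ c1, t1.pr v i _ c2,
    h.con ⟨v, i⟩, pair_congr d.ok fun s x hx e => d.loc_eq g hx (fun v' hs => by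
      subst hs
      exact lt_of_not_ge fun a => e (hψ.supp v i v' x hx a)) G']
  have e2 := mul_left_cancel₀ (pow_pos (eps_pos L' v) 2).ne' (e1.trans (show _ = _ *
    (ρ * θ ⟨v, i⟩ - (1 - ρ) * pair T g v (ψ v i) (loc T L' v (gbL T g T0 L'))) by ring))
  rw [e2]; ring

theorem dd_le (k : Ch T L) (k' : Ch T L') (d : Dl T T0 c L L' w t u) (hψ : Psi T κ ψ (c + 1))
    (t1 : Tl g ψ c P T0 L) (t2 : Tl g ψ c P T0 L') (hb : Met1 T L (gbL T g T0 L))
    (hb' : Met1 T L' (gbL T g T0 L')) (h : LS T g T0 κ ψ δ L θ μ G)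
    (h' : LS T g T0 κ ψ δ L' θ μ' G') (hH : Met1 T L (pb T L L' u G')) (hθ : ‖θ‖ ≤ 1) :
    DD T g κ ψ T0 L (G - pb T L L' u G') ≤
      Fintype.card (Σ v, κ v) * (4 * (1 + P)) ^ 2 * (T.eps L w * |t|) ^ 2 := by
  rw [DD, mul_assoc, ← mul_pow, ← Finset.card_univ, ← nsmul_eq_mul, ← Finset.sum_const]
  refine Finset.sum_le_sum fun j _ => ?_
  have p := eps_pos L j.1
  have a1 : |θ j + pair T g j.1 (ψ j.1 j.2) (loc T L' j.1 (gbL T g T0 L'))| ≤ 1 + P :=
    (abs_add_le _ _).trans (add_le_add ((norm_le_pi_norm θ j).trans hθ) (t2.bd j.1 j.2))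
  rw [← sq_abs]
  refine pow_le_pow_left₀ (abs_nonneg _) ?_ 2
  rw [con_eq k k' d hψ t1 t2 hb hb' h h' hH, pow_two (T.eps L j.1), mul_assoc,
    mul_div_cancel_left₀ _ p.ne', abs_mul, abs_mul, abs_of_pos p, abs_sub_comm, ← mul_assoc,
    mul_comm (T.eps L j.1)]
  exact (mul_le_mul (d.rho j.1).2 a1 (abs_nonneg _) (by have := eps_pos L w; positivity)).trans_eq
    (by ring)

/-- the equation of the pulled back solution -/
theorem red_pb (hM : MUL) (k : Ch T L) (d : Dl T T0 c L L' w t u)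
    (t1 : Tl g ψ c P T0 L) (t2 : Tl g ψ c P T0 L')
    (hb' : (T.glob L').IsMet (rt T L' (gbL T g T0 L'))) (h' : LS T g T0 κ ψ δ L' θ μ' G')
    {s : T.S} (p1 : Pull (pm (u s) (gbL T g T0 L' s)) (gbL T g T0 L' s) (u s) (U1 T L s)
      ((T.glob L').U s)) (p2 : Pull (pm (u s) (G' s)) (G' s) (u s) (U1 T L s) ((T.glob L').U s))
    {x : E4} (hx : x ∈ U1 T L s) (p q : Fin 4) :
    redT (pb T L L' u (gbL T g T0 L') s) (pb T L L' u G' s) x ![p, q] = -∑ j, μ' j * (sr T L j.1 s *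
      PsT (gbL T g T0 L s) (pb T L L' u G' s) (toL T L j.1 (ψ j.1 j.2) s) x p q) := by
  have ρ0 := pow_pos (div_pos (ep_pos L' s) (ep_pos L s)) 2
  have hu := p1.maps x hx
  refine (congrFun (congrFun (redT_cs ρ0 ρ0 _ _) x) _).trans ?_
  rw [redT_pm p2 p1 hx, pm_sum (m := fun j : Σ v, κ v => -(μ' j * sr T L' j.1 s))
    (Y := fun j => PsT (gbL T g T0 L' s) (G' s) (toL T L' j.1 (ψ j.1 j.2) s)) fun p q => by
      rw [redM, Matrix.of_apply, ls_red hM hb' t2.symm h' s hu]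
      simp only [neg_mul, Finset.sum_neg_distrib, mul_assoc], ← Finset.sum_neg_distrib]
  refine Finset.sum_congr rfl fun j _ => ?_
  rw [neg_mul, mul_assoc, d.psi g hx G' _ (t1.supp _ _ s x (k.U1_U s hx)) (t2.supp _ _ s _ hu)]

end Crest.Agent.N207.NS.Gs

end
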