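import Crest.Agent.N207.N.Gs1
import Crest.Agent.N207.N.Gs3
import Crest.Agent.N207.A.Arr

/-!
# Row 207, block N (helper86): `Grl`, variation of the reduced action in the neck lengths
-/

set_option autoImplicit false

open scoped ContDiff Topology
open Metric Set Filter MeasureTheory
open Crest.GeometryTopology.CoordMetric Crest.Agent.R202.Tens
open Crest.Agent.N207.I Crest.Agent.N207.I.TD Crest.Agent.N207.Lg Crest.Agent.N207.CB

noncomputable section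

namespace Crest.Agent.N207.NS

namespace Gs

variable {M : Type*} {T : TD M} {g : T.V → Fam T} {T0 c t δ : ℝ} {L L' : T.V → ℝ} {w : T.V}
  {u : T.S → E4 → E4}

/-- the gauge term -/
abbrev ga (b G : MetricField 4) (x : E4) : ℝ := gau (sq G x) (iv G x) (TG b G x)

theorem ga_eq (b G : MetricField 4) (x : E4) : ga b G x = sq G x * (1 / 2 * nsq G (gauT b G) x) := by
  rw [nsq_gauT, ga, gau]; ring

theorem ga_cont {b G : MetricField 4} {U : Set E4} (hb : IsRiemannianOn b U)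
    (hG : IsRiemannianOn G U) : ContinuousOn (ga b G) U := by
  rw [funext (ga_eq b G)]
  exact (sm_sqrt_det hG).continuousOn.mul (continuousOn_const.mul
    ((smT_gauT hb hG).nsq hG).continuousOn)

theorem ga_nn {b G : MetricField 4} {x : E4} (hG : (G x).PosDef) : 0 ≤ ga b G x := by
  rw [ga_eq]
  exact mul_nonneg (Real.sqrt_nonneg _) (mul_nonneg (by norm_num) (Ar.ipA_nonneg hG (gauT b G x)))

theorem Cls.raw {U : T.S → Set E4} {H H' : Fam T} (h : Cls T U 2 δ H H') {s : T.S} {x : E4}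
    (hx : x ∈ U s) (h1 : 1 ≤ scl T s x) {k : ℕ} (hk : k ≤ 2) (a b : Fin 4) :
    ‖iteratedFDeriv ℝ k (fun y => (H s y - H' s y) a b) x‖ ≤ δ :=
  (le_mul_of_one_le_left (norm_nonneg _) (one_le_pow₀ h1)).trans (h s x hx k hk a b)

/-- the conclusion of `ann_pt` -/
def AP (Λ C : ℝ) : Prop := ∀ (b b' G H : MetricField 4) (x : E4)
    (η : ℝ), (b =ᶠ[𝓝 x] fun _ => 1) → C2 b' x → C2 G x → C2 H x → η ≤ Λ →
    (∀ p q, |H x p q| ≤ Λ ∧ |(H x)⁻¹ p q| ≤ Λ ∧ |(G x)⁻¹ p q| ≤ Λ ∧ |(b' x)⁻¹ p q| ≤ Λ) →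
    Λ⁻¹ ≤ sq G x → |sq H x| ≤ Λ →
    (∀ ξ : Fin 4 → ℝ, Λ⁻¹ * ∑ i, ξ i ^ 2 ≤ ∑ i, ∑ j, (G x)⁻¹ i j * ξ i * ξ j) →
    (∀ k ≤ 2, ∀ p q, ‖iteratedFDeriv ℝ k (fun y => (G y - b y) p q) x‖ ≤ Λ ∧
      ‖iteratedFDeriv ℝ k (fun y => (H y - b y) p q) x‖ ≤ Λ ∧
      ‖iteratedFDeriv ℝ k (fun y => (b' y - b y) p q) x‖ ≤ η) →
    (∀ p q, |redT b H x ![p, q] - redT b' H x ![p, q]| ≤ C * η) ∧
    |ga b' H x - ga b H x| ≤ C * (η * (√(ga b G x) + √(e1 (G - H) x + e0 (G - H) x)) + η ^ 2)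

/-- the change of the background, at one point -/
theorem ann_bd {Λ C m η : ℝ} {G H : Fam T} (ha : AP Λ C) (k : Ch T L) (d : Dl T T0 c L L' w t u)
    (hE : ∀ (H : Fam T) (s : T.S), ∀ x ∈ W1 T L s, (H s x).PosDef →
      (∀ p q, |H s x p q - gbL T g T0 L s x p q| ≤ m) →
      (∀ p q, |H s x p q| ≤ Λ ∧ |(H s x)⁻¹ p q| ≤ Λ) ∧ Λ⁻¹ ≤ sq (H s) x ∧ sq (H s) x ≤ Λ ∧
      (∀ ξ : Fin 4 → ℝ, Λ⁻¹ * ∑ i, ξ i ^ 2 ≤ ∑ i, ∑ j, (H s x)⁻¹ i j * ξ i * ξ j))
    (hG : Adm T g T0 L m G) (hH : Adm T g T0 L m H) (hb : Met1 T L (pb T L L' u (gbL T g T0 L')))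
    (nb : Cls T (U1 T L) 2 η (pb T L L' u (gbL T g T0 L')) (gbL T g T0 L)) (h1 : η ≤ m)
    (h2 : m ≤ Λ) (s : T.S) {x : E4} (hx : x ∈ U1 T L s) :
    ((∀ p q, redT (gbL T g T0 L s) (H s) x ![p, q] -
        redT (pb T L L' u (gbL T g T0 L') s) (H s) x ![p, q] = 0) ∧
      ga (pb T L L' u (gbL T g T0 L') s) (H s) x - ga (gbL T g T0 L s) (H s) x = 0) ∨
    (An T T0 w s x ∧ (∀ p q, |redT (gbL T g T0 L s) (H s) x ![p, q] -
        redT (pb T L L' u (gbL T g T0 L') s) (H s) x ![p, q]| ≤ C * η) ∧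
      |ga (pb T L L' u (gbL T g T0 L') s) (H s) x - ga (gbL T g T0 L s) (H s) x| ≤
        C * (η * (√(ga (gbL T g T0 L s) (G s) x) + √(e1 (G s - H s) x + e0 (G s - H s) x)) +
          η ^ 2)) := by
  by_cases hA : An T T0 w s x
  · have hW := k.U1_W1 s hx
    have s1 := (k.cell s x hW).1
    have e1 := hE G s x hW ((hG.met.riem s).posDef x hx) (hG.near.val hx)
    have e2 := hE H s x hW ((hH.met.riem s).posDef x hx) (hH.near.val hx)
    have e3 := hE _ s x hW ((hb.riem s).posDef x hx) ((nb.mono h1).val hx)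
    exact Or.inr ⟨hA, ha _ _ _ _ x η (d.one g hA) (C2.of_riem (hb.riem s) hx)
      (C2.of_riem (hG.met.riem s) hx) (C2.of_riem (hH.met.riem s) hx) (h1.trans h2)
      (fun p q => ⟨(e2.1 p q).1, (e2.1 p q).2, (e1.1 p q).2, (e3.1 p q).2⟩) e1.2.1
      ((abs_of_nonneg (Real.sqrt_nonneg _)).trans_le e2.2.2.1) e1.2.2.2 fun j hj p q =>
        ⟨(Cls.raw hG.near hx s1 hj p q).trans h2, (Cls.raw hH.near hx s1 hj p q).trans h2,
          Cls.raw nb hx s1 hj p q⟩⟩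
  · obtain ⟨a, a0, e⟩ := d.bg_off g (nz_of hx) hA
    have e1 := redT_cs a0 one_pos (gbL T g T0 L s) (H s)
    have e2 := TG_cs a0 1 (gbL T g T0 L s) (H s) x
    rw [one_cs] at e1 e2
    refine Or.inl ⟨fun p q => ?_, ?_⟩
    · rw [(redT_congr e EventuallyEq.rfl).eq_of_nhds, e1, sub_self]
    · rw [ga, (TG_congr e EventuallyEq.rfl).eq_of_nhds, e2, one_smul, sub_self]

theorem fin_le {X B m z t a1 a2 a3 : ℝ} (h : X ≤ a1 * (√B * z) + a2 * (√m * z) + a3 * z ^ 2)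
    (h1 : 0 ≤ a1) (h2 : 0 ≤ a2) (h3 : 0 ≤ a3) (hz : 0 ≤ z) (ht : z ≤ |t|) :
    X ≤ (a1 + a2 + a3 + 1) * ((√m + √B) * z + t ^ 2) := by
  have b1 : 0 ≤ √B * z := by positivity
  have b2 : 0 ≤ √m * z := by positivity
  have b3 : z ^ 2 ≤ t ^ 2 := by rw [← sq_abs t]; exact pow_le_pow_left₀ hz ht 2
  have b4 := mul_le_mul_of_nonneg_left b3 h3
  have b5 : 0 ≤ (a2 + a3 + 1) * (√B * z) + (a1 + a3 + 1) * (√m * z) + (a1 + a2 + 1) * t ^ 2 := by
    positivity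
  linarith

theorem nid_mono {δ' : ℝ} (h : NId T L L' δ u) (hδ : δ ≤ δ') : NId T L L' δ' u :=
  ⟨h.sm, h.maps, h.compat, fun s x hx k hk => (h.near s x hx k hk).trans
    (mul_le_mul_of_nonneg_right hδ (scl_nn s x)), h.dec⟩

end Gs

open _root_.Crest.Agent.N207.NS.Gs

variable {M : Type*} {T : TD M} {g : T.V → Fam T} {κ : T.V → Type} [∀ v, Fintype (κ v)]
  {ψ : ∀ v, κ v → Fam T} {c : ℝ}

set_option maxHeartbeats 1000000 in
theorem grl (h : Std T g) (hM : MUL) (hE : ELL T g) (hCh : CHI T) (hG : GB T g) (hA : ACT T)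
    (hP : PULL T g) (hI : INT T) (hD : DIL T g) (hψ : Psi T κ ψ (c + 1)) (hC : Core T g κ ψ)
    (ht : Tol T g κ ψ c) : Grl T g κ ψ := by
  obtain ⟨δc, Cc, Tc, hδc, hCc, hC⟩ := hC
  obtain ⟨P, Tt, hP0, ht⟩ := tol_tl ht
  obtain ⟨δe, Λ, Te, hδe, hΛ, hE⟩ := hE
  obtain ⟨Th, hCh⟩ := hCh.ch h.ok
  obtain ⟨Tg, hG⟩ := hG
  replace hG := (hG 0).choose_spec
  obtain ⟨δp, Cp, Tp, hδp, hCp, hP⟩ := hP
  obtain ⟨δi, Ti, hδi, hI⟩ := hI
  obtain ⟨Td, hD⟩ := hD
  obtain ⟨Ca, hCa, ha⟩ := ann_pt hΛ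
  obtain ⟨Tm, hTm⟩ := (Set.toFinite ({5, c + 3, Tc, Tt, Te, Th, Tg, Tp, Ti, Td} : Set ℝ)).bddAbove
  simp only [mem_upperBounds, mem_insert_iff, mem_singleton_iff, forall_eq_or_imp,
    forall_eq] at hTm
  obtain ⟨t5, t3, tc, tt, te, th, tg, tp, ti, td⟩ := hTm
  obtain ⟨m, m0, m1, m2, m3⟩ : ∃ m : ℝ, 0 < m ∧ m ≤ δc ∧ m ≤ δe ∧ m ≤ 1 :=
    ⟨min δc (min δe 1), by positivity, min_le_left _ _, (min_le_right _ _).trans (min_le_left _ _),
      (min_le_right _ _).trans (min_le_right _ _)⟩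
  obtain ⟨δ, d0, d1, d2⟩ : ∃ δ : ℝ, 0 < δ ∧ 4 * δ ≤ m ∧ 3 * (Cp * (4 * δ)) ≤ m / 2 := by
    have e : m / (24 * Cp + 4) * (24 * Cp + 4) = m := div_mul_cancel₀ _ (by positivity)
    have : 0 < m / (24 * Cp + 4) := by positivity
    exact ⟨_, this, by nlinarith only [e, this, hCp], by nlinarith only [e, this, hCp]⟩
  refine ⟨δ, Tm + 1, d0, fun T0 h0 => ?_⟩
  obtain ⟨Cd, hCd, hD⟩ := hD T0 (by linarith)
  obtain ⟨τ, τ0, τ1, τ2⟩ : ∃ τ : ℝ, 0 < τ ∧ τ ≤ 1 / 2 ∧ Cd * τ ≤ min (m / 2) (min δp δi) :=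
    ⟨min (1 / 2) (min (m / 2) (min δp δi) / Cd), by positivity, min_le_left _ _, by
      rw [← le_div_iff₀' hCd]; exact min_le_right _ _⟩
  simp only [le_min_iff] at τ2
  set R := Real.exp (T0 + 2) with hR
  set V := volume.real (closedBall (0 : E4) R) with hV
  have V0 : 0 ≤ V := measureReal_nonneg
  have R1 : 1 ≤ R := Real.one_le_exp (by linarith)
  set c1 := R ^ 2 * (16 * (Ca * Cd) ^ 2) * V with hc1
  set c2 := (Fintype.card (Σ v, κ v) + 1 : ℝ) * (4 * (1 + P)) with hc2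
  refine ⟨2 * (Ca * Cd * (V + 1)) + Cc * c2 + (Ca * R ^ 2 * (Cc * (c1 + c2 ^ 2)) +
    2 * Ca * Cd ^ 2 * V + Cc * (c1 + c2 ^ 2)) + 1, τ, by positivity, τ0,
    fun L hL w hw t hτ θ μ μ' G G' hθ s1 s2 => ?_⟩
  set L' := Function.update L w (L w + t) with hL'
  have τ3 := abs_le.1 (hτ.trans τ1)
  have l0 : Lng T (2 * T0 + Tm) L' := fun v hv => by
    have := hL v hv
    by_cases e : v = w
    · subst e; rw [hL', Function.update_self]; linarith
    · rw [hL', Function.update_of_ne e]; linarith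
  have l1 : ∀ {a}, a ≤ Tm → Lng T (2 * T0 + a) L := fun e => hL.mono (by linarith)
  have l2 : ∀ {a}, a ≤ Tm → Lng T (2 * T0 + a) L' := fun e => l0.mono (by linarith)
  have k := hCh L (hL.mono (by linarith))
  have k' := hCh L' (l0.mono (by linarith))
  obtain ⟨u, u1, u2, u3, u4, nb⟩ := hD L (l1 td) w hw t (hτ.trans (by linarith))
  have η1 : Cd * |t| ≤ Cd * τ := mul_le_mul_of_nonneg_left hτ hCd.le
  have d : Dl T T0 c L L' w t u := ⟨h.ok, hw, hτ.trans τ1, by linarith, by linarith, l1 t5,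
    Function.update_self .., fun v e => Function.update_of_ne e .., u2, u3, u4, fun x hx => by
      have := u1.near _ x hx 0 (by norm_num)
      rw [pow_zero, one_mul, norm_iteratedFDeriv_zero] at this
      refine this.trans ?_
      change _ * ‖x‖ ≤ _
      nlinarith only [norm_nonneg x, τ2.1, η1, m3]⟩
  have hb := ((hG T0 (by linarith)).2 L (l1 tg)).2.1
  have hb' := ((hG T0 (by linarith)).2 L' (l2 tg)).2.1
  have t1 := ht T0 (by linarith) L (l1 tt) k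
  have t2 := ht T0 (by linarith) L' (l2 tt) k'
  obtain ⟨-, p2, p3, -, p5, -⟩ := hP T0 (by linarith) L L' (l1 tp) (l2 tp) _ u
    (η1.trans τ2.2.1) u1
  have b1 := k.met1 hb
  have pB := p2 _ hb'
  have pG := p2 _ (ls_met s2)
  set b := gbL T g T0 L with hbd
  set b' := pb T L L' u (gbL T g T0 L') with hbd'
  set H := pb T L L' u G' with hH
  have aG : Adm T g T0 L m G := (ls_adm k s1).mono d1
  have aH : Adm T g T0 L m H := ⟨pG.1, ((cls_pb pG.1 pB.1 (fun s => (d.rho _).1) (p3 _ _ _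
    (fun s p q => (((riem_of_rt (ls_met s2) s).contDiffOn p q).sub
      ((riem_of_rt hb' s).contDiffOn p q)).mono (k'.W1_U s)) (ls_cls k' s2))).add nb k.op1
    (pG.1.sm_sub pB.1) (pB.1.sm_sub b1)).mono (by linarith [τ2.1]),
    p5 _ (ls_met s2) (ls_dec s2)⟩
  have pt := ann_bd (G := G) (H := H) ha k d (fun K s x hx e1 e2 => by
    have := hE T0 (by linarith) L (l1 te) K s x hx e1 fun p q => (e2 p q).trans m2
    exact ⟨this.1, this.2.1, this.2.2.1, this.2.2.2.1⟩) aG aH pB.1 nb (by linarith [τ2.1])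
    (m3.trans hΛ)
  rw [← hbd, ← hbd'] at pt
  have e0' := eps_pos L w
  set z := T.eps L w * |t| with hz
  have z0 : 0 ≤ z := by positivity
  have z2 : z ^ 2 = T.eps L w ^ 2 * |t| ^ 2 := mul_pow _ _ _
  -- the error in the equation
  set E : Fam T := fun s x => Matrix.of fun p q =>
    redT (b s) (H s) x ![p, q] - redT (b' s) (H s) x ![p, q] with hEd
  have E0 : ∀ s, ∀ x ∈ U1 T L s, scl T s x ^ 2 * e0 (E s) x = 0 ∨ (An T T0 w s x ∧
      |scl T s x ^ 2 * e0 (E s) x| ≤ R ^ 2 * (16 * (Ca * (Cd * |t|)) ^ 2)) := fun s x hx =>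
    (pt s hx).imp (fun e => by simp [e0, hEd, e.1]) fun e => ⟨e.1, by
      obtain ⟨⟨rfl, -, a1⟩, a2, -⟩ := e
      rw [abs_of_nonneg (mul_nonneg (sq_nonneg _) (e0_nn _ _))]
      refine mul_le_mul (pow_le_pow_left₀ (norm_nonneg x) a1 2) ?_ (e0_nn _ _) (sq_nonneg _)
      refine (Finset.sum_le_sum fun p _ => Finset.sum_le_sum fun q _ =>
        sq_le_sq' (abs_le.1 (a2 p q)).1 (abs_le.1 (a2 p q)).2).trans_eq ?_
      simp only [Finset.sum_const, Finset.card_univ, Fintype.card_fin, nsmul_eq_mul]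
      ring⟩
  have E1 : IntL T L fun s x => scl T s x ^ 2 * e0 (E s) x := k.intL_of_supp (v := w) (d := T0 + 2)
    (fun s => ((scl_cont s).pow 2).continuousOn.mul (e0_cont fun p q =>
      (smT_redT (b1.riem s) (pG.1.riem s) ![p, q]).continuousOn.sub
        (smT_redT (pB.1.riem s) (pG.1.riem s) ![p, q]).continuousOn))
    fun s x hx hi => (E0 s x hx).resolve_right fun e => by
      obtain ⟨⟨rfl, a1, a2⟩, -⟩ := e
      exact hi (Or.inl ⟨rfl, log_le (ne0 a1) a2⟩)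
  have E2 : intL T L (fun s x => scl T s x ^ 2 * e0 (E s) x) ≤ c1 * z ^ 2 := by
    have := intL_ann k hw (f := fun _ _ => 0) (f' := fun _ _ => 0) (R := R) le_rfl le_rfl
      (γ := R ^ 2 * (16 * (Ca * (Cd * |t|)) ^ 2)) (by positivity) continuousOn_const
      continuousOn_const (fun _ _ _ => le_rfl) (fun _ _ _ => le_rfl) fun s x hx =>
        (E0 s x hx).imp id fun e => ⟨e.1.1, e.1.2.2, by simpa using e.2⟩
    refine (le_abs_self _).trans (this.trans_eq ?_)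
    rw [z2, hc1]; ring
  have D2 : DD T g κ ψ T0 L (G - H) ≤ (c2 * z) ^ 2 := by
    refine (dd_le k k' d hψ t1 t2 b1 (k'.met1 hb') s1 s2 pG.1 hθ).trans ?_
    rw [mul_pow c2, hc2, mul_pow _ (4 * _)]
    gcongr
    nlinarith only [Nat.cast_nonneg (α := ℝ) (Fintype.card (Σ v, κ v))]
  have D3 : √(DD T g κ ψ T0 L (G - H)) ≤ c2 * z := Real.sqrt_le_iff.2 ⟨by positivity, D2⟩
  obtain ⟨-, i2, i3, i4⟩ := hC T0 (by linarith) L (l1 tc) θ μ μ' G H E _
    (ls_mono s1 (by linarith)) (aH.mono m1) (fun s x hx p q => by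
      rw [sub_eq_add_neg, ← red_pb hM k d t1 t2 hb' s2 (pB.2 s) (pG.2 s) hx p q]
      exact (sub_add_cancel _ _).symm) E1 E2
  obtain ⟨j1, j2⟩ := act_pb (h.ok.glob_ok k'.long) k.op1 hb' (ls_met s2) pB.2 pG.2 s2.int
    (hI L L' (hL.mono (by linarith)) (l0.mono (by linarith)) u (nid_mono u1 (η1.trans τ2.2.2)))
  obtain ⟨a1, a2⟩ := (hA L k.long).2 b' b H pB.1 b1 pG.1 ⟨0, fun x _ => (d.bg_root g x).symm⟩
  have a3 := intL_sub (j1.sub i3) a1
  rw [intL_sub j1 i3, a2, j2, sub_zero] at a3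
  have hs : ∀ s, ∀ x ∈ U1 T L s, 1 ≤ scl T s x := fun s x hx => (k.cell s x (k.U1_W1 s hx)).1
  have key : |actL T L' (gbL T g T0 L') G' - intL T L fun s => fgfF (b s) (H s)| ≤
      2 * (√(BB T L b G) * √((Ca * (Cd * |t|)) ^ 2 * (V * T.eps L w ^ 2))) +
        (Ca * R ^ 2 * intL T L (en T (G - H)) + 2 * Ca * Cd ^ 2 * V * z ^ 2) := by
    refine opt_le (k.intL_nonneg fun s x hx => ga_nn ((aG.met.riem s).posDef x hx))
      (by positivity) fun l hl => ?_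
    rw [← a3]
    refine (intL_ann k hw (f := fun s => ga (b s) (G s)) (f' := en T (G - H)) (R := R) hl.le
      (β := Ca * R ^ 2) (by positivity)
      (γ := (Ca * (Cd * |t|)) ^ 2 / l + 2 * Ca * (Cd * |t|) ^ 2) (by positivity)
      (ga_cont (b1.riem _) (aG.met.riem _)) (k.en_cont (aG.met.sm_sub pG.1) _)
      (fun s x hx => ga_nn ((aG.met.riem s).posDef x hx))
      (fun s x _ => add_nonneg (e1_nn _ _) (div_nonneg (e0_nn _ _) (sq_nonneg _)))
      fun s x hx => ?_).trans_eq ?_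
    · have e : fgfF (b' s) (H s) x - fgfF (b s) (H s) x - (lagF (b' s) (H s) x -
          lagF (b s) (H s) x) = -(ga (b' s) (H s) x - ga (b s) (H s) x) := by
        simp only [fgfF, fgf, lagF, ga]; ring
      refine (pt s hx).imp (fun r => by rw [e, r.2, neg_zero]) fun r => ⟨r.1.1, r.1.2.2, ?_⟩
      obtain ⟨⟨rfl, -, r1⟩, -, r2⟩ := r
      rw [e, abs_neg]
      refine r2.trans ?_
      have n1 := e1_nn (G (Sum.inr w) - H (Sum.inr w)) x
      have n0 := e0_nn (G (Sum.inr w) - H (Sum.inr w)) x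
      have q1 := am_le hl (Ca * (Cd * |t|)) (ga_nn (b := b (Sum.inr w))
        ((aG.met.riem _).posDef x hx))
      have q2 := mul_le_mul_of_nonneg_left (am_le one_pos (Cd * |t|) (add_nonneg n1 n0)) hCa
      have q3 : e1 (G (Sum.inr w) - H (Sum.inr w)) x + e0 (G (Sum.inr w) - H (Sum.inr w)) x ≤
          R ^ 2 * en T (G - H) (Sum.inr w) x := by
        have x1 : 1 ≤ ‖x‖ := hs _ x hx
        change _ ≤ R ^ 2 * (e1 (G (Sum.inr w) - H (Sum.inr w)) x +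
          e0 (G (Sum.inr w) - H (Sum.inr w)) x / ‖x‖ ^ 2)
        rw [mul_add, ← mul_div_assoc]
        refine add_le_add (le_mul_of_one_le_left n1 (one_le_pow₀ R1)) ?_
        rw [le_div_iff₀ (by positivity), mul_comm]
        exact mul_le_mul_of_nonneg_right (pow_le_pow_left₀ (norm_nonneg x) r1 2) n0
      have q4 := mul_le_mul_of_nonneg_left q3 hCa
      linarith only [q1, q2, q4]
    · rw [z2, BB]; ring
  have q1 : √((Ca * (Cd * |t|)) ^ 2 * (V * T.eps L w ^ 2)) ≤ Ca * Cd * (V + 1) * z := by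
    refine Real.sqrt_le_iff.2 ⟨by positivity, ?_⟩
    have : V ≤ (V + 1) ^ 2 := by nlinarith only [V0]
    calc _ = (Ca * Cd) ^ 2 * V * z ^ 2 := by rw [z2]; ring
      _ ≤ (Ca * Cd) ^ 2 * (V + 1) ^ 2 * z ^ 2 := by gcongr
      _ = _ := by ring
  have q2 := mul_le_mul_of_nonneg_left q1 (Real.sqrt_nonneg (BB T L b G))
  have q3 := mul_le_mul_of_nonneg_left D3 (Real.sqrt_nonneg (mu2 T κ L μ))
  have q4 := mul_le_mul_of_nonneg_left (i2.trans (mul_le_mul_of_nonneg_left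
    (add_le_add_right D2 _) hCc.le)) (show 0 ≤ Ca * R ^ 2 by positivity)
  have q5 := i4.trans (mul_le_mul_of_nonneg_left (add_le_add (add_le_add_left q3 _) D2) hCc.le)
  refine fin_le ((abs_sub_le _ _ _).trans ((add_le_add key q5).trans ?_)) (by positivity)
    (by positivity) (by positivity) z0 (mul_le_of_le_one_left (abs_nonneg t) (k.eps_le_one w))
  linarith only [q2, q4]

end Crest.Agent.N207.NS

end
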