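import Crest.Agent.N207.N.Gr2

/-!
# Row 207, block N (helper26): `core` and `grt`
-/

set_option autoImplicit false

open scoped ContDiff Topology
open Metric Set Filter MeasureTheory
open Crest.GeometryTopology.CoordMetric
open Crest.Agent.N207.I Crest.Agent.N207.I.TD Crest.Agent.N207.Lg Crest.Agent.N207.CB

noncomputable section

namespace Crest.Agent.N207.NS

variable {M : Type*} {T : TD M} {g : T.V → Fam T} {κ : T.V → Type} [∀ v, Fintype (κ v)]
  {ψ : ∀ v, κ v → Fam T} {c : ℝ}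

theorem e0_split {r A n : ℝ} {F0 E : MetricField 4} {x : E4} (hr : 1 ≤ r) (hn : 0 ≤ n)
    (h : ∀ p q, |r ^ 2 * F0 x p q| ≤ A * √n) :
    r ^ 2 * e0 (F0 - E) x ≤ 32 * A ^ 2 * (n / r ^ 2) + 2 * (r ^ 2 * e0 E x) := by
  have hr2 : 0 < r ^ 2 := by positivity
  have h1 : ∀ p q, r ^ 2 * (F0 x p q - E x p q) ^ 2 ≤
      2 * A ^ 2 * (n / r ^ 2) + 2 * (r ^ 2 * E x p q ^ 2) := fun p q => by
    have h2 := sq_le_sq' (abs_le.1 (h p q)).1 (abs_le.1 (h p q)).2
    rw [mul_pow A, Real.sq_sqrt hn] at h2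
    have h3 : r ^ 2 * F0 x p q ^ 2 ≤ A ^ 2 * (n / r ^ 2) := by
      rw [← mul_div_assoc, le_div_iff₀ hr2]; nlinarith
    nlinarith [mul_nonneg hr2.le (sq_nonneg (F0 x p q + E x p q))]
  calc _ = ∑ p, ∑ q, r ^ 2 * (F0 x p q - E x p q) ^ 2 := by simp [e0, Finset.mul_sum]
    _ ≤ ∑ p, ∑ q, (2 * A ^ 2 * (n / r ^ 2) + 2 * (r ^ 2 * E x p q ^ 2)) :=
      Finset.sum_le_sum fun p _ => Finset.sum_le_sum fun q _ => h1 p q
    _ = _ := by
      simp only [e0, Finset.sum_add_distrib, ← Finset.mul_sum, Finset.sum_const, Finset.card_univ,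
        Fintype.card_fin, nsmul_eq_mul]
      push_cast; ring

theorem absorb {K C δ : ℝ} (hK : 0 ≤ K) (hC : 0 < C) (h0 : 0 ≤ δ)
    (h : δ ≤ 1 / (8 * (K + 1) * (C + 1))) : C * (32 * (K * δ) ^ 2) ≤ 1 / 2 := by
  rw [le_div_iff₀ (by positivity)] at h
  have h1 : K * δ * (8 * (C + 1)) ≤ 1 := by nlinarith [mul_nonneg h0 hC.le]
  have h2 : 0 ≤ K * δ := mul_nonneg hK h0
  have h3 : (K * δ * (8 * (C + 1))) ^ 2 ≤ 1 := pow_le_one₀ (by positivity) h1
  nlinarith [mul_nonneg (sq_nonneg (K * δ)) hC.le, mul_nonneg (sq_nonneg (K * δ)) (sq_nonneg C),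
    sq_nonneg (K * δ)]

set_option maxHeartbeats 1000000 in
theorem core (h : Std T g) (hM : MUL) (hE : ELL T g) (hCh : CHI T) (hV : VOL T) (hG : GB T g)
    (hT : TAY T g) (hX : XC T) (hC : Cmp T g κ ψ c) (hP : Tol T g κ ψ c) : Core T g κ ψ := by
  obtain ⟨δc, Cc, Tc, hδc, hCc, hcmp⟩ := hC
  obtain ⟨P, Tp, hP, htol⟩ := hP
  obtain ⟨δe, Λ, Te, hδe, -, hell⟩ := hE
  obtain ⟨Cm, hCm, hmul⟩ := hM.2.2 Λ
  obtain ⟨T1, hch⟩ := hCh.ch h.ok
  obtain ⟨Cv, Tv, hCv, hvol⟩ := hV (c + 1)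
  obtain ⟨Tg, hgb⟩ := hG
  replace hgb := (hgb 0).choose_spec
  obtain ⟨δt, Ct, Tt, hδt, hCt, htay⟩ := hT
  obtain ⟨Cx, Tx, -, hxc⟩ := hX
  obtain ⟨Tm, hTm⟩ := (Set.toFinite ({0, Tc, Tp, Te, T1, Tv, Tg, Tt, Tx} : Set ℝ)).bddAbove
  simp only [mem_upperBounds, mem_insert_iff, mem_singleton_iff, forall_eq_or_imp,
    forall_eq] at hTm
  obtain ⟨t0, tc, tp, te, t1, tv, tg, tt, tx⟩ := hTm
  set K : ℝ := Fintype.card (Σ v, κ v) * (Cv * Cm * P) with hK
  have hK0 : 0 ≤ K := by positivity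
  obtain ⟨δ, hδ, d1, d2, d3, d4, d5⟩ : ∃ δ : ℝ, 0 < δ ∧ 4 * δ ≤ δc ∧ 4 * δ ≤ δt ∧ 4 * δ ≤ δe ∧
      Cm * δ * P ≤ δc ∧ δ ≤ 1 / (8 * (K + 1) * (Cc + 1)) := by
    refine ⟨min (min (δc / 4) (δt / 4)) (min (δe / 4) (min (δc / (Cm * P))
      (1 / (8 * (K + 1) * (Cc + 1))))), by positivity, ?_, ?_, ?_, ?_, ?_⟩
    · rw [← le_div_iff₀' (by norm_num)]; simp
    · rw [← le_div_iff₀' (by norm_num)]; simp
    · rw [← le_div_iff₀' (by norm_num)]; simp
    · rw [mul_right_comm, ← le_div_iff₀' (by positivity)]; simp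
    · simp
  refine ⟨δ, 4 * Cc + 1 + Ct * (4 * Cc), Tm, hδ, by positivity,
    fun T0 hT0 L hL θ μ μ' G H E e hls hH heq hEi hEe => ?_⟩
  have l1 : ∀ {t}, t ≤ Tm → Lng T (2 * T0 + t) L := fun ht => hL.mono (by linarith)
  have l2 : ∀ {t}, t ≤ Tm → Lng T t L := fun ht => hL.mono (by linarith)
  have ch := hch L (l2 t1)
  have hb := ((hgb T0 (tg.trans hT0)).2 L (l1 tg)).2.1
  have hb1 := ch.met1 hb
  have tol := htol T0 (tp.trans hT0) L (l1 tp)
  have aG := ls_adm ch hls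
  set b := gbL T g T0 L with hbd
  have tc' : ∀ v j s p q, ContinuousOn (fun x => toL T L v (ψ v j) s x p q) (U1 T L s) :=
    fun v j s p q => ((sm_of_rt ((tol v j).1.sm s) p q).mono (ch.U1_U s)).continuousOn
  have tz : ∀ v j s, ∀ x ∈ U1 T L s, ¬ InK T L v (c + 1) s x → toL T L v (ψ v j) s x = 0 :=
    fun v j s x hx => (tol v j).2.2.1 s x (ch.U1_U s hx)
  have tz2 : ∀ v j s, ∀ x ∈ U1 T L s, ¬ InK T L v (c + 2) s x → toL T L v (ψ v j) s x = 0 :=
    fun v j s x hx hi => tz v j s x hx fun h' => hi (h'.mono (by linarith))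
  have bd : ∀ X : Fam T, Adm T g T0 L δe X → ∀ s, ∀ x ∈ U1 T L s, ∀ p q,
      |X s x p q| ≤ Λ ∧ |(X s x)⁻¹ p q| ≤ Λ := fun X hX s x hx =>
    (hell T0 (te.trans hT0) L (l1 te) X s x (ch.U1_W1 s hx) ((hX.met.riem s).posDef x hx)
      (hX.near.val hx)).1
  have lip : ∀ X Y : Fam T, Adm T g T0 L δe X → Adm T g T0 L δe Y → ∀ v j s, ∀ x ∈ U1 T L s,
      ∀ d, (∀ p q, |X s x p q - Y s x p q| ≤ d) → ∀ p q,
        |PsT (b s) (X s) (toL T L v (ψ v j) s) x p q -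
          PsT (b s) (Y s) (toL T L v (ψ v j) s) x p q| ≤ Cm * d * P := fun X Y hX hY v j s x hx d =>
    hmul (b s) (X s) (Y s) _ x d P ((hb1.riem s).posDef x hx) ((hX.met.riem s).posDef x hx)
      ((hY.met.riem s).posDef x hx) (by
        simp only [List.mem_cons, List.not_mem_nil, or_false, forall_eq_or_imp, forall_eq]
        exact ⟨bd _ (gb_adm ch hb hδe.le) s x hx, bd X hX s x hx, bd Y hY s x hx⟩)
      fun p q => by simpa using (tol v j).2.2.2.1.val (ch.U1_W1 s hx) p q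
  have aHe : Adm T g T0 L δe H := hH.mono (by linarith)
  choose σ hσ hσ' using fun j : Σ v, κ v => (tol j.1 j.2).2.2.2.2.1
  have prt : ∀ j : Σ v, κ v, Prt T L j.1 (c + 2) δc (ψ j.1 j.2)
      fun s x => σ j • PsT (b s) (H s) (toL T L j.1 (ψ j.1 j.2) s) x := fun j =>
    prt_ps hM hb1 hH.met (tc' _ _) (tz2 _ _) (hσ j) (fun s x hx => hσ' j s x (ch.U1_U s hx))
      fun s x hx p q => (lip H b aHe (gb_adm ch hb hδe.le) _ _ s x hx δ (hH.near.val hx) p q).trans d4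
  set F0 : Fam T := fun s x => Matrix.of fun p q => ∑ j : Σ v, κ v, μ j * (sr T L j.1 s *
    (PsT (b s) (H s) (toL T L j.1 (ψ j.1 j.2) s) x p q -
      PsT (b s) (G s) (toL T L j.1 (ψ j.1 j.2) s) x p q)) with hF0
  have eqn : ∀ s, ∀ x ∈ U1 T L s, ∀ p q, redT (b s) (G s) x ![p, q] - redT (b s) (H s) x ![p, q] =
      (F0 - E) s x p q + ∑ j, σ j * (μ' j - μ j) * (sr T L j.1 s *
        (σ j • PsT (b s) (H s) (toL T L j.1 (ψ j.1 j.2) s) x) p q) := fun s x hx p q => by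
    rw [heq s x hx, ls_red hM hb (fun v j => (tol v j).2.1) hls s (ch.U1_U s hx), ← hbd]
    have e : ∀ j, σ j * (μ' j - μ j) * (sr T L j.1 s *
        (σ j • PsT (b s) (H s) (toL T L j.1 (ψ j.1 j.2) s) x) p q) =
        μ' j * (sr T L j.1 s * PsT (b s) (H s) (toL T L j.1 (ψ j.1 j.2) s) x p q) -
          μ j * (sr T L j.1 s * PsT (b s) (H s) (toL T L j.1 (ψ j.1 j.2) s) x p q) := fun j => by
      rcases hσ j with h1 | h1 <;> simp only [h1, Matrix.smul_apply, smul_eq_mul] <;> ring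
    simp only [e]
    simp only [hF0, Pi.sub_apply, Matrix.sub_apply, Matrix.of_apply, mul_sub,
      Finset.sum_sub_distrib]
    ring
  have Fc : ∀ s p q, ContinuousOn (fun x => (F0 - E) s x p q) (U1 T L s) := fun s p q =>
    (((smT_redT (hb1.riem s) (aG.met.riem s) ![p, q]).continuousOn.sub
      (smT_redT (hb1.riem s) (hH.met.riem s) ![p, q]).continuousOn).sub
      (continuousOn_finsetSum _ fun j _ => continuousOn_const.mul (continuousOn_const.mul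
        ((prt j).cont s p q)))).congr fun x hx => eq_sub_of_add_eq (eqn s x hx p q).symm
  have s1 : ∀ s, ∀ x ∈ U1 T L s, 1 ≤ scl T s x := fun s x hx => (ch.cell s x (ch.U1_W1 s hx)).1
  have Fb : ∀ s, ∀ x ∈ U1 T L s, scl T s x ^ 2 * e0 ((F0 - E) s) x ≤
      32 * (K * δ) ^ 2 * en T (G - H) s x + 2 * (scl T s x ^ 2 * e0 (E s) x) := fun s x hx => by
    refine (e0_split (A := K * δ) (s1 s x hx) (e0_nn ((G - H) s) x) fun p q => ?_).trans
      (add_le_add (mul_le_mul_of_nonneg_left (le_add_of_nonneg_left (e1_nn _ _))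
        (by positivity)) le_rfl)
    have hj : ∀ j : Σ v, κ v, |scl T s x ^ 2 * (μ j * (sr T L j.1 s *
        (PsT (b s) (H s) (toL T L j.1 (ψ j.1 j.2) s) x p q -
          PsT (b s) (G s) (toL T L j.1 (ψ j.1 j.2) s) x p q)))| ≤
        Cv * Cm * P * δ * √(e0 ((G - H) s) x) := fun j => by
      by_cases hi : InK T L j.1 (c + 1) s x
      · have h1 := (((hvol L (l2 tv) j.1).1 s).2.2.2 x hx hi).1
        have h2 := lip H G aHe (aG.mono d3) j.1 j.2 s x hx _ (fun p q => by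
          rw [abs_sub_comm]; exact abs_le_e0 ((G - H) s) x p q) p q
        have h3 : |μ j| ≤ δ := (norm_le_pi_norm μ j).trans hls.mu
        have h4 := (sr_pos L j.1 s).le
        rw [show ∀ a m r d : ℝ, a * (m * (r * d)) = r * a * (m * d) from fun _ _ _ _ => by ring,
          abs_mul, abs_mul (μ j), abs_of_nonneg (by positivity)]
        refine (mul_le_mul h1 (mul_le_mul h3 h2 (abs_nonneg _) hδ.le) (by positivity)
          hCv.le).trans_eq (by ring)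
      · simp only [PsT_zero (tz _ _ s x hx hi), sub_self, mul_zero, abs_zero]; positivity
    simp only [hF0, Matrix.of_apply, Finset.mul_sum]
    refine (Finset.abs_sum_le_sum_abs _ _).trans ((Finset.sum_le_card_nsmul _ _ _
      fun j _ => hj j).trans_eq ?_)
    rw [nsmul_eq_mul, Finset.card_univ, hK]; ring
  have xc := (hxc L (l2 tx) (G - H) (aG.met.sec_sub hH.met) (dec_sub aG.met hH.met aG.dec hH.dec)).1
  obtain ⟨ei, el⟩ := ch.intL_le_K1 (ch.en_cont (aG.met.sm_sub hH.met))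
    (fun s x _ => add_nonneg (e1_nn _ _) (div_nonneg (e0_nn _ _) (sq_nonneg _))) xc
  rw [← En_eq] at el
  have i2 := (ei.smul (32 * (K * δ) ^ 2)).add (hEi.smul 2)
  have i3 : IntL T L fun s x => scl T s x ^ 2 * e0 ((F0 - E) s) x :=
    ch.IntL_of_le i2 (fun s => ((scl_cont s).pow 2).continuousOn.mul (e0_cont (Fc s)))
      fun s x hx => by
        rw [abs_of_nonneg (mul_nonneg (sq_nonneg _) (e0_nn _ _))]; exact Fb s x hx
  have i4 := ch.intL_mono i3 i2 Fb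
  rw [intL_add (ei.smul _) (hEi.smul 2), intL_smul, intL_smul] at i4
  have cmp := hcmp T0 (tc.trans hT0) L (l1 tc) b G H (F0 - E) _
    (fun j => toL T L j.1 (ψ j.1 j.2)) (fun j => σ j * (μ' j - μ j)) (gb_adm ch hb hδc.le)
    (aG.mono d1) (hH.mono (by linarith)) prt (fun j => prt_self hδc.le (tc' _ _) (tz2 _ _)) eqn i3
  have hD : 0 ≤ DD T g κ ψ T0 L (G - H) := by unfold DD; positivity
  have he : 0 ≤ e := (ch.intL_nonneg fun s x _ => mul_nonneg (sq_nonneg _) (e0_nn _ _)).trans hEe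
  have hEn0 : 0 ≤ En T L (G - H) := (ch.intL_nonneg fun s x _ =>
    add_nonneg (e1_nn _ _) (div_nonneg (e0_nn _ _) (sq_nonneg _))).trans el
  have hEn : En T L (G - H) ≤ 4 * Cc * (e + DD T g κ ψ T0 L (G - H)) := by
    have h1 : En T L (G - H) ≤ Cc * (32 * (K * δ) ^ 2 * En T L (G - H) + 2 * e +
        DD T g κ ψ T0 L (G - H)) := by
      refine (le_add_of_nonneg_right (by positivity)).trans (cmp.trans
        (mul_le_mul_of_nonneg_left (add_le_add (i4.trans (add_le_add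
          (mul_le_mul_of_nonneg_left el (by positivity)) (by linarith))) le_rfl) hCc.le))
    have h2 := mul_le_mul_of_nonneg_right (absorb hK0 hCc hδ.le d5) hEn0
    nlinarith [mul_nonneg hCc.le hD]
  obtain ⟨f1, f2⟩ := int_fv (k := H - G) ch hb1 hls tc' tz
    (fun s p q => (hH.met.sm_sub aG.met s p q).continuousOn) fun s x hx p q => by
      simp only [Pi.sub_apply, Matrix.sub_apply, hH.met.symm hx p q, aG.met.symm hx p q]
  obtain ⟨y1, y2⟩ := htay T0 (tt.trans hT0) L (l1 tt) b G H (gb_adm ch hb hδt.le) gb_ricF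
    (aG.mono d2) (hH.mono (by linarith)) (ls_int ch hls) f1
  have y3 : |intL T L fun s => fv (b s) (G s) (H s - G s)| ≤
      √(mu2 T κ L μ) * √(DD T g κ ψ T0 L (G - H)) := by
    refine (congrArg abs f2).trans_le ((abs_sum_mu_le L μ _).trans_eq ?_)
    simp only [DD, prL_swap H G, neg_div, neg_sq, hbd]
  have hs : 0 ≤ √(mu2 T κ L μ) * √(DD T g κ ψ T0 L (G - H)) := by positivity
  refine ⟨ei, el.trans (hEn.trans (mul_le_mul_of_nonneg_right
    (by nlinarith [mul_pos hCt hCc]) (by positivity))), y1, ?_⟩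
  rw [ch.actL_eq, En_symm G H] at *
  have y4 := mul_le_mul_of_nonneg_left hEn hCt.le
  have y5 := abs_sub_abs_le_abs_sub (intL T L (fun s => fgfF (b s) (H s)) -
    intL T L fun s => fgfF (b s) (G s)) (intL T L fun s => fv (b s) (G s) (H s - G s))
  nlinarith [mul_nonneg hCc.le hs, mul_nonneg (mul_pos hCt hCc).le hs, mul_nonneg hCc.le he,
    mul_nonneg hCc.le hD]

theorem grt (h : Std T g) (hM : MUL) (hE : ELL T g) (hCh : CHI T) (hV : VOL T) (hG : GB T g)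
    (hT : TAY T g) (hX : XC T) (hC : Cmp T g κ ψ c) (hP : Tol T g κ ψ c) : Grt T g κ ψ := by
  obtain ⟨δ, C, T1, hδ, hC0, hc⟩ := core h hM hE hCh hV hG hT hX hC hP
  obtain ⟨P, Tp, -, htol⟩ := hP
  obtain ⟨T2, hch⟩ := hCh.ch h.ok
  obtain ⟨Tg, hgb⟩ := hG
  replace hgb := (hgb 0).choose_spec
  obtain ⟨Tm, hTm⟩ := (Set.toFinite ({0, T1, Tp, T2, Tg} : Set ℝ)).bddAbove
  simp only [mem_upperBounds, mem_insert_iff, mem_singleton_iff, forall_eq_or_imp,
    forall_eq] at hTm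
  obtain ⟨t0, t1, tp, t2, tg⟩ := hTm
  set N : ℝ := (Fintype.card (Σ v, κ v) : ℝ) with hN
  have hN0 : 0 ≤ N := by positivity
  refine ⟨δ / 4, Tm, by positivity, fun T0 hT0 => ⟨C * (N + 1), by positivity,
    fun L hL θ θ' μ μ' G G' h1 h2 => ?_⟩⟩
  have l1 : ∀ {t}, t ≤ Tm → Lng T (2 * T0 + t) L := fun ht => hL.mono (by linarith)
  have ch := hch L (hL.mono (by linarith))
  have hb := ((hgb T0 (tg.trans hT0)).2 L (l1 tg)).2.1
  have hb1 := ch.met1 hb
  have tol := htol T0 (tp.trans hT0) L (l1 tp)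
  have z : (fun s x => scl T s x ^ 2 * e0 ((0 : Fam T) s) x) = fun _ _ => 0 := by
    funext s x; simp [e0]
  have k := (hc T0 (t1.trans hT0) L (l1 t1) θ μ μ' G G' 0 0 (ls_mono h1 (by linarith))
    ((ls_adm ch h2).mono (by linarith)) (fun s x hx p q => by
      rw [ls_red hM hb (fun v j => (tol v j).2.1) h2 s (ch.U1_U s hx)]; simp)
    (by rw [z]; intro s; simp) (by rw [z]; simp [intL])).2.2.2
  have hD : DD T g κ ψ T0 L (G - G') ≤ N * ‖θ' - θ‖ ^ 2 := by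
    rw [hN, ← Finset.card_univ, ← nsmul_eq_mul]
    refine Finset.sum_le_card_nsmul _ _ _ fun j _ => ?_
    have c1 := fun s p q => ((ch.met1 h1.met).sm_sub hb1 s p q).continuousOn
    have c2 := fun s p q => ((ch.met1 h2.met).sm_sub hb1 s p q).continuousOn
    have e := ch.prL_sub (d := c + 1) hb1 (fun s p q =>
      ((sm_of_rt ((tol j.1 j.2).1.sm s) p q).mono (ch.U1_U s)).continuousOn)
      (fun s x hx => (tol j.1 j.2).2.2.1 s x (ch.U1_U s hx)) c1 c2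
    rw [sub_sub_sub_cancel_right, (tol j.1 j.2).2.2.2.2.2.1 _ c1, (tol j.1 j.2).2.2.2.2.2.1 _ c2,
      h1.con, h2.con] at e
    have he := eps_pos L j.1
    have h3 : |θ' j - θ j| ≤ ‖θ' - θ‖ := norm_le_pi_norm (θ' - θ) j
    have h4 : (θ' j - θ j) ^ 2 ≤ ‖θ' - θ‖ ^ 2 := sq_le_sq' (abs_le.1 h3).1 (abs_le.1 h3).2
    calc _ = T.eps L j.1 ^ 2 * (θ' j - θ j) ^ 2 := by rw [e]; field_simp; ring
      _ ≤ _ := (mul_le_of_le_one_left (sq_nonneg _)
        (pow_le_one₀ he.le (ch.eps_le_one _))).trans h4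
  have hD' : √(DD T g κ ψ T0 L (G - G')) ≤ (N + 1) * ‖θ' - θ‖ :=
    Real.sqrt_le_iff.2 ⟨by positivity, hD.trans (by
      rw [mul_pow]; exact mul_le_mul_of_nonneg_right (by nlinarith) (sq_nonneg _))⟩
  rw [ch.actL_eq _ G']
  refine k.trans ?_
  rw [mul_assoc]
  refine mul_le_mul_of_nonneg_left ?_ hC0.le
  nlinarith [mul_le_mul_of_nonneg_left hD' (Real.sqrt_nonneg (mu2 T κ L μ)), sq_nonneg ‖θ' - θ‖]

end Crest.Agent.N207.NS

end
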