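import Crest.Agent.N207.Ga.Ni
import Crest.Agent.N207.N.Chi

/-!
# Row 207, leaf INT (helper17), part 2: the lengths are comparable; changes of charts in two atlases
-/

set_option autoImplicit false

open scoped ContDiff NNReal
open Metric Set Filter Topology
open Crest.Agent.N207.I Crest.Agent.N207.I.TD Crest.Agent.N207.CB Crest.Agent.N207.Ga

noncomputable section

namespace Crest.Agent.N207.NS

variable {M : Type*} {T : TD M} {L L' : T.V → ℝ}

theorem W1_gW (h : T.Ok) (s : T.S) : W1 T L s ⊆ gW T L s := by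
  rcases s with a | w
  · exact fun x hx => (mem_W1_inl.1 hx).le.trans (by norm_num)
  · have := mul_pos h.r_pos (Real.exp_pos (L w))
    exact fun x hx => ⟨by linarith [hx.1], fun hw => by linarith [hx.2 hw]⟩

theorem NId.val0 {δ : ℝ} {u : T.S → E4 → E4} (n : NId T L L' δ u) {s : T.S} {x : E4}
    (hx : x ∈ U1 T L s) : ‖u s x - x‖ ≤ δ * scl T s x := by
  simpa [norm_iteratedFDeriv_zero] using n.near s x hx 0 (by norm_num)

/-- a point of the inner collar that lies in a ball chart -/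
theorem exists_pt (h : T.Ok) {w : T.V} (hw : w ≠ T.root) : ∃ (p : E4) (b : T.B) (y : E4),
    ‖p‖ = 5 / 8 * T.r ∧ ‖y‖ < 1 ∧ T.vx b = T.par w ∧ T.φ b y = T.ci w p := by
  have hr := h.r_pos
  have hp : ‖(EuclideanSpace.single 0 (5 / 8 * T.r) : E4)‖ = 5 / 8 * T.r := by
    rw [PiLp.norm_single, Real.norm_of_nonneg (by positivity)]
  set p : E4 := EuclideanSpace.single 0 (5 / 8 * T.r)
  have hn := h.par_ne hw
  have hU : p ∈ (T.base (T.par w)).U (Sum.inr w) :=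
    (mem_base_inn hn).2 ⟨⟨hw, rfl⟩, by linarith, by linarith⟩
  rcases h.cover _ _ p hU with ⟨b, hb, y, hy, e⟩ | ⟨y, h1, h2, e⟩ | ⟨w', hk, y, h1, h2, e⟩
  · exact ⟨p, b, y, hp, mem_ball_zero_iff.1 hy, hb, e.trans (by rw [base_c_inn hn])⟩
  · exact absurd (by rwa [base_c_out]) (h.disj (T.par w) (T.par w) w hn.symm y
      (mem_base_out.2 ⟨by linarith, h2⟩) p hU)
  · have hy : y ∈ (T.base (T.par w)).U (Sum.inr w') :=
      (mem_base_inn (h.kid_ne hk)).2 ⟨hk, h1, by linarith⟩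
    have e' : (T.base (T.par w)).c (Sum.inr w') y = (T.base (T.par w)).c (Sum.inr w) p := by
      rwa [base_c_inn (h.kid_ne hk)]
    by_cases hw' : w' = w
    · subst hw'
      obtain ⟨γ, -, e2⟩ := ((h.base _).fib _ y hy p hU).1 e'
      have := γ.norm_map y
      rw [e2, hp] at this
      linarith
    · exact absurd e' (h.disj _ w' w hw' y hy p hU)

/-- the lengths are comparable -/
theorem ratio (h : T.Ok) {ε : ℝ} (hε : 0 < ε) (hε1 : ε ≤ 1) : ∃ δ0 : ℝ, 0 < δ0 ∧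
    ∀ (L L' : T.V → ℝ) (δ : ℝ) (u : T.S → E4 → E4), T.Long L → T.Long L' → δ ≤ δ0 →
      NId T L L' δ u → ∀ w, w ≠ T.root →
        |Real.exp (L' w) - Real.exp (L w)| ≤ ε * Real.exp (L w) := by
  obtain ⟨δ1, hδ1, hleb⟩ := leb h (ρ := ε / 4) (by positivity)
  refine ⟨min δ1 (ε / 4), lt_min hδ1 (by positivity), fun L L' δ u hL hL' hδ n w hw => ?_⟩
  have d1 : δ ≤ δ1 := hδ.trans (min_le_left _ _)
  have d2 : δ ≤ ε / 4 := hδ.trans (min_le_right _ _)
  obtain ⟨p, b, y, hp, hy, hb, e⟩ := exists_pt h hw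
  have hr := h.r_pos
  have key : ∀ L : T.V → ℝ, T.Long L → ‖Real.exp (L w) • p‖ = 5 / 8 * (T.r * Real.exp (L w)) ∧
      Real.exp (L w) • p ∈ U1 T L (Sum.inr w) ∧
      (T.glob L).c (Sum.inl b) y = (T.glob L).c (Sum.inr w) (Real.exp (L w) • p) := by
    intro L hL
    have a1 : ‖Real.exp (L w) • p‖ = 5 / 8 * (T.r * Real.exp (L w)) := by
      rw [norm_smul, Real.norm_of_nonneg (Real.exp_pos _).le, hp]; ring
    have a2 : Real.exp (-L w) • Real.exp (L w) • p = p := by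
      rw [smul_smul, ← Real.exp_add, neg_add_cancel, Real.exp_zero, one_smul]
    have a3 := hL w hw
    refine ⟨a1, ⟨by linarith, fun _ => by linarith⟩, ?_⟩
    rw [glob_c_inn hL hw (by rw [a2]; linarith), a2, glob_c_inl, hb, e]
  obtain ⟨x1, x2, x3⟩ := key L hL
  obtain ⟨z1, z2, z3⟩ := key L' hL'
  have hy1 : ∀ L : T.V → ℝ, y ∈ U1 T L (Sum.inl b) := fun L => mem_U1_inl.2 (by linarith)
  have c1 := n.compat _ _ y (hy1 L) _ x2 x3
  have v1 := n.val0 (hy1 L)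
  have v2 := n.val0 x2
  obtain ⟨x', b1, b2, b3⟩ := hleb L' hL' (Sum.inl b) (Sum.inr w) y
    (W1_gW h _ (U1_W1 h _ (hy1 L'))) _ (W1_gW h _ (U1_W1 h _ z2)) z3 _
    (W1_U h _ (n.maps _ (hy1 L))) (v1.trans (by simpa [scl] using d1))
  obtain ⟨γ, -, eγ⟩ := ((h.glob_ok hL').fib _ x' b1 _ (W1_U h _ (n.maps _ x2))).1 (b3.trans c1)
  have g1 := γ.norm_map x'
  rw [eγ] at g1
  simp only [scl, Sum.elim_inr] at v2 b2
  have n1 := abs_le.1 ((abs_norm_sub_norm_le _ _).trans v2)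
  have n2 := abs_le.1 ((abs_norm_sub_norm_le _ _).trans b2)
  rw [g1, x1] at n1
  rw [z1] at n2
  have E0 := Real.exp_pos (L w)
  have E1 := Real.exp_pos (L' w)
  set E := Real.exp (L w)
  set E' := Real.exp (L' w)
  have q0 : δ * (5 / 8 * (T.r * E)) ≤ ε / 4 * (5 / 8 * (T.r * E)) := by gcongr
  have q1 : (1 - ε / 4) * E' ≤ (1 + ε / 4) * E :=
    le_of_mul_le_mul_left (a := T.r) (by linarith [n1.2, n2.1]) hr
  have q2 : (1 - ε / 4) * E ≤ (1 + ε / 4) * E' :=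
    le_of_mul_le_mul_left (a := T.r) (by linarith [n1.1, n2.2]) hr
  have q3 : E' ≤ 2 * E := by nlinarith
  exact abs_le.2 ⟨by nlinarith, by nlinarith⟩

theorem sc_rat {ε : ℝ} (hε : 0 ≤ ε)
    (hR : ∀ w, w ≠ T.root → |Real.exp (L' w) - Real.exp (L w)| ≤ ε * Real.exp (L w))
    {a : T.S} {v : T.V} {y : E4} (hy : y ∈ (T.base v).U a) :
    |sc (lm L) a v - sc (lm L') a v| ≤ ε * sc (lm L') a v := by
  rcases a with a | w
  · simpa [sc] using hε
  by_cases hw : w = v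
  · simpa [sc, lm, hw] using hε
  have h1 := hR w ((mem_base_inn hw).1 hy).1.1
  have E0 := Real.exp_pos (L w)
  have E1 := Real.exp_pos (L' w)
  simp only [sc, Sum.elim_inr, lm, if_neg hw, Real.exp_neg]
  rw [inv_sub_inv E0.ne' E1.ne', abs_div, abs_of_pos (mul_pos E0 E1), div_le_iff₀ (mul_pos E0 E1)]
  refine h1.trans_eq ?_
  field_simp

theorem nrm_le_scl {s : T.S} {x : E4} (hx : x ∈ gW T L s) : ‖x‖ ≤ 2 * scl T s x := by
  rcases s with a | w
  · have : ‖x‖ ≤ 7 / 4 := hx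
    simp only [scl, Sum.elim_inl]; linarith
  · simp only [scl, Sum.elim_inr]; linarith [norm_nonneg x]

/-- uniform changes of charts, from `glob L'` to `glob L` -/
theorem leb2 (h : T.Ok) {ρ : ℝ} (hρ : 0 < ρ) : ∃ δ : ℝ, 0 < δ ∧ δ ≤ 1 / 100 ∧ ∀ L L', T.Long L →
    T.Long L' → (∀ w, w ≠ T.root → |Real.exp (L' w) - Real.exp (L w)| ≤ δ * Real.exp (L w)) →
    ∀ a b, ∀ x1 ∈ gW T L' a, ∀ z ∈ gW T L' b, (T.glob L').c a x1 = (T.glob L').c b z →
    ∀ x ∈ (T.glob L).U a, ‖x - x1‖ ≤ δ * scl T a x1 →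
      ∃ x' ∈ (T.glob L).U b, ‖x' - z‖ ≤ ρ * scl T b z ∧ (T.glob L).c b x' = (T.glob L).c a x := by
  have hr0 := h.r_pos
  obtain ⟨δ, hδ, hb⟩ := Metric.eventually_nhds_iff.1 (eventually_all.2 fun i : T.V × T.S × T.S =>
    leb0 (h.base i.1) (KB_cpt h i.1 i.2.1) (KB_cpt h i.1 i.2.2) (KB_sub h _ _) (KB_sub h _ _)
      (ρ := ρ / 4 * (T.r / 3)) (by positivity))
  obtain ⟨η, η0, η1, η2, η3⟩ : ∃ η : ℝ, 0 < η ∧ η ≤ ρ / 8 ∧ η ≤ δ / 13 ∧ η ≤ 1 / 100 :=
    ⟨min (ρ / 8) (min (δ / 13) (1 / 100)), by positivity, min_le_left _ _,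
      (min_le_right _ _).trans (min_le_left _ _), (min_le_right _ _).trans (min_le_right _ _)⟩
  refine ⟨η, η0, η3, fun L L' hL hL' hR a b x1 hx1 z hz e x hx hd => ?_⟩
  have hS := h.str_glob hL
  have hS' := h.str_glob hL'
  have s1 := scl_ge (gW_sub h a hx1)
  have s2 := scl_ge (gW_sub h b hz)
  by_cases hab : a = b
  · subst hab
    obtain ⟨γ, hγ, rfl⟩ := (hS'.fib h (gW_sub h a hx1) (gW_sub h a hz)).1 e
    refine ⟨γ x, (hS.inv' hγ hx).1, ?_, (hS.inv' hγ hx).2⟩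
    rw [← map_sub, γ.norm_map, scl_iso]
    exact hd.trans (mul_le_mul_of_nonneg_right (by linarith) (by linarith))
  rcases hS'.rel (gW_sub h a hx1) (gW_sub h b hz) e with ⟨v, -, h1, h2, e'⟩ | h1
  swap
  · exact absurd h1.1 hab
  obtain ⟨k1, -, k2⟩ := mem_KB h hab hx1 h1 h2 e'
  obtain ⟨k3, k4, -⟩ := mem_KB h (Ne.symm hab) hz h2 h1 e'.symm
  have pa := hS.sc_pos a v
  have pb := hS.sc_pos b v
  have pa' := hS'.sc_pos a v
  have pb' := hS'.sc_pos b v
  have ra := sc_rat η0.le hR h1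
  have rb := sc_rat η0.le hR h2
  have na := nrm_le_scl hx1
  have nb := nrm_le_scl hz
  set A := sc (lm L) a v
  set A' := sc (lm L') a v
  set B := sc (lm L) b v with hB
  set B' := sc (lm L') b v
  obtain ⟨m1, x', m2, m3, m4⟩ := hb (y := A • x - A' • x1) (by
    have a0 : A • x - A' • x1 = A • (x - x1) + (A - A') • x1 := by module
    have a1 := norm_add_le (A • (x - x1)) ((A - A') • x1)
    rw [norm_smul, norm_smul, Real.norm_of_nonneg pa.le, Real.norm_eq_abs] at a1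
    have a2 : A ≤ 2 * A' := by nlinarith [(abs_le.1 ra).2]
    have a3 : A * ‖x - x1‖ ≤ 2 * A' * (η * scl T a x1) := by gcongr
    have a4 : |A - A'| * ‖x1‖ ≤ η * A' * (2 * scl T a x1) := by gcongr
    have a5 := mul_le_mul_of_nonneg_left k2 η0.le
    rw [dist_zero_right, a0]
    linarith) (v, a, b) (_, _) ⟨k1, k3⟩ e'
  simp only [add_sub_cancel] at m1 m3 m4
  have e2 : B • B⁻¹ • x' = x' := smul_inv_smul₀ pb.ne' _
  obtain ⟨n1, n2⟩ := hS.conv' (x := B⁻¹ • x') trivial (e2.symm ▸ m2)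
  refine ⟨_, n1, ?_, by rw [n2, ← hB, e2, m4, (hS.conv' trivial m1).2]⟩
  have a0 : B • (B⁻¹ • x' - z) = (x' - B' • z) - (B - B') • z := by
    rw [smul_sub, e2]; module
  have a1 := norm_sub_le (x' - B' • z) ((B - B') • z)
  rw [← a0, norm_smul, norm_smul, Real.norm_of_nonneg pb.le, Real.norm_eq_abs] at a1
  have a2 : B' ≤ 2 * B := by nlinarith [(abs_le.1 rb).1]
  have a3 : |B - B'| * ‖z‖ ≤ ρ / 8 * B' * (2 * scl T b z) := by
    gcongr; exact rb.trans (by gcongr)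
  have a4 := mul_le_mul_of_nonneg_left k4 hρ.le
  have a5 : ρ * (B' * scl T b z) ≤ ρ * (2 * B * scl T b z) := by gcongr
  exact le_of_mul_le_mul_left (by linarith) pb

end Crest.Agent.N207.NS

end
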