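import Crest.Agent.N207.N.Int1
import Crest.Agent.N207.N.Int2

/-!
# Row 207, leaf INT (helper17): near identity families are diffeomorphisms; invariance of integrals
-/

set_option autoImplicit false

open scoped ContDiff NNReal
open Metric Set Filter Topology
open Crest.GeometryTopology.CoordMetric
open Crest.Agent.N207.I Crest.Agent.N207.I.TD Crest.Agent.N207.CB Crest.Agent.N207.Ga

noncomputable section

namespace Crest.Agent.N207.NS

variable {M : Type*} {T : TD M} {L L' : T.V → ℝ}

theorem cell_U1 (h : T.Ok) (hR : ∀ w, w ≠ T.root → Real.exp (L' w) ≤ 101 / 100 * Real.exp (L w))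
    {s : T.S} {z : E4} (hz : z ∈ T.gK L' s) : ball z (scl T s z / 32) ⊆ U1 T L s := by
  intro x hx
  rw [mem_ball, dist_eq_norm] at hx
  have h1 := norm_le_norm_add_norm_sub' x z
  have h2 := norm_le_norm_add_norm_sub x z
  rcases s with a | w
  · simp only [scl, Sum.elim_inl] at hx
    exact mem_U1_inl.2 (by linarith [mem_gK_inl.1 hz])
  · simp only [scl, Sum.elim_inr] at hx
    refine ⟨by linarith [hz.1], fun hw => ?_⟩
    have a1 := mul_le_mul_of_nonneg_left (hR w hw) h.r_pos.le
    have a2 := mul_pos h.r_pos (Real.exp_pos (L w))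
    linarith [hz.2 hw]

section
variable {ε : ℝ} {u : T.S → E4 → E4} (n : NId T L L' ε u)
include n

theorem NId.diff0 {s : T.S} {x : E4} (hx : x ∈ U1 T L s) : DifferentiableAt ℝ (u s) x :=
  ((n.sm s).contDiffAt ((U1_open s).mem_nhds hx)).differentiableAt (by simp)

theorem NId.der0 (h : T.Ok) {s : T.S} {x : E4} (hx : x ∈ U1 T L s) :
    ‖fderiv ℝ (fun y => u s y - y) x‖ ≤ ε := by
  have h1 := n.near s x hx 1 (by norm_num)
  have h2 := scl_ge (U1_U h s hx)
  rw [pow_one, norm_iteratedFDeriv_one, mul_comm] at h1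
  exact le_of_mul_le_mul_right h1 (by linarith)

theorem NId.lip0 (h : T.Ok) {s : T.S} {B : Set E4} (hB : Convex ℝ B) (hU : B ⊆ U1 T L s) {x y : E4}
    (hx : x ∈ B) (hy : y ∈ B) : ‖(u s y - y) - (u s x - x)‖ ≤ ε * ‖y - x‖ :=
  hB.norm_image_sub_le_of_norm_fderiv_le (f := fun y => u s y - y)
    (fun _ hw => (n.diff0 (hU hw)).fun_sub differentiableAt_fun_id)
    (fun _ hw => n.der0 h (hU hw)) hx hy

end

/-- near identity families are diffeomorphisms `gl1 L → glob L'` -/
theorem nid_diffeo (h : T.Ok) : ∃ ε0 : ℝ, 0 < ε0 ∧ ∀ (L L' : T.V → ℝ) (ε : ℝ) (u : T.S → E4 → E4),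
    T.Long L → T.Long L' → ε ≤ ε0 → NId T L L' ε u → Atl.Mor (gl1 T L) (T.glob L') id u ∧
      Atl.MInj (gl1 T L) (T.glob L') id u ∧
      ∀ s, ∀ y ∈ (T.glob L').U s, (T.glob L').c s y ∈ Atl.img (gl1 T L) (T.glob L') id u := by
  obtain ⟨c, hc, hfree⟩ := exists_free h
  obtain ⟨δ, hδ, hδ1, hleb⟩ := leb2 h (ρ := min (c / 4) (1 / 64))
    (lt_min (by positivity) (by norm_num))
  obtain ⟨δ0, hδ0, hrat⟩ := ratio h hδ (by linarith)
  refine ⟨min (min (δ / 2) (c / 4)) (min (1 / 128) δ0), by positivity,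
    fun L L' ε u hL hL' hε n => ?_⟩
  have e1 : ε ≤ δ / 2 := hε.trans ((min_le_left _ _).trans (min_le_left _ _))
  have e2 : ε ≤ c / 4 := hε.trans ((min_le_left _ _).trans (min_le_right _ _))
  have e3 : ε ≤ 1 / 128 := hε.trans ((min_le_right _ _).trans (min_le_left _ _))
  have hR := hrat L L' ε u hL hL' (hε.trans ((min_le_right _ _).trans (min_le_right _ _))) n
  have hR' : ∀ w, w ≠ T.root → Real.exp (L' w) ≤ 101 / 100 * Real.exp (L w) := fun w hw => by
    nlinarith [(abs_le.1 (hR w hw)).2, Real.exp_pos (L w)]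
  have hO := h.glob_ok hL'
  have hm : ∀ s, ∀ x ∈ U1 T L s, u s x ∈ (T.glob L').U s := fun s x hx => W1_U h s (n.maps s hx)
  refine ⟨⟨hm, n.sm, fun s x hx => ?_, fun a b x hx y hy e => n.compat a b x hx y hy e⟩,
    fun a b x hx y hy e => ?_, fun b y hy => ?_⟩
  · refine (injective_iff_map_eq_zero _).2 fun v hv => ?_
    have h1 := (fderiv ℝ (fun y => u s y - y) x).le_of_opNorm_le (n.der0 h hx) v
    rw [fderiv_fun_sub (n.diff0 hx) differentiableAt_fun_id, fderiv_fun_id] at h1
    simp only [sub_apply, hv, ContinuousLinearMap.id_apply, zero_sub, norm_neg] at h1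
    exact norm_le_zero_iff.1 (by nlinarith [norm_nonneg v])
  · obtain ⟨s, z, hz, ez⟩ := exists_gK h hL' (hm a x hx)
    have sz := scl_ge (gW_sub h s (gK_sub_gW h s hz))
    have key : ∀ a, ∀ x ∈ U1 T L a, (T.glob L').c s z = (T.glob L').c a (u a x) →
        ∃ x' ∈ ball z (scl T s z / 32), u s x' = z ∧ (T.glob L).c s x' = (T.glob L).c a x := by
      intro a x hx ez
      have a0 := scl_ge (U1_U h a hx)
      have a1 := n.val0 hx
      have a2 : ‖u a x - x‖ ≤ 1 / 128 * scl T a x := a1.trans (by gcongr)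
      have a3 := scl_lip (T := T) a x (u a x)
      rw [norm_sub_rev] at a3
      obtain ⟨x', b1, b2, b3⟩ := hleb L L' hL hL' hR a s _ (W1_gW h a (n.maps a hx)) z
        (gK_sub_gW h s hz) ez.symm x (U1_U h a hx)
        (by rw [norm_sub_rev]; refine a1.trans ?_; nlinarith)
      have b4 : ‖x' - z‖ ≤ c / 4 * scl T s z := b2.trans (by gcongr; exact min_le_left _ _)
      have b5 : ‖x' - z‖ ≤ 1 / 64 * scl T s z := b2.trans (by gcongr; exact min_le_right _ _)
      have b6 : x' ∈ ball z (scl T s z / 32) := by rw [mem_ball, dist_eq_norm]; linarith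
      have b7 := cell_U1 h hR' hz b6
      obtain ⟨γ, hγ, eγ⟩ := (hO.fib s z (gW_sub h s (gK_sub_gW h s hz)) _ (hm s x' b7)).1
        (ez.trans (n.compat s a x' b7 x hx b3).symm)
      have b8 := n.val0 b7
      have b9 := scl_lip (T := T) s x' z
      have b10 := norm_sub_le_norm_sub_add_norm_sub (u s x') x' z
      have b11 : ε * scl T s x' ≤ c / 4 * scl T s x' := by gcongr; linarith [scl_ge b1]
      have : γ = 1 := hfree s γ hγ z (by rw [eγ]; nlinarith)
      subst this
      exact ⟨x', b6, eγ.symm, b3⟩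
    obtain ⟨x', p1, p2, p3⟩ := key a x hx ez
    obtain ⟨y', q1, q2, q3⟩ := key b y hy (ez.trans e)
    have h1 := n.lip0 h (convex_ball _ _) (cell_U1 h hR' hz) p1 q1
    rw [p2, q2, sub_sub_sub_cancel_left, norm_sub_rev] at h1
    have h2 : y' = x' := sub_eq_zero.1 (norm_le_zero_iff.1 (by nlinarith [norm_nonneg (y' - x')]))
    exact p3.symm.trans (h2 ▸ q3)
  · obtain ⟨s, z, hz, ez⟩ := exists_gK h hL' hy
    have sz := scl_ge (gW_sub h s (gK_sub_gW h s hz))
    have hb : closedBall z (scl T s z / 64) ⊆ U1 T L s :=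
      (closedBall_subset_ball (by linarith)).trans (cell_U1 h hR' hz)
    have hm : MapsTo (fun x => z - (u s x - x)) (closedBall z (scl T s z / 64))
        (closedBall z (scl T s z / 64)) := fun x hx => by
      have a1 := n.val0 (hb hx)
      have a2 := scl_lip (T := T) s x z
      have a3 : ε * scl T s x ≤ 1 / 128 * scl T s x := by
        gcongr; linarith [scl_ge (U1_U h s (hb hx))]
      rw [mem_closedBall, dist_eq_norm] at hx ⊢
      rw [sub_sub_cancel_left, norm_neg]
      linarith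
    obtain ⟨x, hx, hf, -⟩ := ContractingWith.exists_fixedPoint' (K := 1 / 2)
      isClosed_closedBall.isComplete hm ⟨by norm_num, LipschitzWith.of_dist_le_mul fun p q => by
        have := n.lip0 h (convex_closedBall _ _) hb p.2 q.2
        rw [Subtype.dist_eq, Subtype.dist_eq, dist_eq_norm, dist_eq_norm, MapsTo.val_restrict_apply,
          MapsTo.val_restrict_apply, sub_sub_sub_cancel_left, norm_sub_rev p.1]
        push_cast
        nlinarith [norm_nonneg (q.1 - p.1)]⟩ (mem_closedBall_self (by linarith)) (edist_ne_top _ _)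
    have : u s x = z := by
      have h1 : z - (u s x - x) = x := hf
      rw [sub_eq_iff_eq_add, add_sub_cancel] at h1
      exact h1.symm
    exact ⟨s, x, hb hx, (congrArg _ this).trans ez⟩

theorem matT_pm0 (u : E4 → E4) (H : MetricField 4) (x : E4) :
    matT (pm u H) x = pullT u (matT H) x := by
  funext I
  show pullT u (matT H) x ![I 0, I 1] = _
  congr 1
  funext i
  fin_cases i <;> rfl

/-- **INT** -/
theorem int' (h : T.Ok) : INT T := by
  obtain ⟨ε0, hε0, hd⟩ := nid_diffeo h
  refine ⟨ε0, 16 / T.r, hε0, fun L L' hL hL' u n H f hH hf hi => ?_⟩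
  have l : T.Long L := fun w hw => lng_exp h hL hw
  have l' : T.Long L' := fun w hw => lng_exp h hL' hw
  obtain ⟨m, mi, mo⟩ := hd L L' ε0 u l l' le_rfl n
  exact m.int_eq' (gl1_ok h l) (h.glob_ok l') mi hH (fun s x _ => matT_pm0 (u s) (H s) x)
    (gl1_pou h l) (h.glob_pou l') hf mo hi

theorem int {g : T.V → Fam T} (h : Std T g) : INT T := int' h.ok

end Crest.Agent.N207.NS

end
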