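import Crest.Agent.N207.N.Kl1
import Crest.Agent.N207.K.CoZ

/-!
# Row 207 (helper10): the leaf `KL`
-/

set_option autoImplicit false

open Crest.Agent.N207.I Crest.Agent.N207.CB

namespace Crest.Agent.N207.NS

/-- **KL** -/
theorem kl {M : Type*} {T : TD M} {g : T.V → Fam T} (h : Std T g) : KL T g :=
  kl_c h fun _ h0 h1 => K.Zc.coer h h0 h1

end Crest.Agent.N207.NS
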