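import Crest.Agent.N207.N.Chi

/-!
# Row 207, block N (helper16): the leaf `PULL2`
-/

set_option autoImplicit false

open scoped ContDiff Topology
open Metric Set Filter MeasureTheory
open Crest.GeometryTopology.CoordMetric
open Crest.Agent.N207.I Crest.Agent.N207.Lg Crest.Agent.N207.CB

noncomputable section

namespace Crest.Agent.N207.NS

namespace P2

theorem pm_eq (u : E4 → E4) (H : MetricField 4) (x : E4) (p q : Fin 4) : pm u H x p q =
    ∑ i, ∑ j, fderiv ℝ u x (EuclideanSpace.single p 1) i *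
      fderiv ℝ u x (EuclideanSpace.single q 1) j * H (u x) i j := by
  rw [pm, Matrix.of_apply, pullT, evT, ← (finTwoArrowEquiv (Fin 4)).symm.sum_comp,
    Fintype.sum_prod_type]
  refine Finset.sum_congr rfl fun i _ => Finset.sum_congr rfl fun j _ => ?_
  simp [Fin.prod_univ_two, finTwoArrowEquiv, matT]

variable {M : Type*} {T : TD M} {L L' : T.V → ℝ} {δ : ℝ} {u : T.S → E4 → E4} {s : T.S} {x : E4}

theorem scl_pos (hx : x ∈ U1 T L s) : 0 < scl T s x := by
  cases s
  exacts [one_pos, lt_trans (by norm_num) hx.1]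

theorem near0 (h : NId T L L' δ u) (hx : x ∈ U1 T L s) : ‖u s x - x‖ ≤ δ * scl T s x := by
  simpa using h.near s x hx 0 (by norm_num)

theorem dAt (h : NId T L L' δ u) (hx : x ∈ U1 T L s) : DifferentiableAt ℝ (u s) x :=
  ((h.sm s).contDiffAt ((U1_open s).mem_nhds hx)).differentiableAt (by simp)

theorem near1 (h : NId T L L' δ u) (hx : x ∈ U1 T L s) (p i : Fin 4) :
    |fderiv ℝ (u s) x (EuclideanSpace.single p 1) i - if i = p then 1 else 0| ≤ δ := by
  have h1 := h.near s x hx 1 (by norm_num)
  rw [pow_one, norm_iteratedFDeriv_one, mul_comm, mul_le_mul_iff_left₀ (scl_pos hx),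
    show fderiv ℝ (fun y => u s y - y) x = _ from
      ((dAt h hx).hasFDerivAt.sub (hasFDerivAt_id x)).fderiv] at h1
  have h2 := (PiLp.norm_apply_le ((fderiv ℝ (u s) x - ContinuousLinearMap.id ℝ E4)
    (EuclideanSpace.single p 1)) i).trans
    ((fderiv ℝ (u s) x - ContinuousLinearMap.id ℝ E4).le_opNorm _)
  simpa using h2.trans (by simpa using h1)

theorem ball_W1 (hx : x ∈ U1 T L s) {z : E4} (hz : ‖z - x‖ ≤ 1 / 16 * scl T s x) :
    z ∈ W1 T L s ∧ scl T s x ≤ 2 * scl T s z := by
  have h1 := norm_sub_norm_le z x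
  have h2 := norm_sub_norm_le x z
  rw [norm_sub_rev] at h2
  cases s with
  | inl a =>
    rw [mem_U1_inl] at hx
    simp only [scl, Sum.elim_inl] at hz ⊢
    exact ⟨mem_W1_inl.2 (by linarith), by norm_num⟩
  | inr w =>
    simp only [scl, Sum.elim_inr] at hz ⊢
    exact ⟨⟨by linarith [hx.1], fun hw => by linarith [hx.1, hx.2 hw]⟩, by linarith [hx.1]⟩

theorem log_le {a b : ℝ} (ha : 0 < a) (h : a ≤ 2 * b) : Real.log a ≤ Real.log b + 1 := by
  have h1 := Real.log_le_log ha h
  rw [Real.log_mul two_ne_zero (by linarith)] at h1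
  linarith [Real.log_le_sub_one_of_pos two_pos]

end P2

open P2

theorem pull2 {M : Type*} (T : TD M) : PULL2 T := by
  refine ⟨1 / 16, 64, 0, by norm_num, by norm_num, fun L L' _ _ δ u hδ h X P s =>
    ⟨fun hX a b => ?_, fun x hx hP a b => ?_, ?_, ?_⟩⟩
  · have hd := (h.sm s).continuousOn_fderiv_of_isOpen (U1_open s) (by simp)
    have hc : ∀ p i : Fin 4, ContinuousOn
        (fun y => fderiv ℝ (u s) y (EuclideanSpace.single p 1) i) (U1 T L s) := fun p i =>
      (EuclideanSpace.proj i : E4 →L[ℝ] ℝ).continuous.comp_continuousOn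
        (hd.clm_apply continuousOn_const)
    simp only [pm_eq]
    exact continuousOn_finsetSum _ fun i _ => continuousOn_finsetSum _ fun j _ =>
      ((hc a i).mul (hc b j)).mul ((hX i j).comp (h.sm s).continuousOn (h.maps s))
  · have h2 : ∀ p i : Fin 4, |fderiv ℝ (u s) x (EuclideanSpace.single p 1) i| ≤ 2 := fun p i => by
      have := abs_le.1 (near1 h hx p i)
      split_ifs at this <;> exact abs_le.2 ⟨by linarith [this.1], by linarith [this.2]⟩
    rw [pm_eq]
    refine (Finset.abs_sum_le_sum_abs _ _).trans ((Finset.sum_le_sum fun i _ =>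
      (Finset.abs_sum_le_sum_abs _ _).trans (Finset.sum_le_sum (g := fun _ => 2 * 2 * P)
        fun j _ => ?_)).trans ?_)
    · rw [abs_mul, abs_mul]
      exact mul_le_mul (mul_le_mul (h2 a i) (h2 b j) (abs_nonneg _) two_pos.le) (hP i j)
        (abs_nonneg _) (by norm_num)
    · simp only [Finset.sum_const, Finset.card_univ, Fintype.card_fin, nsmul_eq_mul, Nat.cast_ofNat]
      linarith
  · rintro rfl hX hC x hx a b
    have hp := scl_pos hx
    have h0 := near0 h hx
    have hδ0 : 0 ≤ δ := (abs_nonneg _).trans (near1 h hx 0 0)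
    have hb : ∀ z ∈ closedBall x (δ * scl T s x), z ∈ W1 T L' s ∧ scl T s x ≤ 2 * scl T s z :=
      fun z hz => ball_W1 hx ((mem_closedBall_iff_norm.1 hz).trans
        (mul_le_mul_of_nonneg_right hδ hp.le))
    have hv : ∀ i j, |X s (u s x) i j| ≤ P := fun i j => by
      simpa using hC s _ (h.maps s hx) 0 (by norm_num) i j
    have hP : 0 ≤ P := (abs_nonneg _).trans (hv 0 0)
    have h1 : ‖X s (u s x) a b - X s x a b‖ ≤ 2 * P / scl T s x * ‖u s x - x‖ := by
      refine (convex_closedBall x (δ * scl T s x)).norm_image_sub_le_of_norm_fderiv_le (𝕜 := ℝ)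
        (f := fun y => X s y a b) (fun z hz => ((hX a b).contDiffAt
          ((W1_open s).mem_nhds (hb z hz).1)).differentiableAt one_ne_zero) (fun z hz => ?_)
        (mem_closedBall_self (by positivity)) (mem_closedBall_iff_norm.2 h0)
      have := hC s z (hb z hz).1 1 le_rfl a b
      simp only [Pi.zero_apply, sub_zero, pow_one, norm_iteratedFDeriv_one] at this
      rw [le_div_iff₀ hp]
      nlinarith [(hb z hz).2, norm_nonneg (fderiv ℝ (fun y => X s y a b) z)]
    have h2 : |X s (u s x) a b - X s x a b| ≤ 2 * δ * P := by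
      refine h1.trans ((mul_le_mul_of_nonneg_left h0 (by positivity)).trans (le_of_eq ?_))
      field_simp
    have h3 : X s (u s x) a b = ∑ i, ∑ j, (if i = a then (1 : ℝ) else 0) * (if j = b then 1 else 0) *
        X s (u s x) i j := by simp
    have h4 : |pm (u s) (X s) x a b - X s (u s x) a b| ≤ ∑ _i : Fin 4, ∑ _j : Fin 4, 3 * δ * P := by
      rw [pm_eq, h3, ← Finset.sum_sub_distrib]
      refine (Finset.abs_sum_le_sum_abs _ _).trans (Finset.sum_le_sum fun i _ => ?_)
      rw [← Finset.sum_sub_distrib]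
      refine (Finset.abs_sum_le_sum_abs _ _).trans (Finset.sum_le_sum fun j _ => ?_)
      rw [← sub_mul, abs_mul]
      refine mul_le_mul ?_ (hv i j) (abs_nonneg _) (by positivity)
      have e1 := abs_le.1 (near1 h hx a i)
      have e2 := abs_le.1 (near1 h hx b j)
      split_ifs at e1 e2 ⊢ <;> exact abs_le.2 ⟨by nlinarith [e1.1, e1.2, e2.1, e2.2],
        by nlinarith [e1.1, e1.2, e2.1, e2.2]⟩
    simp only [Finset.sum_const, Finset.card_univ, Fintype.card_fin, nsmul_eq_mul,
      Nat.cast_ofNat] at h4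
    have := abs_sub_le (pm (u s) (X s) x a b) (X s (u s x) a b) (X s x a b)
    nlinarith [mul_nonneg hδ0 hP]
  · rintro rfl v c x hx hK
    cases s with
    | inl a => exact hK
    | inr w =>
      have hp := scl_pos hx
      have h0 := (near0 h hx).trans (mul_le_mul_of_nonneg_right hδ hp.le)
      simp only [scl, Sum.elim_inr] at h0 hp
      have h1 := norm_sub_norm_le (u (Sum.inr w) x) x
      have h2 := norm_sub_norm_le x (u (Sum.inr w) x)
      rw [norm_sub_rev] at h2
      refine hK.imp (fun k => ⟨k.1, ?_⟩) fun k => ⟨k.1, ?_⟩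
      · linarith [k.2, log_le hp (b := ‖u (Sum.inr w) x‖) (by linarith)]
      · have he := Real.exp_pos (-L' w)
        have := log_le (a := ‖Real.exp (-L' w) • u (Sum.inr w) x‖) (b := ‖Real.exp (-L' w) • x‖)
          (by rw [norm_smul, Real.norm_of_nonneg he.le]; exact mul_pos he (by linarith))
          (by rw [norm_smul, norm_smul, Real.norm_of_nonneg he.le]; nlinarith)
        linarith [k.2]

end Crest.Agent.N207.NS

end
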