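import Crest.Agent.N207.N.Pull1
import Crest.Agent.N207.N.Chi
import Crest.Agent.N207.N.Gb
import Crest.Agent.N207.Ga.Met2
import Crest.Agent.N207.I.Cal5
import Crest.Agent.N207.Lg.Flat

/-!
# Row 207, block N (helper52): the leaf `PULL`
-/

set_option autoImplicit false

open scoped ContDiff Topology
open Metric Set Filter
open Crest.GeometryTopology.CoordMetric
open Crest.Agent.N207.I Crest.Agent.N207.CB Crest.Agent.N207.G

noncomputable section

namespace Crest.Agent.N207.NS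

namespace Pl

variable {M : Type*} {T : TD M} {g : T.V → Fam T} {L L' : T.V → ℝ} {δ T0 : ℝ} {u : T.S → E4 → E4}
  {s : T.S} {x : E4}

theorem pm_eq (u : E4 → E4) (H : MetricField 4) : pm u H = Ga.pbG u H := rfl

theorem rt_pb (X : Fam T) (s : T.S) : rt T L (pb T L L' u X) s = pm (u s) (rt T L' X s) := by
  have h : ep T L s ≠ 0 := (TD.eps_pos _ _).ne'
  refine Eq.trans ?_ (Ga.pbG_cs (ep T L' s ^ 2) (u s) (X s)).symm
  funext x
  simp only [rt, pb, smul_smul, pm_eq]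
  congr 1
  field_simp

theorem pb_self (X : Fam T) : pb T L L u X = fun s => pm (u s) (X s) := by
  funext s x
  simp only [pb, div_self (TD.eps_pos L (T.un s)).ne', one_pow, one_smul]

theorem pb_root (h : T.Ok) (X : Fam T) :
    pb T L L' u X (Sum.inr T.root) = pm (u (Sum.inr T.root)) (X (Sum.inr T.root)) := by
  funext x
  have e : ∀ L, ep T L (Sum.inr T.root) = 1 := h.eps_root
  simp [pb, e]

theorem riem_of_rt {H : Fam T} (hH : (T.glob L).IsMet (rt T L H)) (s : T.S) :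
    IsRiemannianOn (H s) ((T.glob L).U s) := by
  have h : 0 < ep T L s ^ 2 := pow_pos (TD.eps_pos _ _) 2
  have := Ga.riem_smul (hH.riem s) (inv_pos.2 h)
  simpa only [rt, smul_smul, inv_mul_cancel₀ h.ne', one_smul] using this

theorem lng_long (h : T.Ok) {c : ℝ} (hc : 16 / T.r ≤ c) (hL : Lng T c L) : T.Long L :=
  fun _ hw => lng_exp h (fun w hw => hc.trans (hL w hw)) hw

theorem scl_pos1 (h : T.Ok) (hx : x ∈ U1 T L s) : 0 < scl T s x :=
  one_pos.trans_le (one_le_scl s (U1_U h s hx))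

theorem nid_jb (n : NId T L L' δ u) (hx : x ∈ U1 T L s) :
    JB 3 (fun y => u s y - y) x (scl T s x) (δ * scl T s x) :=
  ⟨((n.sm s).contDiffAt ((U1_open s).mem_nhds hx)).sub contDiffAt_id,
    fun k hk => mul_comm (scl T s x ^ k) _ ▸ n.near s x hx k hk⟩

theorem ball_W1 (h : T.Ok) (hδ : δ ≤ 1 / 20) (hx : x ∈ U1 T L s) {z : E4}
    (hz : z ∈ closedBall x (δ * scl T s x)) :
    z ∈ W1 T L s ∧ scl T s x ≤ 2 * scl T s z ∧ scl T s z ≤ 2 * scl T s x := by
  have h0 := (mem_closedBall_iff_norm.1 hz).trans (mul_le_mul_of_nonneg_right hδ (scl_pos1 h hx).le)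
  have h1 := norm_le_norm_add_norm_sub' z x
  have h2 := norm_le_norm_add_norm_sub z x
  cases s with
  | inl a =>
    rw [mem_U1_inl] at hx
    simp only [scl, Sum.elim_inl] at h0 ⊢
    exact ⟨mem_W1_inl.2 (by linarith), by norm_num, by norm_num⟩
  | inr w =>
    simp only [scl, Sum.elim_inr] at h0 ⊢
    have := mul_pos h.r_pos (Real.exp_pos (L w))
    exact ⟨⟨by linarith [hx.1], fun hw => by linarith [hx.2 hw]⟩, by linarith [hx.1],
      by linarith [hx.1]⟩

theorem nid_ball (n : NId T L L' δ u) (hx : x ∈ U1 T L s) : u s x ∈ closedBall x (δ * scl T s x) :=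
  mem_closedBall_iff_norm.2 (nid_jb n hx).val

theorem nid_mor (n : NId T L L' δ u) (h : T.Ok) (hδ : δ < 1) :
    Atl.Mor (gl1 T L) (T.glob L') id u :=
  ⟨fun s _ hx => W1_U h s (n.maps s hx), n.sm, fun _ _ hx => jb_inj (scl_pos1 h hx) hδ (nid_jb n hx),
    n.compat⟩

theorem nid_pull (n : NId T L L' δ u) (h : T.Ok) (hδ : δ < 1) {H : MetricField 4}
    (hH : IsRiemannianOn H ((T.glob L').U s)) :
    R202.Tens.Pull (pm (u s) H) H (u s) (U1 T L s) ((T.glob L').U s) :=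
  Ga.pull_pbG (U1_open s) hH ((nid_mor n h hδ).maps s) (n.sm s) ((nid_mor n h hδ).imm s)

theorem jb_dec {f : E4 → ℝ} {B p : ℝ} (hx : 0 < ‖x‖) (hf : ContDiffAt ℝ ∞ f x) :
    JB 1 f x ‖x‖ (B * ‖x‖ ^ (-p)) ↔
      |f x| ≤ B * ‖x‖ ^ (-p) ∧ ‖fderiv ℝ f x‖ ≤ B * ‖x‖ ^ (-p - 1) := by
  rw [Real.rpow_sub_one hx.ne', ← mul_div_assoc, le_div_iff₀ hx]
  refine ⟨fun h => ⟨h.val, by simpa [norm_iteratedFDeriv_one] using h.bd 1 le_rfl⟩,
    fun h => ⟨hf, fun k hk => ?_⟩⟩
  interval_cases k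
  · simpa [norm_iteratedFDeriv_zero] using h.1
  · simpa [norm_iteratedFDeriv_one] using h.2

theorem root_U1 (hx : 2 ≤ ‖x‖) : x ∈ U1 T L (Sum.inr T.root) :=
  ⟨by linarith, fun h => absurd rfl h⟩

theorem nid_dec' (n : NId T L L' δ u) (h : T.Ok) (hδ : δ ≤ 1 / 20) {H : MetricField 4} {p : ℝ}
    (hp : 0 ≤ p) (hp' : p ≤ 5 / 2) (hH : IsRiemannianOn H ((T.glob L').U (Sum.inr T.root)))
    (hd : Dec p fun x => H x - 1) : Dec p fun x => pm (u (Sum.inr T.root)) H x - 1 := by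
  obtain ⟨C, R, hd⟩ := hd
  obtain ⟨C', R', hu⟩ := n.dec
  obtain ⟨C1, hC1, H1⟩ := jb_pm 0
  obtain ⟨C2, hC2, H2⟩ := jb_pm_sub 1
  refine ⟨C1 * (|C| * 8) + C2 * |C'|, max 2 (max (2 * R) R'), fun x hx a b => ?_⟩
  simp only [max_le_iff] at hx
  have hU : x ∈ U1 T L (Sum.inr T.root) := root_U1 hx.1
  have h0 : 0 < ‖x‖ := by linarith [hx.1]
  have h1 : ‖x‖ ≤ 2 * ‖u (Sum.inr T.root) x‖ := (ball_W1 h hδ hU (nid_ball n hU)).2.1
  have h2 : 0 < ‖u (Sum.inr T.root) x‖ := by linarith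
  have hJ : JB 3 (fun y => u (Sum.inr T.root) y - y) x ‖x‖ (δ * ‖x‖) := nid_jb n hU
  have hJ' : JB 2 (fun y => u (Sum.inr T.root) y - y) x ‖x‖ (min δ (|C'| * ‖x‖ ^ (-p)) * ‖x‖) := by
    refine ⟨hJ.sm, fun k hk => ?_⟩
    rw [min_mul_of_nonneg _ _ h0.le]
    refine le_min (hJ.bd k (by omega)) ((mul_le_mul_of_nonneg_right
      ((hu x hx.2.2 k (by omega)).trans (mul_le_mul_of_nonneg_right (le_abs_self C')
        (Real.rpow_nonneg h0.le _))) (by positivity)).trans ?_)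
    rw [mul_assoc, mul_assoc, ← Real.rpow_add_natCast h0.ne', ← Real.rpow_add_one h0.ne']
    exact mul_le_mul_of_nonneg_left (Real.rpow_le_rpow_of_exponent_le (by linarith [hx.1])
      (by linarith)) (abs_nonneg _)
  have hs : ∀ i j, ContDiffAt ℝ ∞ (fun y => (H y - 1) i j) (u (Sum.inr T.root) x) := fun i j =>
    ((hH.contDiffOn i j).contDiffAt (hH.isOpen.mem_nhds (W1_U h _ (n.maps _ hU)))).sub
      contDiffAt_const
  have e1 : C * ‖u (Sum.inr T.root) x‖ ^ (-p) ≤ |C| * 8 * ‖x‖ ^ (-p) := by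
    have b1 : ‖u (Sum.inr T.root) x‖ ^ (-p) ≤ (‖x‖ / 2) ^ (-p) :=
      Real.rpow_le_rpow_of_nonpos (by positivity) (by linarith) (by linarith)
    have b2 : (2 : ℝ) ^ p ≤ 2 ^ (3 : ℝ) := Real.rpow_le_rpow_of_exponent_le one_le_two (by linarith)
    rw [Real.div_rpow h0.le zero_le_two, Real.rpow_neg zero_le_two, div_inv_eq_mul] at b1
    have b3 : (2 : ℝ) ^ (3 : ℝ) = 8 := by norm_num
    have b4 := Real.rpow_nonneg h0.le (-p)
    calc _ ≤ |C| * (‖x‖ ^ (-p) * 8) := mul_le_mul (le_abs_self C)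
          (b1.trans (mul_le_mul_of_nonneg_left (b3 ▸ b2) b4)) (Real.rpow_nonneg h2.le _) (abs_nonneg _)
      _ = _ := by ring
  have a1 := H1 _ (fun y => H y - 1) x _ _ δ _ h0 h2.le h1 (by linarith) (hJ.of_le (by norm_num))
    (fun i j => ((jb_dec h2 (hs i j)).2 (hd _ (by linarith [hx.2.1]) i j)).mono e1) a b
  have a2 := H2 _ (fun _ => 1) x _ _ 1 h0 ((min_le_left _ _).trans (by linarith)) hJ'
    (fun z _ i j => JB.const _ (by rw [Matrix.one_apply]; split_ifs <;> simp)) a b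
  have a3 : JB 1 (fun y => (pm (u (Sum.inr T.root)) H y - 1) a b) x ‖x‖
      ((C1 * (|C| * 8) + C2 * |C'|) * ‖x‖ ^ (-p)) := by
    refine ((a1.add h0.le a2).congr (Eventually.of_forall fun y => ?_)).mono ?_
    · simp only [pm_eq, Ga.pbG_apply, Matrix.sub_apply, sub_mul, Finset.sum_sub_distrib]
      ring
    · have := mul_le_mul_of_nonneg_left (min_le_right δ (|C'| * ‖x‖ ^ (-p))) (zero_le_one.trans hC2)
      linarith
  exact (jb_dec h0 a3.sm).1 a3

theorem gbL_far (hx : Real.exp (T0 + 1) < ‖x‖) :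
    gbL T g T0 L (Sum.inr T.root) =ᶠ[𝓝 x] fun _ => 1 := by
  filter_upwards [(isOpen_lt continuous_const continuous_norm).mem_nhds hx] with y hy
  rw [Ga.gbL_root, Ga.gb_one]
  have := (Real.lt_log_iff_exp_lt ((Real.exp_pos _).trans hy)).2 hy
  simp only [tau, if_true]
  linarith

end Pl

open Pl

variable {M : Type*} {T : TD M} {g : T.V → Fam T}

/-- **PULL** -/
theorem pull (h : Std T g) : PULL T g := by
  obtain ⟨δe, Λ, Te, hδe, hΛ, hE⟩ := ell h
  obtain ⟨C1, hC1, H1⟩ := jb_pm 1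
  obtain ⟨C2, hC2, H2⟩ := jb_pm_sub 2
  have ho := h.ok
  have hr : 0 < 16 / T.r := div_pos (by norm_num) ho.r_pos
  refine ⟨1 / 20, C1 + C2 * (2 ^ 3 * Λ), max Te (16 / T.r), by norm_num, by positivity,
    fun T0 hT L L' hL hL' δ u hδ n => ?_⟩
  have hT' := max_le_iff.1 hT
  have l1 : 16 / T.r ≤ 2 * T0 + max Te (16 / T.r) := by linarith [le_max_right Te (16 / T.r)]
  have hA := gl1_ok ho (lng_long ho l1 hL)
  have hA' := ho.glob_ok (lng_long ho l1 hL')
  have hδ1 : δ < 1 := by linarith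
  have m := nid_mor n ho hδ1
  have hg : ∀ L s, IsRiemannianOn (gbL T g T0 L s) ((T.glob L).U s) := fun L s =>
    Ga.gbL_riem ho h.lim s
  refine ⟨fun X hX => ?_, fun H hH => ⟨?_, fun s => nid_pull n ho hδ1 (riem_of_rt hH s)⟩,
    fun H H' δ' hs hc s x hx k hk a b => ?_, ?_, fun H hH hd => ?_, ?_, ?_⟩
  · simp only [rt_pb, pm_eq, Ga.matT_pbG]
    exact m.sec hA hA' hX
  · exact m.isMet hA hA' hH fun s x _ => by rw [rt_pb, pm_eq, Ga.matT_pbG]; rfl
  · have hW := n.maps s hx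
    have hp := scl_pos1 ho hx
    have a1 := H1 (u s) (fun y => H s y - H' s y) x _ _ δ δ' hp
      (zero_le_one.trans (one_le_scl s (W1_U ho s hW))) (ball_W1 ho hδ hx (nid_ball n hx)).2.1 hδ1.le
      (nid_jb n hx) (fun i j => ⟨(hs s i j).contDiffAt ((W1_open s).mem_nhds hW),
        fun k hk => mul_comm (scl T s (u s x) ^ k) _ ▸ hc s _ hW k hk i j⟩) a b
    have a0 : 0 ≤ δ' := le_trans (by have := one_le_scl s (W1_U ho s hW); positivity)
      (hc s _ hW 0 (by norm_num) a b)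
    have a2 : JB 2 (fun y => (pm (u s) (H s) y - pm (u s) (H' s) y) a b) x (scl T s x)
        ((C1 + C2 * (2 ^ 3 * Λ)) * δ') := by
      refine (a1.congr (Eventually.of_forall fun y => ?_)).mono
        (mul_le_mul_of_nonneg_right (le_add_of_nonneg_right (by positivity)) a0)
      simp only [pm_eq, Ga.pbG_apply, Matrix.sub_apply, sub_mul, Finset.sum_sub_distrib]
    exact mul_comm (scl T s x ^ k) _ ▸ a2.bd k hk
  · rintro rfl s x hx k hk a b
    have hp := scl_pos1 ho hx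
    have a1 := H2 (u s) (gbL T g T0 L' s) x _ δ (2 ^ 3 * Λ) hp hδ1.le (nid_jb n hx) (fun z hz i j => by
      obtain ⟨b1, b2, -⟩ := ball_W1 ho hδ hx hz
      have b3 := W1_U ho s b1
      have b4 := (hE T0 hT'.1 L' (fun w hw => le_trans (by linarith [le_max_left Te (16 / T.r)])
        (hL w hw)) _ s z b1 ((hg L' s).posDef z b3) (by simpa using hδe.le)).2.2.2.2
      exact JB.scale ⟨((hg L' s).contDiffOn i j).contDiffAt ((hg L' s).isOpen.mem_nhds b3),
        fun k hk => mul_comm (scl T s z ^ k) _ ▸ b4 k hk i j⟩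
        (zero_le_one.trans (one_le_scl s b3)) hp.le one_le_two b2) a b
    have a0 : 0 ≤ δ := nonneg_of_mul_nonneg_left (nid_jb n hx).nonneg hp
    rw [pb_self, mul_comm]
    refine (a1.bd k hk).trans ?_
    nlinarith [mul_nonneg (zero_le_one.trans hC1) a0]
  · unfold DecR
    rw [pb_root ho]
    exact nid_dec' n ho hδ (by norm_num) (by norm_num) (riem_of_rt hH _) hd
  · unfold DecR
    rw [pb_root ho]
    refine nid_dec' n ho hδ (by norm_num) le_rfl (hg L' _) ⟨0, Real.exp (T0 + 1) + 1, fun x hx a b => ?_⟩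
    have e : (fun y => (gbL T g T0 L' (Sum.inr T.root) y - 1) a b) =ᶠ[𝓝 x] fun _ => 0 :=
      (gbL_far (T := T) (g := g) (L := L') (T0 := T0) (by linarith)).mono fun y hy => by simp only [hy, sub_self, Matrix.zero_apply]
    have e0 : (gbL T g T0 L' (Sum.inr T.root) x - 1) a b = 0 := e.eq_of_nhds
    rw [e.fderiv_eq]
    simp [e0]
  · refine ⟨2 * Real.exp (T0 + 1) + 2, fun x hx i j => ?_⟩
    have he := Real.exp_pos (T0 + 1)
    have hU : x ∈ U1 T L (Sum.inr T.root) := root_U1 (by linarith)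
    have h1 : ‖x‖ ≤ 2 * ‖u (Sum.inr T.root) x‖ := (ball_W1 ho hδ hU (nid_ball n hU)).2.1
    have h2 := (nid_pull n ho hδ1 (hg L' _)).ricci_pull hU (EuclideanSpace.single i 1)
      (EuclideanSpace.single j 1)
    rw [((AI.ricci_congr (gbL_far (T0 := T0) (by linarith))).eq_of_nhds), Lg.ricci_const] at h2
    rw [pb_root ho]
    simpa using h2

end Crest.Agent.N207.NS

end
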