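import Crest.Agent.N207.N.Swl3
import Crest.Agent.N207.N.Fam4
import Crest.Agent.N207.N.Thb
import Crest.Agent.N207.N.Grt
import Crest.Agent.N207.N.Grl
import Crest.Agent.N207.N.Tay4
import Crest.Agent.N207.N.Act2
import Crest.Agent.N207.N.Int3
import Crest.Agent.N207.N.Dil2
import Crest.Agent.N207.N.Pl2
import Crest.Agent.N207.N.Pull
import Crest.Agent.N207.N.Cmpg
import Crest.Agent.N207.N.Cmp
import Crest.Agent.N207.N.Kl
import Crest.Agent.N207.O.Fin2
import Crest.Agent.N207.Ga.Main
import Crest.Agent.N207.M.X3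

/-!
# Row 207, block N (helper34): the static chain modulo the existence theorem `LStmt`
-/

set_option autoImplicit false

open Crest.Agent.N207.I Crest.Agent.N207.CB

namespace Crest.Agent.N207.NS

variable {X : Type*} {T : TD X} {g : T.V → Fam T}

theorem gaua (h : Std T g) : GAUA T g := fun _ _ _ hS hF =>
  Ga.gauge_x3 h.ok (by norm_num) (by norm_num) h.lim hS hF
    (M.x3 h.ok h.conn h.lim (by norm_num) (by norm_num) (by norm_num))

theorem tay' (h : Std T g) : TAY T g := tay h (chi h) (ell h) (gb' h)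

theorem rest (h : Std T g) : REST T g :=
  fun κ _ _ ψ c η C _ _ _ hG hc =>
    have t := tol h κ ψ c η C hG
    ⟨thb h (chi h) (vol h) (gb' h) (ell h) (pull h) (pull2 T) t,
      cmpg h mul (chi h) (gb' h) (ell h) (pull h) (pull2 T) (int h) (act h.ok) (tay' h) hc t,
      grt h mul (ell h) (chi h) (vol h) (gb' h) (tay' h) (xc h) hc t,
      grl h mul (ell h) (chi h) (gb' h) (act h.ok) (pull h) (int h) (dil h (gb' h) (ell h)) hG.psi
        (core h mul (ell h) (chi h) (vol h) (gb' h) (tay' h) (xc h) hc t) t⟩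

/-- **the static chain modulo `LStmt`** -/
theorem swl_L (hL : ∀ T : TD X, LStmt T) : Sk.SWL' X :=
  swl_of O.ost hL fun _ _ H => ⟨famx H, kl H, cmp H, nearg H, gaua H, rest H⟩

end Crest.Agent.N207.NS
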