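import Crest.Agent.N207.N.Gs0

/-!
# Row 207, block N (helper86): change of the background at one point
-/

set_option autoImplicit false

open scoped ContDiff Topology
open Metric Set Filter
open Crest.GeometryTopology.CoordMetric
open Crest.Agent.N207.I Crest.Agent.N207.Lg Crest.Agent.N207.CB

noncomputable section

namespace Crest.Agent.N207.NS.Gs

/-- arrays -/
abbrev B2 : Type := M2 (Fin 4) ℝ
/-- arrays -/
abbrev B3 : Type := M3 (Fin 4) ℝ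
/-- arrays -/
abbrev B4 : Type := M4 (Fin 4) ℝ

theorem lip_ball {E F : Type*} [NormedAddCommGroup E] [NormedSpace ℝ E] [ProperSpace E]
    [NormedAddCommGroup F] [NormedSpace ℝ F] {f : E → F} (hf : ContDiff ℝ 1 f) (Λ : ℝ) :
    ∃ C : ℝ, 0 ≤ C ∧ ∀ z z', ‖z‖ ≤ Λ → ‖z'‖ ≤ Λ → ‖f z - f z'‖ ≤ C * ‖z - z'‖ := by
  obtain ⟨K, hK⟩ := (hf.locallyLipschitz.locallyLipschitzOn (s := closedBall 0 Λ)
    ).exists_lipschitzOnWith_of_compact (isCompact_closedBall 0 Λ)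
  exact ⟨K, K.2, fun z z' h h' =>
    hK.norm_sub_le (mem_closedBall_zero_iff.2 h) (mem_closedBall_zero_iff.2 h')⟩

theorem cl_cd {E : Type*} [NormedAddCommGroup E] [NormedSpace ℝ E] :
    Cl fun f : E → ℝ => ContDiff ℝ 1 f := ⟨fun _ => contDiff_const, ContDiff.add, ContDiff.mul⟩

theorem dG2_zero (H : B2) : dG2 H 0 0 = 0 := by
  funext c a i j; simp [dG2, dchr, chr_zero]

/-- the reduced Ricci tensor is Lipschitz in the jets of the background -/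
theorem red_bg (Λ : ℝ) : ∃ C : ℝ, 0 ≤ C ∧ ∀ (g H H' : B2) (p p' : B3) (q q' : B4) (η : ℝ),
    ‖g‖ ≤ Λ → ‖H‖ ≤ Λ → ‖H'‖ ≤ Λ → ‖p‖ ≤ Λ → ‖q‖ ≤ Λ → ‖p'‖ ≤ η → ‖q'‖ ≤ η → η ≤ Λ →
    ‖redR g H p q 0 0 - redR g H p q (chr H' p') (dG2 H' p' q')‖ ≤ C * η := by
  have h := cl_cd (E := (B2 × B2 × B2 × B3 × B4) × B3 × B4)
  have H' : P2 (fun f => ContDiff ℝ 1 f) fun w : (B2 × B2 × B2 × B3 × B4) × B3 × B4 =>
    w.1.2.2.1 := fun a b => by beta_reduce; fun_prop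
  have p' : P3 (fun f => ContDiff ℝ 1 f) fun w : (B2 × B2 × B2 × B3 × B4) × B3 × B4 =>
    w.2.1 := fun a b c => by beta_reduce; fun_prop
  obtain ⟨C, h0, hC⟩ := lip_ball (f := fun w : (B2 × B2 × B2 × B3 × B4) × B3 × B4 =>
      redR w.1.1 w.1.2.1 w.1.2.2.2.1 w.1.2.2.2.2 (chr w.1.2.2.1 w.2.1) (dG2 w.1.2.2.1 w.2.1 w.2.2))
    (contDiff_pi.2 fun a => contDiff_pi.2 fun b => h.redR (fun a b => by beta_reduce; fun_prop)
      (fun a b => by beta_reduce; fun_prop) (fun a b c => by beta_reduce; fun_prop)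
      (fun a b c d => by beta_reduce; fun_prop) (h.chr H' p')
      (h.dG2 H' p' fun a b c d => by beta_reduce; fun_prop) a b) Λ
  refine ⟨C, h0, fun g H H' p p' q q' η h1 h2 h3 h4 h5 h6 h7 h8 => ?_⟩
  have k0 : 0 ≤ η := (norm_nonneg _).trans h6
  have k1 : ‖(g, H, H', p, q)‖ ≤ Λ := by simp only [Prod.norm_mk, max_le_iff]; tauto
  have := hC ((g, H, H', p, q), 0, 0) ((g, H, H', p, q), p', q')
    (by rw [Prod.norm_mk, max_le_iff]; exact ⟨k1, by simpa using k0.trans h8⟩)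
    (max_le k1 (max_le (h6.trans h8) (h7.trans h8)))
  simp only [chr_zero, dG2_zero] at this
  refine this.trans (mul_le_mul_of_nonneg_left ?_ h0)
  simp only [Prod.mk_sub_mk, sub_self, zero_sub, Prod.norm_mk, norm_neg, max_le_iff, norm_zero]
  tauto

theorem abs_ent {H : B2} (a b : Fin 4) : |H a b| ≤ ‖H‖ :=
  (norm_le_pi_norm (H a) b).trans (norm_le_pi_norm H a)

theorem abs_ip1 (H : B2) (u v : Fin 4 → ℝ) : |ip1 H u v| ≤ 16 * (‖H‖ * (‖u‖ * ‖v‖)) := by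
  refine (Finset.abs_sum_le_sum_abs _ _).trans ((Finset.sum_le_card_nsmul _ _
    (4 * (‖H‖ * (‖u‖ * ‖v‖))) fun i _ => (Finset.abs_sum_le_sum_abs _ _).trans
      ((Finset.sum_le_card_nsmul _ _ (‖H‖ * (‖u‖ * ‖v‖)) fun j _ => ?_).trans_eq
        (by simp))).trans_eq (by simp; ring))
  rw [abs_mul, abs_mul]
  exact mul_le_mul (abs_ent i j) (mul_le_mul (norm_le_pi_norm u i) (norm_le_pi_norm v j)
    (abs_nonneg _) (norm_nonneg _)) (by positivity) (norm_nonneg _)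

theorem norm_le_sqrt {u : Fin 4 → ℝ} {y : ℝ} (h : ∑ i, u i ^ 2 ≤ y) : ‖u‖ ≤ √y :=
  (pi_norm_le_iff_of_nonneg (Real.sqrt_nonneg _)).2 fun i => Real.abs_le_sqrt
    ((Finset.single_le_sum (f := fun i => u i ^ 2) (fun _ _ => sq_nonneg _)
      (Finset.mem_univ i)).trans h)

/-- the gauge term under a change of the background -/
theorem gau_bg {Λ : ℝ} (hΛ : 1 ≤ Λ) : ∃ C : ℝ, 0 ≤ C ∧
    ∀ (s0 s η κ : ℝ) (g0 g H0 H H' : B2) (p0 p p' : B3), Iv g0 H0 → Iv g H → Λ⁻¹ ≤ s0 →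
    (∀ ξ : Fin 4 → ℝ, Λ⁻¹ * ∑ i, ξ i ^ 2 ≤ ∑ i, ∑ j, H0 i j * ξ i * ξ j) → |s| ≤ Λ →
    ‖g‖ ≤ Λ → ‖H0‖ ≤ Λ → ‖H‖ ≤ Λ → ‖H'‖ ≤ Λ → ‖p0‖ ≤ Λ → ‖p‖ ≤ Λ → ‖p'‖ ≤ η → η ≤ Λ →
    ‖g - g0‖ ≤ κ → ‖p - p0‖ ≤ κ →
    |gau s H (bar g p (chr H' p')) - gau s H p| ≤ C * (η * (√(gau s0 H0 p0) + κ) + η ^ 2) := by
  have h := cl_cd (E := (B2 × B2 × B2 × B3) × B3)
  obtain ⟨C1, c1, hC1⟩ := lip_ball (f := fun w : (B2 × B2 × B2 × B3) × B3 =>
      gv w.1.2.1 (bar w.1.1 w.1.2.2.2 (chr w.1.2.2.1 w.2)))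
    (contDiff_pi.2 fun a => h.gv (fun a b => by beta_reduce; fun_prop)
      (h.bar (fun a b => by beta_reduce; fun_prop) (fun a b c => by beta_reduce; fun_prop)
        (h.chr (fun a b => by beta_reduce; fun_prop) fun a b c => by beta_reduce; fun_prop)) a) Λ
  obtain ⟨C2, c2, hC2⟩ := lip_ball (f := fun w : B2 × B3 => gv w.1 w.2)
    (contDiff_pi.2 fun a => cl_cd.gv (fun a b => by beta_reduce; fun_prop)
      (fun a b c => by beta_reduce; fun_prop) a) Λ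
  have L0 : 0 < Λ := by linarith
  refine ⟨8 * Λ ^ 2 * (C1 * (4 * Λ + 32 * C2 * Λ ^ 2) + C1 ^ 2), by positivity,
    fun s0 s η κ g0 g H0 H H' p0 p p' i0 i a0 el a1 a2 a3 a4 a5 a6 a7 a8 a9 b1 b2 => ?_⟩
  have k0 : 0 ≤ η := (norm_nonneg _).trans a8
  have k1 : 0 ≤ κ := (norm_nonneg _).trans b1
  have k2 : ‖(g, H, H', p)‖ ≤ Λ := by simp only [Prod.norm_mk, max_le_iff]; tauto
  have d1 := hC1 ((g, H, H', p), p') ((g, H, H', p), 0)
    (by rw [Prod.norm_mk, max_le_iff]; exact ⟨k2, a8.trans a9⟩)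
    (by rw [Prod.norm_mk, max_le_iff]; exact ⟨k2, by simpa using L0.le⟩)
  simp only [chr_zero, bar_zero, Prod.mk_sub_mk, sub_self, sub_zero, Prod.norm_mk, norm_zero,
    max_eq_right (norm_nonneg p')] at d1
  have d2 := hC2 (H, p) (H0, p0) (by rw [Prod.norm_mk, max_le_iff]; exact ⟨a4, a7⟩)
    (by rw [Prod.norm_mk, max_le_iff]; exact ⟨a3, a6⟩)
  have d3 : ‖H - H0‖ ≤ 16 * Λ ^ 2 * κ := by
    rw [inv_sub i i0, norm_neg]
    refine (pi_norm_le_iff_of_nonneg (by positivity)).2 fun a =>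
      (pi_norm_le_iff_of_nonneg (by positivity)).2 fun b => ?_
    have e : up2 H (g - g0) H0 a b = ip1 (g - g0) (H a) fun j => H0 j b :=
      Finset.sum_congr rfl fun _ _ => Finset.sum_congr rfl fun _ _ => by ring
    have f1 : ‖H a‖ ≤ Λ := (norm_le_pi_norm H a).trans a4
    have f2 : ‖fun j => H0 j b‖ ≤ Λ :=
      (pi_norm_le_iff_of_nonneg L0.le).2 fun j => (abs_ent j b).trans a3
    rw [Real.norm_eq_abs, e]
    refine (abs_ip1 _ _ _).trans ?_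
    calc _ ≤ 16 * (κ * (Λ * Λ)) := by gcongr
      _ = _ := by ring
  have d4 : ‖gv H p - gv H0 p0‖ ≤ C2 * (16 * Λ ^ 2 * κ) := d2.trans (mul_le_mul_of_nonneg_left (by
    rw [Prod.mk_sub_mk, Prod.norm_mk, max_le_iff]
    exact ⟨d3, b2.trans (le_mul_of_one_le_left k1 (by nlinarith))⟩) c2)
  have d5 : ‖gv H0 p0‖ ≤ 2 * Λ * √(gau s0 H0 p0) := by
    have e1 : Λ⁻¹ * ∑ i, gv H0 p0 i ^ 2 ≤ ip1 H0 (gv H0 p0) (gv H0 p0) := by
      simpa only [ip1, mul_assoc] using el (gv H0 p0)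
    have e0 : 0 ≤ Λ⁻¹ * ∑ i, gv H0 p0 i ^ 2 := by positivity
    have e2 := mul_le_mul a0 e1 e0 ((inv_pos.2 L0).le.trans a0)
    have e3 : ∑ i, gv H0 p0 i ^ 2 ≤ (2 * Λ) ^ 2 * gau s0 H0 p0 := by
      have e4 := mul_le_mul_of_nonneg_left e2 (sq_nonneg Λ)
      rw [show Λ ^ 2 * (Λ⁻¹ * (Λ⁻¹ * ∑ i, gv H0 p0 i ^ 2)) = ∑ i, gv H0 p0 i ^ 2 by field_simp] at e4
      have e5 : 0 ≤ ∑ i, gv H0 p0 i ^ 2 := by positivity
      rw [gau]; nlinarith
    refine (norm_le_sqrt e3).trans_eq ?_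
    rw [Real.sqrt_mul (sq_nonneg _), Real.sqrt_sq (by positivity)]
  set D := gv H (bar g p (chr H' p')) - gv H p with hD
  set B := gv H p with hB
  set y := √(gau s0 H0 p0) with hy
  have y0 : 0 ≤ y := Real.sqrt_nonneg _
  have d6 : ‖D‖ ≤ C1 * η := d1.trans (mul_le_mul_of_nonneg_left a8 c1)
  have d7 : ‖B‖ ≤ (2 * Λ + 16 * C2 * Λ ^ 2) * (y + κ) := by
    have := norm_le_insert' B (gv H0 p0)
    have t1 : 0 ≤ Λ * κ := by positivity
    have t2 : 0 ≤ C2 * Λ ^ 2 * y := by positivity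
    nlinarith
  have e : gau s H (bar g p (chr H' p')) - gau s H p =
      1 / 2 * s * (ip1 H B D + ip1 H D B + ip1 H D D) := by
    rw [gau, gau, ← hB, show gv H (bar g p (chr H' p')) = B + D by rw [hD]; ring]
    simp only [ip1_add_left, ip1_add_right]
    ring
  have f1 : |ip1 H B D| ≤ 16 * (Λ * ((2 * Λ + 16 * C2 * Λ ^ 2) * (y + κ) * (C1 * η))) :=
    (abs_ip1 _ _ _).trans (by gcongr)
  have f2 : |ip1 H D B| ≤ 16 * (Λ * (C1 * η * ((2 * Λ + 16 * C2 * Λ ^ 2) * (y + κ)))) :=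
    (abs_ip1 _ _ _).trans (by gcongr)
  have f3 : |ip1 H D D| ≤ 16 * (Λ * (C1 * η * (C1 * η))) := (abs_ip1 _ _ _).trans (by gcongr)
  have f4 := (abs_add_three (ip1 H B D) (ip1 H D B) (ip1 H D D)).trans
    (add_le_add (add_le_add f1 f2) f3)
  rw [e, abs_mul, abs_mul, abs_of_pos (by norm_num : (0 : ℝ) < 1 / 2)]
  refine (mul_le_mul (mul_le_mul_of_nonneg_left a1 (by norm_num)) f4 (abs_nonneg _)
    (by positivity)).trans ?_
  have t1 : 0 ≤ Λ ^ 2 * C1 ^ 2 * (η * (y + κ)) := by positivity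
  have t2 : 0 ≤ Λ ^ 2 * (C1 * (4 * Λ + 32 * C2 * Λ ^ 2)) * η ^ 2 := by positivity
  nlinarith

/-! ### jets -/

theorem pd_le (f : E4 → ℝ) (x : E4) (m : Fin 4) : |pderiv m f x| ≤ ‖iteratedFDeriv ℝ 1 f x‖ := by
  rw [norm_iteratedFDeriv_one]
  simpa [pderiv] using (fderiv ℝ f x).le_opNorm (EuclideanSpace.single m (1 : ℝ))

theorem pd2_le {f : E4 → ℝ} {x : E4} (hf : ContDiffAt ℝ 2 f x) (c d : Fin 4) :
    |pderiv c (pderiv d f) x| ≤ ‖iteratedFDeriv ℝ 2 f x‖ := by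
  have h1 : DifferentiableAt ℝ (fderiv ℝ f) x :=
    (hf.fderiv_right (m := 1) (by norm_num)).differentiableAt one_ne_zero
  have e : pderiv c (pderiv d f) x = iteratedFDeriv ℝ 2 f x
      ![EuclideanSpace.single c 1, EuclideanSpace.single d 1] := by
    rw [iteratedFDeriv_two_apply]
    change fderiv ℝ (fun y => fderiv ℝ f y (EuclideanSpace.single d 1)) x _ = _
    rw [fderiv_clm_apply h1 (differentiableAt_const _)]
    simp
  rw [e]
  simpa using (iteratedFDeriv ℝ 2 f x).le_opNorm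
    ![EuclideanSpace.single c 1, EuclideanSpace.single d 1]

theorem n2_le {H : B2} {a : ℝ} (h : ∀ p q, |H p q| ≤ a) : ‖H‖ ≤ a :=
  have h0 := (abs_nonneg _).trans (h 0 0)
  (pi_norm_le_iff_of_nonneg h0).2 fun p => (pi_norm_le_iff_of_nonneg h0).2 fun q => h p q

theorem n3_le {H : B3} {a : ℝ} (h : ∀ c p q, |H c p q| ≤ a) : ‖H‖ ≤ a :=
  (pi_norm_le_iff_of_nonneg ((abs_nonneg _).trans (h 0 0 0))).2 fun c => n2_le (h c)

theorem n4_le {H : B4} {a : ℝ} (h : ∀ d c p q, |H d c p q| ≤ a) : ‖H‖ ≤ a :=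
  (pi_norm_le_iff_of_nonneg ((abs_nonneg _).trans (h 0 0 0 0))).2 fun c => n3_le (h c)

variable {b b' G H : MetricField 4} {x : E4}

/-- jets of `H` from the jets of `H - b`, `b` constant near `x` -/
theorem jets_le (hb : b =ᶠ[𝓝 x] fun _ => 1) (hH : C2 H x) {a : ℝ}
    (h : ∀ k ≤ 2, ∀ p q, ‖iteratedFDeriv ℝ k (fun y => (H y - b y) p q) x‖ ≤ a) :
    ‖jet H x‖ ≤ a ∧ ‖jet2 H x‖ ≤ a := by
  have e : ∀ p q, ∀ k, k ≠ 0 → k ≤ 2 → iteratedFDeriv ℝ k (fun y => (H y - b y) p q) x =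
      iteratedFDeriv ℝ k (fun y => H y p q) x := fun p q k h0 hk => by
    have e1 : (fun y => (H y - b y) p q) =ᶠ[𝓝 x]
        (fun y => H y p q) - fun _ => (1 : Matrix (Fin 4) (Fin 4) ℝ) p q :=
      hb.mono fun y hy => by simp only [Matrix.sub_apply, hy, Pi.sub_apply]
    rw [(e1.iteratedFDeriv ℝ k).eq_of_nhds, iteratedFDeriv_sub_apply
      ((hH.c2 p q).of_le (by exact_mod_cast hk)) contDiffAt_const,
      iteratedFDeriv_const_of_ne h0, Pi.zero_apply, sub_zero]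
  exact ⟨n3_le fun c p q => (pd_le _ _ c).trans (e p q 1 one_ne_zero one_le_two ▸ h 1 one_le_two p q),
    n4_le fun c d p q => (pd2_le (hH.c2 p q) c d).trans
      (e p q 2 two_ne_zero le_rfl ▸ h 2 le_rfl p q)⟩

theorem e0_nonneg (k : MetricField 4) (x : E4) : 0 ≤ e0 k x := by unfold e0; positivity

theorem e1_nonneg (k : MetricField 4) (x : E4) : 0 ≤ e1 k x := by unfold e1 Hd.g2; positivity

theorem ent_le (k : MetricField 4) (x : E4) (p q : Fin 4) : k x p q ^ 2 ≤ e0 k x :=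
  (Finset.single_le_sum (f := fun q => k x p q ^ 2) (fun _ _ => sq_nonneg _)
    (Finset.mem_univ q)).trans (Finset.single_le_sum (f := fun p => ∑ q, k x p q ^ 2)
      (fun _ _ => by positivity) (Finset.mem_univ p))

theorem jet_le (k : MetricField 4) (x : E4) (c p q : Fin 4) : jet k x c p q ^ 2 ≤ e1 k x :=
  (Finset.single_le_sum (f := fun c => pderiv c (fun y => k y p q) x ^ 2) (fun _ _ => sq_nonneg _)
    (Finset.mem_univ c)).trans ((Finset.single_le_sum (f := fun q => Hd.g2 (fun y => k y p q) x)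
      (fun _ _ => by unfold Hd.g2; positivity) (Finset.mem_univ q)).trans
    (Finset.single_le_sum (f := fun p => ∑ q, Hd.g2 (fun y => k y p q) x)
      (fun _ _ => by unfold Hd.g2; positivity) (Finset.mem_univ p)))

/-- **change of the background at a point where `b` is flat** -/
theorem ann_pt {Λ : ℝ} (hΛ : 1 ≤ Λ) : ∃ C : ℝ, 0 ≤ C ∧ ∀ (b b' G H : MetricField 4) (x : E4)
    (η : ℝ), (b =ᶠ[𝓝 x] fun _ => 1) → C2 b' x → C2 G x → C2 H x → η ≤ Λ →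
    (∀ p q, |H x p q| ≤ Λ ∧ |(H x)⁻¹ p q| ≤ Λ ∧ |(G x)⁻¹ p q| ≤ Λ ∧ |(b' x)⁻¹ p q| ≤ Λ) →
    Λ⁻¹ ≤ sq G x → |sq H x| ≤ Λ →
    (∀ ξ : Fin 4 → ℝ, Λ⁻¹ * ∑ i, ξ i ^ 2 ≤ ∑ i, ∑ j, (G x)⁻¹ i j * ξ i * ξ j) →
    (∀ k ≤ 2, ∀ p q, ‖iteratedFDeriv ℝ k (fun y => (G y - b y) p q) x‖ ≤ Λ ∧
      ‖iteratedFDeriv ℝ k (fun y => (H y - b y) p q) x‖ ≤ Λ ∧
      ‖iteratedFDeriv ℝ k (fun y => (b' y - b y) p q) x‖ ≤ η) →
    (∀ p q, |redT b H x ![p, q] - redT b' H x ![p, q]| ≤ C * η) ∧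
    |gau (sq H x) (iv H x) (TG b' H x) - gau (sq H x) (iv H x) (TG b H x)| ≤
      C * (η * (√(gau (sq G x) (iv G x) (TG b G x)) + √(e1 (G - H) x + e0 (G - H) x)) + η ^ 2) := by
  obtain ⟨C1, c1, h1⟩ := red_bg Λ
  obtain ⟨C2, c2, h2⟩ := gau_bg hΛ
  refine ⟨C1 + C2, by positivity, fun b b' G H x η hb k' kG kH a1 a2 a3 a4 a5 a6 => ?_⟩
  obtain ⟨j1, j2⟩ := jets_le hb kH fun k hk p q => (a6 k hk p q).2.1
  obtain ⟨j3, -⟩ := jets_le hb kG fun k hk p q => (a6 k hk p q).1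
  obtain ⟨j4, j5⟩ := jets_le hb k' fun k hk p q => (a6 k hk p q).2.2
  have η0 : 0 ≤ η := (norm_nonneg _).trans j4
  have t : ∀ K : MetricField 4, TG b K x = jet K x := fun K =>
    (TG_congr hb EventuallyEq.rfl).eq_of_nhds.trans (TG_const _ K x)
  have n1 : ‖(fun p q => H x p q : B2)‖ ≤ Λ := n2_le fun p q => (a2 p q).1
  have n2 : ‖iv H x‖ ≤ Λ := n2_le fun p q => (a2 p q).2.1
  have n3 : ‖iv G x‖ ≤ Λ := n2_le fun p q => (a2 p q).2.2.1
  have n4 : ‖iv b' x‖ ≤ Λ := n2_le fun p q => (a2 p q).2.2.2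
  refine ⟨fun p q => ?_, ?_⟩
  · have r1 := k'.redT_raw kH
    have r2 := (c2_one x).redT_raw kH
    have z1 : jet2 (fun _ => 1 : MetricField 4) x = 0 := by
      funext c d p q; simp only [jet2, jet_const]; exact pd_const c _
    rw [jet_const, z1, chr_zero, dG2_zero, ← (redT_congr hb EventuallyEq.rfl).eq_of_nhds] at r2
    have := (abs_ent p q).trans (h1 _ _ _ _ _ _ _ η n1 n2 n4 j1 j2 j4 j5 a1)
    change |redR (H x) _ _ _ 0 0 p q - redR (H x) _ _ _ _ _ p q| ≤ _ at this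
    rw [← r1, ← r2] at this
    exact this.trans (by nlinarith)
  · have s0 := e0_nonneg (G - H) x
    have s1 := e1_nonneg (G - H) x
    have := h2 (sq G x) (sq H x) η (√(e1 (G - H) x + e0 (G - H) x)) (G x) (H x) _ _ _ _ _ _
      kG.iv_inv kH.iv_inv a3 a5 a4 n1 n3 n2 n4 j3 j1 j4 a1
      (n2_le fun p q => by
        rw [← abs_neg]
        refine Real.abs_le_sqrt (le_trans (le_of_eq ?_) ((ent_le (G - H) x p q).trans (by linarith)))
        change (-(H x p q - G x p q)) ^ 2 = (G x p q - H x p q) ^ 2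
        ring)
      (by
        rw [norm_sub_rev, ← jet_sub kG.d kH.d]
        exact n3_le fun c p q => Real.abs_le_sqrt ((jet_le (G - H) x c p q).trans (by linarith)))
    rw [t, t, TG_eq, chr_eq]
    exact this.trans (mul_le_mul_of_nonneg_right (by linarith) (by positivity))

end Crest.Agent.N207.NS.Gs

end
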