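import Crest.Agent.N207.I.Cal5

/-!
# Row 207, leaf INT (helper17), part 1: measurability of compatible families
-/

set_option autoImplicit false

open scoped ContDiff
open Set Filter Topology MeasureTheory
open Crest.GeometryTopology.CoordMetric

noncomputable section

namespace Crest.Agent.N207.I.Atl

variable {X X' : Type*} {α α' : Type} {A : Atl X α} {A' : Atl X' α'}

theorem aesm_of_loc {U : Set E4} {g : E4 → ℝ}
    (hg : ∀ x ∈ U, ∃ V ∈ 𝓝 x, AEStronglyMeasurable g (volume.restrict V)) :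
    AEStronglyMeasurable g (volume.restrict U) := by
  choose! V hV hm using hg
  obtain ⟨s, hs, hc, hU⟩ := TopologicalSpace.countable_cover_nhdsWithin (s := U) (f := V)
    fun x hx => mem_nhdsWithin_of_mem_nhds (hV x hx)
  have := hc.to_subtype
  refine AEStronglyMeasurable.mono_measure (μ := volume.restrict (⋃ x : s, V x)) ?_
    (Measure.restrict_mono (by simpa using hU) le_rfl)
  exact aestronglyMeasurable_iUnion_iff.2 fun x => hm x (hs x.2)

theorem Tr.aesm (h : A.Ok) {a b : α} {x : E4} {F : E4 → E4} (t : A.Tr a b x F) {g : E4 → ℝ}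
    {W : Set E4} (hW : W ∈ 𝓝 (F x)) (hg : AEStronglyMeasurable g (volume.restrict W)) :
    ∃ V ∈ 𝓝 x, AEStronglyMeasurable (fun z => g (F z)) (volume.restrict V) := by
  obtain ⟨F', t', -, e⟩ := t.exists_inv h
  obtain ⟨W', hW', hWo, hx'⟩ := mem_nhds_iff.1 hW
  obtain ⟨V, hV, hVo, hx⟩ := eventually_nhds_iff.1 ((e.and (t.ev h)).and
    ((t.cont.eventually (hWo.mem_nhds hx')).and (t.cont.eventually (t'.ev h))))
  refine ⟨V, hVo.mem_nhds hx, ?_⟩
  obtain ⟨g', hg', eg⟩ := hg.mono_measure (Measure.restrict_mono hW' le_rfl)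
  have hF : AEMeasurable F (volume.restrict V) :=
    ContinuousOn.aemeasurable (fun z hz => (hV z hz).1.2.cont.continuousWithinAt) hVo.measurableSet
  refine (hg'.measurable.comp_aemeasurable hF).aestronglyMeasurable.congr ?_
  rw [EventuallyEq, ae_restrict_iff' hWo.measurableSet, ae_iff] at eg
  rw [EventuallyEq, ae_restrict_iff' hVo.measurableSet, ae_iff]
  have h0 := addHaar_image_eq_zero_of_differentiableOn_of_addHaar_eq_zero volume (f := F')
    (s := {y | ¬ (y ∈ W' → g y = g' y)} ∩ F '' V) (by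
      rintro _ ⟨-, z, hz, rfl⟩
      exact (hV z hz).2.2.diff.differentiableWithinAt) (measure_mono_null inter_subset_left eg)
  refine measure_mono_null (fun z hz => ?_) h0
  obtain ⟨h1, h2⟩ := Classical.not_imp.1 hz
  exact ⟨F z, ⟨fun k => h2 (k (hV z h1).2.1).symm, z, h1, rfl⟩, (hV z h1).1.1⟩

theorem ms_of_intg [Fintype α] {χ : α → X → ℝ} {K : α → Set E4} {G : α → MetricField 4}
    {f : α → E4 → ℝ} (h : A.Ok) (hG : A.IsMet G) (hχ : A.PoU χ K) (hc : A.CompF f)
    (hi : A.Intg χ G f) : A.Ms f := fun a => aesm_of_loc fun x hx => by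
  obtain ⟨s, -, hs⟩ := Finset.exists_ne_zero_of_sum_ne_zero ((hχ.sum a x hx).trans_ne one_ne_zero)
  obtain ⟨z, hz, ez⟩ := hχ.supp s a x hx hs
  have hz' := hχ.sub s hz
  obtain ⟨F, t, rfl⟩ := h.loc a s x hx z hz' ez.symm
  have hd := (sm_den hG hχ s).continuousOn
  have h0 : A.den χ G s (F x) ≠ 0 := by
    refine mul_ne_zero (inv_ne_zero (card_pos h s).ne') (mul_ne_zero (ez ▸ hs) ?_)
    exact (Real.sqrt_pos.2 ((hG.riem s).posDef _ hz').det_pos).ne'
  obtain ⟨W, hW, hWo, hx'⟩ := eventually_nhds_iff.1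
    (((hd.continuousAt ((h.isOpen s).mem_nhds hz')).eventually_ne h0).and
      ((h.isOpen s).eventually_mem hz'))
  have hs' : W ⊆ A.U s := fun y hy => (hW y hy).2
  have m1 : AEStronglyMeasurable (f s) (volume.restrict W) := by
    have m2 := ((hi s).mono_set hs').aestronglyMeasurable.mul
      (((hd.mono hs').inv₀ fun y hy => (hW y hy).1).aestronglyMeasurable hWo.measurableSet)
    refine m2.congr ((ae_restrict_iff' hWo.measurableSet).2 (Eventually.of_forall fun y hy => ?_))
    have := (hW y hy).1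
    simp only [Pi.mul_apply, Pi.inv_apply]
    field_simp
  obtain ⟨V, hV, m3⟩ := t.aesm h (hWo.mem_nhds hx') m1
  obtain ⟨V', hV', hVo, hx2⟩ := eventually_nhds_iff.1 ((t.ev h).and hV)
  refine ⟨V', hVo.mem_nhds hx2, (m3.mono_measure (Measure.restrict_mono (fun y hy => (hV' y hy).2)
    le_rfl)).congr ((ae_restrict_iff' hVo.measurableSet).2 (Eventually.of_forall fun y hy => ?_))⟩
  exact (hc.tr (hV' y hy).1).symm

theorem Mor.ms {j : α → α'} {u : α → E4 → E4} (m : Mor A A' j u) (h : A.Ok) (h' : A'.Ok)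
    (hi : MInj A A' j u) {f : α' → E4 → ℝ} (hf : A'.Ms f) : A.Ms fun a x => f (j a) (u a x) :=
  fun a => aesm_of_loc fun x hx =>
    Tr.aesm (m.uni_ok h h' hi) (a := Sum.inl a) (b := Sum.inr (j a)) (F := u a)
      ⟨hx, m.maps a x hx, ((h.isOpen a).eventually_mem hx).mono fun _ hz => m.cda h hz,
        Eventually.of_forall fun _ => rfl⟩ ((h'.isOpen _).mem_nhds (m.maps a x hx)) (hf (j a))

/-- invariance of the integral under a diffeomorphism, without measurability hypotheses -/
theorem Mor.int_eq' [Fintype α] [Fintype α'] {j : α → α'} {u : α → E4 → E4} (m : Mor A A' j u)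
    (h : A.Ok) (h' : A'.Ok) (hi : MInj A A' j u) {G : α → MetricField 4} {G' : α' → MetricField 4}
    (hG' : A'.IsMet G') (e : PM A j u G G') {χ : α → X → ℝ} {K : α → Set E4} {χ' : α' → X' → ℝ}
    {K' : α' → Set E4} (hχ : A.PoU χ K) (hχ' : A'.PoU χ' K') {f : α' → E4 → ℝ} (hf : A'.CompF f)
    (ho : ∀ b, ∀ y ∈ A'.U b, A'.c b y ∈ img A A' j u) (hI : A'.Intg χ' G' f) :
    A.Intg χ G (fun a x => f (j a) (u a x)) ∧
      A.int χ G (fun a x => f (j a) (u a x)) = A'.int χ' G' f := by
  have hm := ms_of_intg h' hG' hχ' hf hI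
  have := m.int_eq h h' hi hG' e hχ hχ' hf (m.ms h h' hi hm) hm fun b y hy _ => ho b y hy
  exact ⟨this.1.2 hI, this.2 hI⟩

end Crest.Agent.N207.I.Atl

end
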