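import Crest.Agent.N207.N.St
import Crest.Agent.N207.K.Kl4

/-!
# Row 207, block N (helper1): `KL` from `SRC` and the coercivity of good families
-/

set_option autoImplicit false

open Crest.Agent.N207.I Crest.Agent.N207.CB

namespace Crest.Agent.N207.NS

variable {M : Type*} {T : TD M} {g : T.V → Fam T}

theorem kl_sc (h : Std T g) (hS : ∀ σ : ℝ, 0 < σ → σ < 1 → K.SRC T g σ)
    (hc : ∀ σ : ℝ, 0 < σ → σ < 1 → ∃ c0 : ℝ, ∀ c, c0 ≤ c → ∃ η0 : ℝ, 0 < η0 ∧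
      ∀ (κ : T.V → Type) [∀ v, Fintype (κ v)] [∀ v, DecidableEq (κ v)] (ψ : ∀ v, κ v → Fam T)
        (η C : ℝ), η ≤ η0 → Good T g κ ψ c η C → K.COER T g κ ψ σ) : KL T g := fun σ h0 h1 => by
  obtain ⟨c0, hc⟩ := hc σ h0 h1
  refine ⟨c0, fun c hc0 => (hc c hc0).imp fun η0 hη => ⟨hη.1, fun κ _ _ ψ η C e G => ?_⟩⟩
  refine K.klin' h.ok h.lim one_half_pos h0 h1 (hS σ h0 h1) G.eig (fun v => ?_)
    (hη.2 κ ψ η C e G)
  exact (G.dual v).imp fun A hA i j => by convert hA i j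

end Crest.Agent.N207.NS
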