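import Crest.Agent.N207.N.Cmp1
import Crest.Agent.N207.N.Gr2
import Crest.Agent.N207.N.Thb

/-!
# Row 207, block N (helper32): the multipliers in `CMP`, tools
-/

set_option autoImplicit false

open scoped ContDiff Topology
open Metric Set Filter MeasureTheory
open Crest.GeometryTopology.CoordMetric
open Crest.Agent.N207.I Crest.Agent.N207.Lg Crest.Agent.N207.CB Crest.Agent.N207.NS.Cp

noncomputable section

namespace Crest.Agent.N207.NS.Mu

/-- the difference of the reduced Ricci tensors -/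
def DD (b g1 g2 : MetricField 4) (x : E4) : Matrix (Fin 4) (Fin 4) ℝ :=
  Matrix.of fun p q => redT b g1 x ![p, q] - redT b g2 x ![p, q]

/-- the divergence that is added -/
def GG (φ : E4 → ℝ) (b g k t : MetricField 4) (x : E4) : ℝ :=
  φ x * prl b t x (Lq g k x) + φ x * Bq b g k t x + Dq (fun a y => φ y * c6 b g a y) k t x

/-- bounds for a metric and its 2-jet -/
def MJ (Λ r : ℝ) (H : MetricField 4) (x : E4) : Prop :=
  Mb Λ H x ∧ ∀ k ≤ 2, ∀ p q, r ^ k * ‖iteratedFDeriv ℝ k (fun y => H y p q) x‖ ≤ Λ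

theorem pt_bd (hco : CO) (hdif : DIF) (Λ X : ℝ) (hX : 0 ≤ X) : ∃ K0 : ℝ, 0 ≤ K0 ∧
    ∀ (U : Set E4) (b0 b g1 g2 Z F : MetricField 4) (φ : E4 → ℝ) (x : E4) (r P : ℝ),
      IsRiemannianOn b0 U → IsRiemannianOn b U → IsRiemannianOn g1 U → IsRiemannianOn g2 U →
      x ∈ U → 0 < r → DifferentiableAt ℝ φ x → MJ Λ r b0 x → MJ Λ r b x → MJ Λ r g1 x →
      MJ Λ r g2 x → √(e0 Z x) ≤ P → r * √(e1 Z x) ≤ P → 0 ≤ φ x → φ x ≤ 1 →
      r * ‖fderiv ℝ φ x‖ ≤ X →
      |φ x * prl b0 Z x (DD b g1 g2 x - F x) + 1 / 2 * GG φ b0 g1 (g1 - g2) Z x| ≤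
        K0 * P * (√(e1 (g1 - g2) x) / r + √(e0 (g1 - g2) x) / r ^ 2 + φ x * √(e0 F x)) := by
  obtain ⟨C1, C10, h1, -⟩ := hco Λ
  obtain ⟨C2, C20, h2⟩ := hdif Λ
  refine ⟨256 * (|Λ| ^ 3 * (C2 * √Λ + 1)) + 4096 * Λ ^ 4 + 4096 * (X * Λ ^ 4 + C1 * |Λ|),
    by positivity, fun U b0 b g1 g2 Z F φ x r P r0 rb r1 r2 hx hr dφ m0 mb m1 m2 z0 z1 φ0 φ1 φd => ?_⟩
  have Λ1 := m0.1.one
  rw [abs_of_nonneg (by linarith : 0 ≤ Λ)]
  have P0 : 0 ≤ P := (Real.sqrt_nonneg _).trans z0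
  set u := √(e1 (g1 - g2) x) / r with hu
  set w := √(e0 (g1 - g2) x) / r ^ 2
  set f := √(e0 F x)
  have u0 : 0 ≤ u := by positivity
  have w0 : 0 ≤ w := by positivity
  have f0 : 0 ≤ f := Real.sqrt_nonneg _
  have j1 : ∀ {H}, MJ Λ r H x → ∀ p q, r * ‖iteratedFDeriv ℝ 1 (fun y => H y p q) x‖ ≤ Λ :=
    fun h p q => by simpa only [pow_one] using h.2 1 one_le_two p q
  have a1 := m0.1.prl (t := Z) (X := DD b g1 g2 x + (1 / 2 : ℝ) • Lq g1 (g1 - g2) x)
    (P := C2 * √Λ * (u + w)) fun p q => h2 U b g1 g2 x r Λ rb r1 r2 hx hr (by linarith) le_rfl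
      (fun H hH p q => by
        have : MJ Λ r H x := by
          simp only [List.mem_cons, List.not_mem_nil, or_false] at hH
          rcases hH with rfl | rfl | rfl <;> assumption
        exact ⟨(this.1.bd p q).1, (this.1.bd p q).2, j1 this p q, this.2 2 le_rfl p q⟩) p q
  have a2 := m0.1.prl (t := Z) (X := F x) (P := f) fun p q => Cp.abs_le_e0 p q
  have a3 := m0.1.Bq (k := g1 - g2) (t := Z) m1.1
  have a4 := Dq_le (c := fun a y => φ y * c6 b0 g1 a y) (k := g1 - g2) (t := Z) (x := x)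
    (B := (X * Λ ^ 4 + C1 * Λ) / r) fun a i => by
      rw [N.pd_mul dφ (dAt (sm_c6 r0 r1 a) r0.isOpen hx), le_div_iff₀' hr]
      have b1 := h1 U b0 g1 x r Λ r0 r1 hx hr (fun H hH p q => by
        have : MJ Λ r H x := by
          simp only [List.mem_cons, List.not_mem_nil, or_false] at hH
          rcases hH with rfl | rfl <;> assumption
        exact ⟨(this.1.bd p q).1, (this.1.bd p q).2, j1 this p q⟩) i a.2.2.2.2.1 a.2.2.2.2.2 a.1
          a.2.2.1 a.2.1 a.2.2.2.1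
      have b2 := (mul_le_mul_of_nonneg_left (abs_pd φ x i) hr.le).trans φd
      have b3 := mul_le_mul b2 (m0.1.c6 m1.1 a) (abs_nonneg _) hX
      have b4 := mul_le_mul φ1 b1 (by positivity) zero_le_one
      refine (mul_le_mul_of_nonneg_left (abs_add_le _ _) hr.le).trans ?_
      rw [abs_mul, abs_mul, abs_of_nonneg φ0]
      unfold c6 at b3 ⊢
      linarith
  have e : φ x * prl b0 Z x (DD b g1 g2 x - F x) + 1 / 2 * GG φ b0 g1 (g1 - g2) Z x =
      φ x * prl b0 Z x (DD b g1 g2 x + (1 / 2 : ℝ) • Lq g1 (g1 - g2) x) - φ x * prl b0 Z x (F x) +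
        1 / 2 * (φ x * Bq b0 g1 (g1 - g2) Z x) +
        1 / 2 * Dq (fun a y => φ y * c6 b0 g1 a y) (g1 - g2) Z x := by
    simp only [GG, map_sub, map_add, map_smul, smul_eq_mul]; ring
  have c1 : |φ x * prl b0 Z x (DD b g1 g2 x + (1 / 2 : ℝ) • Lq g1 (g1 - g2) x)| ≤
      256 * (Λ ^ 3 * (C2 * √Λ)) * P * (u + w) := by
    rw [abs_mul, abs_of_nonneg φ0]
    refine (mul_le_of_le_one_left (abs_nonneg _) φ1).trans (a1.trans ?_)
    calc _ ≤ 256 * (Λ ^ 3 * (C2 * √Λ * (u + w)) * P) := by gcongr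
      _ = _ := by ring
  have c2 : |φ x * prl b0 Z x (F x)| ≤ 256 * Λ ^ 3 * P * (φ x * f) := by
    rw [abs_mul, abs_of_nonneg φ0]
    calc _ ≤ φ x * (256 * (Λ ^ 3 * f * P)) := by
          refine mul_le_mul_of_nonneg_left (a2.trans ?_) φ0; gcongr
      _ = _ := by ring
  have c3 : |φ x * Bq b0 g1 (g1 - g2) Z x| ≤ 4096 * Λ ^ 4 * P * u := by
    rw [abs_mul, abs_of_nonneg φ0]
    refine (mul_le_of_le_one_left (abs_nonneg _) φ1).trans (a3.trans ?_)
    calc _ = 4096 * Λ ^ 4 * (r * √(e1 Z x)) * u := by rw [hu]; field_simp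
      _ ≤ _ := by gcongr
  have c4 : |Dq (fun a y => φ y * c6 b0 g1 a y) (g1 - g2) Z x| ≤
      4096 * (X * Λ ^ 4 + C1 * Λ) * P * u := by
    refine a4.trans ?_
    calc _ = 4096 * (X * Λ ^ 4 + C1 * Λ) * √(e0 Z x) * u := by rw [hu]; field_simp
      _ ≤ _ := by gcongr
  have q1 : 0 ≤ 256 * (Λ ^ 3 * (C2 * √Λ)) * P := by positivity
  have q2 : 0 ≤ 256 * Λ ^ 3 * P := by positivity
  have q3 : 0 ≤ 4096 * Λ ^ 4 * P := by positivity
  have q4 : 0 ≤ 4096 * (X * Λ ^ 4 + C1 * Λ) * P := by positivity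
  have v0 : 0 ≤ φ x * f := by positivity
  rw [e, abs_le]
  rw [abs_le] at c1 c2 c3 c4
  constructor <;> nlinarith [mul_nonneg q1 v0, mul_nonneg q2 u0, mul_nonneg q2 w0, mul_nonneg q3 u0,
    mul_nonneg q3 w0, mul_nonneg q3 v0, mul_nonneg q4 u0, mul_nonneg q4 w0, mul_nonneg q4 v0]

theorem GG_zero {φ : E4 → ℝ} {b g k t : MetricField 4} {x : E4}
    (h : φ =ᶠ[𝓝 x] (fun _ => 0) ∨ t =ᶠ[𝓝 x] fun _ => 0) : GG φ b g k t x = 0 := by
  rcases h with h | h
  · have : ∀ a i, pderiv i (fun y => φ y * c6 b g a y) x = 0 := fun a i => by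
      rw [pd_congr i (g := fun _ => 0) (h.mono fun y hy => by simp [hy]), pd_const]
    simp [GG, Dq, this, h.self_of_nhds]
  · have : ∀ a i, pderiv i (t6 t a) x = 0 := fun a i => by
      rw [pd_congr i (g := fun _ => 0) (h.mono fun y hy => by simp [t6, hy]), pd_const]
    simp [GG, Dq, Bq, this, prl_eq, t6, h.self_of_nhds]

theorem GG_eq (φ : E4 → ℝ) (b g k t : MetricField 4) (x : E4) : GG φ b g k t x =
    ∑ a, φ x * c6 b g a x * pderiv a.2.2.2.2.1 (s6 k a) x * t6 t a x +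
      ∑ a, φ x * c6 b g a x * s6 k a x * pderiv a.2.2.2.2.1 (t6 t a) x +
        Dq (fun a y => φ y * c6 b g a y) k t x := by
  simp only [GG, prl_Lq, Bq, Finset.mul_sum, mul_assoc]

theorem GG_cont {U : Set E4} {φ : E4 → ℝ} {b g k t : MetricField 4} (hb : IsRiemannianOn b U)
    (hg : IsRiemannianOn g U) (hφ : ContDiffOn ℝ ∞ φ U)
    (hk : ∀ p q, ContDiffOn ℝ ∞ (fun y => k y p q) U)
    (ht : ∀ p q, ContDiffOn ℝ ∞ (fun y => t y p q) U) : ContinuousOn (GG φ b g k t) U := by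
  have c := fun a => hφ.mul (sm_c6 hb hg a)
  have s : ∀ a, ContDiffOn ℝ ∞ (s6 k a) U := fun a => sm_pd hb.isOpen (hk _ _) _
  have t' : ∀ a, ContDiffOn ℝ ∞ (t6 t a) U := fun a => ht _ _
  refine ContinuousOn.congr (ContDiffOn.continuousOn (n := ∞) (𝕜 := ℝ) ?_) fun x _ => GG_eq ..
  exact ((ContDiffOn.sum fun a _ => ((c a).mul (sm_pd hb.isOpen (s a) _)).mul (t' a)).add
    (ContDiffOn.sum fun a _ => ((c a).mul (s a)).mul (sm_pd hb.isOpen (t' a) _))).add
    (ContDiffOn.sum fun a _ => ((sm_pd hb.isOpen (c a) _).mul (s a)).mul (t' a))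

theorem int_bd {U K S : Set E4} (hU : MeasurableSet U) (hK : MeasurableSet K) (hS : MeasurableSet S)
    {G f f' : E4 → ℝ} {a : ℝ} (hf : IntegrableOn f K) (hf' : IntegrableOn f' U)
    (hi : IntegrableOn (fun _ => (1 : ℝ)) S) (f0 : ∀ x, 0 ≤ f x) (f1 : ∀ x ∈ U, 0 ≤ f' x)
    (ha : 0 ≤ a) (hSK : S ⊆ K) (h1 : ∀ x ∈ U, x ∈ S → |G x| ≤ f x + f' x + a)
    (h0 : ∀ x ∈ U, x ∉ S → G x = 0) :
    |∫ x in U, G x| ≤ (∫ x in K, f x) + (∫ x in U, f' x) + a * (volume S).toReal := by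
  have i1 := (integrable_indicator_iff hK).2 hf
  have i3 := (integrable_indicator_iff hS).2 (hi.const_mul a)
  have := norm_integral_le_of_norm_le (μ := volume.restrict U) (f := G)
    ((i1.integrableOn.add hf').add i3.integrableOn)
    ((ae_restrict_iff' hU).2 (Eventually.of_forall fun x hx => by
      simp only [Pi.add_apply]
      by_cases e : x ∈ S
      · rw [indicator_of_mem (hSK e), indicator_of_mem e, mul_one]; exact h1 x hx e
      · rw [h0 x hx e, norm_zero, indicator_of_notMem e, add_zero]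
        exact add_nonneg (indicator_nonneg (fun y _ => f0 y) x) (f1 x hx)))
  refine this.trans ?_
  rw [integral_add' (i1.integrableOn.add hf') i3.integrableOn, integral_add' i1.integrableOn hf']
  refine add_le_add (add_le_add ?_ le_rfl) ?_
  · rw [← integral_indicator hK]
    exact setIntegral_le_integral i1 (Eventually.of_forall (indicator_nonneg fun y _ => f0 y))
  · refine (setIntegral_le_integral i3 (Eventually.of_forall
      (indicator_nonneg fun y _ => by positivity))).trans_eq ?_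
    rw [integral_indicator hS]
    simp [Measure.real, mul_comm]

variable {M : Type*} {T : TD M} {L : T.V → ℝ} {g : T.V → Fam T}

theorem ev_not {v : T.V} {d : ℝ} {s : T.S} {x : E4} (hx : x ∈ U1 T L s) (h : ¬ InK T L v d s x) :
    ∀ᶠ y in 𝓝 x, ¬ InK T L v d s y := by
  rcases s with a | w
  · exact Eventually.of_forall fun _ => h
  · have x0 : ‖x‖ ≠ 0 := ne_of_gt (lt_trans (by norm_num) hx.1)
    have c1 : ContinuousAt (fun y : E4 => Real.log ‖y‖) x := continuous_norm.continuousAt.log x0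
    have c2 : ContinuousAt (fun y : E4 => -Real.log ‖Real.exp (-L w) • y‖) x :=
      ((continuous_const_smul _).norm.continuousAt.log (by
        rw [norm_smul]; exact mul_ne_zero (norm_ne_zero_iff.2 (Real.exp_pos _).ne') x0)).neg
    simp only [InK, Sum.elim_inr, not_or, not_and, not_le] at h ⊢
    refine Eventually.and ?_ ?_
    · by_cases e : w = v
      · exact (c1.eventually (lt_mem_nhds (h.1 e))).mono fun _ k _ => k
      · exact Eventually.of_forall fun _ k => absurd k e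
    · by_cases e : T.kid v w
      · exact (c2.eventually (lt_mem_nhds (h.2 e))).mono fun _ k _ => k
      · exact Eventually.of_forall fun _ k => absurd k e

theorem intOn (c : Ch T L) {v : T.V} {d : ℝ} {s : T.S} {f : E4 → ℝ}
    (hf : ContinuousOn f (U1 T L s))
    (hz : ∀ x ∈ U1 T L s, x ∉ T.gK L s ∩ {x | InK T L v d s x} → f x = 0) :
    IntegrableOn f (U1 T L s) := by
  obtain ⟨K, hK, h1, h2⟩ : ∃ K, IsCompact K ∧ K ⊆ U1 T L s ∧
      ∀ x ∈ K1 T L s, InK T L v d s x → x ∈ K := by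
    by_cases hs : s = Sum.inr T.root
    · refine ⟨closedBall 0 (Real.exp d) ∩ K1 T L s,
        (isCompact_closedBall _ _).inter_right (c.cl_K1 s), inter_subset_right.trans (c.K1_U1 s),
        fun x hx hi => ⟨?_, hx⟩⟩
      subst hs
      have h0 : 0 < ‖x‖ := lt_of_lt_of_le (by norm_num) hx.1
      rcases hi with hi | hi
      · exact mem_closedBall_zero_iff.2 ((Real.log_le_iff_le_exp h0).1 hi.2)
      · exact absurd rfl hi.1.1
    · exact ⟨_, c.cpt s hs, c.K1_U1 s, fun _ h _ => h⟩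
  exact ((hf.mono h1).integrableOn_compact hK).of_forall_sdiff_eq_zero (c.op1 s).measurableSet
    fun x hx => hz x hx.1 fun k => hx.2 (h2 x (c.gK_K1 s k.1) k.2)

/-- uniform bounds for admissible metrics -/
theorem adm_pack (hE : ELL T g) (hG : GB T g) : ∃ δ Λ T1 : ℝ, 0 < δ ∧ ∀ T0, T1 ≤ T0 → ∀ L,
    Lng T (2 * T0 + T1) L → Ch T L → (T.glob L).IsMet (rt T L (gbL T g T0 L)) ∧
      ∀ H, Adm T g T0 L δ H → ∀ s, ∀ x ∈ U1 T L s, MJ Λ (scl T s x) (H s) x := by
  obtain ⟨δ, Λ, TE, δ0, Λ1, hE⟩ := hE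
  obtain ⟨TG, hG⟩ := hG
  obtain ⟨CG, hG⟩ := hG 0
  refine ⟨min δ 1, Λ + 1, max TE TG, lt_min δ0 one_pos, fun T0 hT0 L hL c => ?_⟩
  have hE := hE T0 (le_of_max_le_left hT0) L (hL.mono (by gcongr; exact le_max_left _ _))
  have hM := ((hG T0 (le_of_max_le_right hT0)).2 L (hL.mono (by gcongr; exact le_max_right _ _))).2.1
  have hG := riem_of_rt hM
  refine ⟨hM, fun H hH s x hx => ?_⟩
  have p := (hH.met.riem s).posDef x hx
  have el := hE H s x (c.U1_W1 s hx) p fun p q => (hH.near.val hx p q).trans (min_le_left _ _)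
  have l : (Λ + 1)⁻¹ ≤ Λ⁻¹ := inv_anti₀ (by linarith) (by linarith)
  refine ⟨⟨by linarith, p, fun p q => ⟨(el.1 p q).1.trans (by linarith), (el.1 p q).2.trans (by linarith)⟩,
    l.trans el.2.1, el.2.2.1.trans (by linarith), fun ξ => le_trans
      (mul_le_mul_of_nonneg_right l (by positivity)) (el.2.2.2.1 ξ)⟩, fun k hk a b => ?_⟩
  have c1 := ((hH.met.riem s).contDiffOn a b).contDiffAt ((c.op1 s).mem_nhds hx)
  have c2 := ((hG s).contDiffOn a b).contDiffAt ((hG s).isOpen.mem_nhds (c.U1_U s hx))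
  have a1 := (hH.near s x hx k hk a b).trans (min_le_right _ _)
  have a2 := el.2.2.2.2 k (by omega) a b
  simp only [Matrix.sub_apply] at a1
  rw [fun_iteratedFDeriv_sub_apply (c1.of_le (by exact_mod_cast le_top))
    (c2.of_le (by exact_mod_cast le_top))] at a1
  have := mul_le_mul_of_nonneg_left (norm_le_insert' (iteratedFDeriv ℝ k (fun y => H s y a b) x)
    (iteratedFDeriv ℝ k (fun y => gbL T g T0 L s y a b) x))
    (pow_nonneg (zero_le_one.trans (c.cell s x (c.U1_W1 s hx)).1) k)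
  linarith

end Crest.Agent.N207.NS.Mu

end
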