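import Crest.Agent.N207.N.St4
import Crest.Agent.N207.N.Gr2
import Crest.Agent.N207.N.Har
import Crest.Agent.N207.N.Mul
import Crest.Agent.N207.K.Ins3

/-!
# Row 207, block N (helper47): the leaf `PERT`
-/

set_option autoImplicit false

open scoped ContDiff Topology
open Metric Set Filter MeasureTheory
open Crest.GeometryTopology.CoordMetric
open Crest.Agent.N207.I Crest.Agent.N207.Lg Crest.Agent.N207.CB

noncomputable section

namespace Crest.Agent.N207.NS

namespace Pe

theorem sum4 {f : Fin 4 → ℝ} {c : ℝ} (h : ∀ i, |f i| ≤ c) : |∑ i, f i| ≤ 4 * c :=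
  (Finset.abs_sum_le_sum_abs _ _).trans ((Finset.sum_le_sum fun i _ => h i).trans (by simp))

theorem prd_sub {b b' X X' t : MetricField 4} {x : E4} {Λ C δ P : ℝ} (hb : BdP Λ b x)
    (hC : ∀ p q p' q', |sq b x * (b x)⁻¹ p p' * (b x)⁻¹ q q' -
      sq b' x * (b' x)⁻¹ p p' * (b' x)⁻¹ q q'| ≤ C * δ)
    (hX : ∀ p q, |X x p q - X' x p q| ≤ δ ∧ |X' x p q| ≤ P) :
    |prd b X t x - prd b' X' t x| ≤ 256 * ((Λ ^ 3 * δ + C * δ * P) * √(e0 t x)) := by
  have l0 : 0 ≤ Λ := (abs_nonneg _).trans (hb.ent 0 0).1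
  have key : ∀ p p' q q', |sq b x * ((b x)⁻¹ p p' * (b x)⁻¹ q q' * (X x p q * t x p' q')) -
      sq b' x * ((b' x)⁻¹ p p' * (b' x)⁻¹ q q' * (X' x p q * t x p' q'))| ≤
      (Λ ^ 3 * δ + C * δ * P) * √(e0 t x) := fun p p' q q' => by
    have a1 : |sq b x * (b x)⁻¹ p p' * (b x)⁻¹ q q'| ≤ Λ * Λ * Λ := by
      rw [abs_mul, abs_mul, abs_of_nonneg (show 0 ≤ sq b x from Real.sqrt_nonneg _)]
      exact mul_le_mul (mul_le_mul hb.hi (hb.ent _ _).2 (abs_nonneg _) l0) (hb.ent _ _).2
        (abs_nonneg _) (by positivity)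
    have a2 := mul_le_mul a1 (hX p q).1 (abs_nonneg _) (by positivity)
    have a3 := mul_le_mul (hC p q p' q') (hX p q).2 (abs_nonneg _)
      ((abs_nonneg _).trans (hC p q p' q'))
    rw [← abs_mul] at a2 a3
    have a4 := (abs_add_le _ _).trans (add_le_add a2 a3)
    have a5 := mul_le_mul a4 (abs_le_e0 t x p' q') (abs_nonneg _) ((abs_nonneg _).trans a4)
    rw [← abs_mul] at a5
    exact (congrArg _ (by ring)).trans_le (a5.trans_eq (by ring))
  simp only [prd, ip, ipA_two, Finset.mul_sum, ← Finset.sum_sub_distrib]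
  exact (sum4 fun p => sum4 fun p' => sum4 fun q => sum4 fun q' => key p p' q q').trans_eq
    (by ring)

variable {M : Type*} {T : TD M} {L : T.V → ℝ}

theorem abs_le_intL (c : Ch T L) {f f' : T.S → E4 → ℝ} (h : IntL T L f) (h' : IntL T L f')
    (e : ∀ s, ∀ x ∈ U1 T L s, |f s x| ≤ f' s x) : |intL T L f| ≤ intL T L f' := by
  refine abs_le.2 ⟨?_, c.intL_mono h h' fun s x hx => (abs_le.1 (e s x hx)).2⟩
  rw [← neg_one_mul, ← intL_smul]
  exact c.intL_mono (h'.smul _) h fun s x hx => by linarith [(abs_le.1 (e s x hx)).1]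

/-- the weighted volume of the neighbourhood of a core -/
theorem int_ind (c : Ch T L) {v : T.V} {d C : ℝ} (hv : ∀ s, MeasurableSet {x | InK T L v d s x} ∧
      IntegrableOn (fun _ => (1 : ℝ)) (T.gK L s ∩ {x | InK T L v d s x}) ∧
      ep T L s ^ 2 * (sr T L v s * (volume (T.gK L s ∩ {x | InK T L v d s x})).toReal) ≤
        C * T.eps L v ^ 2) :
    IntL T L (fun s x => sr T L v s * {x | InK T L v d s x}.indicator (fun _ => (1 : ℝ)) x) ∧
    intL T L (fun s x => sr T L v s * {x | InK T L v d s x}.indicator (fun _ => (1 : ℝ)) x) ≤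
      Fintype.card T.S * (C * T.eps L v ^ 2) := by
  have i : ∀ s, IntegrableOn ({x | InK T L v d s x}.indicator fun _ => (1 : ℝ)) (T.gK L s) :=
    fun s => (integrableOn_indicator_iff (hv s).1).2 (inter_comm _ _ ▸ (hv s).2.1)
  refine ⟨fun s => ?_, (Finset.sum_le_sum fun s _ => ?_).trans_eq (by
    rw [Finset.sum_const, Finset.card_univ, nsmul_eq_mul])⟩
  · simp only [mul_left_comm _ (sr T L v s)]
    exact Integrable.const_mul (Hr.int_chi c.ok c.long s (i s)).1 _
  have a1 := Hr.int_chi_le c.ok c.long s (i s) fun x => indicator_nonneg (fun _ _ => zero_le_one) x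
  rw [setIntegral_indicator (hv s).1, setIntegral_const, smul_eq_mul, mul_one] at a1
  simp only [mul_left_comm _ (sr T L v s), integral_const_mul]
  refine le_trans ?_ (hv s).2.2
  rw [mul_left_comm (sr T L v s)]
  refine mul_le_mul_of_nonneg_left (mul_le_mul_of_nonneg_left ((mul_le_of_le_one_left
    (setIntegral_nonneg (c.op1 s).measurableSet fun x _ => mul_nonneg (c.χ_nonneg s _)
      (indicator_nonneg (fun _ _ => zero_le_one) x)) (Nat.cast_inv_le_one _)).trans a1)
    (sq_nonneg _)) (sq_nonneg _)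

theorem int_e0 (c : Ch T L) {t : Fam T} (ht : Tst T L t) :
    IntL T L (fun s x => e0 (t s) x / scl T s x ^ 2) ∧
    intL T L (fun s x => e0 (t s) x / scl T s x ^ 2) ≤ En T L t := by
  have i := Hr.int_K1 c.ok ht.sm ht.dec
  obtain ⟨a1, a2⟩ := c.intL_le_K1 (f := fun s x => e0 (t s) x / scl T s x ^ 2)
    (fun s => (e0_cont fun a b => (ht.sm s a b).continuousOn).div
      ((scl_cont s).pow 2).continuousOn
      fun x hx => (pow_pos (one_pos.trans_le (c.cell s x (c.U1_W1 s hx)).1) 2).ne')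
    (fun s x _ => div_nonneg (e0_nn _ _) (sq_nonneg _)) fun s => (i s).2
  exact ⟨a1, a2.trans (Finset.sum_le_sum fun s _ => mul_le_mul_of_nonneg_left
    (setIntegral_mono (i s).2 ((i s).1.add (i s).2) fun x => le_add_of_nonneg_left (e1_nn _ _))
    (sq_nonneg _))⟩

theorem int_prd (c : Ch T L) {Λ d : ℝ} {b X t : Fam T} {v : T.V} (hb : BdM T Λ L b)
    (hX : ∀ s p q, ContinuousOn (fun y => X s y p q) (U1 T L s))
    (hz : ∀ s, ∀ x ∈ U1 T L s, ¬ InK T L v d s x → X s x = 0) (ht : Tst T L t) :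
    IntL T L fun s x => sr T L v s * prd (b s) (X s) (t s) x :=
  c.intL_of_supp (v := v) (d := d) (fun s => continuousOn_const.mul
    ((sm_sqrt_det (hb.riem s)).continuousOn.mul (cont_ip (hb.riem s) (hX s)
      fun p q => (ht.sm s p q).continuousOn))) fun s x hx hi => by
    simp [prd, ip_zero (hz s x hx hi)]

end Pe

open Pe

/-- **PERT** -/
theorem pert {M : Type*} {T : TD M} (h : T.Ok) : PERT T := by
  intro Λ d hΛ
  obtain ⟨T1, H1⟩ := (chi' h).ch h
  obtain ⟨V, T2, v0, H2⟩ := vol' h d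
  obtain ⟨C, c0, -, H3⟩ := co Λ
  refine ⟨256 * (Λ ^ 3 + C) * (V * √(Fintype.card T.S) + 1), max T1 T2, by positivity,
    fun L hL b b' X X' t v δ P d0 p0 hb hb' hd hX hX' hz hP ht => ?_⟩
  have c := H1 L (hL.mono (le_max_left _ _))
  have hv := (H2 L (hL.mono (le_max_right _ _)) v).1
  have i1 := int_prd c hb hX (fun s x hx hi => (hz s x hx hi).1) ht
  have i2 := int_prd c hb' hX' (fun s x hx hi => (hz s x hx hi).2) ht
  refine ⟨i1, c.intL_of_supp (v := v) (d := d) (fun s => ((scl_cont s).pow 2).continuousOn.mul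
    (e0_cont fun p q => continuousOn_const.mul (hX s p q))) fun s x hx hi => by
      simp [e0, (hz s x hx hi).1], ?_⟩
  obtain ⟨i3, j3⟩ := int_ind c fun s => ⟨(hv s).1, (hv s).2.1, (hv s).2.2.1⟩
  obtain ⟨i4, j4⟩ := int_e0 c ht
  set K := 256 * (Λ ^ 3 + C) * δ * (1 + P) with hK
  have k0 : 0 ≤ K := by positivity
  have e0' := (TD.eps_pos L v).le
  have E0 := (c.intL_nonneg fun s x _ => div_nonneg (e0_nn (t s) x) (sq_nonneg _)).trans j4
  have : |prL T L b v X t - prL T L b' v X' t| ≤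
      √((K * V * T.eps L v) ^ 2 * Fintype.card T.S) * √(En T L t) := by
    refine N207.K.le_sqrt_mul (by positivity) E0 fun τ hτ => ?_
    have a1 := abs_le_intL c (i1.sub i2) ((i3.smul (τ / 2 * (K ^ 2 * V))).add (i4.smul (τ⁻¹ / 2)))
      fun s x hx => ?_
    · rw [intL_sub i1 i2, intL_add (i3.smul _) (i4.smul _), intL_smul, intL_smul] at a1
      refine a1.trans (add_le_add ((mul_le_mul_of_nonneg_left j3 (by positivity)).trans_eq ?_)
        (mul_le_mul_of_nonneg_left j4 (by positivity)))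
      ring
    have s0 := (sr_pos L v s).le
    have q0 : 0 ≤ e0 (t s) x / scl T s x ^ 2 := div_nonneg (e0_nn _ _) (sq_nonneg _)
    by_cases hi : InK T L v d s x
    swap
    · have : 0 ≤ {x | InK T L v d s x}.indicator (fun _ => (1 : ℝ)) x :=
        indicator_nonneg (fun _ _ => zero_le_one) x
      simp only [prd, ip_zero (hz s x hx hi).1, ip_zero (hz s x hx hi).2, mul_zero, sub_zero,
        abs_zero]
      positivity
    have r0 := one_pos.trans_le (c.cell s x (c.U1_W1 s hx)).1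
    have b1 := prd_sub (t := t s) (hb.bd s x hx) (H3 _ _ x δ (hb.bd s x hx).pos (hb'.bd s x hx).pos
      (by simpa using ⟨(hb.bd s x hx).ent, (hb'.bd s x hx).ent⟩) (hd s x hx)) (hP s x hx)
    have b2 := N207.K.Sys.Ok.sqrt_mul_le (sq_nonneg (K * sr T L v s * scl T s x)) q0 hτ
    rw [Real.sqrt_sq (by positivity), Real.sqrt_div (e0_nn _ _), Real.sqrt_sq r0.le,
      mul_assoc _ (scl T s x), mul_div_cancel₀ _ r0.ne'] at b2
    have b3 := mul_le_mul_of_nonneg_left ((hv s).2.2.2 x hx hi).1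
      (show 0 ≤ τ / 2 * (K ^ 2 * sr T L v s) by positivity)
    have b4 : 256 * ((Λ ^ 3 * δ + C * δ * P) * √(e0 (t s) x)) ≤ K * √(e0 (t s) x) := by
      rw [← mul_assoc]
      refine mul_le_mul_of_nonneg_right ?_ (Real.sqrt_nonneg _)
      have : 0 ≤ Λ ^ 3 * δ * P := by positivity
      have : 0 ≤ C * δ := by positivity
      linarith
    rw [← mul_sub, abs_mul, abs_of_nonneg s0, indicator_of_mem (s := {x | InK T L v d s x}) hi]
    have b5 := mul_le_mul_of_nonneg_left (b1.trans b4) s0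
    linarith
  rw [Real.sqrt_mul (sq_nonneg _), Real.sqrt_sq (by positivity)] at this
  refine this.trans ?_
  have : 0 ≤ K * (T.eps L v * √(En T L t)) := by positivity
  linarith

end Crest.Agent.N207.NS

end
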