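import Crest.Agent.N207.N.St4
import Crest.Agent.N207.A.Co2

/-!
# Row 207, block N (helper76): leaf `POS` (pointwise algebra)
-/

set_option autoImplicit false

open scoped ContDiff Topology MatrixOrder
open Metric Set Filter MeasureTheory
open Crest.GeometryTopology.CoordMetric
open Crest.Agent.N207.I Crest.Agent.N207.Lg Crest.Agent.N207.CB

noncomputable section

namespace Crest.Agent.N207.NS

namespace Ps

/-- positivity of a tensor product, one factor at a time -/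
theorem ten {κ : Type*} [Fintype κ] {A : Matrix (Fin 4) (Fin 4) ℝ} (hA : A.IsHermitian) {l m : ℝ}
    (l0 : 0 ≤ l) (m0 : 0 ≤ m) (hl : ∀ ξ : Fin 4 → ℝ, l * ∑ i, ξ i ^ 2 ≤ ∑ i, ∑ j, A i j * ξ i * ξ j)
    {B : κ → κ → ℝ} (hm : ∀ η : κ → ℝ, m * ∑ a, η a ^ 2 ≤ ∑ a, ∑ b, B a b * η a * η b)
    (v : Fin 4 × κ → ℝ) :
    l * m * ∑ a, v a ^ 2 ≤ ∑ a, ∑ b, A a.1 b.1 * B a.2 b.2 * v a * v b := by
  have hP : (A - l • (1 : Matrix (Fin 4) (Fin 4) ℝ)).PosSemidef := by
    refine Matrix.PosSemidef.of_dotProduct_mulVec_nonneg (hA.sub ?_) fun x => ?_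
    · simp [Matrix.IsHermitian]
    · have := hl x
      simp only [Matrix.sub_mulVec, Matrix.smul_mulVec, Matrix.one_mulVec, dotProduct_sub,
        star_trivial, sub_nonneg]
      simp only [dotProduct, Matrix.mulVec, Pi.smul_apply, smul_eq_mul, Finset.mul_sum] at this ⊢
      refine le_of_eq_of_le ?_ (this.trans_eq ?_)
      · exact Finset.sum_congr rfl fun i _ => by ring
      · exact Finset.sum_congr rfl fun i _ => Finset.sum_congr rfl fun j _ => by ring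
  obtain ⟨R, hR⟩ := CStarAlgebra.nonneg_iff_eq_star_mul_self.mp hP.nonneg
  have hE : ∀ i j, A i j = (if i = j then l else 0) + ∑ r, R r i * R r j := by
    intro i j
    have := congrFun (congrFun hR i) j
    simp only [Matrix.sub_apply, Matrix.smul_apply, Matrix.one_apply, smul_eq_mul, Matrix.mul_apply,
      Matrix.star_apply, star_trivial, mul_ite, mul_one, mul_zero] at this
    linarith
  have h1 : ∀ i, m * ∑ a, v (i, a) ^ 2 ≤ ∑ a, ∑ b, B a b * v (i, a) * v (i, b) := fun i => hm _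
  have h2 : ∀ r, 0 ≤ ∑ a, ∑ b, B a b * (∑ i, R r i * v (i, a)) * (∑ j, R r j * v (j, b)) :=
    fun r => le_trans (by positivity) (hm fun a => ∑ i, R r i * v (i, a))
  have key : ∑ a, ∑ b, A a.1 b.1 * B a.2 b.2 * v a * v b =
      l * ∑ i, ∑ a, ∑ b, B a b * v (i, a) * v (i, b) +
        ∑ r, ∑ a, ∑ b, B a b * (∑ i, R r i * v (i, a)) * (∑ j, R r j * v (j, b)) := by
    simp only [Fintype.sum_prod_type, hE, Fin.sum_univ_four, Finset.mul_sum, mul_add,
      ← Finset.sum_add_distrib]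
    refine Finset.sum_congr rfl fun a _ => Finset.sum_congr rfl fun b _ => ?_
    simp
    ring
  rw [key, Fintype.sum_prod_type, mul_assoc, Finset.mul_sum]
  have h3 := mul_le_mul_of_nonneg_left (Finset.sum_le_sum fun i (_ : i ∈ Finset.univ) => h1 i) l0
  have h4 := Finset.sum_nonneg fun r (_ : r ∈ Finset.univ) => h2 r
  linarith

/-- boundedness of a bilinear form -/
theorem bil {κ : Type*} [Fintype κ] {B : κ → κ → ℝ} {K : ℝ} (hK : 0 ≤ K) (h : ∀ a b, |B a b| ≤ K)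
    (u v : κ → ℝ) : |∑ a, ∑ b, B a b * u a * v b| ≤
      K * (Fintype.card κ : ℝ) ^ 2 * (√(∑ a, u a ^ 2) * √(∑ a, v a ^ 2)) := by
  have hu : ∀ (w : κ → ℝ) a, |w a| ≤ √(∑ a, w a ^ 2) := fun w a =>
    Real.abs_le_sqrt (Finset.single_le_sum (f := fun a => w a ^ 2) (fun _ _ => sq_nonneg _)
      (Finset.mem_univ a))
  calc |∑ a, ∑ b, B a b * u a * v b|
      ≤ ∑ _a : κ, ∑ _b : κ, K * (√(∑ a, u a ^ 2) * √(∑ a, v a ^ 2)) := by
        refine (Finset.abs_sum_le_sum_abs _ _).trans (Finset.sum_le_sum fun a _ => ?_)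
        refine (Finset.abs_sum_le_sum_abs _ _).trans (Finset.sum_le_sum fun b _ => ?_)
        rw [abs_mul, abs_mul, mul_assoc]
        exact mul_le_mul (h a b) (mul_le_mul (hu u a) (hu v b) (abs_nonneg _) (Real.sqrt_nonneg _))
          (by positivity) hK
    _ = _ := by simp [Finset.card_univ]; ring

theorem prd_eq (b X Y : MetricField 4) (x : E4) : prd b X Y x =
    ∑ p, ∑ q, ∑ p', ∑ q', sq b x * (b x)⁻¹ p p' * (b x)⁻¹ q q' * X x p q * Y x p' q' := by
  rw [prd, ip, ipA_two]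
  simp only [matT, Matrix.cons_val_zero, Matrix.cons_val_one, Finset.mul_sum]
  refine Finset.sum_congr rfl fun p _ => ?_
  rw [Finset.sum_comm]
  exact Finset.sum_congr rfl fun q _ => Finset.sum_congr rfl fun p' _ =>
    Finset.sum_congr rfl fun q' _ => by ring

/-- the first jet as a vector -/
def dv (k : MetricField 4) (x : E4) (a : Fin 4 × Fin 4 × Fin 4) : ℝ :=
  pderiv a.1 (fun y => k y a.2.1 a.2.2) x

theorem e1_eq (k : MetricField 4) (x : E4) : e1 k x = ∑ a, dv k x a ^ 2 := by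
  simp only [e1, Hd.g2, dv, Fintype.sum_prod_type]
  symm
  rw [Finset.sum_comm]
  exact Finset.sum_congr rfl fun p _ => Finset.sum_comm

theorem e0_eq (k : MetricField 4) (x : E4) :
    e0 k x = ∑ a : Fin 4 × Fin 4, k x a.1 a.2 ^ 2 := by
  simp only [e0, Fintype.sum_prod_type]

theorem Qf_eq (b g k t : MetricField 4) (x : E4) (hg : (g x)⁻¹.IsHermitian) :
    Qf b g k t x = sq b x * ∑ a : Fin 4 × Fin 4 × Fin 4, ∑ a' : Fin 4 × Fin 4 × Fin 4,
      (g x)⁻¹ a.1 a'.1 * ((b x)⁻¹ a.2.1 a'.2.1 * (b x)⁻¹ a.2.2 a'.2.2) * dv k x a * dv t x a' := by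
  have hs : ∀ i j, (g x)⁻¹ i j = (g x)⁻¹ j i := fun i j => by
    simpa using hg.apply j i
  simp only [Qf, cf, dv, Fintype.sum_prod_type, Finset.mul_sum]
  rw [Finset.sum_comm]
  refine Finset.sum_congr rfl fun j _ => ?_
  rw [Finset.sum_comm]
  refine Finset.sum_congr rfl fun p _ => ?_
  rw [Finset.sum_comm]
  refine Finset.sum_congr rfl fun q _ => Finset.sum_congr rfl fun i _ =>
    Finset.sum_congr rfl fun p' _ => Finset.sum_congr rfl fun q' _ => ?_
  rw [hs i j]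
  ring

end Ps

open Ps in
theorem pos : POS := by
  refine ⟨prd_eq, fun Λ hΛ => ⟨4096 * Λ ^ 4, by positivity, fun b g k t x hb hg => ?_⟩⟩
  have L0 : 0 < Λ := by linarith
  have li : 0 ≤ Λ⁻¹ := by positivity
  have hbH := hb.pos.inv.isHermitian
  have hgH := hg.pos.inv.isHermitian
  have s0 : 0 ≤ sq b x := li.trans hb.lo
  have hbb : ∀ a a' : Fin 4 × Fin 4, |(b x)⁻¹ a.1 a'.1 * (b x)⁻¹ a.2 a'.2| ≤ Λ * Λ := fun a a' => by
    rw [abs_mul]
    exact mul_le_mul (hb.ent _ _).2 (hb.ent _ _).2 (abs_nonneg _) L0.le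
  refine ⟨?_, ?_, ?_⟩
  · have h1 := ten hgH li (mul_nonneg li li) hg.ell
      (B := fun a a' : Fin 4 × Fin 4 => (b x)⁻¹ a.1 a'.1 * (b x)⁻¹ a.2 a'.2)
      (ten hbH li li hb.ell (B := fun a a' => (b x)⁻¹ a a') hb.ell) (dv k x)
    rw [Qf_eq b g k k x hgH, e1_eq]
    have e0' : 0 ≤ ∑ a, dv k x a ^ 2 := Finset.sum_nonneg fun _ _ => sq_nonneg _
    have h2 := mul_le_mul hb.lo h1 (by positivity) s0
    have h3 := mul_le_mul_of_nonneg_left h2 (by positivity : 0 ≤ 4096 * Λ ^ 4)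
    refine le_trans ?_ h3
    have : 4096 * Λ ^ 4 * (Λ⁻¹ * (Λ⁻¹ * (Λ⁻¹ * Λ⁻¹) * ∑ a, dv k x a ^ 2)) =
        4096 * ∑ a, dv k x a ^ 2 := by field_simp
    rw [this]
    linarith
  · rw [Qf_eq b g k t x hgH, e1_eq, e1_eq, abs_mul, abs_of_nonneg s0]
    have h1 := bil (κ := Fin 4 × Fin 4 × Fin 4) (K := Λ * (Λ * Λ)) (by positivity)
      (B := fun a a' => (g x)⁻¹ a.1 a'.1 * ((b x)⁻¹ a.2.1 a'.2.1 * (b x)⁻¹ a.2.2 a'.2.2))
      (fun a a' => by
        rw [abs_mul]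
        exact mul_le_mul (hg.ent _ _).2 (hbb a.2 a'.2) (abs_nonneg _) L0.le) (dv k x) (dv t x)
    refine (mul_le_mul hb.hi h1 (abs_nonneg _) L0.le).trans_eq ?_
    simp only [Fintype.card_prod, Fintype.card_fin]
    push_cast
    ring
  · have h1 := bil (κ := Fin 4 × Fin 4) (K := Λ * Λ) (by positivity) hbb
      (fun a => k x a.1 a.2) (fun a => t x a.1 a.2)
    have h2 : prd b k t x = sq b x * ∑ a : Fin 4 × Fin 4, ∑ a' : Fin 4 × Fin 4,
        (b x)⁻¹ a.1 a'.1 * (b x)⁻¹ a.2 a'.2 * k x a.1 a.2 * t x a'.1 a'.2 := by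
      simp only [prd_eq, Fintype.sum_prod_type, Finset.mul_sum, mul_assoc]
    rw [h2, e0_eq, e0_eq, abs_mul, abs_of_nonneg s0]
    refine (mul_le_mul hb.hi h1 (abs_nonneg _) L0.le).trans ?_
    simp only [Fintype.card_prod, Fintype.card_fin]
    push_cast
    rw [← mul_assoc]
    refine mul_le_mul_of_nonneg_right ?_ (by positivity)
    have : Λ ^ 3 ≤ Λ ^ 4 := pow_le_pow_right₀ hΛ (by norm_num)
    have : 0 ≤ Λ ^ 3 := by positivity
    nlinarith

end Crest.Agent.N207.NS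

end
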