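import Crest.Agent.N207.G.Jb
import Crest.Agent.N207.Ga.Ten

/-!
# Row 207, block N (helper52): jets of pull-backs by maps near the identity (Euclidean part)
-/

set_option autoImplicit false

open scoped ContDiff Topology Nat
open Metric Set Filter
open Crest.GeometryTopology.CoordMetric
open Crest.Agent.N207.I Crest.Agent.N207.G Crest.Agent.N207.Ga

noncomputable section

namespace Crest.Agent.N207.NS.Pl

variable {m : ℕ} {u : E4 → E4} {x : E4} {s c δ : ℝ}

theorem jb_of_fderiv {Y : Type} [NormedAddCommGroup Y] [NormedSpace ℝ Y] {f : E4 → Y} {c' : ℝ}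
    (hs : 0 ≤ s) (hf : ContDiffAt ℝ ∞ f x) (h0 : ‖f x‖ ≤ c) (h1 : JB m (fderiv ℝ f) x s c')
    (hc : c' * s ≤ c) : JB (m + 1) f x s c := by
  refine ⟨hf, fun k hk => ?_⟩
  rcases k with _ | k
  · simpa [norm_iteratedFDeriv_zero] using h0
  · rw [← norm_iteratedFDeriv_fderiv, pow_succ, ← mul_assoc]
    exact (mul_le_mul_of_nonneg_right (h1.bd k (by omega)) hs).trans hc

theorem jb_co {f : E4 → E4 →L[ℝ] E4} (hs : 0 ≤ s) (h : JB m f x s c) (i a : Fin 4) :
    JB m (fun y => f y (EuclideanSpace.single i 1) a) x s c := by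
  have h1 := h.clm (ContinuousLinearMap.apply ℝ E4 (EuclideanSpace.single i 1)) hs (l := 1)
    (ContinuousLinearMap.opNorm_le_bound _ zero_le_one fun L => by
      simpa using L.le_opNorm (EuclideanSpace.single i 1))
  have h2 := h1.clm (EuclideanSpace.proj a : E4 →L[ℝ] ℝ) hs (l := 1)
    (ContinuousLinearMap.opNorm_le_bound _ zero_le_one fun v => by
      simpa using PiLp.norm_apply_le v a)
  simpa using h2

theorem jb_sm (h : JB m (fun y => u y - y) x s c) : ContDiffAt ℝ ∞ u x := by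
  simpa using h.sm.add contDiffAt_id

theorem jb_d0 (hs : 0 < s) (h : JB (m + 1) (fun y => u y - y) x s (δ * s)) :
    JB m (fun y => fderiv ℝ u y - ContinuousLinearMap.id ℝ E4) x s δ := by
  refine (h.fderiv hs).congr ?_
  filter_upwards [((jb_sm h).of_le (kle 1)).eventually (by simp)] with y hy
  exact ((hy.differentiableAt one_ne_zero).hasFDerivAt.sub (hasFDerivAt_id y)).fderiv.symm

theorem jb_d1 (hs : 0 < s) (hδ : δ ≤ 1) (h : JB (m + 1) (fun y => u y - y) x s (δ * s)) :
    JB m (fderiv ℝ u) x s 2 := by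
  have := (jb_d0 hs h).add hs.le (JB.const (ContinuousLinearMap.id ℝ E4) (c := 1)
    ContinuousLinearMap.norm_id_le)
  simp only [sub_add_cancel] at this
  exact this.mono (by linarith)

theorem jb_inj (hs : 0 < s) (hδ : δ < 1) (h : JB (m + 1) (fun y => u y - y) x s (δ * s)) :
    Function.Injective (fderiv ℝ u x) := by
  have h1 := (jb_d0 hs h).val
  refine (injective_iff_map_eq_zero _).2 fun v hv => ?_
  have h2 := (fderiv ℝ u x - ContinuousLinearMap.id ℝ E4).le_of_opNorm_le h1 v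
  rw [sub_apply, hv, zero_sub, norm_neg, ContinuousLinearMap.id_apply] at h2
  exact norm_le_zero_iff.1 (by nlinarith [norm_nonneg v])

/-- linear estimate -/
theorem jb_pm (m : ℕ) : ∃ C : ℝ, 1 ≤ C ∧ ∀ (u : E4 → E4) (K : MetricField 4) (x : E4)
    (s s' δ c : ℝ), 0 < s → 0 ≤ s' → s ≤ 2 * s' → δ ≤ 1 →
    JB (m + 2) (fun y => u y - y) x s (δ * s) → (∀ a b, JB (m + 1) (fun y => K y a b) (u x) s' c) →
    ∀ i j, JB (m + 1) (fun y => pbG u K y i j) x s (C * c) := by
  refine ⟨1 + 4 * (4 * (2 ^ (m + 1) * (2 ^ (m + 1) * ((m + 1)! * 2 ^ (m + 1) * 2 ^ (m + 1) * 2) * 2))),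
    le_add_of_nonneg_right (by positivity), fun u K x s s' δ c hs hs' hss hδ hu hK i j => ?_⟩
  have hd := jb_d1 hs hδ hu
  have h1 := fun a b => ((JB.comp hs one_le_two ((hK a b).scale hs' hs.le one_le_two hss) (jb_sm hu)
    (hd.of_le (Nat.le_succ m))).mul hs.le (jb_co hs.le hd i a)).mul hs.le (jb_co hs.le hd j b)
  have h2 := JB.sum Finset.univ hs.le fun a _ => JB.sum Finset.univ hs.le fun b _ => h1 a b
  simp only [Finset.card_univ, Fintype.card_fin, Nat.cast_ofNat] at h2
  have h0 := (hK 0 0).nonneg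
  refine (h2.congr (Eventually.of_forall fun y => pbG_apply u K y i j)).mono (le_of_sub_nonneg ?_)
  ring_nf
  positivity

theorem jb_sub (m : ℕ) : ∃ C : ℝ, 1 ≤ C ∧ ∀ (Y : Type) [NormedAddCommGroup Y] [NormedSpace ℝ Y]
    (f : E4 → Y) (u : E4 → E4) (x : E4) (s δ c : ℝ), 0 < s → δ ≤ 1 →
    JB m (fun y => u y - y) x s (δ * s) → (∀ z ∈ closedBall x (δ * s), JB (m + 1) f z s c) →
    JB m (fun y => f (u y) - f y) x s (C * δ * c) := by
  have key : ∀ (m : ℕ) (Y : Type) [NormedAddCommGroup Y] [NormedSpace ℝ Y]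
      (f : E4 → Y) (u : E4 → E4) (x : E4) (s δ c : ℝ), 0 < s →
      JB m (fun y => u y - y) x s (δ * s) → (∀ z ∈ closedBall x (δ * s), JB (m + 1) f z s c) →
      u x ∈ closedBall x (δ * s) ∧ x ∈ closedBall x (δ * s) ∧ 0 ≤ δ ∧ 0 ≤ c ∧
        ‖f (u x) - f x‖ ≤ δ * c := fun m Y _ _ f u x s δ c hs hu hf => by
    have h1 : u x ∈ closedBall x (δ * s) := mem_closedBall_iff_norm.2 hu.val
    have h2 : x ∈ closedBall x (δ * s) := mem_closedBall_self hu.nonneg
    have h3 := (hf x h2).nonneg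
    refine ⟨h1, h2, nonneg_of_mul_nonneg_left hu.nonneg hs, h3, ?_⟩
    have := (convex_closedBall x (δ * s)).norm_image_sub_le_of_norm_fderiv_le (f := f) (C := c / s)
      (fun z hz => (hf z hz).sm.differentiableAt (by simp)) (fun z hz => by
        have := (hf z hz).bd 1 (by omega)
        rwa [norm_iteratedFDeriv_one, pow_one, ← le_div_iff₀ hs] at this) h2 h1
    refine this.trans ((mul_le_mul_of_nonneg_left hu.val (by positivity)).trans (le_of_eq ?_))
    field_simp
  induction m with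
  | zero =>
    refine ⟨1, le_rfl, fun Y _ _ f u x s δ c hs hδ hu hf => ?_⟩
    obtain ⟨h1, h2, -, -, h3⟩ := key 0 Y f u x s δ c hs hu hf
    refine ⟨((hf _ h1).sm.comp x (jb_sm hu)).sub (hf _ h2).sm, fun k hk => ?_⟩
    obtain rfl : k = 0 := by omega
    simpa [norm_iteratedFDeriv_zero] using h3
  | succ m ih =>
    obtain ⟨C, hC, ih⟩ := ih
    have hp : (1 : ℝ) ≤ 2 ^ m := one_le_pow₀ one_le_two
    refine ⟨2 ^ m * (C * 2) + 2 ^ m, by nlinarith, fun Y _ _ f u x s δ c hs hδ hu hf => ?_⟩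
    obtain ⟨h1, h2, h3, h4, h5⟩ := key _ Y f u x s δ c hs hu hf
    have hf' : ∀ z ∈ closedBall x (δ * s), JB (m + 1) (fderiv ℝ f) z s (c / s) := fun z hz =>
      JB.fderiv hs (by rw [div_mul_cancel₀ _ hs.ne']; exact hf z hz)
    have a1 := JB.bil (ContinuousLinearMap.compL ℝ E4 E4 Y) (ContinuousLinearMap.norm_compL_le ..)
      hs.le (ih _ (fderiv ℝ f) u x s δ (c / s) hs hδ (hu.of_le (Nat.le_succ m)) hf') (jb_d1 hs hδ hu)
    have a2 := JB.bil (ContinuousLinearMap.compL ℝ E4 E4 Y) (ContinuousLinearMap.norm_compL_le ..)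
      hs.le ((hf' x h2).of_le (Nat.le_succ m)) (jb_d0 hs hu)
    refine jb_of_fderiv hs.le (((hf _ h1).sm.comp x (jb_sm hu)).sub (hf _ h2).sm)
      (h5.trans ?_) ((a1.add hs.le a2).congr ?_) (le_of_eq ?_)
    · rw [mul_assoc]
      exact le_mul_of_one_le_left (mul_nonneg h3 h4) (by nlinarith)
    · have b1 := ((jb_sm hu).of_le (kle 1)).eventually (by simp)
      have b2 := (((hf _ h2).sm.of_le (kle 1))).eventually (by simp)
      have b3 := (jb_sm hu).continuousAt.eventually
        ((((hf _ h1).sm.of_le (kle 1))).eventually (by simp))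
      filter_upwards [b1, b2, b3] with y c1 c2 c3
      have := (((c3.differentiableAt one_ne_zero).hasFDerivAt.comp y
        (c1.differentiableAt one_ne_zero).hasFDerivAt).sub
        (c2.differentiableAt one_ne_zero).hasFDerivAt).fderiv
      refine this.trans ?_
      ext1 v
      simp
    · field_simp

theorem pbG_sub (u : E4 → E4) (H : MetricField 4) (y : E4) (i j : Fin 4) :
    pbG u H y i j - H y i j = ∑ a, ∑ b,
      ((H (u y) a b - H y a b) * fderiv ℝ u y (EuclideanSpace.single i 1) a *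
        fderiv ℝ u y (EuclideanSpace.single j 1) b +
      (H y a b * (fderiv ℝ u y - ContinuousLinearMap.id ℝ E4) (EuclideanSpace.single i 1) a *
        fderiv ℝ u y (EuclideanSpace.single j 1) b +
      H y a b * (ContinuousLinearMap.id ℝ E4) (EuclideanSpace.single i 1) a *
        (fderiv ℝ u y - ContinuousLinearMap.id ℝ E4) (EuclideanSpace.single j 1) b)) := by
  have e : H y i j = ∑ a, ∑ b, H y a b * (EuclideanSpace.single i (1 : ℝ) : E4) a *
      (EuclideanSpace.single j (1 : ℝ) : E4) b := by simp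
  rw [pbG_apply, e, ← Finset.sum_sub_distrib]
  refine Finset.sum_congr rfl fun a _ => ?_
  rw [← Finset.sum_sub_distrib]
  refine Finset.sum_congr rfl fun b _ => ?_
  simp only [sub_apply, ContinuousLinearMap.id_apply, PiLp.sub_apply]
  ring

/-- the change of a fixed field under the pull-back -/
theorem jb_pm_sub (m : ℕ) : ∃ C : ℝ, 1 ≤ C ∧ ∀ (u : E4 → E4) (H : MetricField 4) (x : E4)
    (s δ c : ℝ), 0 < s → δ ≤ 1 → JB (m + 1) (fun y => u y - y) x s (δ * s) →
    (∀ z ∈ closedBall x (δ * s), ∀ a b, JB (m + 1) (fun y => H y a b) z s c) →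
    ∀ i j, JB m (fun y => pbG u H y i j - H y i j) x s (C * δ * c) := by
  obtain ⟨C, hC, hsub⟩ := jb_sub m
  refine ⟨1 + 4 * (4 * (2 ^ m * (2 ^ m * (C * 2) * 2) + (2 ^ m * (2 ^ m * 2) + 2 ^ m * 2 ^ m))),
    le_add_of_nonneg_right (by positivity), fun u H x s δ c hs hδ hu hH i j => ?_⟩
  have hx : x ∈ closedBall x (δ * s) := mem_closedBall_self hu.nonneg
  have hd := jb_d1 hs hδ hu
  have hd0 := jb_d0 hs hu
  have hi : JB m (fun _ : E4 => ContinuousLinearMap.id ℝ E4) x s 1 :=
    JB.const _ ContinuousLinearMap.norm_id_le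
  have hH' := fun a b => (hH x hx a b).of_le (Nat.le_succ m)
  have h1 := fun a b => (((hsub ℝ (fun y => H y a b) u x s δ c hs hδ (hu.of_le (Nat.le_succ m))
    fun z hz => hH z hz a b).mul hs.le (jb_co hs.le hd i a)).mul hs.le (jb_co hs.le hd j b)).add hs.le
    ((((hH' a b).mul hs.le (jb_co hs.le hd0 i a)).mul hs.le (jb_co hs.le hd j b)).add hs.le
      (((hH' a b).mul hs.le (jb_co hs.le hi i a)).mul hs.le (jb_co hs.le hd0 j b)))
  have h2 := JB.sum Finset.univ hs.le fun a _ => JB.sum Finset.univ hs.le fun b _ => h1 a b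
  simp only [Finset.card_univ, Fintype.card_fin, Nat.cast_ofNat] at h2
  have h0 := mul_nonneg hd0.nonneg (hH' 0 0).nonneg
  refine (h2.congr (Eventually.of_forall fun y => pbG_sub u H y i j)).mono
    (le_of_sub_nonneg (h0.trans_eq ?_))
  ring

end Crest.Agent.N207.NS.Pl

end
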