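import Crest.Agent.N207.N.St
import Crest.Agent.N207.CB.St

/-!
# Row 207, block N (helper9): second list of leaf statements (FROZEN)
-/

set_option autoImplicit false

open scoped ContDiff Topology
open Metric Set Filter MeasureTheory
open Crest.GeometryTopology.CoordMetric
open Crest.Agent.N207.I Crest.Agent.N207.Lg Crest.Agent.N207.CB

noncomputable section

namespace Crest.Agent.N207.NS

/-- leaf MUL: the strong form of the Euler-Lagrange equation -/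
def MUL : Prop :=
  (∀ (b G : MetricField 4) (x : E4) (ι : Type) [Fintype ι] (m : ι → ℝ) (ψ : ι → MetricField 4)
    (X : M2 (Fin 4) ℝ), (b x).PosDef → (G x).PosDef → (∀ j, (ψ j x).IsSymm) →
    (∀ p q, X p q = X q p) →
    ((∀ k : M2 (Fin 4) ℝ, (∀ p q, k p q = k q p) → tr2 (vG (sq G x) (iv G x) k) X =
      ∑ j, m j * (sq b x * tr2 (up (iv b x) fun p q => ψ j x p q) k)) ↔
    ∀ p q, X p q = -∑ j, m j * PsT b G (ψ j) x p q)) ∧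
  (∀ (b ψ : MetricField 4) (x : E4), (b x).PosDef → PsT b b ψ x = TRg (b x) (ψ x)) ∧
  ∀ Λ : ℝ, ∃ C : ℝ, 0 < C ∧ ∀ (b G G' ψ : MetricField 4) (x : E4) (δ P : ℝ), (b x).PosDef →
    (G x).PosDef → (G' x).PosDef →
    (∀ H ∈ [b, G, G'], ∀ p q, |H x p q| ≤ Λ ∧ |(H x)⁻¹ p q| ≤ Λ) → (∀ p q, |ψ x p q| ≤ P) →
    (∀ p q, |G x p q - G' x p q| ≤ δ) → ∀ p q, |PsT b G ψ x p q - PsT b G' ψ x p q| ≤ C * δ * P

variable {M : Type*} (T : TD M) (g : T.V → Fam T)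

/-- leaf ELL: uniform bounds for the metrics near the reference metric -/
def ELL : Prop := ∃ δ Λ T1 : ℝ, 0 < δ ∧ 1 ≤ Λ ∧ ∀ T0, T1 ≤ T0 → ∀ L, Lng T (2 * T0 + T1) L →
  ∀ (H : Fam T) (s : T.S), ∀ x ∈ W1 T L s, (H s x).PosDef →
    (∀ p q, |H s x p q - gbL T g T0 L s x p q| ≤ δ) →
    (∀ p q, |H s x p q| ≤ Λ ∧ |(H s x)⁻¹ p q| ≤ Λ) ∧ Λ⁻¹ ≤ sq (H s) x ∧ sq (H s) x ≤ Λ ∧
    (∀ ξ : Fin 4 → ℝ, Λ⁻¹ * ∑ i, ξ i ^ 2 ≤ ∑ i, ∑ j, (H s x)⁻¹ i j * ξ i * ξ j) ∧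
    ∀ k ≤ 3, ∀ p q, scl T s x ^ k * ‖iteratedFDeriv ℝ k (fun y => gbL T g T0 L s y p q) x‖ ≤ Λ

/-- leaf PULL2: pull-back of continuous and `C¹` fields -/
def PULL2 : Prop := ∃ δ0 C T1 : ℝ, 0 < δ0 ∧ 0 < C ∧ ∀ L L', Lng T T1 L → Lng T T1 L' →
  ∀ (δ : ℝ) (u : T.S → E4 → E4), δ ≤ δ0 → NId T L L' δ u → ∀ (X : Fam T) (P : ℝ) (s : T.S),
    ((∀ a b, ContinuousOn (fun y => X s y a b) (W1 T L' s)) →
      ∀ a b, ContinuousOn (fun y => pm (u s) (X s) y a b) (U1 T L s)) ∧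
    (∀ x ∈ U1 T L s, (∀ a b, |X s (u s x) a b| ≤ P) → ∀ a b, |pm (u s) (X s) x a b| ≤ C * P) ∧
    (L' = L → (∀ a b, ContDiffOn ℝ 1 (fun y => X s y a b) (W1 T L s)) → Cls T (W1 T L) 1 P X 0 →
      ∀ x ∈ U1 T L s, ∀ a b, |pm (u s) (X s) x a b - X s x a b| ≤ C * δ * P) ∧
    (L' = L → ∀ v c, ∀ x ∈ U1 T L s, InK T L v c s (u s x) → InK T L v (c + 1) s x)

variable (κ : T.V → Type) [∀ v, Fintype (κ v)] (ψ : ∀ v, κ v → Fam T) (c : ℝ)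

/-- the constraints read on `glob L` -/
def Tol : Prop := ∃ P T1 : ℝ, 0 < P ∧ ∀ T0, T1 ≤ T0 → ∀ L, Lng T (2 * T0 + T1) L → ∀ v j,
  (T.glob L).Sec (fun s => matT (rt T L (toL T L v (ψ v j)) s)) ∧
  (∀ s, ∀ x ∈ (T.glob L).U s, (toL T L v (ψ v j) s x).IsSymm) ∧
  (∀ s, ∀ x ∈ (T.glob L).U s, ¬ InK T L v (c + 1) s x → toL T L v (ψ v j) s x = 0) ∧
  Cls T (W1 T L) 1 P (toL T L v (ψ v j)) 0 ∧
  (∃ σ : ℝ, (σ = 1 ∨ σ = -1) ∧ ∀ s, ∀ x ∈ (T.glob L).U s,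
    TRg (gbL T g T0 L s x) (toL T L v (ψ v j) s x) = σ • toL T L v (ψ v j) s x) ∧
  (∀ k : Fam T, (∀ s a b, ContinuousOn (fun y => k s y a b) (U1 T L s)) →
    prL T L (gbL T g T0 L) v (toL T L v (ψ v j)) k =
      T.eps L v ^ 2 * pair T g v (ψ v j) (loc T L v k)) ∧
  |pair T g v (ψ v j) (loc T L v (gbL T g T0 L))| ≤ P

/-- leaf TOL -/
def TOL : Prop := ∀ (κ : T.V → Type) [∀ v, Fintype (κ v)] [∀ v, DecidableEq (κ v)]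
  (ψ : ∀ v, κ v → Fam T) (c η C : ℝ), Good T g κ ψ c η C → Tol T g κ ψ c

/-- weighted size of the multipliers -/
def mu2 (L : T.V → ℝ) (μ : (Σ v, κ v) → ℝ) : ℝ := ∑ j, T.eps L j.1 ^ 2 * μ j ^ 2

/-- the `L²` norm of the gauge vector -/
def BB (L : T.V → ℝ) (b G : Fam T) : ℝ :=
  intL T L fun s x => gau (sq (G s) x) (iv (G s) x) (TG (b s) (G s) x)

/-- the parameters of the metric `G` (vertex units) in the gauge `u` -/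
def th (T0 : ℝ) (L : T.V → ℝ) (u : T.S → E4 → E4) (G : Fam T) (j : Σ v, κ v) : ℝ :=
  prL T L (pb T L L u (gbL T g T0 L)) j.1 (pb T L L u (toL T L j.1 (ψ j.1 j.2)))
    (G - pb T L L u (gbL T g T0 L)) / T.eps L j.1 ^ 2

/-- THB: the parameters are small -/
def Thb : Prop := ∃ δ0 C T1 : ℝ, 0 < δ0 ∧ 0 < C ∧ ∀ T0, T1 ≤ T0 → ∀ L, Lng T (2 * T0 + T1) L →
  ∀ (δ δ' : ℝ) (u : T.S → E4 → E4) (G : Fam T), δ ≤ δ0 → 0 ≤ δ' → NId T L L δ u → Met1 T L G →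
    (∀ v s, ∀ x ∈ U1 T L s, InK T L v (c + 2) s x → ∀ p q,
      |G s x p q - gbL T g T0 L s x p q| ≤ δ') → ‖th T g κ ψ T0 L u G‖ ≤ C * (δ + δ')

/-- CMPG: comparison of a gauged metric with the family -/
def Cmpg : Prop := ∃ δ T1 : ℝ, 0 < δ ∧ ∀ T0, T1 ≤ T0 → ∃ C : ℝ, 0 < C ∧ ∀ L, Lng T (2 * T0 + T1) L →
  ∀ (G : T.S → MetricField 4) (u : T.S → E4 → E4) (E : ℝ) (μ : (Σ v, κ v) → ℝ) (G' : Fam T),
    (T.glob L).IsMet G → Sk.Flat T G → Cls T (U1 T L) 2 δ (T.nrm L G) (gbL T g T0 L) →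
    NId T L L δ u → (∀ s, ∀ x ∈ U1 T L s,
      gauT (pm (u s) (gbL T g T0 L s)) (T.nrm L G s) x = 0) →
    0 ≤ E → Sk.EE T L G ≤ ENNReal.ofReal (E ^ 2) →
    LS T g T0 κ ψ δ L (th T g κ ψ T0 L u (T.nrm L G)) μ G' →
    |Sk.SR T L G - actL T L (gbL T g T0 L) G'| ≤ C * E ^ 2 ∧ mu2 T κ L μ ≤ C * E ^ 2 ∧
      BB T L (gbL T g T0 L) G' ≤ C * E ^ 2

/-- GRT: variation of the reduced action in `θ` -/
def Grt : Prop := ∃ δ T1 : ℝ, 0 < δ ∧ ∀ T0, T1 ≤ T0 → ∃ C : ℝ, 0 < C ∧ ∀ L, Lng T (2 * T0 + T1) L →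
  ∀ (θ θ' μ μ' : (Σ v, κ v) → ℝ) (G G' : Fam T), LS T g T0 κ ψ δ L θ μ G →
    LS T g T0 κ ψ δ L θ' μ' G' →
    |actL T L (gbL T g T0 L) G' - actL T L (gbL T g T0 L) G| ≤
      C * (√(mu2 T κ L μ) * ‖θ' - θ‖ + ‖θ' - θ‖ ^ 2)

/-- GRL: variation of the reduced action in the neck lengths -/
def Grl : Prop := ∃ δ T1 : ℝ, 0 < δ ∧ ∀ T0, T1 ≤ T0 → ∃ C τ : ℝ, 0 < C ∧ 0 < τ ∧
  ∀ L, Lng T (2 * T0 + T1) L → ∀ w, w ≠ T.root → ∀ t : ℝ, |t| ≤ τ →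
  ∀ (θ μ μ' : (Σ v, κ v) → ℝ) (G G' : Fam T), ‖θ‖ ≤ 1 → LS T g T0 κ ψ δ L θ μ G →
    LS T g T0 κ ψ δ (Function.update L w (L w + t)) θ μ' G' →
    |actL T (Function.update L w (L w + t)) (gbL T g T0 (Function.update L w (L w + t))) G' -
        actL T L (gbL T g T0 L) G| ≤
      C * ((√(mu2 T κ L μ) + √(BB T L (gbL T g T0 L) G)) * (T.eps L w * |t|) + t ^ 2)

/-- leaf NEARG: the sequence is near the reference metric -/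
def NEARG : Prop := ∀ (U : Ultrafilter ℕ) (L : ℕ → T.V → ℝ) (G : ℕ → T.S → MetricField 4),
  T.Seq g (1 / 2) U L G →
  (∀ δ : ℝ, 0 < δ → ∀ᶠ T0 : ℝ in atTop, ∀ᶠ i in (U : Filter ℕ),
    Cls T (U1 T (L i)) 2 δ (T.nrm (L i) (G i)) (gbL T g T0 (L i))) ∧
  ∀ c δ : ℝ, 0 < δ → ∀ T0, c ≤ T0 → ∀ᶠ i in (U : Filter ℕ), ∀ v s, ∀ x ∈ U1 T (L i) s,
    InK T (L i) v c s x → ∀ p q, |T.nrm (L i) (G i) s x p q - gbL T g T0 (L i) s x p q| ≤ δ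

end Crest.Agent.N207.NS

end
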