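import Crest.Agent.N207.N.St3

/-!
# Row 207, block N (helper9): the pieces of `cmp` (FROZEN)
-/

set_option autoImplicit false

open scoped ContDiff Topology
open Metric Set Filter MeasureTheory
open Crest.GeometryTopology.CoordMetric
open Crest.Agent.N207.I Crest.Agent.N207.Lg Crest.Agent.N207.CB

noncomputable section

namespace Crest.Agent.N207.NS

/-- the pointwise pairing `√b ⟨X, Y⟩_b` -/
def prd (b X Y : MetricField 4) (x : E4) : ℝ := sq b x * ip b (matT X) (matT Y) x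

/-- the Dirichlet form -/
def Qf (b g k t : MetricField 4) (x : E4) : ℝ :=
  ∑ i, ∑ j, ∑ p, ∑ q, ∑ p', ∑ q', cf b g i j p q p' q' x *
    pderiv j (fun y => k y p q) x * pderiv i (fun y => t y p' q') x

/-- the difference of two reduced Ricci tensors -/
def Rd (b g1 g2 : MetricField 4) : MetricField 4 := fun x =>
  Matrix.of fun p q => redT b g1 x ![p, q] - redT b g2 x ![p, q]

/-- pointwise bounds of a metric -/
structure BdP (Λ : ℝ) (H : MetricField 4) (x : E4) : Prop where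
  pos : (H x).PosDef
  ent : ∀ p q, |H x p q| ≤ Λ ∧ |(H x)⁻¹ p q| ≤ Λ
  lo : Λ⁻¹ ≤ sq H x
  hi : sq H x ≤ Λ
  ell : ∀ ξ : Fin 4 → ℝ, Λ⁻¹ * ∑ i, ξ i ^ 2 ≤ ∑ i, ∑ j, (H x)⁻¹ i j * ξ i * ξ j

/-- leaf POS: pointwise algebra -/
def POS : Prop := (∀ (b X Y : MetricField 4) (x : E4), prd b X Y x =
    ∑ p, ∑ q, ∑ p', ∑ q', sq b x * (b x)⁻¹ p p' * (b x)⁻¹ q q' * X x p q * Y x p' q') ∧
  ∀ Λ : ℝ, 1 ≤ Λ → ∃ C : ℝ, 0 < C ∧ ∀ (b g k t : MetricField 4) (x : E4), BdP Λ b x → BdP Λ g x →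
    e1 k x ≤ C * Qf b g k k x ∧ |Qf b g k t x| ≤ C * (√(e1 k x) * √(e1 t x)) ∧
    |prd b k t x| ≤ C * (√(e0 k x) * √(e0 t x))

variable {M : Type*} (T : TD M)

/-- test families -/
structure Tst (L : T.V → ℝ) (t : Fam T) : Prop where
  sm : ∀ s a b, ContDiffOn ℝ 1 (fun y => t s y a b) (U1 T L s)
  dec : Dec (3 / 2) (t (Sum.inr T.root))

/-- uniformly bounded metrics on `U1` -/
structure BdM (Λ : ℝ) (L : T.V → ℝ) (H : Fam T) : Prop where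
  riem : ∀ s, IsRiemannianOn (H s) (U1 T L s)
  bd : ∀ s, ∀ x ∈ U1 T L s, BdP Λ (H s) x

/-- leaf PAIR: Cauchy-Schwarz -/
def PAIR : Prop := ∀ Λ : ℝ, 1 ≤ Λ → ∃ C T1 : ℝ, 0 < C ∧ ∀ L, Lng T T1 L → ∀ t : Fam T, Tst T L t →
  (IntL T L (fun s x => e1 (t s) x) ∧ IntL T L (fun s x => e0 (t s) x / scl T s x ^ 2) ∧
    0 ≤ En T L t ∧ ∀ c, 0 ≤ Zc T L c t ∧ Zc T L c t ≤ En T L t) ∧
  ∀ b : Fam T, BdM T Λ L b →
    (∀ X : Fam T, (∀ s p q, ContinuousOn (fun y => X s y p q) (U1 T L s)) →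
      IntL T L (fun s x => scl T s x ^ 2 * e0 (X s) x) →
      IntL T L (fun s => prd (b s) (X s) (t s)) ∧ |intL T L fun s => prd (b s) (X s) (t s)| ≤
        C * (√(intL T L fun s x => scl T s x ^ 2 * e0 (X s) x) * √(En T L t))) ∧
    ∀ g k : Fam T, BdM T Λ L g → Tst T L k → IntL T L (fun s => Qf (b s) (g s) (k s) (t s)) ∧
      |intL T L fun s => Qf (b s) (g s) (k s) (t s)| ≤ C * (√(En T L k) * √(En T L t))

/-- leaf PERT: perturbation of the constraints -/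
def PERT : Prop := ∀ Λ d : ℝ, 1 ≤ Λ → ∃ C T1 : ℝ, 0 < C ∧ ∀ L, Lng T T1 L →
  ∀ (b b' X X' t : Fam T) (v : T.V) (δ P : ℝ), 0 ≤ δ → 0 ≤ P → BdM T Λ L b → BdM T Λ L b' →
    (∀ s, ∀ x ∈ U1 T L s, ∀ p q, |b s x p q - b' s x p q| ≤ δ) →
    (∀ s p q, ContinuousOn (fun y => X s y p q) (U1 T L s)) →
    (∀ s p q, ContinuousOn (fun y => X' s y p q) (U1 T L s)) →
    (∀ s, ∀ x ∈ U1 T L s, ¬ InK T L v d s x → X s x = 0 ∧ X' s x = 0) →
    (∀ s, ∀ x ∈ U1 T L s, ∀ p q, |X s x p q - X' s x p q| ≤ δ ∧ |X' s x p q| ≤ P) → Tst T L t →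
    IntL T L (fun s x => sr T L v s * prd (b s) (X s) (t s) x) ∧
    IntL T L (fun s x => scl T s x ^ 2 * e0 (fun y => sr T L v s • X s y) x) ∧
    |prL T L b v X t - prL T L b' v X' t| ≤ C * δ * (1 + P) * (T.eps L v * √(En T L t))

variable (g : T.V → Fam T)

/-- leaf DUAL: test families dual to the constraints -/
def DUAL : Prop := ∀ (κ : T.V → Type) [∀ v, Fintype (κ v)] [∀ v, DecidableEq (κ v)]
  (ψ : ∀ v, κ v → Fam T) (c η C : ℝ), Good T g κ ψ c η C → Tol T g κ ψ c →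
  ∃ C' T1 : ℝ, 0 < C' ∧ ∀ T0, T1 ≤ T0 → ∀ L, Lng T (2 * T0 + T1) L → ∀ i : Σ v, κ v, ∃ Z : Fam T,
    Tst T L Z ∧ En T L Z ≤ C' * T.eps L i.1 ^ 2 ∧ ∀ j : Σ v, κ v,
      prL T L (gbL T g T0 L) j.1 (toL T L j.1 (ψ j.1 j.2)) Z = if j = i then T.eps L i.1 ^ 2 else 0

/-- leaf WEAK: the weak form of the difference equation -/
def WEAK : Prop := ∃ δ0 C T1 : ℝ, 0 < δ0 ∧ 0 < C ∧ ∀ T0, T1 ≤ T0 → ∀ L, Lng T (2 * T0 + T1) L →
  ∀ δ c : ℝ, δ ≤ δ0 → 2 ≤ c → Real.exp (-c) ≤ T.r / 8 → ∀ b g1 g2 t : Fam T,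
    Adm T g T0 L δ b → Adm T g T0 L δ g1 → Adm T g T0 L δ g2 → Tst T L t →
    IntL T L (fun s => prd (b s) (Rd (b s) (g1 s) (g2 s)) (t s)) →
    |intL T L (fun s => prd (b s) (Rd (b s) (g1 s) (g2 s)) (t s)) -
        1 / 2 * intL T L fun s => Qf (b s) (g1 s) ((g1 - g2) s) (t s)| ≤
      C * (√(En T L (g1 - g2)) * (√(Zc T L c t) + √(Real.exp (-c / 2) + δ) * √(En T L t)))

end Crest.Agent.N207.NS

end
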