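import Crest.Agent.N207.N.St3
import Crest.Agent.N207.Ga.Defs
import Crest.Agent.N207.I.Car3

/-!
# Row 207, block N (helper9): small lemmas for the glue `swl`
-/

set_option autoImplicit false

open scoped ContDiff Topology
open Metric Set Filter MeasureTheory
open Crest.GeometryTopology.CoordMetric
open Crest.Agent.N207.I Crest.Agent.N207.Lg Crest.Agent.N207.CB

noncomputable section

namespace Crest.Agent.N207.NS

/-- a bound on real increments bounds the complex derivative -/
theorem norm_deriv_le_of_real {φ : ℂ → ℂ} {z A B τ : ℝ} (hA : 0 ≤ A) (hτ : 0 < τ)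
    (h : ∀ t : ℝ, |t| ≤ τ → ‖φ ((z + t : ℝ) : ℂ) - φ z‖ ≤ A * |t| + B * t ^ 2) :
    ‖deriv φ z‖ ≤ A := by
  by_cases hd : DifferentiableAt ℂ φ z
  swap
  · rw [deriv_zero_of_not_differentiableAt hd, norm_zero]; exact hA
  have h1 : HasDerivAt (fun y : ℝ => φ (y : ℂ)) (deriv φ z) z := by
    simpa using hd.hasDerivAt.comp_ofReal
  refine le_of_forall_pos_le_add fun ε hε => ?_
  refine h1.le_of_lip' (by positivity) ?_
  have e1 : ∀ᶠ y : ℝ in 𝓝 z, |y - z| ≤ min τ (ε / (|B| + 1)) := by
    have : closedBall z (min τ (ε / (|B| + 1))) ∈ 𝓝 z :=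
      closedBall_mem_nhds _ (lt_min hτ (by positivity))
    filter_upwards [this] with y hy
    simpa [Real.dist_eq] using hy
  filter_upwards [e1] with y hy
  have h2 := h (y - z) (hy.trans (min_le_left _ _))
  rw [add_sub_cancel] at h2
  have h3 : |y - z| ≤ ε / (|B| + 1) := hy.trans (min_le_right _ _)
  rw [le_div_iff₀ (by positivity)] at h3
  have h4 : B * (y - z) ^ 2 ≤ ε * |y - z| := by
    have : B * (y - z) ^ 2 ≤ (|y - z| * (|B| + 1)) * |y - z| := by
      rw [← sq_abs (y - z)]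
      nlinarith [le_abs_self B, abs_nonneg (y - z), sq_nonneg |y - z|]
    exact this.trans (mul_le_mul_of_nonneg_right h3 (abs_nonneg _))
  rw [Real.norm_eq_abs]
  linarith

variable {M : Type*} {T : TD M} {L L' : T.V → ℝ}

/-- `L` and `L'` agree off the root -/
def Agr (T : TD M) (L L' : T.V → ℝ) : Prop := ∀ w, w ≠ T.root → L w = L' w

theorem Agr.glob (h : Agr T L L') : T.glob L = T.glob L' := by
  unfold TD.glob
  congr 1
  · congr 1
    funext w x
    by_cases hw : w = T.root
    · simp [hw]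
    · rw [h w hw]
  · congr 1
    funext w
    by_cases hw : w = T.root
    · simp [hw]
    · rw [h w hw]

theorem Agr.eps (h : Agr T L L') (hT : T.Ok) : T.eps L = T.eps L' := by
  funext v
  induction v using hT.ind with
  | h0 => rw [hT.eps_root, hT.eps_root]
  | h1 w hw ih => rw [hT.eps_kid L hw, hT.eps_kid L' hw, ih, h w hw]

theorem Agr.gK (h : Agr T L L') : T.gK L = T.gK L' := by
  unfold TD.gK
  congr 1
  funext w
  by_cases hw : w = T.root
  · simp [hw]
  · rw [h w hw]

theorem Agr.gbL (h : Agr T L L') (g : T.V → Fam T) (T0 : ℝ) : gbL T g T0 L = gbL T g T0 L' := by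
  unfold CB.gbL
  congr 1
  funext w x
  by_cases hw : w = T.root
  · simp [hw]
  · rw [h w hw]

theorem Agr.toL (h : Agr T L L') (v : T.V) (X : Fam T) : toL T L v X = toL T L' v X := by
  unfold CB.toL
  congr 1
  funext w x
  by_cases hw : w = T.root
  · simp [hw, TD.kid]
  · rw [h w hw]

theorem Agr.pair (h : Agr T L L') (g : T.V → Fam T) (v : T.V) (X Y : Fam T) :
    pair T g v X (loc T L v Y) = pair T g v X (loc T L' v Y) := by
  unfold CB.pair Atl.int
  refine Finset.sum_congr rfl fun s _ => ?_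
  rcases s with a | w
  · rfl
  · by_cases hw : w = T.root
    · by_cases hv : w = v
      · have : loc T L v Y (Sum.inr w) = loc T L' v Y (Sum.inr w) := by
          funext x; simp [loc, hv]
        simp only [this]
      · have : (T.core v).U (Sum.inr w) = ∅ := by
          ext x; rw [TD.mem_core_inn hv]; simp [TD.kid, hw]
        simp [this]
    · have : loc T L v Y (Sum.inr w) = loc T L' v Y (Sum.inr w) := by
        funext x; simp [loc, h w hw]
      simp only [this]

theorem Agr.actL (h : Agr T L L') (hT : T.Ok) (H G : Fam T) : actL T L H G = actL T L' H G := by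
  unfold CB.actL
  rw [h.glob, h.eps hT]

theorem Agr.ls (h : Agr T L L') (hT : T.Ok) {g : T.V → Fam T} {T0 δ δ' : ℝ} {κ : T.V → Type}
    [∀ v, Fintype (κ v)] {ψ : ∀ v, κ v → Fam T} {θ μ : (Σ v, κ v) → ℝ} {G : Fam T}
    (hδ : δ ≤ δ') (H : LS T g T0 κ ψ δ L θ μ G) : LS T g T0 κ ψ δ' L' θ μ G where
  met := by have := H.met; rwa [h.glob, h.eps hT] at this
  el := by
    have := H.el
    simp only [h.toL] at this
    rwa [h.glob, h.eps hT, h.gbL] at this
  con := fun j => by rw [← h.pair, ← h.gbL]; exact H.con j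
  small := by
    have := H.small
    rw [h.gK, h.gbL] at this
    exact fun s x hx y hy k hk a b => (this s x hx y hy k hk a b).trans hδ
  mu := H.mu.trans hδ
  dec := fun x hx k hk a b => (H.dec x hx k hk a b).trans
    (mul_le_mul_of_nonneg_right hδ (by positivity))
  int := by have := H.int; rwa [h.glob, h.gbL] at this

theorem scl_nonneg (s : T.S) (x : E4) : 0 ≤ scl T s x := by
  rcases s with a | w
  · exact zero_le_one
  · exact norm_nonneg x

theorem W1_eq (L : T.V → ℝ) : W1 T L = Ga.gU T L 1 := by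
  funext s
  rcases s with a | w
  · simp only [W1, Ga.gU, Sum.elim_inl]; norm_num
  · ext x
    simp only [W1, Ga.gU, Sum.elim_inr, mem_ofPred_eq]
    rw [show (3 / 2 * (1 - 1 / 8) : ℝ) = 21 / 16 by norm_num,
      show 3 / 4 * T.r * Real.exp (L w) * (1 + 1 / 8) = 27 / 32 * T.r * Real.exp (L w) by ring]

theorem U1_sub (hT : T.Ok) (L : T.V → ℝ) (s : T.S) : U1 T L s ⊆ W1 T L s := by
  rcases s with a | w
  · exact ball_subset_ball (by norm_num)
  · rintro x ⟨h1, h2⟩
    have := mul_pos hT.r_pos (Real.exp_pos (L w))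
    exact ⟨by linarith, fun hw => by have := h2 hw; nlinarith⟩

theorem NId.mono {δ δ' : ℝ} {u : T.S → E4 → E4} (h : NId T L L' δ u) (hδ : δ ≤ δ') :
    NId T L L' δ' u :=
  ⟨h.sm, h.maps, h.compat, fun s x hx k hk => (h.near s x hx k hk).trans
    (mul_le_mul_of_nonneg_right hδ (scl_nonneg s x)), h.dec⟩

theorem nid_of_nearId (hT : T.Ok) {ε : ℝ} (hε : ε ≤ 1 / 16) {u : T.S → E4 → E4}
    (h : Ga.NearId T L ε u) : NId T L L ε u := by
  have hs : ∀ s, U1 T L s ⊆ Ga.gU T L 1 s := fun s => W1_eq L ▸ U1_sub hT L s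
  refine ⟨fun s => (h.sm s).mono (hs s), fun s x hx => ?_,
    fun s s' x hx y hy e => h.compat s s' x (hs s hx) y (hs s' hy) e,
    fun s x hx k hk => h.jet s x (hs s hx) k (by omega), ?_⟩
  · have h0 := h.jet s x (hs s hx) 0 (by omega)
    simp only [pow_zero, one_mul, norm_iteratedFDeriv_zero] at h0
    have h1 : ‖u s x‖ ≤ ‖x‖ + ‖u s x - x‖ := by
      simpa using norm_add_le x (u s x - x)
    have h2 : ‖x‖ ≤ ‖u s x‖ + ‖u s x - x‖ := by
      simpa [norm_sub_rev] using norm_add_le (u s x) (x - u s x)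
    rcases s with a | w
    · have hx' : ‖x‖ < 25 / 16 := by simpa [U1] using hx
      simp only [scl, Sum.elim_inl] at h0
      simp only [W1, Sum.elim_inl, mem_ball_zero_iff]
      linarith
    · obtain ⟨h3, h4⟩ := hx
      simp only [scl, Sum.elim_inr] at h0
      have h5 : ε * ‖x‖ ≤ 1 / 16 * ‖x‖ := mul_le_mul_of_nonneg_right hε (norm_nonneg _)
      have := mul_pos hT.r_pos (Real.exp_pos (L w))
      exact ⟨by linarith, fun hw => by have := h4 hw; nlinarith⟩
  · obtain ⟨R, C, hC⟩ := h.dec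
    refine ⟨|C|, max R 1, fun x hx k hk => ?_⟩
    have h1 : 1 ≤ ‖x‖ := (le_max_right _ _).trans hx
    have h0 : 0 < ‖x‖ := by linarith
    have h2 := hC x ((le_max_left _ _).trans hx) k (by omega)
    rw [← le_div_iff₀' (by positivity)] at h2
    refine h2.trans ?_
    have h3 : ‖x‖ ^ (-(2 : ℝ) - k) ≤ ‖x‖ ^ (-(3 / 2 : ℝ) - k) :=
      Real.rpow_le_rpow_of_exponent_le h1 (by linarith)
    have h4 : ‖x‖ ^ (-(2 : ℝ) - k) = (‖x‖ ^ 2)⁻¹ * (‖x‖ ^ k)⁻¹ := by
      rw [sub_eq_add_neg, Real.rpow_add h0, Real.rpow_neg h0.le, Real.rpow_neg h0.le,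
        Real.rpow_natCast, Real.rpow_two]
    calc C / ‖x‖ ^ 2 / ‖x‖ ^ k = C * ‖x‖ ^ (-(2 : ℝ) - k) := by rw [h4]; ring
      _ ≤ |C| * ‖x‖ ^ (-(2 : ℝ) - k) :=
        mul_le_mul_of_nonneg_right (le_abs_self C) (by positivity)
      _ ≤ _ := mul_le_mul_of_nonneg_left h3 (abs_nonneg C)

theorem eps_exp_le (hT : T.Ok) (hL : ∀ w, w ≠ T.root → 0 ≤ L w) {w : T.V} (hw : w ≠ T.root) :
    Real.exp (L w) * T.eps L w ≤ 1 := by
  have h1 : ∀ v, T.eps L v ≤ 1 := fun v => by
    induction v using hT.ind with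
    | h0 => rw [hT.eps_root]
    | h1 w hw ih =>
      rw [hT.eps_kid L hw]
      have := Real.exp_le_one_iff.2 (neg_nonpos.2 (hL w hw))
      have := T.eps_pos L (T.par w)
      have := Real.exp_pos (-L w)
      nlinarith
  rw [hT.eps_kid L hw]
  have := h1 (T.par w)
  have e : Real.exp (L w) * Real.exp (-L w) = 1 := by rw [← Real.exp_add]; simp
  nlinarith

end Crest.Agent.N207.NS

end
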