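import Crest.Agent.N207.N.Swl1
import Crest.Agent.N207.N.Chi
import Crest.Agent.N207.O.Ost

/-!
# Row 207, block N (helper9): the glue, core part
-/

set_option autoImplicit false

open scoped ContDiff Topology
open Metric Set Filter MeasureTheory
open Crest.GeometryTopology.CoordMetric
open Crest.Agent.N207.I Crest.Agent.N207.Lg Crest.Agent.N207.CB

noncomputable section

namespace Crest.Agent.N207.NS

variable {M : Type*} {T : TD M} {g : T.V → Fam T} {κ : T.V → Type} [∀ v, Fintype (κ v)]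
  [∀ v, DecidableEq (κ v)] {ψ : ∀ v, κ v → Fam T}

theorem sw_upd_coe {ι : Type} [DecidableEq ι] (θ : ι → ℝ) (j : ι) (t : ℝ) :
    Function.update (fun j => (θ j : ℂ)) j (t : ℂ) = fun i => ((Function.update θ j t i : ℝ) : ℂ) := by
  funext i
  by_cases h : i = j
  · subst h; simp
  · simp [h]

theorem sw_norm_upd_sub {ι : Type} [Fintype ι] [DecidableEq ι] (θ : ι → ℝ) (j : ι) (t : ℝ) :
    ‖Function.update θ j (θ j + t) - θ‖ ≤ |t| := by
  refine (pi_norm_le_iff_of_nonneg (abs_nonneg t)).2 fun i => ?_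
  by_cases h : i = j
  · subst h; simp
  · simp [h]

theorem sw_met1_of (hT : T.Ok) {L : T.V → ℝ} {H : Fam T} (h : (T.glob L).IsMet (rt T L H)) :
    Met1 T L H := by
  have sub : ∀ s, U1 T L s ⊆ (T.glob L).U s := U1_U hT
  exact ⟨fun s => ⟨U1_open s, fun i j => ((h.riem s).contDiffOn i j).mono (sub s),
    fun x hx => (h.riem s).posDef x (sub s hx)⟩, fun a b x F hF =>
    h.compat a b x F ⟨sub _ hF.mem, sub _ hF.mem', hF.sm, hF.eq⟩⟩

theorem sw_rt_nrm (L : T.V → ℝ) (G : Fam T) : rt T L (T.nrm L G) = G := by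
  funext s x
  have := T.eps_pos L (T.un s)
  simp only [rt, TD.nrm, smul_smul]
  rw [mul_inv_cancel₀ (by positivity), one_smul]

theorem Agr.bb {L L' : T.V → ℝ} (h : Agr T L L') (hT : T.Ok) (T0 : ℝ) (G : Fam T) :
    BB T L (CB.gbL T g T0 L) G = BB T L' (CB.gbL T g T0 L') G := by
  have : U1 T L = U1 T L' := by
    unfold U1
    congr 1
    funext w
    by_cases hw : w = T.root
    · simp [hw]
    · rw [h w hw]
  simp only [BB, intL, ep, h.gbL, h.glob, h.eps hT, this]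

/-- the derivatives of the reduced function at one point -/
theorem sw_slices (hT : T.Ok) {T0 δ δb δc Cb Cc τ r r0 l0 l1 A : ℝ} (D : OD (Σ v, κ v) T.V)
    (hb : δ ≤ δb) (hc : δ ≤ δc) (hCb : 0 < Cb) (hCc : 0 < Cc) (hτ : 0 < τ) (hr0 : 0 < r0)
    (hr : r0 ≤ r) (hr1 : r0 ≤ 1)
    (hF : ∀ (θ : (Σ v, κ v) → ℝ) (L : T.V → ℝ), ‖θ‖ ≤ r → (∀ w, l0 ≤ L w) →
      ∃ (μ : (Σ v, κ v) → ℝ) (G : Fam T), LS T g T0 κ ψ δ L θ μ G ∧
        D.f (fun j => θ j) (fun w => L w) = (actL T L (gbL T g T0 L) G : ℝ))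
    (ht : ∀ L, Lng T l1 L → ∀ (θ θ' μ μ' : (Σ v, κ v) → ℝ) (G G' : Fam T),
      LS T g T0 κ ψ δb L θ μ G → LS T g T0 κ ψ δb L θ' μ' G' →
      |actL T L (gbL T g T0 L) G' - actL T L (gbL T g T0 L) G| ≤
        Cb * (√(mu2 T κ L μ) * ‖θ' - θ‖ + ‖θ' - θ‖ ^ 2))
    (hl : ∀ L, Lng T l1 L → ∀ w, w ≠ T.root → ∀ t : ℝ, |t| ≤ τ →
      ∀ (θ μ μ' : (Σ v, κ v) → ℝ) (G G' : Fam T), ‖θ‖ ≤ 1 → LS T g T0 κ ψ δc L θ μ G →
      LS T g T0 κ ψ δc (Function.update L w (L w + t)) θ μ' G' →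
      |actL T (Function.update L w (L w + t)) (gbL T g T0 (Function.update L w (L w + t))) G' -
          actL T L (gbL T g T0 L) G| ≤
        Cc * ((√(mu2 T κ L μ) + √(BB T L (gbL T g T0 L) G)) * (T.eps L w * |t|) + t ^ 2))
    {L : T.V → ℝ} (h0 : ∀ w, l0 + 1 ≤ L w) (h1 : Lng T l1 L) (h2 : ∀ w, w ≠ T.root → 0 ≤ L w)
    {θ μ : (Σ v, κ v) → ℝ} {G : Fam T} (hθ : ‖θ‖ ≤ r0 / 2) (hG : LS T g T0 κ ψ δ L θ μ G)
    (hf : D.f (fun j => θ j) (fun w => L w) = (actL T L (gbL T g T0 L) G : ℝ))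
    (hm : √(mu2 T κ L μ) ≤ A) (hB : √(BB T L (gbL T g T0 L) G) ≤ A) :
    (∑ j, ‖deriv (fun t : ℂ => D.f (Function.update (fun j => (θ j : ℂ)) j t) fun w => L w) (θ j)‖ +
      ∑ w, Real.exp (1 * L w) * ‖deriv (fun t : ℂ => D.f (fun j => θ j)
        (Function.update (fun w => (L w : ℂ)) w t)) (L w)‖) ≤
      (Fintype.card (Σ v, κ v) * Cb + Fintype.card T.V * (2 * Cc)) * A := by
  have hA : 0 ≤ A := (Real.sqrt_nonneg _).trans hm
  have rf : Agr T L L := fun _ _ => rfl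
  have a1 : ∀ j, ‖deriv (fun t : ℂ => D.f (Function.update (fun j => (θ j : ℂ)) j t) fun w => L w)
      (θ j)‖ ≤ Cb * A := fun j => by
    refine norm_deriv_le_of_real (B := Cb) (by positivity) (half_pos hr0) fun t htt => ?_
    have n1 := sw_norm_upd_sub θ j t
    have n2 : ‖Function.update θ j (θ j + t)‖ ≤ r := by
      have := norm_add_le (Function.update θ j (θ j + t) - θ) θ
      rw [sub_add_cancel] at this
      linarith
    obtain ⟨μ', G', hG', e'⟩ := hF _ L n2 fun w => by linarith [h0 w]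
    simp only [sw_upd_coe, Function.update_eq_self]
    rw [e', hf, ← Complex.ofReal_sub, Complex.norm_real, Real.norm_eq_abs]
    refine (ht L h1 _ _ _ _ _ _ (rf.ls hT hb hG) (rf.ls hT hb hG')).trans ?_
    have n3 := mul_le_mul hm n1 (norm_nonneg _) hA
    have n4 : ‖Function.update θ j (θ j + t) - θ‖ ^ 2 ≤ t ^ 2 := by
      rw [← sq_abs t]; exact pow_le_pow_left₀ (norm_nonneg _) n1 2
    nlinarith
  have a2 : ∀ w, Real.exp (1 * L w) * ‖deriv (fun t : ℂ => D.f (fun j => θ j)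
      (Function.update (fun w => (L w : ℂ)) w t)) (L w)‖ ≤ 2 * Cc * A := fun w => by
    have hL' : ∀ t : ℝ, |t| ≤ 1 → ∀ w', l0 ≤ Function.update L w (L w + t) w' := fun t htt w' => by
      by_cases e : w' = w
      · subst e; rw [Function.update_self]; linarith [h0 w', neg_abs_le t]
      · rw [Function.update_of_ne e]; linarith [h0 w']
    by_cases hw : w = T.root
    · have : ‖deriv (fun t : ℂ => D.f (fun j => θ j)
          (Function.update (fun w => (L w : ℂ)) w t)) (L w)‖ ≤ 0 := by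
        refine norm_deriv_le_of_real (B := 0) le_rfl one_pos fun t htt => ?_
        obtain ⟨μ', G', hG', e'⟩ := hF θ _ (by linarith) (hL' t htt)
        have ag : Agr T (Function.update L w (L w + t)) L := fun w' hw' =>
          Function.update_of_ne (hw ▸ hw') _ _
        simp only [sw_upd_coe, Function.update_eq_self]
        rw [e', hf, ← Complex.ofReal_sub, Complex.norm_real, Real.norm_eq_abs, ag.actL hT, ag.gbL]
        simpa using ht L h1 _ _ _ _ _ _ (rf.ls hT hb hG) (ag.ls hT hb hG')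
      rw [le_antisymm this (norm_nonneg _), mul_zero]
      positivity
    · have he := T.eps_pos L w
      have : ‖deriv (fun t : ℂ => D.f (fun j => θ j)
          (Function.update (fun w => (L w : ℂ)) w t)) (L w)‖ ≤ 2 * Cc * A * T.eps L w := by
        refine norm_deriv_le_of_real (B := Cc) (by positivity) (lt_min hτ one_pos) fun t htt => ?_
        obtain ⟨μ', G', hG', e'⟩ := hF θ _ (by linarith) (hL' t (htt.trans (min_le_right _ _)))
        have rf' : Agr T (Function.update L w (L w + t)) (Function.update L w (L w + t)) :=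
          fun _ _ => rfl
        simp only [sw_upd_coe, Function.update_eq_self]
        rw [e', hf, ← Complex.ofReal_sub, Complex.norm_real, Real.norm_eq_abs]
        refine (hl L h1 w hw t (htt.trans (min_le_left _ _)) _ _ _ _ _ (by linarith)
          (rf.ls hT hc hG) (rf'.ls hT hc hG')).trans ?_
        have n3 := mul_le_mul_of_nonneg_right (add_le_add hm hB)
          (mul_nonneg he.le (abs_nonneg t))
        nlinarith
      have e1 := eps_exp_le hT h2 hw
      rw [one_mul]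
      calc _ ≤ Real.exp (L w) * (2 * Cc * A * T.eps L w) :=
            mul_le_mul_of_nonneg_left this (Real.exp_pos _).le
        _ = 2 * Cc * A * (Real.exp (L w) * T.eps L w) := by ring
        _ ≤ _ := mul_le_of_le_one_right (by positivity) e1
  calc _ ≤ ∑ _j : Σ v, κ v, Cb * A + ∑ _w : T.V, 2 * Cc * A :=
        add_le_add (Finset.sum_le_sum fun j _ => a1 j) (Finset.sum_le_sum fun w _ => a2 w)
    _ = _ := by simp only [Finset.sum_const, Finset.card_univ, nsmul_eq_mul]; ring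

theorem sw_ev_exp (C a b : ℝ) (hab : b < a) {ε : ℝ} (hε : 0 < ε) :
    ∀ᶠ t : ℝ in atTop, C * Real.exp (-(a * t)) ≤ ε * Real.exp (-(b * t)) := by
  have h : Tendsto (fun t : ℝ => C * Real.exp (-((a - b) * t))) atTop (𝓝 (C * 0)) :=
    (Real.tendsto_exp_neg_atTop_nhds_zero.comp
      (tendsto_id.const_mul_atTop (sub_pos.2 hab))).const_mul C
  rw [mul_zero] at h
  filter_upwards [h.eventually (gt_mem_nhds hε)] with t ht
  have e : C * Real.exp (-(a * t)) = C * Real.exp (-((a - b) * t)) * Real.exp (-(b * t)) := by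
    rw [mul_assoc, ← Real.exp_add]; congr 2; ring
  rw [e]
  exact mul_le_mul_of_nonneg_right ht.le (Real.exp_pos _).le

set_option maxHeartbeats 800000 in
/-- the glue for one family of constraints -/
theorem swl_core (hT : T.Ok) {c : ℝ} (hO : O.OST) (hF : FAM T g κ ψ (1 / 2)) (h1 : Thb T g κ ψ c)
    (h2 : Cmpg T g κ ψ) (h3 : Grt T g κ ψ) (h4 : Grl T g κ ψ) (h5 : NEARG T g)
    {U : Ultrafilter ℕ} {L : ℕ → T.V → ℝ} {G : ℕ → T.S → MetricField 4} {E : ℕ → ℝ}
    (hS : T.Seq g (1 / 2) U L G) (hG : Ga.GAUGE T g (1 / 2) U L G)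
    (hfl : ∀ᶠ i in (U : Filter ℕ), Sk.Flat T (G i)) (hE : ∀ i, 0 ≤ E i)
    (hEE : ∀ᶠ i in (U : Filter ℕ), Sk.EE T (L i) (G i) ≤ ENNReal.ofReal (E i ^ 2))
    (hE0 : Tendsto E U (𝓝 0)) (hS0 : Tendsto (fun i => Sk.SR T (L i) (G i)) U (𝓝 0))
    {η : ℝ} (hη : 0 < η) : ∀ᶠ i in (U : Filter ℕ), |Sk.SR T (L i) (G i)| ≤ η * E i := by
  classical
  rcases U.le_cofinite_or_eq_pure with hU | ⟨n, rfl⟩
  swap
  · have := tendsto_nhds_unique hS0 (tendsto_pure_nhds (fun i => Sk.SR T (L i) (G i)) n)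
    rw [Ultrafilter.coe_pure, eventually_pure, ← this, abs_zero]
    exact mul_nonneg hη.le (hE n)
  rw [Nat.cofinite_eq_atTop] at hU
  obtain ⟨δ0, C1, Ta, hδ0, hC1, h1⟩ := h1
  obtain ⟨δa, Tb, hδa, h2⟩ := h2
  obtain ⟨δb, Tc, hδb, h3⟩ := h3
  obtain ⟨δc, Td, hδc, h4⟩ := h4
  obtain ⟨Te, hF⟩ := hF (min δa (min δb δc)) (by positivity)
  obtain ⟨C2, Tf, hC2, hG⟩ := hG
  obtain ⟨h5, h6⟩ := h5 U L G hS
  obtain ⟨T0, ⟨⟨⟨ta, tb⟩, tc, td⟩, ⟨te, tf⟩, tg, t0⟩, ⟨n1, n2⟩, n3⟩ := ((((((eventually_ge_atTop Ta).and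
    (eventually_ge_atTop Tb)).and ((eventually_ge_atTop Tc).and (eventually_ge_atTop Td))).and
    (((eventually_ge_atTop Te).and (eventually_ge_atTop Tf)).and ((eventually_ge_atTop (c + 2)).and
    (eventually_ge_atTop 0)))).and (((sw_ev_exp C2 (2 / 5) 0 (by norm_num)
    (show 0 < min δ0 (min δa (1 / 16)) by positivity)).and (sw_ev_exp (C1 * C2) (2 / 5) (3 / 8)
    (by norm_num) (show (0 : ℝ) < 1 / 4 by norm_num))).and (h5 δa hδa)))).exists
  obtain ⟨Ca, hCa, h2⟩ := h2 T0 tb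
  obtain ⟨Cb, hCb, h3⟩ := h3 T0 tc
  obtain ⟨Cc, τ, hCc, hτ, h4⟩ := h4 T0 td
  obtain ⟨D, r, l0, hr, hρ, hF⟩ := hF T0 te
  set r0 := Real.exp (-(3 / 8 * T0)) with hr0
  have r0p : 0 < r0 := Real.exp_pos _
  have r01 : r0 ≤ 1 := Real.exp_le_one_iff.2 (by linarith)
  have hr' : r0 ≤ r := by
    rw [show (3 / 4 * min (1 / 2) 1 * T0 : ℝ) = 3 / 8 * T0 by norm_num [min_eq_left]] at hr
    exact hr
  set ε := C2 * Real.exp (-(2 / 5 * T0)) with hε
  simp only [zero_mul, neg_zero, Real.exp_zero, mul_one, le_min_iff] at n1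
  have hG' : ∀ᶠ i in (U : Filter ℕ), ∃ u : T.S → E4 → E4, NId T (L i) (L i) ε u ∧
      ∀ s, ∀ x ∈ U1 T (L i) s, gauT (pm (u s) (gbL T g T0 (L i) s)) (T.nrm (L i) (G i) s) x = 0 := by
    filter_upwards [hG T0 tf] with i ⟨u, hu, hg⟩
    rw [show (4 / 5 * (1 / 2) * T0 : ℝ) = 2 / 5 * T0 by ring] at hu
    exact ⟨u, nid_of_nearId hT n1.2.2 hu, fun s x hx => hg s x (W1_eq (L i) ▸ U1_sub hT _ s hx)⟩
  obtain ⟨u, hu⟩ := hG'.choice
  set L' : ℕ → T.V → ℝ := fun i => Function.update (L i) T.root i with hL'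
  have ag : ∀ i, Agr T (L' i) (L i) := fun i w hw => Function.update_of_ne hw _ _
  have top : ∀ w, Tendsto (fun i => L' i w) U atTop := fun w => by
    by_cases hw : w = T.root
    · simp only [hL', hw, Function.update_self]
      exact tendsto_natCast_atTop_atTop.mono_left hU
    · simpa only [ag _ w hw] using hS.top w hw
  have lng : ∀ l : ℝ, ∀ᶠ i in (U : Filter ℕ), ∀ w, l ≤ L' i w := fun l =>
    eventually_all.2 fun w => (top w).eventually_ge_atTop l
  have lng' : ∀ {l : ℝ} {i : ℕ}, (∀ w, l ≤ L' i w) → Lng T l (L i) := fun h w hw =>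
    ag _ w hw ▸ h w
  set θ : ℕ → (Σ v, κ v) → ℝ := fun i =>
    if ‖th T g κ ψ T0 (L i) (u i) (T.nrm (L i) (G i))‖ ≤ r0 / 2 then
      th T g κ ψ T0 (L i) (u i) (T.nrm (L i) (G i)) else 0 with hθ
  have θb : ∀ i, ‖θ i‖ ≤ r0 / 2 := fun i => by
    simp only [hθ]
    split_ifs with h
    · exact h
    · rw [norm_zero]; positivity
  set K := (Fintype.card (Σ v, κ v) * Cb + Fintype.card T.V * (2 * Cc)) * √Ca with hK
  have K0 : 0 ≤ K := by positivity
  have main : ∀ᶠ i in (U : Filter ℕ),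
      ‖(Sk.SR T (L i) (G i) : ℂ) - D.f (fun j => θ i j) (fun w => L' i w)‖ ≤ Ca * E i ^ 2 ∧
      (∑ j, ‖deriv (fun t : ℂ => D.f (Function.update (fun j => (θ i j : ℂ)) j t)
          fun w => L' i w) (θ i j)‖ + ∑ w, Real.exp (1 * L' i w) * ‖deriv (fun t : ℂ =>
            D.f (fun j => θ i j) (Function.update (fun w => (L' i w : ℂ)) w t)) (L' i w)‖) ≤
        K * E i := by
    filter_upwards [hu, n3, h6 (c + 2) (r0 / (4 * C1)) (by positivity) T0 tg, hS.met, hfl, hEE,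
      lng (l0 + 1), lng (2 * T0 + Ta), lng (2 * T0 + Tb), lng (max (2 * T0 + Tc) (2 * T0 + Td)),
      lng 0] with i ⟨hu1, hu2⟩ i1 i2 ⟨i3, i4⟩ i5 i6 l1 l2 l3 l4 l5
    have hm : Met1 T (L i) (T.nrm (L i) (G i)) := sw_met1_of hT (by rwa [sw_rt_nrm])
    have b1 := h1 T0 ta (L i) (lng' l2) ε _ (u i) _ n1.1 (by positivity) hu1 hm i2
    have b2 : ‖th T g κ ψ T0 (L i) (u i) (T.nrm (L i) (G i))‖ ≤ r0 / 2 := by
      have : C1 * (r0 / (4 * C1)) = r0 / 4 := by field_simp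
      rw [mul_add, this, hε, ← mul_assoc] at b1
      linarith
    have e : θ i = th T g κ ψ T0 (L i) (u i) (T.nrm (L i) (G i)) := if_pos b2
    obtain ⟨μ, G', hG', ef⟩ := hF (θ i) (L' i) (by linarith [θb i]) fun w => by linarith [l1 w]
    obtain ⟨c1, c2, c3⟩ := h2 (L i) (lng' l3) (G i) (u i) (E i) μ G' i4 i5 i1 (hu1.mono n1.2.1) hu2
      (hE i) i6 (e ▸ (ag i).ls hT (min_le_left _ _) hG')
    have sq : ∀ {y : ℝ}, y ≤ Ca * E i ^ 2 → √y ≤ √Ca * E i := fun h => by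
      rw [← Real.sqrt_sq (hE i), ← Real.sqrt_mul hCa.le]; exact Real.sqrt_le_sqrt h
    refine ⟨?_, ?_⟩
    · rw [ef, ← Complex.ofReal_sub, Complex.norm_real, Real.norm_eq_abs, (ag i).actL hT,
        (ag i).gbL]
      exact c1
    · rw [hK, mul_assoc]
      refine sw_slices hT D ((min_le_right _ _).trans (min_le_left _ _))
        ((min_le_right _ _).trans (min_le_right _ _)) hCb hCc hτ r0p hr' r01 hF
        (fun L h => h3 L fun w hw => (le_max_left _ _).trans (h w hw))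
        (fun L h => h4 L fun w hw => (le_max_right _ _).trans (h w hw)) l1 (fun w _ => l4 w)
        (fun w _ => l5 w) (θb i) hG' ef (sq ?_) (sq ?_)
      · rwa [mu2, (ag i).eps hT]
      · rwa [(ag i).bb hT]
  have E2 : Tendsto (fun i => Ca * E i ^ 2) U (𝓝 0) := by
    simpa using (hE0.pow 2).const_mul Ca
  have f0 : Tendsto (fun i => D.f (fun j => θ i j) fun w => L' i w) U (𝓝 0) := by
    have a1 : Tendsto (fun i => (Sk.SR T (L i) (G i) : ℂ) - D.f (fun j => θ i j) fun w => L' i w)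
        U (𝓝 0) := squeeze_zero_norm' (main.mono fun i h => h.1) E2
    have a2 : Tendsto (fun i => (Sk.SR T (L i) (G i) : ℂ)) U (𝓝 0) := by
      simpa using hS0.ofReal
    simpa using a2.sub a1
  have hη' : 0 < η / (2 * (K + 1)) := by positivity
  filter_upwards [main, hO _ _ D ℕ U θ L' r hρ (fun i => by linarith [θb i]) top f0 1 one_pos _ hη',
    (hE0.const_mul Ca).eventually (gt_mem_nhds (show Ca * 0 < η / 2 by simpa using hη))]
    with i ⟨m1, m2⟩ m3 m4
  have m5 : ‖(Sk.SR T (L i) (G i) : ℂ)‖ ≤ Ca * E i ^ 2 + η / (2 * (K + 1)) * (K * E i) := by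
    have := norm_add_le ((Sk.SR T (L i) (G i) : ℂ) - D.f (fun j => θ i j) fun w => L' i w)
      (D.f (fun j => θ i j) fun w => L' i w)
    rw [sub_add_cancel] at this
    exact this.trans (add_le_add m1 (m3.trans (mul_le_mul_of_nonneg_left m2 hη'.le)))
  rw [Complex.norm_real, Real.norm_eq_abs] at m5
  have m6 : η / (2 * (K + 1)) * K ≤ η / 2 := by
    rw [div_mul_eq_mul_div, div_le_div_iff₀ (by positivity) two_pos]; nlinarith
  have := hE i
  nlinarith

end Crest.Agent.N207.NS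

end
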