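import Crest.Agent.N207.N.Swl2

/-!
# Row 207, block N (helper9): the glue `swl_of`
-/

set_option autoImplicit false

open scoped ContDiff Topology
open Metric Set Filter MeasureTheory
open Crest.GeometryTopology.CoordMetric
open Crest.Agent.N207.I Crest.Agent.N207.Lg Crest.Agent.N207.CB

noncomputable section

namespace Crest.Agent.N207.NS

variable {M : Type*}

/-- the consequences of the comparison inequality -/
def REST (T : TD M) (g : T.V → Fam T) : Prop :=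
  ∀ (κ : T.V → Type) [∀ v, Fintype (κ v)] [∀ v, DecidableEq (κ v)] (ψ : ∀ v, κ v → Fam T)
    (c η C : ℝ), 2 ≤ c → Real.exp (-c) ≤ T.r / 8 → 0 < η → Good T g κ ψ c η C → Cmp T g κ ψ c →
    Thb T g κ ψ c ∧ Cmpg T g κ ψ ∧ Grt T g κ ψ ∧ Grl T g κ ψ

/-- the gauge, for all sequences -/
def GAUA (T : TD M) (g : T.V → Fam T) : Prop :=
  ∀ (U : Ultrafilter ℕ) (L : ℕ → T.V → ℝ) (G : ℕ → T.S → MetricField 4),
    T.Seq g (1 / 2) U L G → (∀ᶠ i in (U : Filter ℕ), Sk.Flat T (G i)) →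
    Ga.GAUGE T g (1 / 2) U L G

/-- **the glue of the static chain** -/
theorem swl_of (hO : O.OST) (hL : ∀ T : TD M, LStmt T)
    (h : ∀ (T : TD M) (g : T.V → Fam T), Std T g →
      FAMX T g ∧ KL T g ∧ CMP T g ∧ NEARG T g ∧ GAUA T g ∧ REST T g) : Sk.SWL' M := by
  intro T g U L G E hT hc hg hS hfl hE hEE hE0 hS0 η hη
  obtain ⟨h1, h2, h3, h4, h5, h6⟩ := h T g ⟨hT, hc, hg⟩
  have hV : (1 : ℝ) ≤ Fintype.card T.V := by
    exact_mod_cast Fintype.card_pos_iff.2 ⟨T.root⟩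
  have hm : min (1 / 2 : ℝ) 1 = 1 / 2 := min_eq_left (by norm_num)
  obtain ⟨c1, h2⟩ := h2 (sig T (1 / 2)) (by rw [sig, hm]; positivity)
    (by rw [sig, hm, div_lt_one (by positivity)]; linarith)
  obtain ⟨c2, h3⟩ := h3
  set c := max (max c1 c2) (max 2 (-Real.log (T.r / 8))) with hcd
  obtain ⟨η1, p1, h2⟩ := h2 c ((le_max_left _ _).trans (le_max_left _ _))
  obtain ⟨η2, p2, h3⟩ := h3 c ((le_max_right _ _).trans (le_max_left _ _))
  have a1 : 2 ≤ c := (le_max_left _ _).trans (le_max_right _ _)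
  have a2 : Real.exp (-c) ≤ T.r / 8 := by
    have : -Real.log (T.r / 8) ≤ c := (le_max_right _ _).trans (le_max_right _ _)
    have hr := hT.r_pos
    rw [← Real.exp_log (show 0 < T.r / 8 by positivity)]
    exact Real.exp_le_exp.2 (by linarith)
  obtain ⟨κ, i1, i2, ψ, C, hG⟩ := h1 c (min η1 η2) a1 a2 (lt_min p1 p2)
  obtain ⟨b1, b2, b3, b4⟩ := h6 κ ψ c _ C a1 a2 (lt_min p1 p2) hG (h3 κ ψ _ C (min_le_right _ _) hG)
  exact swl_core hT hO (hL T g _ (by norm_num) hT hg κ ψ (h2 κ ψ _ C (min_le_left _ _) hG))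
    b1 b2 b3 b4 h4 hS (h5 U L G hS hfl) hfl hE hEE hE0 hS0 hη

end Crest.Agent.N207.NS

end
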