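import Crest.Agent.N207.Lg.Nat

/-!
# Row 207, block N (helper32): Taylor expansion of the gauge-fixed Lagrangian on jets
-/

set_option autoImplicit false

open scoped ContDiff Topology
open Metric Set Filter
open Crest.Agent.N207.Lg

noncomputable section

namespace Crest.Agent.N207.NS.Ty

/-- second order Taylor estimate, uniform on a compact set -/
theorem tay_cpt {E : Type*} [NormedAddCommGroup E] [NormedSpace ℝ E] {f : E → ℝ} {K : Set E}
    (hK : IsCompact K) (hf : ∀ z ∈ K, ContDiffAt ℝ 2 f z) : ∃ C : ℝ, 0 ≤ C ∧ ∀ x v : E,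
      (∀ t ∈ Icc (0 : ℝ) 1, x + t • v ∈ K) → |f (x + v) - f x - fderiv ℝ f x v| ≤ C * ‖v‖ ^ 2 := by
  obtain ⟨C, hC⟩ := LocallyLipschitzOn.exists_lipschitzOnWith_of_compact (f := fderiv ℝ f) hK
    fun z hz => by
      obtain ⟨c, t, ht, h⟩ := ((hf z hz).fderiv_right (m := 1) (by norm_num)).exists_lipschitzOnWith
      exact ⟨c, t, mem_nhdsWithin_of_mem_nhds ht, h⟩
  refine ⟨C, C.2, fun x v hx => ?_⟩
  have x0 : x ∈ K := by simpa using hx 0 ⟨le_rfl, zero_le_one⟩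
  have d : ∀ t ∈ Icc (0 : ℝ) 1, HasDerivWithinAt (fun t : ℝ => f (x + t • v) - t * fderiv ℝ f x v)
      (fderiv ℝ f (x + t • v) v - fderiv ℝ f x v) (Icc 0 1) t := fun t ht => by
    have a : HasDerivAt (fun t : ℝ => x + t • v) v t := by
      simpa using ((hasDerivAt_id t).smul_const v).const_add x
    have b := ((hf _ (hx t ht)).differentiableAt two_ne_zero).hasFDerivAt.comp_hasDerivAt t a
    exact ((b.sub ((hasDerivAt_id t).mul_const (fderiv ℝ f x v))).congr_deriv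
      (by rw [one_mul])).hasDerivWithinAt
  have := norm_image_sub_le_of_norm_deriv_le_segment_01' d (C := C * ‖v‖ ^ 2) fun t ht => by
    have a := hC.dist_le_mul _ (hx t ⟨ht.1, ht.2.le⟩) _ x0
    rw [dist_eq_norm, dist_eq_norm, add_sub_cancel_left, norm_smul, Real.norm_of_nonneg ht.1] at a
    rw [← ContinuousLinearMap.sub_apply]
    refine (ContinuousLinearMap.le_opNorm _ _).trans ?_
    have c0 : (0 : ℝ) ≤ C := C.2
    have : ‖fderiv ℝ f (x + t • v) - fderiv ℝ f x‖ ≤ C * ‖v‖ :=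
      a.trans (mul_le_mul_of_nonneg_left (mul_le_of_le_one_left (norm_nonneg _) ht.2.le) c0)
    calc _ ≤ C * ‖v‖ * ‖v‖ := mul_le_mul_of_nonneg_right this (norm_nonneg _)
      _ = _ := by ring
  simp only [one_smul, one_mul, zero_smul, add_zero, zero_mul, sub_zero, Real.norm_eq_abs] at this
  convert this using 2
  ring

/-- arrays -/
abbrev A2 : Type := M2 (Fin 4) ℝ
/-- arrays -/
abbrev A3 : Type := M3 (Fin 4) ℝ
/-- arrays -/
abbrev A4 : Type := M4 (Fin 4) ℝ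
/-- jets: `g, ∂g, b⁻¹, ∂b, ∂∂b` -/
abbrev JJ : Type := A2 × A3 × A2 × A3 × A4

/-- `√det` -/
def sqM (g : A2) : ℝ := √(Matrix.of g).det
/-- inverse -/
def ivM (g : A2) : A2 := fun a b => (Matrix.of g)⁻¹ a b

/-- the Lagrangian as a function of the jets -/
def Ph (z : JJ) : ℝ :=
  fgfR (sqM z.1) z.1 (ivM z.1) z.2.1 (chr z.2.2.1 z.2.2.2.1) (dG2 z.2.2.1 z.2.2.2.1 z.2.2.2.2)

theorem cl_cda {E : Type*} [NormedAddCommGroup E] [NormedSpace ℝ E] (z : E) :
    Cl fun f : E → ℝ => ContDiffAt ℝ 2 f z :=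
  ⟨fun _ => contDiffAt_const, ContDiffAt.add, ContDiffAt.mul⟩

theorem Ph_sm {z : JJ} (hz : 0 < (Matrix.of z.1).det) : ContDiffAt ℝ 2 Ph z := by
  have h := cl_cda z
  have g : ∀ i j, ContDiffAt ℝ 2 (fun w : JJ => Matrix.of w.1 i j) z := fun i j => by
    simp only [Matrix.of_apply]; fun_prop
  have H : P2 (fun f : JJ → ℝ => ContDiffAt ℝ 2 f z) fun w => w.2.2.1 := fun a b => by
    beta_reduce; fun_prop
  have p : P3 (fun f : JJ → ℝ => ContDiffAt ℝ 2 f z) fun w => w.2.2.2.1 := fun a b c => by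
    beta_reduce; fun_prop
  exact h.fgfR ((cA_det g).sqrt hz.ne') g (fun a b => cA_inv g hz.ne' a b)
    (fun a b c => by beta_reduce; fun_prop) (h.chr H p)
    (h.dG2 H p fun a b c d => by beta_reduce; fun_prop)

theorem Ph_hom (r : ℝ) (g : A2) (p : A3) (H : A2) (π : A3) (q : A4) :
    Ph (g, r • p, H, r • π, r ^ 2 • q) = r ^ 2 * Ph (g, p, H, π, q) := by
  simp only [Ph, chr_smul, dG2_hom, fgfR_hom]

theorem Ph_der {g k : A2} (hk : Sy2 k) (hz : 0 < (Matrix.of g).det) (p τ : A3) (H : A2) (π : A3)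
    (q : A4) : HasDerivAt (fun t : ℝ => Ph (g + t • k, p + t • τ, H, π, q))
      (dfgf (sqM g) (ivM g) (bar g p (chr H π)) (ricC (chr H π) (dG2 H π q)) k
        (bar k τ (chr H π))) 0 := by
  have a : HD2 univ 0 (fun t : ℝ => Matrix.of (g + t • k)) k := fun i j => by
    simpa using ((hasDerivAt_id (0 : ℝ)).mul_const (k i j)).const_add (g i j)
  have z : 0 < ((fun t : ℝ => Matrix.of (g + t • k)) 0).det := by simpa using hz
  have s := hd_sqrt_det a hk z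
  have i := hd_inv a z.ne'
  have t : HD3 univ 0 (fun t : ℝ => bar (g + t • k) (p + t • τ) (chr H π)) (bar k τ (chr H π)) :=
    fun i j l => by
      simp only [bar_add, bar_smul, Pi.add_apply, Pi.smul_apply, smul_eq_mul]
      simpa using ((hasDerivAt_id (0 : ℝ)).mul_const (bar k τ (chr H π) i j l)).const_add
        (bar g p (chr H π) i j l)
  have := hd_fgf (s := fun t : ℝ => sqM (g + t • k)) (H := fun t : ℝ => ivM (g + t • k))
    (ricC (chr H π) (dG2 H π q)) s i t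
  simpa [Ph, fgfR] using hasDerivWithinAt_univ.1 this

/-- **Taylor on jets** -/
theorem tay_pt (Λ : ℝ) (hΛ : 0 < Λ) : ∃ C : ℝ, 0 ≤ C ∧ ∀ (g k H : A2) (p τ π : A3) (q : A4) (r : ℝ),
    0 < r → Sy2 k → (∀ t ∈ Icc (0 : ℝ) 1, ‖g + t • k‖ ≤ Λ ∧ Λ⁻¹ ≤ sqM (g + t • k)) →
    ‖r • p‖ ≤ Λ → ‖r • (p + τ)‖ ≤ Λ → ‖H‖ ≤ Λ → ‖r • π‖ ≤ Λ → ‖r ^ 2 • q‖ ≤ Λ →
    |Ph (g + k, p + τ, H, π, q) - Ph (g, p, H, π, q) -
      dfgf (sqM g) (ivM g) (bar g p (chr H π)) (ricC (chr H π) (dG2 H π q)) k (bar k τ (chr H π))| ≤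
      C * (‖τ‖ ^ 2 + ‖k‖ ^ 2 / r ^ 2) := by
  have cs : Continuous fun z : JJ => sqM z.1 :=
    (Continuous.matrix_det (A := fun z : JJ => Matrix.of z.1) continuous_fst).sqrt
  have pos : ∀ g : A2, Λ⁻¹ ≤ sqM g → 0 < (Matrix.of g).det := fun g h =>
    Real.sqrt_pos.1 ((inv_pos.2 hΛ).trans_le h)
  obtain ⟨C, C0, hC⟩ := tay_cpt (f := Ph) (K := closedBall (0 : JJ) Λ ∩ {z | Λ⁻¹ ≤ sqM z.1})
    ((isCompact_closedBall _ _).inter_right (isClosed_le continuous_const cs))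
    fun z hz => Ph_sm (pos _ hz.2)
  refine ⟨C, C0, fun g k H p τ π q r hr hk hg h1 h2 h3 h4 h5 => ?_⟩
  have g0 : 0 < (Matrix.of g).det := pos g (by simpa using (hg 0 ⟨le_rfl, zero_le_one⟩).2)
  have e : ∀ t : ℝ, ((g, r • p, H, r • π, r ^ 2 • q) : JJ) + t • ((k, r • τ, 0, 0, 0) : JJ) =
      (g + t • k, r • (p + t • τ), H, r • π, r ^ 2 • q) := fun t => by
    simp only [Prod.smul_mk, Prod.mk_add_mk, smul_zero, add_zero, smul_add, smul_comm t r]
  have a := hC (g, r • p, H, r • π, r ^ 2 • q) (k, r • τ, 0, 0, 0) fun t ht => by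
    rw [e]
    refine ⟨mem_closedBall_zero_iff.2 ?_, (hg t ht).2⟩
    have : r • (p + t • τ) = (1 - t) • r • p + t • r • (p + τ) := by module
    have b : ‖r • (p + t • τ)‖ ≤ Λ := by
      rw [this]
      refine (norm_add_le _ _).trans ?_
      rw [norm_smul, norm_smul t, Real.norm_of_nonneg ht.1, Real.norm_of_nonneg (sub_nonneg.2 ht.2)]
      nlinarith [mul_le_mul_of_nonneg_left h1 (sub_nonneg.2 ht.2), mul_le_mul_of_nonneg_left h2 ht.1]
    simp only [Prod.norm_mk, max_le_iff]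
    exact ⟨(hg t ht).1, b, h3, h4, h5⟩
  have l : HasDerivAt (fun t : ℝ => ((g, r • p, H, r • π, r ^ 2 • q) : JJ) +
      t • ((k, r • τ, 0, 0, 0) : JJ)) (k, r • τ, 0, 0, 0) 0 := by
    simpa only [one_smul, id] using ((hasDerivAt_id (0 : ℝ)).smul_const
      ((k, r • τ, 0, 0, 0) : JJ)).const_add ((g, r • p, H, r • π, r ^ 2 • q) : JJ)
  have d1 := ((Ph_sm (z := (g, r • p, H, r • π, r ^ 2 • q)) g0).differentiableAt
    two_ne_zero).hasFDerivAt.comp_hasDerivAt_of_eq 0 l (by simp)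
  have d2 := (Ph_der hk g0 p τ H π q).const_mul (r ^ 2)
  have d3 := d1.unique (d2.congr_of_eventuallyEq (Eventually.of_forall fun t => by
    simp only [Function.comp, e, Ph_hom]))
  have e1 := e 1
  simp only [one_smul] at e1
  rw [e1, d3, Ph_hom, Ph_hom, ← mul_sub, ← mul_sub, abs_mul, abs_of_pos (pow_pos hr 2)] at a
  have n : ‖((k, r • τ, 0, 0, 0) : JJ)‖ ^ 2 ≤ r ^ 2 * (‖τ‖ ^ 2 + ‖k‖ ^ 2 / r ^ 2) := by
    simp only [Prod.norm_mk, norm_zero, max_self, norm_smul, Real.norm_of_nonneg hr.le]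
    rw [max_eq_left (by positivity : (0 : ℝ) ≤ r * ‖τ‖), mul_add, mul_div_cancel₀ _ (by positivity)]
    rcases le_total ‖k‖ (r * ‖τ‖) with h | h
    · rw [max_eq_right h]; nlinarith [sq_nonneg ‖k‖]
    · rw [max_eq_left h]; nlinarith [sq_nonneg (r * ‖τ‖)]
  refine le_of_mul_le_mul_left (a.trans ?_) (pow_pos hr 2)
  nlinarith [mul_le_mul_of_nonneg_left n C0]

end Crest.Agent.N207.NS.Ty

end
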