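import Crest.Agent.N207.N.St3
import Crest.Agent.N207.M.Rad
import Crest.Agent.N207.I.Cal4
import Crest.Agent.N207.Lg.Nat

/-!
# Row 207, block N (helper32): the divergence theorem on `gl1 L` with decay at the root end
-/

set_option autoImplicit false

open scoped ContDiff Topology
open Metric Set Filter MeasureTheory
open Crest.GeometryTopology.CoordMetric
open Crest.Agent.N207.I Crest.Agent.N207.I.TD Crest.Agent.N207.Lg Crest.Agent.N207.CB

noncomputable section

namespace Crest.Agent.N207.NS.Ty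

theorem abs_pd_le (f : E4 → ℝ) (x : E4) (a : Fin 4) : |pderiv a f x| ≤ ‖fderiv ℝ f x‖ := by
  have := (fderiv ℝ f x).le_opNorm (EuclideanSpace.single a (1 : ℝ))
  simpa [pderiv] using this

theorem bmp_bd : ∃ C : ℝ, 0 ≤ C ∧ ∀ y : E4, ‖y‖ * ‖fderiv ℝ bmp y‖ ≤ C := by
  have c : Continuous fun y : E4 => ‖y‖ * ‖fderiv ℝ bmp y‖ :=
    continuous_norm.mul (bmp_sm.continuous_fderiv (by simp)).norm
  obtain ⟨C, hC⟩ := (isCompact_closedBall (0 : E4) 2).exists_bound_of_continuousOn c.continuousOn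
  refine ⟨max C 0, le_max_right _ _, fun y => ?_⟩
  by_cases hy : ‖y‖ ≤ 2
  · exact ((le_abs_self _).trans (hC y (mem_closedBall_zero_iff.2 hy))).trans (le_max_left _ _)
  · have : bmp =ᶠ[𝓝 y] fun _ => 0 := by
      filter_upwards [(isOpen_lt continuous_const continuous_norm).mem_nhds (not_le.1 hy)] with z hz
      by_contra h0
      have := bmp_ne h0
      have : (2 : ℝ) < ‖z‖ := hz
      linarith
    rw [this.fderiv_eq]
    simp

/-- `|x|^{-p}`, `p > 4`, is integrable at infinity -/
theorem int_far {p : ℝ} (hp : 4 < p) : IntegrableOn (fun x : E4 => ‖x‖ ^ (-p)) {x | 1 ≤ ‖x‖} := by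
  have m : MeasurableSet {x : E4 | 1 ≤ ‖x‖} :=
    (isClosed_le continuous_const continuous_norm).measurableSet
  have i : Integrable fun x : E4 => (1 + ‖x‖) ^ (-p) := integrable_one_add_norm (by simpa using hp)
  refine (i.const_mul (2 ^ p)).integrableOn.mono'
    (measurable_norm.pow_const _).aestronglyMeasurable ?_
  refine (ae_restrict_iff' m).2 (Eventually.of_forall fun x hx => ?_)
  have hx : (1 : ℝ) ≤ ‖x‖ := hx
  rw [Real.norm_of_nonneg (by positivity)]
  have : (2 * ‖x‖) ^ (-p) ≤ (1 + ‖x‖) ^ (-p) :=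
    Real.rpow_le_rpow_of_nonpos (by positivity) (by linarith) (by linarith)
  rw [Real.mul_rpow (by norm_num) (norm_nonneg _), Real.rpow_neg (by norm_num : (0 : ℝ) ≤ 2),
    inv_mul_le_iff₀ (by positivity)] at this
  exact this

variable {M : Type*} {T : TD M} {L : T.V → ℝ}

/-- the cut-off at the root end -/
def cutR (T : TD M) (R : ℝ) : T.S → E4 → ℝ := fun s x =>
  if s = Sum.inr T.root then bmp (R⁻¹ • x) else 1

theorem cutR_sm (R : ℝ) (s : T.S) : ContDiff ℝ ∞ (cutR T R s) := by
  unfold cutR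
  split_ifs
  · exact bmp_sm.comp (contDiff_const_smul _)
  · exact contDiff_const

theorem nrm_inv {R : ℝ} (hR : 0 < R) (x : E4) : ‖R⁻¹ • x‖ = ‖x‖ / R := by
  rw [norm_smul, Real.norm_of_nonneg (inv_pos.2 hR).le, inv_mul_eq_div]

theorem cutR_comp {R : ℝ} (hR : 4 ≤ R) : (gl1 T L).CompF (cutR T R) := by
  have R0 : 0 < R := by linarith
  have k : ∀ s, ∀ x : E4, cutR T R s x = Sum.elim (fun _ : T.V × M => (1 : ℝ))
      (fun p : T.V × Set E4 => if p.1 = T.root then Real.smoothTransition
        ((9 / 4 - (sSup (norm '' p.2) / R) ^ 2) / (5 / 4)) else 1) ((T.glob L).c s x) := by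
    rintro (a | w) x
    · simp [cutR, glob]
    · rw [glob_c_inr]
      split_ifs with a1 a2
      · simp only [cutR, Sum.elim_inl]
        split_ifs
        · exact bmp_one (by rw [nrm_inv R0, div_le_one R0]; linarith)
        · rfl
      · simp [cutR, a2.1]
      · have : norm '' T.orb w x = {‖x‖} := by
          refine Subset.antisymm ?_ (singleton_subset_iff.2 ⟨x, mem_orb w x, rfl⟩)
          rintro _ ⟨_, ⟨γ, -, rfl⟩, rfl⟩
          exact LinearIsometryEquiv.norm_map γ x
        simp only [Sum.elim_inr, this, csSup_singleton, cutR, Sum.inr.injEq, bmp, nrm_inv R0]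
  intro a b x _ y _ e
  rw [k, k]
  exact congrArg _ e

theorem cutR_one {R : ℝ} (hR : 0 < R) {s : T.S} {x : E4} (h : s = Sum.inr T.root → ‖x‖ < R) :
    cutR T R s =ᶠ[𝓝 x] fun _ => 1 := by
  unfold cutR
  split_ifs with e
  · filter_upwards [(isOpen_lt continuous_norm continuous_const).mem_nhds (h e)] with z hz
    exact bmp_one (by rw [nrm_inv hR, div_le_one hR]; exact le_of_lt hz)
  · rfl

theorem cutR_abs (R : ℝ) (s : T.S) (x : E4) : |cutR T R s x| ≤ 1 := by
  unfold cutR
  split_ifs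
  · rw [abs_of_nonneg (bmp_nonneg _)]; exact Real.smoothTransition.le_one _
  · simp

theorem cutR_pd : ∃ C : ℝ, 0 ≤ C ∧ ∀ R : ℝ, 0 < R → ∀ (x : E4) (a : Fin 4),
    ‖x‖ * |pderiv a (cutR T R (Sum.inr T.root)) x| ≤ C := by
  obtain ⟨C, C0, hC⟩ := bmp_bd
  refine ⟨C, C0, fun R hR x a => ?_⟩
  have e : cutR T R (Sum.inr T.root) = fun x => bmp (R⁻¹ • x) := by funext x; simp [cutR]
  refine (mul_le_mul_of_nonneg_left (abs_pd_le _ x a) (norm_nonneg _)).trans ?_
  rw [e, fderiv_comp_smul, norm_smul, Real.norm_of_nonneg (inv_pos.2 hR).le, ← mul_assoc,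
    ← div_eq_mul_inv, ← nrm_inv hR]
  exact hC _

/-- families that vanish far out on the root end have compact support -/
theorem cs1 (hA : (gl1 T L).Ok) (hp : (gl1 T L).PoU T.χ (T.gK L)) {k : ℕ} {Z : T.S → Tn 4 k}
    (hZ : (gl1 T L).Compat Z) {R : ℝ} (h0 : ∀ x : E4, R ≤ ‖x‖ → Z (Sum.inr T.root) x = 0) :
    ∃ S, (gl1 T L).CS S ∧ (gl1 T L).Van Z S := by
  set ρ : T.S → ℝ := Sum.elim (fun _ => 3 / 2) fun w => max R (3 / 4 * T.r * Real.exp (L w))
  refine ⟨_, ⟨fun s => T.gK L s ∩ closedBall 0 (ρ s), fun s => ⟨(isCompact_closedBall _ _).inter_left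
    (N207.M.isClosed_gK s), inter_subset_left.trans (hp.sub s)⟩, Subset.rfl⟩, fun b y hy hne => ?_⟩
  obtain ⟨s, -, hs⟩ := Finset.exists_ne_zero_of_sum_ne_zero ((hp.sum b y hy).trans_ne one_ne_zero)
  obtain ⟨x, hx, e⟩ := hp.supp s b y hy hs
  refine mem_iUnion.2 ⟨s, x, ⟨hx, mem_closedBall_zero_iff.2 ?_⟩, e⟩
  rcases s with a | w
  · exact mem_gK_inl.1 hx
  · by_cases hw : w = T.root
    · subst hw
      refine le_max_of_le_left (not_lt.1 fun hlt => hne ?_)
      exact hZ.eq_zero hA hy (hp.sub _ hx) e.symm (h0 x hlt.le)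
    · exact le_max_of_le_right ((mem_gK_inr.1 hx).2 hw)

theorem chi_le {X : Type*} {α : Type} [Fintype α] {A : Atl X α} {χ : α → X → ℝ} {K : α → Set E4}
    (hp : A.PoU χ K) (s : α) {b : α} {y : E4} (hy : y ∈ A.U b) : χ s (A.c b y) ≤ 1 :=
  (Finset.single_le_sum (fun a _ => hp.nonneg a (A.c b y)) (Finset.mem_univ s)).trans_eq
    (hp.sum b y hy)

theorem card_inv_le (n : ℕ) : (n : ℝ)⁻¹ ≤ 1 := by
  rcases n with _ | n
  · simp
  · exact inv_le_one_of_one_le₀ (by simp)

/-- **divergence theorem** on `gl1 L`: the flux density is `O(|x|^{-p})`, `p > 3`, at the root end -/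
theorem div_root (hA : (gl1 T L).Ok) (hp : (gl1 T L).PoU T.χ (T.gK L)) {G : T.S → MetricField 4}
    (hG : (gl1 T L).IsMet G) {W : T.S → Tn 4 1} (hW : (gl1 T L).Sec W)
    (hi : (gl1 T L).Intg T.χ G fun s x => divT (G s) (W s) x ![]) {C R p : ℝ} (h3 : 3 < p)
    (hd : ∀ x : E4, R ≤ ‖x‖ → ∀ a, |√(G (Sum.inr T.root) x).det *
      ∑ b, (G (Sum.inr T.root) x)⁻¹ a b * W (Sum.inr T.root) x ![b]| ≤ C * ‖x‖ ^ (-p)) :
    (gl1 T L).int T.χ G (fun s x => divT (G s) (W s) x ![]) = 0 := by
  obtain ⟨C1, C10, h1⟩ := cutR_pd (T := T)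
  set A := gl1 T L
  set Rn : ℕ → ℝ := fun n => n + max R 4 with hRn
  have R4 : ∀ n, 4 ≤ Rn n := fun n => (le_max_right R 4).trans (le_add_of_nonneg_left n.cast_nonneg)
  have RR : ∀ n, R ≤ Rn n := fun n => (le_max_left R 4).trans (le_add_of_nonneg_left n.cast_nonneg)
  have R0 : ∀ n, 0 < Rn n := fun n => by linarith [R4 n]
  have key : ∀ n, A.Intg T.χ G (fun s x => divT (G s) (smT (cutR T (Rn n) s) (W s)) x ![]) ∧
      A.int T.χ G (fun s x => divT (G s) (smT (cutR T (Rn n) s) (W s)) x ![]) = 0 := fun n => by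
    have sec := hW.smT (cutR_comp (R4 n)) fun s => (cutR_sm (Rn n) s).contDiffOn
    obtain ⟨S, hS, hv⟩ := cs1 hA hp sec.compat (R := 2 * Rn n) fun x hx => by
      have : cutR T (Rn n) (Sum.inr T.root) x = 0 := by
        simp only [cutR, if_true]
        by_contra h0
        have := bmp_ne h0
        rw [nrm_inv (R0 n), div_le_iff₀ (R0 n)] at this
        linarith [R0 n]
      funext I
      simp [smT, this]
    exact Atl.int_div hA hG hp sec hS hv
  have ex : ∀ n s, ∀ x ∈ A.U s, A.den T.χ G s x *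
      divT (G s) (smT (cutR T (Rn n) s) (W s)) x ![] =
      (Nat.card (A.Γ s) : ℝ)⁻¹ * T.χ s (A.c s x) * ∑ a, pderiv a (cutR T (Rn n) s) x *
        (√(G s x).det * ∑ b, (G s x)⁻¹ a b * W s x ![b]) +
      cutR T (Rn n) s x * (A.den T.χ G s x * divT (G s) (W s) x ![]) := fun n s x hx => by
    rw [divT_smT ((cutR_sm _ s).differentiable (by simp) x) (hW.dfT hA hx)]
    simp only [Atl.den, mul_add, Finset.mul_sum]
    congr 1
    · refine Finset.sum_congr rfl fun a _ => Finset.sum_congr rfl fun b _ => ?_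
      rw [show (Fin.cons b ![] : Fin 1 → Fin 4) = ![b] from rfl]
      ring
    · ring
  have pd0 : ∀ n s (x : E4), (s = Sum.inr T.root → ‖x‖ < Rn n) → ∀ a,
      pderiv a (cutR T (Rn n) s) x = 0 := fun n s x h a => by
    rw [pderiv, (cutR_one (R0 n) h).fderiv_eq]; simp
  have lim : Tendsto (fun n => A.int T.χ G
      fun s x => divT (G s) (smT (cutR T (Rn n) s) (W s)) x ![]) atTop
      (𝓝 (A.int T.χ G fun s x => divT (G s) (W s) x ![])) := by
    refine tendsto_finset_sum _ fun s _ => ?_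
    have m := (hA.isOpen s).measurableSet
    refine tendsto_integral_of_dominated_convergence (fun x =>
      (if s = Sum.inr T.root then 4 * (C1 * |C|) * ‖x‖ ^ (-(p + 1)) else 0) +
        ‖A.den T.χ G s x * divT (G s) (W s) x ![]‖) (fun n => ((key n).1 s).1)
      (Integrable.add ?_ (hi s).norm) (fun n => ?_) ?_
    · split_ifs with e
      · subst e
        exact ((int_far (p := p + 1) (by linarith)).mono_set fun x hx =>
          le_trans (by norm_num) (le_of_lt hx.1)).const_mul _
      · exact integrable_zero _ _ _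
    · refine (ae_restrict_iff' m).2 (Eventually.of_forall fun x hx => ?_)
      rw [ex n s x hx]
      refine (norm_add_le _ _).trans (add_le_add ?_ ?_)
      · by_cases e : s = Sum.inr T.root ∧ Rn n ≤ ‖x‖
        · obtain ⟨rfl, e⟩ := e
          have x0 : 0 < ‖x‖ := (R0 n).trans_le e
          have c1 := chi_le hp (Sum.inr T.root) hx
          have c0 := hp.nonneg (Sum.inr T.root) (A.c (Sum.inr T.root) x)
          rw [if_pos rfl, norm_mul, Real.norm_of_nonneg (by positivity)]
          refine (mul_le_of_le_one_left (norm_nonneg _)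
            (mul_le_one₀ (card_inv_le _) c0 c1)).trans ((norm_sum_le _ _).trans ?_)
          refine (Finset.sum_le_card_nsmul _ _ (C1 * |C| * ‖x‖ ^ (-(p + 1))) fun a _ => ?_).trans_eq
            (by simp [mul_assoc])
          have b1 := h1 _ (R0 n) x a
          have b2 := (hd x ((RR n).trans e) a).trans
            (mul_le_mul_of_nonneg_right (le_abs_self C) (by positivity))
          rw [Real.norm_eq_abs, abs_mul, neg_add, Real.rpow_add x0, Real.rpow_neg_one]
          rw [mul_comm, ← le_div_iff₀ x0] at b1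
          calc _ ≤ C1 / ‖x‖ * (|C| * ‖x‖ ^ (-p)) := by gcongr
            _ = _ := by ring
        · have := pd0 n s x fun h => not_le.1 fun h' => e ⟨h, h'⟩
          simp only [this, zero_mul, Finset.sum_const_zero, mul_zero, norm_zero]
          split_ifs
          · positivity
          · rfl
      · rw [norm_mul]
        exact mul_le_of_le_one_left (norm_nonneg _) (cutR_abs _ _ _)
    · refine (ae_restrict_iff' m).2 (Eventually.of_forall fun x hx => ?_)
      refine tendsto_const_nhds.congr' ?_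
      filter_upwards [eventually_gt_atTop ⌈‖x‖⌉₊] with n hn
      have : ‖x‖ < Rn n := by
        have : ‖x‖ ≤ n := (Nat.le_ceil _).trans (by exact_mod_cast hn.le)
        have := le_max_right R 4
        simp only [hRn]; linarith
      rw [ex n s x hx, (cutR_one (R0 n) fun _ => this).self_of_nhds]
      simp [pd0 n s x fun _ => this]
  simp only [fun n => (key n).2] at lim
  exact (tendsto_nhds_unique tendsto_const_nhds lim).symm

end Crest.Agent.N207.NS.Ty

end
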