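import Crest.Agent.N207.N.Tay1
import Crest.Agent.N207.N.Tay2
import Crest.Agent.N207.U.PB

/-!
# Row 207, block N (helper32): Taylor expansion of `fgfF` in one chart; decay classes
-/

set_option autoImplicit false

open scoped ContDiff Topology
open Metric Set Filter MeasureTheory
open Crest.GeometryTopology.CoordMetric
open Crest.Agent.N207.I Crest.Agent.N207.Lg

noncomputable section

namespace Crest.Agent.N207.NS.Ty

variable {U : Set E4} {b G K H g1 g2 : MetricField 4} {x : E4}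

/-- the flux of the first variation -/
def WV (b G K : MetricField 4) (c : Fin 4) (z : E4) : ℝ := wF (sq G z) (iv G z) (TG b G z) (K z) c

/-- its coordinate divergence -/
def DV (b G K : MetricField 4) (x : E4) : ℝ := ∑ c, pderiv c (WV b G K c) x

theorem wF_gen {s s' t u : ℝ} {H H' k k' : A2} {T T' : A3} (h1 : vG s' H' k' = u • vG s H k)
    (h2 : chr H' T' = t • chr H T) (h3 : gv H' T' = t • gv H T) (c : Fin 4) :
    wF s' H' T' k' c = t * u * wF s H T k c := by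
  simp only [wF, wL, h1, h2, h3, fl, Pi.smul_apply, smul_eq_mul, mul_add, mul_neg, mul_sub,
    Finset.mul_sum]
  congr 1
  · congr 2 <;> exact Finset.sum_congr rfl fun _ _ => Finset.sum_congr rfl fun _ _ => by ring
  · exact Finset.sum_congr rfl fun _ _ => by ring

theorem wF_hom (s t u : ℝ) (H k : A2) (T : A3) (c : Fin 4) :
    wF s H (t • T) (u • k) c = t * u * wF s H T k c :=
  wF_gen (vG_smul ..) (chr_smul ..) (gv_smul' ..) c

theorem WV_smul {a : ℝ} (ha : a ≠ 0) (b G K : MetricField 4) (c : Fin 4) :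
    WV (a • b) (a • G) (a • K) c = fun z => a * WV b G K c z := by
  funext z
  have e1 : sq (a • G) z = a ^ 2 * sq G z := N207.M.sqrt_det_smul _
  have e2 : iv (a • G) z = a⁻¹ • iv G z := by
    funext i j; simp only [iv, Pi.smul_apply, N207.M.inv_smul_mat ha, Matrix.smul_apply]
  have e3 : TG (a • b) (a • G) z = a • TG b G z := by
    rw [TG_eq, TG_eq, jet_smul, show christoffel (a • b) = _ from N207.M.chr_smul_met ha b]
    exact bar_smul ..
  rw [WV, e1, e2, e3, WV, ← one_mul a]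
  refine wF_gen ?_ ?_ ?_ c
  · rw [one_mul]
    refine (vG_smul a (a⁻¹ • iv G z) (K z) _).trans ?_
    congr 1
    funext i j
    simp only [vG, smul_tr2, smul_up, Pi.smul_apply, smul_eq_mul]
    field_simp
  · rw [one_mul, chr_smul, smul_chr, smul_smul, mul_inv_cancel₀ ha]
  · rw [one_mul, gv_smul', smul_gv, smul_smul, mul_inv_cancel₀ ha]

theorem DV_smul {a : ℝ} (ha : a ≠ 0) (b G K : MetricField 4) (x : E4) :
    DV (a • b) (a • G) (a • K) x = a * DV b G K x := by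
  simp only [DV, WV_smul ha, pd_cmul, Finset.mul_sum]

theorem WV_eq (hG : IsRiemannianOn G U) (hx : x ∈ U) (hK : Sy2 (K x)) (c : Fin 4) :
    WV b G K c x = √(G x).det * ∑ j, (G x)⁻¹ c j * omF b G K x ![j] :=
  wF_eq b (hG.posDef x hx).det_pos.ne' (g_sy_ev hG hx) hK c

theorem DV_eq (hb : IsRiemannianOn b U) (hG : IsRiemannianOn G U) (hK : SmT (matT K) U)
    (hs : ∀ z ∈ U, Sy2 (K z)) (hx : x ∈ U) :
    DV b G K x = √(G x).det * divT G (omF b G K) x ![] := by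
  rw [sqrt_det_mul_divT hG hx ((smT_omF hb hG hK).dAt hG.isOpen hx)]
  exact Finset.sum_congr rfl fun c _ => pd_congr_on c hG.isOpen hx fun z hz => WV_eq hG hz (hs z hz) c

theorem DV_cont (hb : IsRiemannianOn b U) (hG : IsRiemannianOn G U) (hK : SmT (matT K) U)
    (hs : ∀ z ∈ U, Sy2 (K z)) : ContinuousOn (DV b G K) U :=
  ((sm_sqrt_det hG).mul ((smT_omF hb hG hK).divT hG ![])).continuousOn.congr
    fun _ hx => DV_eq hb hG hK hs hx

theorem fv_cont (hb : IsRiemannianOn b U) (hG : IsRiemannianOn G U) (hK : SmT (matT K) U) :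
    ContinuousOn (fv b G K) U :=
  ((sm_sqrt_det hG).mul ((smT_ktT hG hK).ip hG (smT_redT hb hG))).continuousOn.congr
    fun x hx => tr2_vG_eq (hG.posDef x hx).det_pos.ne' (g_sy hG hx) K _

theorem sy_sub (h1 : IsRiemannianOn g1 U) (h2 : IsRiemannianOn g2 U) (hx : x ∈ U) :
    Sy2 ((g2 - g1) x) := fun i j => by
  rw [Pi.sub_apply, Matrix.sub_apply, Matrix.sub_apply, g_sy h1 hx i j, g_sy h2 hx i j]

theorem sm_sub (h1 : IsRiemannianOn g1 U) (h2 : IsRiemannianOn g2 U) : SmT (matT (g2 - g1)) U :=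
  SmT.matT fun i j => (h2.contDiffOn i j).sub (h1.contDiffOn i j)

theorem le_sum2 {f : Fin 4 → Fin 4 → ℝ} (h : ∀ a b, 0 ≤ f a b) (a b : Fin 4) :
    f a b ≤ ∑ a, ∑ b, f a b :=
  (Finset.single_le_sum (fun j _ => h a j) (Finset.mem_univ b)).trans
    (Finset.single_le_sum (f := fun a => ∑ b, f a b)
      (fun i _ => Finset.sum_nonneg fun j _ => h i j) (Finset.mem_univ a))

theorem e0_nonneg (K : MetricField 4) (x : E4) : 0 ≤ e0 K x := by unfold e0; positivity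

theorem e1_nonneg (K : MetricField 4) (x : E4) : 0 ≤ e1 K x := by unfold e1 Hd.g2; positivity

theorem nrm_e0 (K : MetricField 4) (x : E4) : ‖(fun a b => K x a b : A2)‖ ^ 2 ≤ e0 K x := by
  refine (Real.le_sqrt (norm_nonneg _) (e0_nonneg K x)).1 ?_
  simp only [pi_norm_le_iff_of_nonneg (Real.sqrt_nonneg _)]
  exact fun a b => Real.abs_le_sqrt (le_sum2 (f := fun a b => K x a b ^ 2) (fun _ _ => sq_nonneg _) a b)

theorem nrm_e1 (K : MetricField 4) (x : E4) : ‖jet K x‖ ^ 2 ≤ e1 K x := by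
  refine (Real.le_sqrt (norm_nonneg _) (e1_nonneg K x)).1 ?_
  simp only [pi_norm_le_iff_of_nonneg (Real.sqrt_nonneg _)]
  refine fun c a b => Real.abs_le_sqrt (le_trans ?_ (le_sum2
    (f := fun a b => Hd.g2 (fun y => K y a b) x) (fun _ _ => by unfold Hd.g2; positivity) a b))
  exact Finset.single_le_sum (f := fun i => pderiv i (fun y => K y a b) x ^ 2)
    (fun _ _ => sq_nonneg _) (Finset.mem_univ c)

/-- scaled bounds for the 2-jet -/
def JB (Λ r : ℝ) (H : MetricField 4) (x : E4) : Prop :=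
  ‖iv H x‖ ≤ Λ ∧ ‖r • jet H x‖ ≤ Λ ∧ ‖r ^ 2 • jet2 H x‖ ≤ Λ

theorem jb_of {Λ r : ℝ} (hΛ : 0 ≤ Λ) (hr : 0 ≤ r) (hH : ∀ a b, ContDiffAt ℝ ∞ (fun y => H y a b) x)
    (h0 : ∀ a b, |(H x)⁻¹ a b| ≤ Λ)
    (h : ∀ k ≤ 2, ∀ a b, r ^ k * ‖iteratedFDeriv ℝ k (fun y => H y a b) x‖ ≤ Λ) : JB Λ r H x := by
  simp only [JB, pi_norm_le_iff_of_nonneg hΛ]
  refine ⟨h0, fun c a b => le_trans ?_ (h 1 one_le_two a b), fun c d a b => le_trans ?_ (h 2 le_rfl a b)⟩
  · have := U.norm_itd_pd_le (hH a b) c 0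
    rw [norm_iteratedFDeriv_zero] at this
    simp only [Pi.smul_apply, norm_smul, Real.norm_of_nonneg hr, pow_one]
    exact mul_le_mul_of_nonneg_left this hr
  · have := (U.norm_itd_pd_le (U.cda_pd (hH a b) d) c 0).trans (U.norm_itd_pd_le (hH a b) d 1)
    rw [norm_iteratedFDeriv_zero] at this
    simp only [Pi.smul_apply, norm_smul, Real.norm_of_nonneg (sq_nonneg r)]
    exact mul_le_mul_of_nonneg_left this (sq_nonneg _)

/-- **Taylor expansion in one chart** -/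
theorem tay_fun (Λ : ℝ) (hΛ : 0 < Λ) : ∃ C : ℝ, 0 ≤ C ∧ ∀ (U : Set E4) (b g1 g2 : MetricField 4)
    (x : E4) (r : ℝ), IsRiemannianOn b U → IsRiemannianOn g1 U → IsRiemannianOn g2 U → x ∈ U →
    0 < r → (∀ t ∈ Icc (0 : ℝ) 1, (∀ p q, |(g1 x + t • (g2 x - g1 x)) p q| ≤ Λ) ∧
      Λ⁻¹ ≤ √(g1 x + t • (g2 x - g1 x)).det) → JB Λ r b x → JB Λ r g1 x → JB Λ r g2 x →
    |fgfF b g2 x - fgfF b g1 x - fv b g1 (g2 - g1) x - DV b g1 (g2 - g1) x| ≤
      C * (e1 (g2 - g1) x + e0 (g2 - g1) x / r ^ 2) := by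
  obtain ⟨C, C0, hC⟩ := tay_pt Λ hΛ
  refine ⟨C, C0, fun U b g1 g2 x r hb h1 h2 hx hr ht jb j1 j2 => ?_⟩
  have d1 := d_g h1 hx
  have d2 := d_g h2 hx
  have e : jet g1 x + jet (g2 - g1) x = jet g2 x := by rw [jet_sub d2 d1]; abel
  have a := hC (fun i j => g1 x i j) (fun i j => (g2 - g1) x i j) (iv b x) (jet g1 x)
    (jet (g2 - g1) x) (jet b x) (jet2 b x) r hr
    (sy_sub h1 h2 hx) (fun t h => ⟨by
      simp only [pi_norm_le_iff_of_nonneg hΛ.le]; exact (ht t h).1, (ht t h).2⟩) j1.2.1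
    (by rw [e]; exact j2.2.1) jb.1 jb.2.1 jb.2.2
  have cb := C2.of_riem hb hx
  have e' : ((fun i j => g1 x i j : A2) + fun i j => (g2 - g1) x i j) = fun i j => g2 x i j := by
    funext i j; simp
  have f := dfgf_eq (K := g2 - g1) hb h1 hx (fun a b => (d2 a b).sub (d1 a b))
    (mem_of_superset (hb.isOpen.mem_nhds hx) fun z hz => sy_sub h1 h2 hz)
  rw [TG_eq, TG_eq, chr_eq, cb.ricci_raw] at f
  rw [e, e'] at a
  rw [cb.fgfF_raw, cb.fgfF_raw, sub_sub _ (fv _ _ _ _)]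
  refine le_trans (le_of_eq ?_) (a.trans ?_)
  · congr 2
    exact f.symm
  · have := nrm_e0 (g2 - g1) x
    have := nrm_e1 (g2 - g1) x
    gcongr

theorem pd_cvx {A B : Matrix (Fin 4) (Fin 4) ℝ} (hA : A.PosDef) (hB : B.PosDef) {t : ℝ}
    (ht : t ∈ Icc (0 : ℝ) 1) : (A + t • (B - A)).PosDef := by
  rw [show A + t • (B - A) = (1 - t) • A + t • B by module]
  rcases ht.2.eq_or_lt with rfl | h
  · simpa using hB
  · exact (hA.smul (sub_pos.2 h)).add_posSemidef (hB.posSemidef.smul ht.1)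

/-! ### decay at infinity -/

/-- bounded near infinity -/
def Bd (f : E4 → ℝ) : Prop := ∃ C R : ℝ, ∀ x : E4, R ≤ ‖x‖ → |f x| ≤ C

theorem cl_bd : Cl Bd :=
  ⟨fun c => ⟨|c|, 0, fun _ _ => le_rfl⟩,
    fun ⟨C, R, h⟩ ⟨C', R', h'⟩ => ⟨C + C', max R R', fun x hx => (abs_add_le _ _).trans
      (add_le_add (h x (le_of_max_le_left hx)) (h' x (le_of_max_le_right hx)))⟩,
    fun ⟨C, R, h⟩ ⟨C', R', h'⟩ => ⟨C * C', max R R', fun x hx => by
      have := h x (le_of_max_le_left hx)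
      rw [abs_mul]
      exact mul_le_mul this (h' x (le_of_max_le_right hx)) (abs_nonneg _)
        ((abs_nonneg _).trans this)⟩⟩

theorem Bd.congr {f f' : E4 → ℝ} (h : Bd f) {R : ℝ} (e : ∀ x, R ≤ ‖x‖ → f' x = f x) : Bd f' :=
  let ⟨C, R', h⟩ := h
  ⟨C, max R R', fun x hx => (e x (le_of_max_le_left hx)).symm ▸ h x (le_of_max_le_right hx)⟩

theorem Bd.dec {f : E4 → ℝ} {p : ℝ} (h : Bd fun x => ‖x‖ ^ p * f x) :
    ∃ C R : ℝ, ∀ x : E4, R ≤ ‖x‖ → |f x| ≤ C * ‖x‖ ^ (-p) := by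
  obtain ⟨C, R, h⟩ := h
  refine ⟨C, max R 1, fun x hx => ?_⟩
  have x0 : 0 < ‖x‖ := one_pos.trans_le (le_of_max_le_right hx)
  have := h x (le_of_max_le_left hx)
  rw [abs_mul, abs_of_pos (by positivity)] at this
  rwa [Real.rpow_neg x0.le, ← div_eq_mul_inv, le_div_iff₀' (by positivity)]

theorem bd_of_dec {f : E4 → ℝ} {p C R : ℝ} (h : ∀ x : E4, R ≤ ‖x‖ → |f x| ≤ C * ‖x‖ ^ (-p)) :
    Bd fun x => ‖x‖ ^ p * f x := by
  refine ⟨C, max R 1, fun x hx => ?_⟩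
  have x0 : 0 < ‖x‖ := one_pos.trans_le (le_of_max_le_right hx)
  have := h x (le_of_max_le_left hx)
  rw [abs_mul, abs_of_pos (by positivity)]
  rwa [Real.rpow_neg x0.le, ← div_eq_mul_inv, le_div_iff₀' (by positivity)] at this

/-- metrics that are asymptotically flat of order `3/2` -/
structure Far (H : MetricField 4) : Prop where
  g : P2 Bd fun x a b => H x a b
  iv : P2 Bd (iv H)
  sq : Bd (sq H)
  jet : P3 Bd fun x => ‖x‖ ^ (5 / 2 : ℝ) • jet H x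
  dv : P2 Bd fun x => ‖x‖ ^ (3 / 2 : ℝ) • fun a b => (H x - 1) a b

theorem far_of {Λ R : ℝ} (h : ∀ x : E4, R ≤ ‖x‖ → (∀ p q, |H x p q| ≤ Λ ∧ |(H x)⁻¹ p q| ≤ Λ) ∧
    sq H x ≤ Λ) (hd : Dec (3 / 2) fun x => H x - 1) : Far H := by
  obtain ⟨C, R', hd⟩ := hd
  refine ⟨fun a b => ⟨Λ, R, fun x hx => ((h x hx).1 a b).1⟩,
    fun a b => ⟨Λ, R, fun x hx => ((h x hx).1 a b).2⟩,
    ⟨Λ, R, fun x hx => (abs_of_nonneg (Real.sqrt_nonneg _)).trans_le (h x hx).2⟩,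
    fun c a b => bd_of_dec (C := C) (R := R') fun x hx => ?_,
    fun a b => bd_of_dec fun x hx => (hd x hx a b).1⟩
  have := (hd x hx a b).2
  simp only [Matrix.sub_apply, fderiv_sub_const] at this
  rw [show -(5 / 2 : ℝ) = -(3 / 2) - 1 by norm_num]
  exact (abs_pd_le _ x c).trans this

theorem Far.tg (hb : Far b) (hG : Far G) : P3 Bd fun x => ‖x‖ ^ (5 / 2 : ℝ) • TG b G x := by
  simp only [TG_eq, chr_eq, ← bar_hom, ← chr_smul]
  exact cl_bd.bar hG.g hG.jet (cl_bd.chr hb.iv hb.jet)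

theorem sq_rpow (x : E4) : (‖x‖ ^ (5 / 2 : ℝ)) ^ 2 = ‖x‖ ^ (5 : ℝ) := by
  rw [← Real.rpow_natCast, ← Real.rpow_mul (norm_nonneg _)]; norm_num

theorem Far.fgf (hb : Far b) (hG : Far G) {R : ℝ} (hr : ∀ x : E4, R ≤ ‖x‖ → ∀ i j, ricci b x i j = 0) :
    Bd fun x => ‖x‖ ^ (5 : ℝ) * fgfF b G x := by
  simp only [← sq_rpow, fgfF, ← fgf_hom]
  exact cl_bd.fgf hG.sq hG.iv (hb.tg hG) fun i j => (cl_bd.const 0).congr (R := R)
    fun x hx => by simp [hr x hx i j]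

theorem Far.k (h1 : Far g1) (h2 : Far g2) :
    P2 Bd fun x => ‖x‖ ^ (3 / 2 : ℝ) • fun a b => (g2 - g1) x a b := fun a b =>
  (cl_bd.sub (h2.dv a b) (h1.dv a b)).congr (R := 0) fun x _ => by simp; ring

theorem Far.wv (hb : Far b) (h1 : Far g1) (h2 : Far g2) (c : Fin 4) :
    Bd fun x => ‖x‖ ^ (4 : ℝ) * WV b g1 (g2 - g1) c x :=
  (cl_bd.wF h1.sq h1.iv (hb.tg h1) (h1.k h2) c).congr (R := 0) fun x _ => by
    refine Eq.trans ?_ (wF_hom _ _ _ _ _ _ c).symm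
    rw [← Real.rpow_add' (norm_nonneg _) (by norm_num), show (5 / 2 + 3 / 2 : ℝ) = 4 by norm_num]
    rfl

theorem Far.en (h1 : Far g1) (h2 : Far g2) {R : ℝ}
    (d1 : ∀ x : E4, R ≤ ‖x‖ → ∀ a b, DifferentiableAt ℝ (fun z => g1 z a b) x)
    (d2 : ∀ x : E4, R ≤ ‖x‖ → ∀ a b, DifferentiableAt ℝ (fun z => g2 z a b) x) :
    Bd fun x => ‖x‖ ^ (5 : ℝ) * (e1 (g2 - g1) x + e0 (g2 - g1) x / ‖x‖ ^ 2) := by
  have j := fun c a b => cl_bd.sub (h2.jet c a b) (h1.jet c a b)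
  refine (cl_bd.add (cl_bd.sum Finset.univ fun a => cl_bd.sum Finset.univ fun b =>
    cl_bd.sum Finset.univ fun c => cl_bd.mul (j c a b) (j c a b)) (cl_bd.sum Finset.univ fun a =>
      cl_bd.sum Finset.univ fun b => cl_bd.mul (h1.k h2 a b) (h1.k h2 a b))).congr (R := max R 1)
    fun x hx => ?_
  have x0 : 0 < ‖x‖ := one_pos.trans_le (le_of_max_le_right hx)
  have e := jet_sub (d2 x (le_of_max_le_left hx)) (d1 x (le_of_max_le_left hx))
  have e2 : ‖x‖ ^ (5 : ℝ) / ‖x‖ ^ 2 = ‖x‖ ^ (3 / 2 : ℝ) * ‖x‖ ^ (3 / 2 : ℝ) := by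
    rw [← Real.rpow_add x0, ← Real.rpow_natCast, ← Real.rpow_sub x0]; norm_num
  rw [mul_add, ← mul_div_assoc, mul_div_right_comm, e2, ← sq_rpow]
  simp only [e1, e0, Hd.g2, Finset.mul_sum, Pi.smul_apply, smul_eq_mul]
  congr 1
  · refine Finset.sum_congr rfl fun a _ => Finset.sum_congr rfl fun b _ =>
      Finset.sum_congr rfl fun c _ => ?_
    rw [show pderiv c (fun y => (g2 - g1) y a b) x = _ from congrFun (congrFun (congrFun e c) a) b]
    simp only [Pi.sub_apply]; ring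
  · exact Finset.sum_congr rfl fun a _ => Finset.sum_congr rfl fun b _ => by ring

end Crest.Agent.N207.NS.Ty

end
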