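import Crest.Agent.N207.N.Chi
import Crest.Agent.N207.Ga.Met2

/-!
# Row 207, block N (helper39): reading a core on `glob L`
-/

set_option autoImplicit false

open scoped ContDiff Topology
open Metric Set Filter MeasureTheory
open Crest.GeometryTopology.CoordMetric
open Crest.Agent.N207.I Crest.Agent.N207.Lg Crest.Agent.N207.CB

noncomputable section

namespace Crest.Agent.N207.NS.Tl

variable {M : Type*} {T : TD M} {L : T.V → ℝ} {v : T.V} {s : T.S} {x y : E4} {d : ℝ}

/-- the chart `s` is a chart of `core v` -/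
def Rl (T : TD M) (v : T.V) : T.S → Prop :=
  Sum.elim (fun a => T.vx a = v) fun w => w = v ∨ T.kid v w

/-- the change of units -/
abbrev al (L : T.V → ℝ) (v : T.V) (s : T.S) : ℝ := TD.sc (TD.lm L) s v

/-- depth at most `d` -/
def Dp (T : TD M) (v : T.V) (d : ℝ) (s : T.S) (y : E4) : Prop :=
  ∀ w, s = Sum.inr w → tau T v w d y ≤ 0

theorem al_inl (a : T.B) : al L v (Sum.inl a) = 1 := rfl

theorem al_out : al L v (Sum.inr v) = 1 := by simp [TD.sc, TD.lm]

theorem al_inn {w : T.V} (hw : w ≠ v) : al L v (Sum.inr w) = Real.exp (-L w) := by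
  simp [TD.sc, TD.lm, hw]

theorem al_pos : 0 < al L v s := by
  rcases s with a | w
  · exact one_pos
  · by_cases hw : w = v
    · rw [hw, al_out]; exact one_pos
    · rw [al_inn hw]; exact Real.exp_pos _

theorem Rl.cases (h : T.Ok) (r : Rl T v s) : (∃ a, s = Sum.inl a ∧ T.vx a = v) ∨ s = Sum.inr v ∨
    ∃ w, s = Sum.inr w ∧ w ≠ T.root ∧ T.par w = v ∧ w ≠ v := by
  rcases s with a | w
  · exact Or.inl ⟨a, rfl, r⟩
  · rcases r with rfl | r
    · exact Or.inr (Or.inl rfl)
    · exact Or.inr (Or.inr ⟨w, rfl, r.1, r.2, h.kid_ne r⟩)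

theorem rl_of_mem (hy : y ∈ (T.core v).U s) : Rl T v s := by
  rcases s with a | w
  · exact (TD.mem_core_inl.1 hy).1
  · by_cases hw : w = v
    · exact Or.inl hw
    · exact Or.inr ((TD.mem_core_inn hw).1 hy).1

theorem Rl.mem (h : T.Ok) (r : Rl T v s) (hx : x ∈ (T.glob L).U s) :
    al L v s • x ∈ (T.core v).U s := by
  rcases r.cases h with ⟨a, rfl, rfl⟩ | rfl | ⟨w, rfl, h1, rfl, h2⟩
  · rw [al_inl, one_smul]; exact TD.mem_core_inl.2 ⟨rfl, TD.mem_glob_inl.1 hx⟩
  · rw [al_out, one_smul]; exact Ga.glob_out hx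
  · rw [al_inn h2]; exact Ga.glob_inn h h1 hx

theorem Rl.toL (h : T.Ok) (r : Rl T v s) (X : Fam T) (hx : x ∈ (T.glob L).U s) :
    toL T L v X s x = X s (al L v s • x) := by
  rcases r.cases h with ⟨a, rfl, rfl⟩ | rfl | ⟨w, rfl, h1, rfl, h2⟩
  · simp [CB.toL, al_inl]
  · simp [CB.toL, al_out]
  · rw [al_inn h2]
    simp only [CB.toL, Sum.elim_inr, if_neg h2]
    exact if_pos ⟨⟨h1, rfl⟩, TD.nrm_exp_lt.2 (hx.2 h1)⟩

theorem toL_of_not (r : ¬ Rl T v s) (X : Fam T) (x : E4) : toL T L v X s x = 0 := by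
  rcases s with a | w
  · simp only [CB.toL, Sum.elim_inl, if_neg (show ¬ T.vx a = v from r)]; rfl
  · simp only [CB.toL, Sum.elim_inr]
    rw [if_neg fun e => r (Or.inl e), if_neg fun e => r (Or.inr e.1)]

theorem Rl.ep (h : T.Ok) (r : Rl T v s) : ep T L s = T.eps L v * al L v s := by
  rcases r.cases h with ⟨a, rfl, rfl⟩ | rfl | ⟨w, rfl, h1, rfl, h2⟩
  · simp [NS.ep, TD.un, al_inl]
  · simp [NS.ep, TD.un, al_out]
  · rw [al_inn h2]; exact h.eps_kid L h1

theorem Rl.loc (h : T.Ok) (r : Rl T v s) (k : Fam T) (x : E4) :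
    loc T L v k s (al L v s • x) = k s x := by
  rcases r.cases h with ⟨a, rfl, rfl⟩ | rfl | ⟨w, rfl, h1, rfl, h2⟩
  · simp [CB.loc, al_inl]
  · simp [CB.loc, al_out]
  · simp [CB.loc, al_inn h2, h2, smul_smul, ← Real.exp_add]

theorem scl_al (x : E4) : scl T s (al L v s • x) = al L v s * scl T s x := by
  rcases s with a | w
  · simp [scl, al_inl]
  · simp only [scl, Sum.elim_inr, norm_smul, Real.norm_of_nonneg al_pos.le]

theorem inK_iff (h : T.Ok) : InK T L v d s x ↔ Rl T v s ∧ Dp T v d s (al L v s • x) := by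
  rcases s with a | w
  · simp [InK, Rl, Dp]
  · by_cases hw : w = v
    · subst hw
      have : ¬ T.kid w w := fun k => h.kid_ne k rfl
      simp [InK, Rl, Dp, this, al_out, tau]
    · simp [InK, Rl, Dp, hw, al_inn hw, tau]

/-- the necks are long compared with the depth `d` -/
def Big (T : TD M) (L : T.V → ℝ) (d : ℝ) : Prop :=
  T.Long L ∧ ∀ w, w ≠ T.root → 4 * Real.exp d ≤ T.r * Real.exp (L w)

theorem big_of (h : T.Ok) {c : ℝ} (hc : |d| + 16 / T.r ≤ c) (hL : Lng T c L) : Big T L d := by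
  have hr := h.r_pos
  refine ⟨fun w hw => lng_exp h (c := 16) (fun w hw => by linarith [hL w hw, abs_nonneg d]) hw,
    fun w hw => ?_⟩
  have h1 : Real.exp d * Real.exp (16 / T.r) ≤ Real.exp (L w) := by
    rw [← Real.exp_add]; exact Real.exp_le_exp.2 (by linarith [hL w hw, le_abs_self d])
  have h2 : 16 ≤ T.r * Real.exp (16 / T.r) := by
    have := mul_le_mul_of_nonneg_left (Real.add_one_le_exp (16 / T.r)) hr.le
    rw [mul_add, mul_div_cancel₀ _ hr.ne'] at this; linarith
  nlinarith [Real.exp_pos d, mul_le_mul_of_nonneg_left h1 hr.le]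

theorem dp_out (h0 : 0 < ‖y‖) : Dp T v d (Sum.inr v) y ↔ ‖y‖ ≤ Real.exp d := by
  simp [Dp, tau, Real.log_le_iff_le_exp h0]

theorem dp_inn {w : T.V} (hw : w ≠ v) (h0 : 0 < ‖y‖) :
    Dp T v d (Sum.inr w) y ↔ Real.exp (-d) ≤ ‖y‖ := by
  simp only [Dp, tau, Sum.inr.injEq, forall_eq', if_neg hw, ← Real.le_log_iff_exp_le h0]
  constructor <;> intro _ <;> linarith

theorem Big.glob (h : T.Ok) (B : Big T L d) (hy : al L v s • x ∈ (T.core v).U s)
    (hd : Dp T v d s (al L v s • x)) : x ∈ (T.glob L).U s ∧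
      ∀ s', T.χ s' ((T.glob L).c s x) = T.χ s' ((T.core v).c s (al L v s • x)) := by
  rcases (rl_of_mem hy).cases h with ⟨a, rfl, rfl⟩ | rfl | ⟨w, rfl, h1, rfl, h2⟩
  · rw [al_inl, one_smul] at hy ⊢
    exact ⟨TD.mem_glob_inl.2 (TD.mem_core_inl.1 hy).2, fun _ => rfl⟩
  · rw [al_out, one_smul] at hy hd ⊢
    have h1 := TD.mem_core_out.1 hy
    have h2 := (dp_out (by linarith)).1 hd
    exact ⟨⟨h1, fun hw => by linarith [B.2 v hw]⟩, fun _ => by
      rw [TD.glob_eq_out fun hw => by linarith [B.2 v hw]]⟩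
  · rw [al_inn h2] at hy hd ⊢
    obtain ⟨-, h3, h4⟩ := (TD.mem_core_inn h2).1 hy
    have h5 := (dp_inn h2 h3).1 hd
    rw [TD.nrm_exp, le_div_iff₀ (Real.exp_pos _)] at h5
    have h6 : 4 ≤ ‖x‖ := by
      have := mul_le_mul_of_nonneg_left (B.2 w h1) (Real.exp_pos (-d)).le
      rw [mul_left_comm, ← Real.exp_add, neg_add_cancel, Real.exp_zero] at this
      nlinarith [h.r_lt, mul_pos (Real.exp_pos (-d)) (Real.exp_pos (L w))]
    exact ⟨⟨by linarith, fun _ => TD.nrm_exp_lt.1 h4⟩, h.χ_glob_inn B.1 h1 h6⟩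

theorem Rl.gbL (h : T.Ok) (r : Rl T v s) (g : T.V → Fam T) {T0 : ℝ} (hT : d ≤ T0)
    (hl : Lng T (2 * T0 + 1) L) (hx : x ∈ (T.glob L).U s) (hd : Dp T v d s (al L v s • x)) :
    gbL T g T0 L s x = g v s (al L v s • x) := by
  rcases r.cases h with ⟨a, rfl, rfl⟩ | rfl | ⟨w, rfl, h1, rfl, h2⟩
  · simp [CB.gbL, al_inl]
  · have := hd v rfl
    rw [al_out, one_smul] at this ⊢
    simp only [tau, if_true] at this
    exact Ga.gbL_out h (Ga.glob_ne hx) (by linarith) (hl v)
  · have := hd w rfl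
    rw [al_inn h2] at this ⊢
    simp only [tau, if_neg h2, Ga.log_smul _ (Ga.glob_ne hx)] at this
    exact Ga.gbL_inn h h1 (Ga.glob_ne hx) (by linarith) (hl w h1)

theorem int_smul (f : E4 → ℝ) {a : ℝ} (ha : 0 < a) : a ^ 4 * ∫ x, f (a • x) = ∫ y, f y := by
  rw [Measure.integral_comp_smul, finrank_euclideanSpace_fin, smul_eq_mul,
    abs_of_pos (by positivity), ← mul_assoc, mul_inv_cancel₀ (by positivity), one_mul]

/-- change of variables between `glob L` and `core v` -/
theorem Big.int_tr (h : T.Ok) (B : Big T L d) (r : Rl T v s) {F F' : E4 → ℝ}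
    (h1 : ∀ x ∈ (T.glob L).U s, ¬ Dp T v d s (al L v s • x) → F x = 0)
    (h2 : ∀ y ∈ (T.core v).U s, ¬ Dp T v d s y → F' y = 0)
    (h3 : ∀ x ∈ (T.glob L).U s, Dp T v d s (al L v s • x) → F x = F' (al L v s • x)) :
    al L v s ^ 4 * ∫ x in U1 T L s, T.χ s ((T.glob L).c s x) * F x =
      ∫ y in (T.core v).U s, T.χ s ((T.core v).c s y) * F' y := by
  rw [← integral_indicator (U1_open s).measurableSet,
    ← integral_indicator ((h.core_ok v).isOpen s).measurableSet]
  refine Eq.trans ?_ (int_smul _ (al_pos (L := L) (v := v) (s := s)))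
  congr 2
  funext x
  by_cases hx : x ∈ U1 T L s
  · have hx' := U1_U h s hx
    rw [indicator_of_mem hx, indicator_of_mem (r.mem h hx')]
    by_cases hd : Dp T v d s (al L v s • x)
    · rw [h3 x hx' hd, (B.glob h (r.mem h hx') hd).2]
    · rw [h1 x hx' hd, h2 _ (r.mem h hx') hd, mul_zero, mul_zero]
  · rw [indicator_of_notMem hx]
    by_cases hy : al L v s • x ∈ (T.core v).U s
    · rw [indicator_of_mem hy]
      by_cases hd : Dp T v d s (al L v s • x)
      · obtain ⟨a1, a2⟩ := B.glob h hy hd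
        rw [← a2, chi_zero h B.1 s a1 fun k => hx (K1_U1 h s (gK_K1 h s k)), zero_mul]
      · rw [h2 _ hy hd, mul_zero]
    · rw [indicator_of_notMem hy]

theorem base_core (h : T.Ok) {u : T.V} {z : E4} (hz : z ∈ (T.base u).U s) :
    z ∈ (T.core u).U s ∧ (T.core u).c s z = Sum.inl (u, (T.base u).c s z) := by
  have h1 : TD.sc (fun _ _ => (1 : ℝ)) s u = 1 := by cases s <;> rfl
  simpa only [h1, one_smul] using (h.str_core u).conv' (s := s) (x := z) rfl (by rwa [h1, one_smul])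

/-- compatibility of a family of `core u` read on `glob L` -/
theorem pm_base (h : T.Ok) {u : T.V} {X : Fam T} (hX : (T.core u).Compat fun s => matT (X s))
    {a b : T.S} {F : E4 → E4} (t : (T.glob L).Tr a b x F)
    (e : ∀ᶠ z in 𝓝 x, al L u a • z ∈ (T.base u).U a ∧ al L u b • F z ∈ (T.base u).U b ∧
      (T.base u).c b (al L u b • F z) = (T.base u).c a (al L u a • z)) (c : ℝ) :
    Ga.PM (fderiv ℝ F x) ((c * al L u a) ^ 2 • X a (al L u a • x))
      ((c * al L u b) ^ 2 • X b (al L u b • F x)) := by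
  obtain ⟨e1, e2, -⟩ := e.self_of_nhds
  have pa : 0 < al L u a := al_pos
  have pb : 0 < al L u b := al_pos
  set α := al L u a
  set β := al L u b
  have i1 : ∀ z : E4, α⁻¹ • α • z = z := fun z => inv_smul_smul₀ pa.ne' z
  have tz : Tendsto (fun z : E4 => α⁻¹ • z) (𝓝 (α • x)) (𝓝 x) := by
    simpa only [ContinuousAt, i1] using (continuous_const_smul α⁻¹).continuousAt (x := α • x)
  have t' : (T.core u).Tr a b (α • x) fun z => β • F (α⁻¹ • z) :=
    ⟨(base_core h e1).1, by rw [i1]; exact (base_core h e2).1, (tz.eventually t.sm).mono fun z hz =>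
      (hz.comp z (f := fun z : E4 => α⁻¹ • z) (by fun_prop)).const_smul β,
      (tz.eventually e).mono fun z hz => by
        rw [smul_inv_smul₀ pa.ne'] at hz
        rw [(base_core h hz.1).2, (base_core h hz.2.1).2, hz.2.2]⟩
  have hd : fderiv ℝ (fun z => β • F (α⁻¹ • z)) (α • x) = (β / α) • fderiv ℝ F x := by
    have d1 : HasFDerivAt F (fderiv ℝ F x) (α⁻¹ • α • x) := by rw [i1]; exact t.diff.hasFDerivAt
    refine ((d1.comp (α • x) ((hasFDerivAt_id (α • x)).const_smul α⁻¹)).const_smul β).fderiv.trans ?_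
    ext z : 1
    simp [smul_smul, div_eq_mul_inv]
  have h2 := Ga.pm_iff.1 (hX _ _ _ _ t')
  rw [hd, i1] at h2
  have h3 := h2.scale.smul ((c * α) ^ 2)
  convert h3 using 1
  rw [smul_smul]
  congr 1
  field_simp

variable {X : Fam T}

theorem van_of (hV : Van T v d 0 X) (hy : y ∈ (T.core v).U s) (hd : ¬ Dp T v d s y) :
    X s y = 0 := by
  simp only [Dp, not_forall, not_le] at hd
  obtain ⟨w, rfl, hw⟩ := hd
  exact hV w y hy hw.le

theorem toL_supp (h : T.Ok) (hV : Van T v d 0 X) (hx : x ∈ (T.glob L).U s)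
    (hn : ¬ InK T L v d s x) : toL T L v X s x = 0 := by
  by_cases r : Rl T v s
  · rw [r.toL h X hx]
    exact van_of hV (r.mem h hx) fun hd => hn ((inK_iff h).2 ⟨r, hd⟩)
  · exact toL_of_not r X x

theorem Big.base_ne (h : T.Ok) (B : Big T L d) {u : T.V} (hu : u ≠ v)
    (hx : al L u s • x ∈ (T.base u).U s) : ¬ InK T L v d s x := by
  rcases s with a | w
  · exact fun k => hu ((TD.mem_base_inl.1 hx).1.symm.trans k)
  · rintro (⟨rfl, k⟩ | ⟨k, k'⟩)
    · rw [al_inn hu.symm] at hx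
      obtain ⟨⟨h1, -⟩, h2, -⟩ := (TD.mem_base_inn hu.symm).1 hx
      have h3 := TD.lt_nrm_exp.1 h2
      have h4 := mul_pos h.r_pos (Real.exp_pos (L w))
      have := (Real.log_le_iff_le_exp (by linarith)).1 k
      linarith [B.2 w h1]
    · by_cases hw : w = u
      · subst hw
        rw [al_out, one_smul] at hx
        obtain ⟨h1, h2⟩ := TD.mem_base_out.1 hx
        rw [Ga.log_smul _ (norm_pos_iff.1 (by linarith))] at k'
        have h3 : Real.exp (L w) ≤ Real.exp d * ‖x‖ := by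
          rw [← Real.exp_log (show 0 < ‖x‖ by linarith), ← Real.exp_add]
          exact Real.exp_le_exp.2 (by linarith)
        nlinarith [B.2 w k.1, h.r_lt, Real.exp_pos d, Real.exp_pos (L w)]
      · exact hu (((TD.mem_base_inn hw).1 hx).1.2.symm.trans k.2)

theorem pm_zero (D : E4 →L[ℝ] E4) : Ga.PM D 0 0 := fun i j => by simp [R202.Tens.bil_apply]

theorem toL_sm (h : T.Ok) (hX : CB.Sec T v X) (s : T.S) (a b : Fin 4) :
    ContDiffOn ℝ ∞ (fun x => toL T L v X s x a b) ((T.glob L).U s) := by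
  by_cases r : Rl T v s
  · exact ((hX.sec.sm s ![a, b]).comp (f := fun x => al L v s • x) (by fun_prop)
      fun x hx => r.mem h hx).congr fun x hx => by rw [r.toL h X hx]; rfl
  · exact (contDiffOn_const (c := 0)).congr fun x _ => by rw [toL_of_not r]; rfl

theorem Big.toL_sec (h : T.Ok) (B : Big T L d) (hX : CB.Sec T v X) (hV : Van T v d 0 X) :
    (T.glob L).Sec fun s => matT (rt T L (toL T L v X) s) := by
  refine ⟨fun s I => contDiffOn_const.mul (toL_sm h hX s _ _),
    (h.str_glob B.1).compat_of h (fun a b x F u _ t e => ?_) fun w e he x hx => ?_⟩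
  · obtain ⟨e1, e2, -⟩ := e.self_of_nhds
    rw [Ga.pm_iff]
    by_cases hu : u = v
    · subst hu
      have ra := rl_of_mem (base_core h e1).1
      have rb := rl_of_mem (base_core h e2).1
      simp only [rt, ra.ep h, rb.ep h, ra.toL h X t.mem, rb.toL h X t.mem']
      exact pm_base h hX.sec.compat t e _
    · simp only [rt, toL_supp h hV t.mem (B.base_ne h hu e1),
        toL_supp h hV t.mem' (B.base_ne h hu e2), smul_zero]
      exact pm_zero _
  · rw [Ga.pm_iff]
    by_cases r : Rl T v (Sum.inr w)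
    · have t := (h.core_ok v).tr_deck (a := Sum.inr w) he (r.mem h hx)
      have := Ga.pm_iff.1 (hX.sec.compat _ _ _ _ t)
      simp only [rt, r.toL h X hx, r.toL h X ((h.glob_ok B.1).inv (Sum.inr w) e he x hx)]
      rw [LinearIsometryEquiv.fderiv] at this ⊢
      rw [← e.map_smul]
      exact this.smul _
    · simp only [rt, toL_of_not r, smul_zero]
      exact pm_zero _

end Crest.Agent.N207.NS.Tl

end
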